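import Crest.Agent.R307.Split

-- ▼ part R307/Jensen
section

/-!
Row 307: joint convexity of `kk` and the cube Jensen inequality (task 304, helper780).
-/

set_option autoImplicit false

open Crest.CubeNoise

namespace Crest.Agent.R307

theorem artanh_eq_log_sub {x : ℝ} (hx : |x| < 1) :
    Real.artanh x = (Real.log (1 + x) - Real.log (1 - x)) / 2 := by
  obtain ⟨h1, h2⟩ := abs_lt.mp hx
  rw [Real.artanh_eq_half_log ⟨h1.le, h2.le⟩, Real.log_div (by linarith) (by linarith)]
  ring






/-- a supporting-plane version on the cube: any function lying above its tangent planes satisfies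
Jensen's inequality on the cube. -/
theorem cube_jensen_of_support {n : ℕ} (K : ℝ → ℝ → ℝ)
    (hK : ∀ A B : ℝ, |A| < 1 → |B| < 1 → ∃ P Q : ℝ, ∀ a b : ℝ, |a| < 1 → |b| < 1 →
      K A B + P * (a - A) + Q * (b - B) ≤ K a b)
    {g0 g1 : (Fin n → Bool) → ℝ} (h0 : ∀ x, |g0 x| < 1) (h1 : ∀ x, |g1 x| < 1) :
    K (cubeAverage g0) (cubeAverage g1) ≤ cubeAverage (fun x => K (g0 x) (g1 x)) := by
  obtain ⟨P, Q, h⟩ := hK _ _ (abs_cubeAverage_lt_one h0) (abs_cubeAverage_lt_one h1)
  refine le_trans (le_of_eq ?_) (cubeAverage_mono fun x => h _ _ (h0 x) (h1 x))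
  have e : (fun x => K (cubeAverage g0) (cubeAverage g1) + P * (g0 x - cubeAverage g0) +
      Q * (g1 x - cubeAverage g1)) = fun x => ((K (cubeAverage g0) (cubeAverage g1)
        - P * cubeAverage g0 - Q * cubeAverage g1) + P * g0 x) + Q * g1 x := by
    funext x; ring
  rw [e, cubeAverage_add (fun x => (K (cubeAverage g0) (cubeAverage g1)
        - P * cubeAverage g0 - Q * cubeAverage g1) + P * g0 x) (fun x => Q * g1 x),
    cubeAverage_add (fun _ => (K (cubeAverage g0) (cubeAverage g1)
        - P * cubeAverage g0 - Q * cubeAverage g1)) (fun x => P * g0 x),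
    cubeAverage_const_mul, cubeAverage_const_mul, cubeAverage_const]
  ring

end Crest.Agent.R307
end

-- ▼ part R307/Calc

/-!
Row 307: calculus of `signEntropy`, `artanh`, `psi`, `kappa`, `CC` (task 303, helper780).
-/

set_option autoImplicit false

open Crest.CubeNoise Set

namespace Crest.Agent.R307

/-! ### formulas and derivatives -/

theorem signEntropy_eq_logs {x : ℝ} (hx : |x| ≤ 1) :
    signEntropy x = Real.log 2 - ((1 + x) * Real.log (1 + x) + (1 - x) * Real.log (1 - x)) / 2 := by
  obtain ⟨h1, h2⟩ := abs_le.mp hx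
  unfold signEntropy Real.binEntropy
  rw [Real.log_inv, Real.log_inv]
  have e : 1 - (1 + x) / 2 = (1 - x) / 2 := by ring
  rw [e]
  rcases eq_or_lt_of_le h1 with h1' | h1'
  · rw [← h1']; norm_num
  rcases eq_or_lt_of_le h2 with h2' | h2'
  · rw [h2']; norm_num
  rw [Real.log_div (by linarith) two_ne_zero, Real.log_div (by linarith) two_ne_zero]
  ring

theorem signEntropy_neg (x : ℝ) : signEntropy (-x) = signEntropy x := by
  unfold signEntropy
  rw [← Real.binEntropy_one_sub]
  congr 1
  ring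

theorem signEntropy_abs (x : ℝ) : signEntropy |x| = signEntropy x := by
  rcases abs_choice x with h | h <;> rw [h]
  exact signEntropy_neg x

theorem signEntropy_zero : signEntropy 0 = Real.log 2 := by
  unfold signEntropy
  rw [add_zero, one_div, Real.binEntropy_two_inv]

theorem signEntropy_one : signEntropy 1 = 0 := by
  unfold signEntropy; norm_num

theorem signEntropy_le (x : ℝ) : signEntropy x ≤ Real.log 2 := Real.binEntropy_le_log_two


theorem signEntropy_pos {x : ℝ} (hx : |x| < 1) : 0 < signEntropy x := by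
  obtain ⟨h1, h2⟩ := abs_lt.mp hx
  exact Real.binEntropy_pos (by linarith) (by linarith)

theorem continuous_signEntropy : Continuous signEntropy := by
  unfold signEntropy
  fun_prop

theorem hasDerivAt_artanh {x : ℝ} (hx : |x| < 1) :
    HasDerivAt Real.artanh (1 / (1 - x ^ 2)) x := by
  obtain ⟨h1, h2⟩ := abs_lt.mp hx
  have hev : Real.artanh =ᶠ[nhds x] fun y => (Real.log (1 + y) - Real.log (1 - y)) / 2 := by
    have : Ioo (-1 : ℝ) 1 ∈ nhds x := Ioo_mem_nhds h1 h2
    filter_upwards [this] with y hy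
    exact artanh_eq_log_sub (abs_lt.mpr hy)
  refine HasDerivAt.congr_of_eventuallyEq ?_ hev
  have d1 : HasDerivAt (fun y : ℝ => Real.log (1 + y)) (1 / (1 + x)) x := by
    have := ((hasDerivAt_id x).const_add 1).log (by simpa using (by linarith : (1 : ℝ) + x ≠ 0))
    simpa using this
  have d2 : HasDerivAt (fun y : ℝ => Real.log (1 - y)) (-1 / (1 - x)) x := by
    have := ((hasDerivAt_id x).const_sub 1).log (by simpa using (by linarith : (1 : ℝ) - x ≠ 0))
    simpa using this
  refine ((d1.sub d2).div_const 2).congr_deriv ?_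
  have e1 : 1 + x ≠ 0 := by linarith
  have e2 : 1 - x ≠ 0 := by linarith
  have e3 : 1 - x ^ 2 ≠ 0 := by
    have : 1 - x ^ 2 = (1 + x) * (1 - x) := by ring
    rw [this]; exact mul_ne_zero e1 e2
  field_simp
  ring

theorem hasDerivAt_signEntropy {x : ℝ} (hx : |x| < 1) :
    HasDerivAt signEntropy (-(Real.artanh x)) x := by
  obtain ⟨h1, h2⟩ := abs_lt.mp hx
  have h := Real.hasDerivAt_binEntropy (p := (1 + x) / 2) (by linarith) (by linarith)
  have hd : HasDerivAt (fun y : ℝ => (1 + y) / 2) (1 / 2) x :=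
    ((hasDerivAt_id x).const_add 1).div_const 2
  have h3 := h.comp x hd
  have e : (Real.log (1 - (1 + x) / 2) - Real.log ((1 + x) / 2)) * (1 / 2) =
      -(Real.artanh x) := by
    rw [artanh_eq_log_sub hx]
    have e1 : 1 - (1 + x) / 2 = (1 - x) / 2 := by ring
    rw [e1, Real.log_div (by linarith) two_ne_zero, Real.log_div (by linarith) two_ne_zero]
    ring
  rw [e] at h3
  exact h3

theorem hasDerivAt_psi {x : ℝ} (hx : |x| < 1) : HasDerivAt psi (Real.artanh x) x := by
  have h := (hasDerivAt_signEntropy hx).const_sub (Real.log 2)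
  rw [neg_neg] at h
  exact h


theorem artanh_neg' {x : ℝ} (hx : |x| < 1) : Real.artanh (-x) = -Real.artanh x := by
  rw [artanh_eq_log_sub hx, artanh_eq_log_sub (by rwa [abs_neg])]
  rw [sub_neg_eq_add, ← sub_eq_add_neg]
  ring

theorem abs_lt_one_of_mem {t : ℝ} (h0 : 0 ≤ t) (h1 : t < 1) : |t| < 1 := by
  rwa [abs_of_nonneg h0]

theorem continuousOn_artanh : ContinuousOn Real.artanh (Ioo (-1) 1) := fun x hx =>
  (hasDerivAt_artanh (abs_lt.mpr hx)).continuousAt.continuousWithinAt

/-! ### elementary inequalities for artanh -/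

/-- `t ≤ artanh t` -/
theorem le_artanh {t : ℝ} (h0 : 0 ≤ t) (h1 : t < 1) : t ≤ Real.artanh t := by
  have hmono : MonotoneOn (fun x => Real.artanh x - x) (Ico 0 1) := by
    refine monotoneOn_of_deriv_nonneg (convex_Ico 0 1) ?_ ?_ ?_
    · exact (continuousOn_artanh.mono fun x hx => ⟨by linarith [hx.1], hx.2⟩).sub continuousOn_id
    · rw [interior_Ico]
      intro x hx
      exact ((hasDerivAt_artanh (abs_lt_one_of_mem hx.1.le hx.2)).sub
        (hasDerivAt_id x)).differentiableAt.differentiableWithinAt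
    · rw [interior_Ico]
      intro x hx
      rw [show deriv (fun x => Real.artanh x - x) x = 1 / (1 - x ^ 2) - 1 from
        ((hasDerivAt_artanh (abs_lt_one_of_mem hx.1.le hx.2)).sub (hasDerivAt_id x)).deriv]
      have h3 : 0 < 1 - x ^ 2 := by nlinarith [hx.1, hx.2]
      rw [sub_nonneg, le_div_iff₀ h3]
      nlinarith [sq_nonneg x]
  have := hmono (left_mem_Ico.mpr one_pos) ⟨h0, h1⟩ h0
  simp at this
  linarith

/-- strict version -/
theorem lt_artanh {t : ℝ} (h0 : 0 < t) (h1 : t < 1) : t < Real.artanh t := by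
  have hmono : StrictMonoOn (fun x => Real.artanh x - x) (Ico 0 1) := by
    refine strictMonoOn_of_deriv_pos (convex_Ico 0 1) ?_ ?_
    · exact (continuousOn_artanh.mono fun x hx => ⟨by linarith [hx.1], hx.2⟩).sub continuousOn_id
    · rw [interior_Ico]
      intro x hx
      rw [show deriv (fun x => Real.artanh x - x) x = 1 / (1 - x ^ 2) - 1 from
        ((hasDerivAt_artanh (abs_lt_one_of_mem hx.1.le hx.2)).sub (hasDerivAt_id x)).deriv]
      have h3 : 0 < 1 - x ^ 2 := by nlinarith [hx.1, hx.2]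
      rw [sub_pos, lt_div_iff₀ h3]
      nlinarith [pow_pos hx.1 2]
  have := hmono (left_mem_Ico.mpr one_pos) ⟨h0.le, h1⟩ h0
  simp at this
  linarith

theorem artanh_pos' {t : ℝ} (h0 : 0 < t) (h1 : t < 1) : 0 < Real.artanh t :=
  Real.artanh_pos ⟨h0, h1⟩

theorem one_sub_sq_pos {t : ℝ} (h0 : 0 ≤ t) (h1 : t < 1) : 0 < 1 - t ^ 2 := by nlinarith

/-- `artanh t ≤ t / (1 - t^2)` -/
theorem artanh_le {t : ℝ} (h0 : 0 ≤ t) (h1 : t < 1) : Real.artanh t ≤ t / (1 - t ^ 2) := by
  have hd : ∀ x : ℝ, 0 ≤ x → x < 1 → HasDerivAt (fun x => x / (1 - x ^ 2) - Real.artanh x)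
      (2 * x ^ 2 / (1 - x ^ 2) ^ 2) x := by
    intro x hx0 hx1
    have h3 := one_sub_sq_pos hx0 hx1
    have e1 : HasDerivAt (fun x : ℝ => 1 - x ^ 2) (-(2 * x)) x := by
      have := (hasDerivAt_pow 2 x).const_sub 1
      simpa using this
    refine (((hasDerivAt_id x).div e1 h3.ne').sub
      (hasDerivAt_artanh (abs_lt_one_of_mem hx0 hx1))).congr_deriv ?_
    simp only [id]
    field_simp
    ring
  have hmono : MonotoneOn (fun x => x / (1 - x ^ 2) - Real.artanh x) (Ico 0 1) := by
    refine monotoneOn_of_deriv_nonneg (convex_Ico 0 1) ?_ ?_ ?_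
    · intro x hx
      exact (hd x hx.1 hx.2).continuousAt.continuousWithinAt
    · rw [interior_Ico]
      intro x hx
      exact (hd x hx.1.le hx.2).differentiableAt.differentiableWithinAt
    · rw [interior_Ico]
      intro x hx
      rw [(hd x hx.1.le hx.2).deriv]
      positivity
  have := hmono (left_mem_Ico.mpr one_pos) ⟨h0, h1⟩ h0
  simp at this
  linarith

/-! ### psi -/

theorem psi_zero : psi 0 = 0 := by
  unfold psi; rw [signEntropy_zero]; ring

theorem psi_one : psi 1 = Real.log 2 := by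
  unfold psi; rw [signEntropy_one]; ring

theorem psi_nonneg (t : ℝ) : 0 ≤ psi t := by
  unfold psi
  linarith [signEntropy_le t]

theorem psi_neg (t : ℝ) : psi (-t) = psi t := by
  unfold psi; rw [signEntropy_neg]

theorem continuous_psi : Continuous psi := by
  unfold psi
  exact continuous_const.sub continuous_signEntropy

theorem strictMonoOn_psi : StrictMonoOn psi (Icc 0 1) := by
  refine strictMonoOn_of_deriv_pos (convex_Icc 0 1) continuous_psi.continuousOn ?_
  rw [interior_Icc]
  intro x hx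
  rw [(hasDerivAt_psi (abs_lt_one_of_mem hx.1.le hx.2)).deriv]
  exact artanh_pos' hx.1 hx.2

theorem strictAntiOn_signEntropy : StrictAntiOn signEntropy (Icc 0 1) := by
  intro x hx y hy hxy
  have := strictMonoOn_psi hx hy hxy
  unfold psi at this
  linarith

theorem psi_lt_log_two {t : ℝ} (ht : |t| < 1) : psi t < Real.log 2 := by
  unfold psi
  linarith [signEntropy_pos ht]

/-- `psi` maps `[0,1)` onto `[0, log 2)` -/
theorem exists_psi_eq {y : ℝ} (h0 : 0 ≤ y) (h1 : y < Real.log 2) :
    ∃ t : ℝ, 0 ≤ t ∧ t < 1 ∧ psi t = y := by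
  have h := intermediate_value_Icc (zero_le_one' ℝ) (continuous_psi.continuousOn (s := Icc 0 1))
  rw [psi_zero, psi_one] at h
  obtain ⟨t, ht, hty⟩ := h ⟨h0, h1.le⟩
  refine ⟨t, ht.1, lt_of_le_of_ne ht.2 ?_, hty⟩
  rintro rfl
  rw [psi_one] at hty
  linarith

/-- `signEntropy` maps `[0,1)` onto `(0, log 2]` -/
theorem exists_signEntropy_eq {y : ℝ} (h0 : 0 < y) (h1 : y ≤ Real.log 2) :
    ∃ t : ℝ, 0 ≤ t ∧ t < 1 ∧ signEntropy t = y := by
  obtain ⟨t, ht0, ht1, ht⟩ := exists_psi_eq (y := Real.log 2 - y) (by linarith) (by linarith)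
  refine ⟨t, ht0, ht1, ?_⟩
  unfold psi at ht
  linarith

/-- `2 psi t ≤ t artanh t` -/
theorem two_psi_le {t : ℝ} (h0 : 0 ≤ t) (h1 : t < 1) : 2 * psi t ≤ t * Real.artanh t := by
  have hd : ∀ x : ℝ, 0 ≤ x → x < 1 → HasDerivAt (fun x => x * Real.artanh x - 2 * psi x)
      (x / (1 - x ^ 2) - Real.artanh x) x := by
    intro x hx0 hx1
    have hx := abs_lt_one_of_mem hx0 hx1
    refine (((hasDerivAt_id x).mul (hasDerivAt_artanh hx)).sub
      ((hasDerivAt_psi hx).const_mul 2)).congr_deriv ?_
    simp only [id]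
    ring
  have hmono : MonotoneOn (fun x => x * Real.artanh x - 2 * psi x) (Ico 0 1) := by
    refine monotoneOn_of_deriv_nonneg (convex_Ico 0 1) ?_ ?_ ?_
    · intro x hx
      exact (hd x hx.1 hx.2).continuousAt.continuousWithinAt
    · rw [interior_Ico]
      intro x hx
      exact (hd x hx.1.le hx.2).differentiableAt.differentiableWithinAt
    · rw [interior_Ico]
      intro x hx
      rw [(hd x hx.1.le hx.2).deriv]
      linarith [artanh_le hx.1.le hx.2]
  have := hmono (left_mem_Ico.mpr one_pos) ⟨h0, h1⟩ h0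
  simp [psi_zero] at this
  linarith

/-- `psi t ≤ t^2 log 2` on `[-1,1]` -/
theorem psi_le_sq {t : ℝ} (ht : |t| ≤ 1) : psi t ≤ t ^ 2 * Real.log 2 := by
  -- reduce to `0 < t`
  have key : ∀ s : ℝ, 0 < s → s ≤ 1 → psi s ≤ s ^ 2 * Real.log 2 := by
    intro s hs0 hs1
    have hd : ∀ x : ℝ, 0 < x → x < 1 → HasDerivAt (fun x => psi x / x ^ 2)
        ((x * Real.artanh x - 2 * psi x) / x ^ 3) x := by
      intro x hx0 hx1
      have hx := abs_lt_one_of_mem hx0.le hx1
      refine ((hasDerivAt_psi hx).div (hasDerivAt_pow 2 x) (by positivity)).congr_deriv ?_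
      push_cast
      field_simp
    have hmono : MonotoneOn (fun x => psi x / x ^ 2) (Icc s 1) := by
      refine monotoneOn_of_deriv_nonneg (convex_Icc s 1) ?_ ?_ ?_
      · refine ContinuousOn.div continuous_psi.continuousOn (continuousOn_pow 2) ?_
        intro x hx
        have : 0 < x := lt_of_lt_of_le hs0 hx.1
        positivity
      · rw [interior_Icc]
        intro x hx
        exact (hd x (hs0.trans hx.1) hx.2).differentiableAt.differentiableWithinAt
      · rw [interior_Icc]
        intro x hx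
        have hx0 := hs0.trans hx.1
        rw [(hd x hx0 hx.2).deriv]
        have := two_psi_le hx0.le hx.2
        have h3 : 0 < x ^ 3 := by positivity
        exact div_nonneg (by linarith) h3.le
    have h := hmono (left_mem_Icc.mpr hs1) (right_mem_Icc.mpr hs1) hs1
    simp only [psi_one, one_pow, div_one] at h
    rw [div_le_iff₀ (by positivity)] at h
    linarith
  rcases lt_trichotomy t 0 with h | h | h
  · have := key (-t) (by linarith) (by rw [abs_of_neg h] at ht; exact ht)
    rw [psi_neg] at this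
    simpa using this
  · rw [h, psi_zero]; simp
  · exact key t h (by rw [abs_of_pos h] at ht; exact ht)

/-- `(1 - x^2) log 2 ≤ signEntropy x` -/
theorem le_signEntropy {x : ℝ} (hx : |x| ≤ 1) : (1 - x ^ 2) * Real.log 2 ≤ signEntropy x := by
  have := psi_le_sq hx
  unfold psi at this
  linarith

/-! ### kappa -/

theorem kappa_zero : kappa 0 = 2 := by simp [kappa]

theorem kappa_of_pos {t : ℝ} (h0 : 0 < t) :
    kappa t = 1 + t / ((1 - t ^ 2) * Real.artanh t) := by
  unfold kappa; rw [if_neg h0.ne']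

/-- `kappa t * artanh t = artanh t + t / (1 - t^2)` for `0 ≤ t < 1` -/
theorem kappa_mul_artanh {t : ℝ} (h0 : 0 ≤ t) (h1 : t < 1) :
    kappa t * Real.artanh t = Real.artanh t + t / (1 - t ^ 2) := by
  rcases eq_or_lt_of_le h0 with h | h
  · rw [← h]; simp
  · rw [kappa_of_pos h]
    have h2 := artanh_pos' h h1
    have h3 := one_sub_sq_pos h0 h1
    field_simp

/-- derivative of `kappa` on `(0,1)` -/
noncomputable def kappa' (t : ℝ) : ℝ :=
  ((1 + t ^ 2) * Real.artanh t - t) / ((1 - t ^ 2) ^ 2 * Real.artanh t ^ 2)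

theorem hasDerivAt_kappa {t : ℝ} (h0 : 0 < t) (h1 : t < 1) : HasDerivAt kappa (kappa' t) t := by
  have hev : kappa =ᶠ[nhds t] fun y => 1 + y / ((1 - y ^ 2) * Real.artanh y) := by
    filter_upwards [lt_mem_nhds h0] with y hy
    exact kappa_of_pos hy
  refine HasDerivAt.congr_of_eventuallyEq ?_ hev
  have h2 := artanh_pos' h0 h1
  have h3 := one_sub_sq_pos h0.le h1
  have e1 : HasDerivAt (fun x : ℝ => 1 - x ^ 2) (-(2 * t)) t := by
    have := (hasDerivAt_pow 2 t).const_sub 1
    simpa using this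
  refine ((((hasDerivAt_id t).div (e1.mul (hasDerivAt_artanh (abs_lt_one_of_mem h0.le h1)))
    (mul_pos h3 h2).ne')).const_add 1).congr_deriv ?_
  unfold kappa'
  simp only [id, Pi.mul_apply]
  field_simp
  ring

theorem kappa'_pos {t : ℝ} (h0 : 0 < t) (h1 : t < 1) : 0 < kappa' t := by
  unfold kappa'
  have h2 := artanh_pos' h0 h1
  have h3 := one_sub_sq_pos h0.le h1
  have h4 := lt_artanh h0 h1
  have h5 : 0 < (1 + t ^ 2) * Real.artanh t - t := by nlinarith [mul_pos (pow_pos h0 2) h2]
  positivity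

theorem two_le_kappa {t : ℝ} (h0 : 0 ≤ t) (h1 : t < 1) : 2 ≤ kappa t := by
  rcases eq_or_lt_of_le h0 with h | h
  · rw [← h, kappa_zero]
  · rw [kappa_of_pos h]
    have h2 := artanh_pos' h h1
    have h3 := one_sub_sq_pos h0 h1
    have h4 := artanh_le h0 h1
    rw [le_div_iff₀ h3] at h4
    have : 1 ≤ t / ((1 - t ^ 2) * Real.artanh t) := by
      rw [le_div_iff₀ (mul_pos h3 h2)]
      linarith
    linarith


theorem continuousOn_kappa : ContinuousOn kappa (Ico 0 1) := by
  intro t ht
  rcases eq_or_lt_of_le ht.1 with h | h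
  · rw [← h]
    -- squeeze: `2 ≤ kappa t ≤ 1 + 1/(1-t^2)`
    have hup : ∀ s ∈ Ico (0 : ℝ) 1, kappa s ≤ 1 + 1 / (1 - s ^ 2) := by
      intro s hs
      rcases eq_or_lt_of_le hs.1 with h' | h'
      · rw [← h', kappa_zero]; norm_num
      · rw [kappa_of_pos h']
        have h2 := artanh_pos' h' hs.2
        have h3 := one_sub_sq_pos hs.1 hs.2
        have h4 := le_artanh hs.1 hs.2
        have : s / ((1 - s ^ 2) * Real.artanh s) ≤ 1 / (1 - s ^ 2) := by
          rw [div_le_div_iff₀ (mul_pos h3 h2) h3]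
          nlinarith
        linarith
    have hlim : Filter.Tendsto (fun s : ℝ => 1 + 1 / (1 - s ^ 2)) (nhdsWithin 0 (Ico 0 1))
        (nhds 2) := by
      have hc : ContinuousAt (fun s : ℝ => 1 + 1 / (1 - s ^ 2)) 0 := by
        refine continuousAt_const.add (continuousAt_const.div ?_ (by norm_num))
        fun_prop
      have h5 := hc.tendsto.mono_left (nhdsWithin_le_nhds (s := Ico (0 : ℝ) 1))
      have e5 : (1 : ℝ) + 1 / (1 - 0 ^ 2) = 2 := by norm_num
      rw [e5] at h5
      exact h5
    rw [ContinuousWithinAt, kappa_zero]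
    refine tendsto_of_tendsto_of_tendsto_of_le_of_le' tendsto_const_nhds hlim ?_ ?_
    · filter_upwards [self_mem_nhdsWithin] with s hs
      exact two_le_kappa hs.1 hs.2
    · filter_upwards [self_mem_nhdsWithin] with s hs
      exact hup s hs
  · exact (hasDerivAt_kappa h ht.2).continuousAt.continuousWithinAt

theorem strictMonoOn_kappa : StrictMonoOn kappa (Ico 0 1) := by
  refine strictMonoOn_of_deriv_pos (convex_Ico 0 1) continuousOn_kappa ?_
  rw [interior_Ico]
  intro x hx
  rw [(hasDerivAt_kappa hx.1 hx.2).deriv]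
  exact kappa'_pos hx.1 hx.2

/-- `CC' = kappa' * signEntropy` on `(0,1)` -/
theorem hasDerivAt_CC {t : ℝ} (h0 : 0 < t) (h1 : t < 1) :
    HasDerivAt CC (kappa' t * signEntropy t) t := by
  have ht := abs_lt_one_of_mem h0.le h1
  have hk := kappa_mul_artanh h0.le h1
  refine (((hasDerivAt_id t).mul (hasDerivAt_artanh ht)).add
    ((hasDerivAt_kappa h0 h1).mul (hasDerivAt_signEntropy ht))).congr_deriv ?_
  simp only [id]
  have e : kappa t * -Real.artanh t = -(Real.artanh t + t / (1 - t ^ 2)) := by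
    rw [← hk]; ring
  rw [e]
  ring

theorem CC_zero : CC 0 = 2 * Real.log 2 := by
  unfold CC
  rw [kappa_zero, signEntropy_zero]
  simp

/-- **convexity of `F`**, in the parameter: the tangent line of `F` at `psi t` stays below `F`. -/
theorem F_tangent_le {t t' : ℝ} (h0 : 0 ≤ t) (h1 : t < 1) (h0' : 0 ≤ t') (h1' : t' < 1) :
    t * Real.artanh t + kappa t * (psi t' - psi t) ≤ t' * Real.artanh t' := by
  set f : ℝ → ℝ := fun x => x * Real.artanh x - kappa t * psi x with hf
  have hd : ∀ x : ℝ, 0 ≤ x → x < 1 → HasDerivAt f ((kappa x - kappa t) * Real.artanh x) x := by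
    intro x hx0 hx1
    have hx := abs_lt_one_of_mem hx0 hx1
    refine (((hasDerivAt_id x).mul (hasDerivAt_artanh hx)).sub
      ((hasDerivAt_psi hx).const_mul (kappa t))).congr_deriv ?_
    simp only [id]
    rw [sub_mul, kappa_mul_artanh hx0 hx1]
    ring
  have hcont : ContinuousOn f (Ico 0 1) := fun x hx =>
    (hd x hx.1 hx.2).continuousAt.continuousWithinAt
  have hmain : f t ≤ f t' := by
    rcases le_total t t' with htt | htt
    · have hmono : MonotoneOn f (Ico t 1) := by
        refine monotoneOn_of_deriv_nonneg (convex_Ico t 1)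
          (hcont.mono (Ico_subset_Ico_left h0)) ?_ ?_
        · rw [interior_Ico]
          intro x hx
          exact (hd x (h0.trans hx.1.le) hx.2).differentiableAt.differentiableWithinAt
        · rw [interior_Ico]
          intro x hx
          have hx0 : 0 ≤ x := h0.trans hx.1.le
          rw [(hd x hx0 hx.2).deriv]
          have hk : kappa t ≤ kappa x :=
            strictMonoOn_kappa.monotoneOn ⟨h0, h1⟩ ⟨hx0, hx.2⟩ hx.1.le
          exact mul_nonneg (by linarith) (Real.artanh_nonneg hx0)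
      exact hmono ⟨le_rfl, h1⟩ ⟨htt, h1'⟩ htt
    · have hanti : AntitoneOn f (Icc 0 t) := by
        refine antitoneOn_of_deriv_nonpos (convex_Icc 0 t)
          (hcont.mono (fun x hx => ⟨hx.1, lt_of_le_of_lt hx.2 h1⟩)) ?_ ?_
        · rw [interior_Icc]
          intro x hx
          exact (hd x hx.1.le (hx.2.trans h1)).differentiableAt.differentiableWithinAt
        · rw [interior_Icc]
          intro x hx
          rw [(hd x hx.1.le (hx.2.trans h1)).deriv]
          have hk : kappa x ≤ kappa t :=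
            strictMonoOn_kappa.monotoneOn ⟨hx.1.le, hx.2.trans h1⟩ ⟨h0, h1⟩ hx.2.le
          exact mul_nonpos_of_nonpos_of_nonneg (by linarith) (Real.artanh_nonneg hx.1.le)
      exact hanti ⟨h0', htt⟩ ⟨h0, le_rfl⟩ htt
  rw [hf] at hmain
  simp only at hmain
  linarith







theorem GG_self {m A s : ℝ} (hA : A = (1 - m ^ 2) * signEntropy s) :
    GG s m A = 2 * signEntropy m + (1 - m ^ 2) * (s * Real.artanh s - 2 * Real.log 2) := by
  unfold GG CC
  rw [hA]
  ring

/-- `signEntropy` is concave on `[-1,1]` (Mathlib's concavity of `binEntropy`). -/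
theorem concaveOn_signEntropy : ConcaveOn ℝ (Icc (-1) 1) signEntropy := by
  refine ⟨convex_Icc _ _, fun x hx y hy a b ha hb hab => ?_⟩
  have h := Real.strictConcave_binEntropy.concaveOn.2
    (x := (1 + x) / 2) ⟨by linarith [hx.1], by linarith [hx.2]⟩
    (y := (1 + y) / 2) ⟨by linarith [hy.1], by linarith [hy.2]⟩ ha hb hab
  unfold signEntropy
  refine h.trans (le_of_eq ?_)
  congr 1
  simp only [smul_eq_mul]
  have : b = 1 - a := by linarith
  rw [this]
  ring

/-- tangent lines of `signEntropy`: `h x ≤ h y - artanh y (x - y)`. -/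
theorem signEntropy_le_tangent {x y : ℝ} (hx : |x| ≤ 1) (hy : |y| < 1) :
    signEntropy x ≤ signEntropy y - Real.artanh y * (x - y) := by
  obtain ⟨hy1, hy2⟩ := abs_lt.mp hy
  obtain ⟨hx1, hx2⟩ := abs_le.mp hx
  rcases lt_trichotomy x y with h | h | h
  · have := concaveOn_signEntropy.le_slope_of_hasDerivAt (x := x) (y := y) ⟨hx1, hx2⟩
      ⟨hy1.le, hy2.le⟩ h (hasDerivAt_signEntropy hy)
    rw [slope_def_field, le_div_iff₀ (by linarith)] at this
    linarith
  · rw [h]; simp
  · have := concaveOn_signEntropy.slope_le_of_hasDerivAt (x := y) (y := x) ⟨hy1.le, hy2.le⟩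
      ⟨hx1, hx2⟩ h (hasDerivAt_signEntropy hy)
    rw [slope_def_field, div_le_iff₀ (by linarith)] at this
    linarith

end Crest.Agent.R307
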