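import Crest.Agent.R307.Split
import Crest.Agent.R307.Ode
import Crest.Agent.R307.Flow

-- ▼ part R307/TwoSet
section

/-!
Row 307, S0471: reduction to a scalar recursion (blueprint of helper243, note 3085), by helper60.

Notation: `A ⊂ cube`, `P = T_ρ 1_A`, `μ = E P`, `α = E √P`, `β = E √(1-P)`.

* `bool_induction`: abstract induction on the dimension for Boolean functions, for a state
  `(μ, E F1(P), E F2(P))`, with the monotone coupling `P ≥ Q` of the two slices (compression).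
* `s0471_of_region`: S0471 from `(α+β)^2 ≥ 2√(μ(1-μ)) + √(1-ρ²)`.
* `s0471_of_scalar`: S0471 from a scalar recursion with multipliers coming from pointwise
  certificates.
-/

set_option autoImplicit false

open Crest.CubeNoise Set

namespace Crest.Agent.R307.TwoSet

open Crest.Agent.R307 Crest.Agent.R307.Ode

/-- indicator of `true` -/
def ind (b : Bool) : ℝ := if b then 1 else 0

lemma ind_nonneg (b : Bool) : 0 ≤ ind b := by cases b <;> simp [ind]

lemma ind_le_one (b : Bool) : ind b ≤ 1 := by cases b <;> simp [ind]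

lemma spin_eq_ind (b : Bool) : spin b = 2 * ind b - 1 := by cases b <;> simp [ind, spin]; norm_num

/-- `T_ρ 1_A` for `A = {f = true}` -/
noncomputable def TT {n : ℕ} (ρ : ℝ) (f : (Fin n → Bool) → Bool) (x : Fin n → Bool) : ℝ :=
  noise ρ (fun y => ind (f y)) x

lemma TT_eq {n : ℕ} (ρ : ℝ) (f : (Fin n → Bool) → Bool) (x : Fin n → Bool) :
    TT ρ f x = ∑ y, wt ρ x y * ind (f y) := rfl

lemma TT_nonneg {n : ℕ} {ρ : ℝ} (h : |ρ| ≤ 1) (f : (Fin n → Bool) → Bool) (x : Fin n → Bool) :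
    0 ≤ TT ρ f x := by
  rw [TT_eq]
  exact Finset.sum_nonneg fun y _ => mul_nonneg (wt_nonneg h x y) (ind_nonneg _)

lemma TT_mono {n : ℕ} {ρ : ℝ} (h : |ρ| ≤ 1) {f g : (Fin n → Bool) → Bool}
    (hfg : ∀ y, ind (f y) ≤ ind (g y)) (x : Fin n → Bool) : TT ρ f x ≤ TT ρ g x := by
  rw [TT_eq, TT_eq]
  exact Finset.sum_le_sum fun y _ => mul_le_mul_of_nonneg_left (hfg y) (wt_nonneg h x y)

lemma TT_le_one {n : ℕ} {ρ : ℝ} (h : |ρ| ≤ 1) (f : (Fin n → Bool) → Bool) (x : Fin n → Bool) :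
    TT ρ f x ≤ 1 := by
  rw [TT_eq, ← sum_wt ρ x]
  exact Finset.sum_le_sum fun y _ => mul_le_of_le_one_right (wt_nonneg h x y) (ind_le_one _)

lemma TT_not {n : ℕ} (ρ : ℝ) (f : (Fin n → Bool) → Bool) (x : Fin n → Bool) :
    TT ρ (fun y => !f y) x = 1 - TT ρ f x := by
  rw [TT_eq, TT_eq, ← sum_wt ρ x, ← Finset.sum_sub_distrib]
  refine Finset.sum_congr rfl fun y _ => ?_
  cases f y <;> simp [ind]

lemma noise_spin {n : ℕ} (ρ : ℝ) (f : (Fin n → Bool) → Bool) (x : Fin n → Bool) :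
    noise ρ (fun y => spin (f y)) x = 2 * TT ρ f x - 1 := by
  rw [noise_eq, TT_eq, ← sum_wt ρ x, Finset.mul_sum, ← Finset.sum_sub_distrib]
  refine Finset.sum_congr rfl fun y _ => ?_
  rw [spin_eq_ind]; ring

lemma wt_cons {n : ℕ} (ρ : ℝ) (b b' : Bool) (x y : Fin n → Bool) :
    wt ρ (Fin.cons b x : Fin (n + 1) → Bool) (Fin.cons b' y) =
      (1 + ρ * spin b * spin b') / 2 * wt ρ x y := by
  unfold wt
  rw [Fin.prod_univ_succ]
  simp

lemma sl0_noise {n : ℕ} (ρ : ℝ) (g : (Fin (n + 1) → Bool) → ℝ) (x : Fin n → Bool) :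
    sl0 (noise ρ g) x = (1 + ρ) / 2 * noise ρ (sl0 g) x + (1 - ρ) / 2 * noise ρ (sl1 g) x := by
  unfold sl0
  rw [noise_eq, sum_split, noise_eq, noise_eq, Finset.mul_sum, Finset.mul_sum]
  congr 1
  · refine Finset.sum_congr rfl fun y _ => ?_
    simp only [sl0]
    rw [wt_cons]; simp [spin]; ring
  · refine Finset.sum_congr rfl fun y _ => ?_
    simp only [sl1]
    rw [wt_cons]; simp [spin]; ring

lemma sl1_noise {n : ℕ} (ρ : ℝ) (g : (Fin (n + 1) → Bool) → ℝ) (x : Fin n → Bool) :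
    sl1 (noise ρ g) x = (1 - ρ) / 2 * noise ρ (sl0 g) x + (1 + ρ) / 2 * noise ρ (sl1 g) x := by
  unfold sl1
  rw [noise_eq, sum_split, noise_eq, noise_eq, Finset.mul_sum, Finset.mul_sum]
  congr 1
  · refine Finset.sum_congr rfl fun y _ => ?_
    simp only [sl0]
    rw [wt_cons]; simp [spin]; ring
  · refine Finset.sum_congr rfl fun y _ => ?_
    simp only [sl1]
    rw [wt_cons]; simp [spin]; ring

/-- two-point majorization for a concave function -/
lemma concave_two_point {F : ℝ → ℝ} (hF : ConcaveOn ℝ (Icc 0 1) F) {s u v : ℝ}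
    (h0 : 0 ≤ s - v) (h1 : s + v ≤ 1) (huv : |u| ≤ v) :
    F (s + v) + F (s - v) ≤ F (s + u) + F (s - u) := by
  rcases eq_or_lt_of_le ((abs_nonneg u).trans huv) with hv | hv
  · have : u = 0 := by
      rw [← abs_eq_zero]; exact le_antisymm (by rw [hv]; exact huv) (abs_nonneg _)
    rw [this, ← hv]
  · obtain ⟨h2, h3⟩ := abs_le.mp huv
    have hm1 : s + v ∈ Icc (0 : ℝ) 1 := ⟨by linarith, h1⟩
    have hm2 : s - v ∈ Icc (0 : ℝ) 1 := ⟨h0, by linarith⟩
    have A : 0 ≤ (v + u) / (2 * v) := div_nonneg (by linarith) (by linarith)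
    have B : 0 ≤ (v - u) / (2 * v) := div_nonneg (by linarith) (by linarith)
    have AB : (v + u) / (2 * v) + (v - u) / (2 * v) = 1 := by field_simp; ring
    have BA : (v - u) / (2 * v) + (v + u) / (2 * v) = 1 := by rw [add_comm]; exact AB
    have e1 := hF.2 hm1 hm2 A B AB
    have e2 := hF.2 hm1 hm2 B A BA
    simp only [smul_eq_mul] at e1 e2
    have f1 : (v + u) / (2 * v) * (s + v) + (v - u) / (2 * v) * (s - v) = s + u := by
      field_simp; ring
    have f2 : (v - u) / (2 * v) * (s + v) + (v + u) / (2 * v) * (s - v) = s - u := by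
      field_simp; ring
    rw [f1] at e1
    rw [f2] at e2
    have : F (s + v) + F (s - v) = ((v + u) / (2 * v) * F (s + v) + (v - u) / (2 * v) * F (s - v)) +
        ((v - u) / (2 * v) * F (s + v) + (v + u) / (2 * v) * F (s - v)) := by
      have : F (s + v) + F (s - v) = ((v + u) / (2 * v) + (v - u) / (2 * v)) * (F (s + v) + F (s - v)) := by
        rw [AB, one_mul]
      rw [this]; ring
    linarith




/-! ### From the two-point functional to S0471 -/


lemma cubeAverage_TT {n : ℕ} (ρ : ℝ) (f : (Fin n → Bool) → Bool) :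
    cubeAverage (TT ρ f) = cubeAverage (fun x => ind (f x)) :=
  cubeAverage_noise ρ (fun x => ind (f x))

lemma cubeAverage_spin {n : ℕ} (ρ : ℝ) (f : (Fin n → Bool) → Bool) :
    cubeAverage (fun x => spin (f x)) = 2 * cubeAverage (TT ρ f) - 1 := by
  rw [cubeAverage_TT]
  have : (fun x => spin (f x)) = fun x => 2 * ind (f x) + (-1) := by
    funext x; rw [spin_eq_ind]; ring
  rw [this, cubeAverage_add, cubeAverage_const_mul, cubeAverage_const]; ring

lemma sqrt_one_sub_sq (p : ℝ) : Real.sqrt (1 - (2 * p - 1) ^ 2) = 2 * Real.sqrt (p * (1 - p)) := by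
  have : 1 - (2 * p - 1) ^ 2 = 2 ^ 2 * (p * (1 - p)) := by ring
  rw [this, Real.sqrt_mul (by norm_num), Real.sqrt_sq (by norm_num)]

lemma sqrt_add_sqrt_sq {p : ℝ} (h0 : 0 ≤ p) (h1 : p ≤ 1) :
    (Real.sqrt p + Real.sqrt (1 - p)) ^ 2 = 1 + 2 * Real.sqrt (p * (1 - p)) := by
  rw [Real.sqrt_mul h0, add_sq, Real.sq_sqrt h0, Real.sq_sqrt (by linarith)]; ring


lemma cubeAverage_nonneg {n : ℕ} {h : (Fin n → Bool) → ℝ} (H : ∀ x, 0 ≤ h x) :
    0 ≤ cubeAverage h := by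
  rw [← cubeAverage_const (n := n) 0]
  exact cubeAverage_mono H


/-! ### Pointwise certificates and scalar recursions -/



lemma cubeAverage_one_sub {n : ℕ} (P : (Fin n → Bool) → ℝ) :
    cubeAverage (fun x => 1 - P x) = 1 - cubeAverage P := by
  have : (fun x => 1 - P x) = fun x => 1 + (-1) * P x := by funext x; ring
  rw [this, cubeAverage_add, cubeAverage_const_mul, cubeAverage_const]; ring








end Crest.Agent.R307.TwoSet
end

-- ▼ part R307/GenInd

/-!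
Row 307, S0471 (task 1107, G1 + G2): the induction on the dimension for an arbitrary concave
functional `u`, with Parseval rows.

* `bool_inductionG`: as `TwoSet.bool_induction`, the slices are given as Boolean functions.
* `parseval_TT`: `E P(1-P) ≥ (1-ρ²) μ (1-μ)` for `P = T_ρ 1_A`.
* `CertG`: pointwise certificates.
* `region_inductionG` (G2), `one_functionG` (G1).
* `FA`, `concave_FA`: the family `2(√q - q) + q(1-q)(A0 + A1 q + A2 q²)`.
-/

set_option autoImplicit false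

open Crest.CubeNoise Set

namespace Crest.Agent.R307.GenInd

open Crest.Agent.R307 Crest.Agent.R307.Ode Crest.Agent.R307.TwoSet

/-- Abstract induction on the dimension; the two ordered slices are noises of Boolean functions. -/
theorem bool_inductionG {ρ : ℝ} (h0 : 0 ≤ ρ) (h1 : ρ ≤ 1) {F1 F2 : ℝ → ℝ}
    (hF1 : ConcaveOn ℝ (Icc 0 1) F1) (hF2 : ConcaveOn ℝ (Icc 0 1) F2)
    (R : ℝ → ℝ → ℝ → Prop)
    (hup : ∀ μ s t s' t', R μ s t → s ≤ s' → t ≤ t' → R μ s' t')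
    (hR0 : R 0 (F1 0) (F2 0)) (hR1 : R 1 (F1 1) (F2 1))
    (hstep : ∀ (n : ℕ) (g0 g1 : (Fin n → Bool) → Bool), (∀ x, TT ρ g1 x ≤ TT ρ g0 x) →
      R (cubeAverage (TT ρ g0)) (cubeAverage fun x => F1 (TT ρ g0 x))
        (cubeAverage fun x => F2 (TT ρ g0 x)) →
      R (cubeAverage (TT ρ g1)) (cubeAverage fun x => F1 (TT ρ g1 x))
        (cubeAverage fun x => F2 (TT ρ g1 x)) →
      R ((cubeAverage (TT ρ g0) + cubeAverage (TT ρ g1)) / 2)
        ((cubeAverage (fun x => F1 ((1 + ρ) / 2 * TT ρ g0 x + (1 - ρ) / 2 * TT ρ g1 x)) +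
          cubeAverage (fun x => F1 ((1 - ρ) / 2 * TT ρ g0 x + (1 + ρ) / 2 * TT ρ g1 x))) / 2)
        ((cubeAverage (fun x => F2 ((1 + ρ) / 2 * TT ρ g0 x + (1 - ρ) / 2 * TT ρ g1 x)) +
          cubeAverage (fun x => F2 ((1 - ρ) / 2 * TT ρ g0 x + (1 + ρ) / 2 * TT ρ g1 x))) / 2)) :
    ∀ (n : ℕ) (f : (Fin n → Bool) → Bool),
      R (cubeAverage (TT ρ f)) (cubeAverage fun x => F1 (TT ρ f x))
        (cubeAverage fun x => F2 (TT ρ f x)) := by
  have habs : |ρ| ≤ 1 := by rw [abs_of_nonneg h0]; exact h1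
  intro n
  induction n with
  | zero =>
    intro f
    rw [cubeAverage_zero, cubeAverage_zero, cubeAverage_zero]
    have e : TT ρ f default = TwoSet.ind (f default) := by
      rw [TT_eq, Fintype.sum_unique]
      unfold wt
      simp only [Finset.univ_eq_empty, Finset.prod_empty, one_mul]
      exact congrArg (fun z => TwoSet.ind (f z)) (Subsingleton.elim _ _)
    rw [e]
    cases f default
    · simpa [TwoSet.ind] using hR0
    · simpa [TwoSet.ind] using hR1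
  | succ n ih =>
    intro f
    set f0 : (Fin n → Bool) → Bool := fun x => f (Fin.cons false x) with hf0
    set f1 : (Fin n → Bool) → Bool := fun x => f (Fin.cons true x) with hf1
    set g0 : (Fin n → Bool) → Bool := fun x => f0 x || f1 x with hg0
    set g1 : (Fin n → Bool) → Bool := fun x => f0 x && f1 x with hg1
    have s0 : ∀ x, sl0 (TT ρ f) x = (1 + ρ) / 2 * TT ρ f0 x + (1 - ρ) / 2 * TT ρ f1 x :=
      fun x => sl0_noise ρ (fun y => TwoSet.ind (f y)) x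
    have s1 : ∀ x, sl1 (TT ρ f) x = (1 - ρ) / 2 * TT ρ f0 x + (1 + ρ) / 2 * TT ρ f1 x :=
      fun x => sl1_noise ρ (fun y => TwoSet.ind (f y)) x
    have le0 : ∀ x, TT ρ f0 x ≤ TT ρ g0 x := TT_mono habs fun y => by
      simp only [hg0]; cases f0 y <;> cases f1 y <;> simp [TwoSet.ind]
    have le1 : ∀ x, TT ρ f1 x ≤ TT ρ g0 x := TT_mono habs fun y => by
      simp only [hg0]; cases f0 y <;> cases f1 y <;> simp [TwoSet.ind]
    have ge0 : ∀ x, TT ρ g1 x ≤ TT ρ f0 x := TT_mono habs fun y => by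
      simp only [hg1]; cases f0 y <;> cases f1 y <;> simp [TwoSet.ind]
    have ge1 : ∀ x, TT ρ g1 x ≤ TT ρ f1 x := TT_mono habs fun y => by
      simp only [hg1]; cases f0 y <;> cases f1 y <;> simp [TwoSet.ind]
    have hsum : ∀ x, TT ρ g0 x + TT ρ g1 x = TT ρ f0 x + TT ρ f1 x := by
      intro x
      rw [TT_eq, TT_eq, TT_eq, TT_eq, ← Finset.sum_add_distrib, ← Finset.sum_add_distrib]
      refine Finset.sum_congr rfl fun y _ => ?_
      rw [← mul_add, ← mul_add]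
      congr 1
      simp only [hg0, hg1]
      cases f0 y <;> cases f1 y <;> simp [TwoSet.ind]
    have key := hstep n g0 g1 (fun x => (ge0 x).trans (le0 x)) (ih g0) (ih g1)
    have hconc : ∀ {F : ℝ → ℝ}, ConcaveOn ℝ (Icc 0 1) F →
        (cubeAverage (fun x => F ((1 + ρ) / 2 * TT ρ g0 x + (1 - ρ) / 2 * TT ρ g1 x)) +
          cubeAverage (fun x => F ((1 - ρ) / 2 * TT ρ g0 x + (1 + ρ) / 2 * TT ρ g1 x))) / 2 ≤
        cubeAverage (fun x => F (TT ρ f x)) := by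
      intro F hF
      rw [cubeAverage_split (fun x => F (TT ρ f x)), ← cubeAverage_add, ← cubeAverage_add]
      have : cubeAverage (fun x => F ((1 + ρ) / 2 * TT ρ g0 x + (1 - ρ) / 2 * TT ρ g1 x) +
            F ((1 - ρ) / 2 * TT ρ g0 x + (1 + ρ) / 2 * TT ρ g1 x)) ≤
          cubeAverage (fun x => sl0 (fun x => F (TT ρ f x)) x +
            sl1 (fun x => F (TT ρ f x)) x) := by
        refine cubeAverage_mono fun x => ?_
        have e0 : sl0 (fun x => F (TT ρ f x)) x = F (sl0 (TT ρ f) x) := rfl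
        have e1 : sl1 (fun x => F (TT ρ f x)) x = F (sl1 (TT ρ f) x) := rfl
        rw [e0, e1, s0 x, s1 x]
        have hs := hsum x
        have A0 := TT_nonneg habs g1 x
        have A1 := TT_le_one habs g0 x
        have B1 := le0 x
        have B2 := le1 x
        have B3 := ge0 x
        have B4 := ge1 x
        have hD : 0 ≤ TT ρ g0 x - TT ρ g1 x := by linarith
        have c := concave_two_point hF (s := (TT ρ f0 x + TT ρ f1 x) / 2)
          (u := ρ * (TT ρ f0 x - TT ρ f1 x) / 2) (v := ρ * (TT ρ g0 x - TT ρ g1 x) / 2)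
          (by rw [← hs]; nlinarith) (by rw [← hs]; nlinarith)
          (by
            rw [mul_div_assoc, mul_div_assoc, abs_mul, abs_of_nonneg h0]
            refine mul_le_mul_of_nonneg_left ?_ h0
            rw [abs_le]
            constructor <;> linarith)
        have g1' : (1 + ρ) / 2 * TT ρ g0 x + (1 - ρ) / 2 * TT ρ g1 x =
            (TT ρ f0 x + TT ρ f1 x) / 2 + ρ * (TT ρ g0 x - TT ρ g1 x) / 2 := by
          rw [← hs]; ring
        have g2' : (1 - ρ) / 2 * TT ρ g0 x + (1 + ρ) / 2 * TT ρ g1 x =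
            (TT ρ f0 x + TT ρ f1 x) / 2 - ρ * (TT ρ g0 x - TT ρ g1 x) / 2 := by
          rw [← hs]; ring
        have g3' : (1 + ρ) / 2 * TT ρ f0 x + (1 - ρ) / 2 * TT ρ f1 x =
            (TT ρ f0 x + TT ρ f1 x) / 2 + ρ * (TT ρ f0 x - TT ρ f1 x) / 2 := by ring
        have g4' : (1 - ρ) / 2 * TT ρ f0 x + (1 + ρ) / 2 * TT ρ f1 x =
            (TT ρ f0 x + TT ρ f1 x) / 2 - ρ * (TT ρ f0 x - TT ρ f1 x) / 2 := by ring
        rw [g1', g2', g3', g4']
        exact c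
      linarith
    have hμ : (cubeAverage (TT ρ g0) + cubeAverage (TT ρ g1)) / 2 = cubeAverage (TT ρ f) := by
      rw [cubeAverage_split (TT ρ f), ← cubeAverage_add, ← cubeAverage_add]
      congr 2
      funext x
      rw [s0 x, s1 x, hsum x]; ring
    rw [hμ] at key
    exact hup _ _ _ _ _ key (hconc hF1) (hconc hF2)

/-- Parseval row: `E P(1-P) ≥ (1-ρ²) μ (1-μ)` for `P = T_ρ 1_A`, `μ = E P`. -/
theorem parseval_TT {n : ℕ} {ρ : ℝ} (hρ : |ρ| ≤ 1) (f : (Fin n → Bool) → Bool) :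
    (1 - ρ ^ 2) * (cubeAverage (TT ρ f) * (1 - cubeAverage (TT ρ f))) ≤
      cubeAverage (fun x => TT ρ f x * (1 - TT ρ f x)) := by
  have hc := Flow.contraction ρ hρ (fun y => TwoSet.ind (f y))
  have e1 : cubeAverage (fun x => (TwoSet.ind (f x)) ^ 2) = cubeAverage (fun x => TwoSet.ind (f x)) := by
    congr 1
    funext x
    cases f x <;> simp [TwoSet.ind]
  have e2 : cubeAverage (TT ρ f) = cubeAverage (fun x => TwoSet.ind (f x)) := cubeAverage_TT ρ f
  rw [e1, ← e2] at hc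
  have e3 : cubeAverage (fun x => TT ρ f x * (1 - TT ρ f x)) =
      cubeAverage (TT ρ f) - cubeAverage (fun x => (TT ρ f x) ^ 2) := by
    have : (fun x => TT ρ f x * (1 - TT ρ f x)) = fun x => TT ρ f x + (-1) * (TT ρ f x) ^ 2 := by
      funext x; ring
    rw [this, cubeAverage_add, cubeAverage_const_mul]; ring
  have hc' : cubeAverage (fun x => (TT ρ f x) ^ 2) - (cubeAverage (TT ρ f)) ^ 2 ≤
      ρ ^ 2 * (cubeAverage (TT ρ f) - (cubeAverage (TT ρ f)) ^ 2) := hc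
  rw [e3]
  linarith

/-- A pointwise certificate for the functional `u` on ordered pairs `0 ≤ Q ≤ P ≤ 1`, with
Parseval rows. -/
def CertG (ρ : ℝ) (u : ℝ → ℝ) (p1 q1 p2 q2 l1 m1 k : ℝ) : Prop :=
  0 ≤ l1 ∧ 0 ≤ m1 ∧ ∀ P Q : ℝ, 0 ≤ Q → Q ≤ P → P ≤ 1 →
    p1 * u P + q1 * u Q + p2 * P + q2 * Q + l1 * (P * (1 - P)) + m1 * (Q * (1 - Q)) - k ≤
      u ((1 + ρ) / 2 * P + (1 - ρ) / 2 * Q) + u ((1 - ρ) / 2 * P + (1 + ρ) / 2 * Q)

/-- averaging a certificate over two ordered functions -/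
lemma certG_average {ρ : ℝ} {u : ℝ → ℝ} {p1 q1 p2 q2 l1 m1 k : ℝ}
    (hc : CertG ρ u p1 q1 p2 q2 l1 m1 k) {n : ℕ}
    {P Q : (Fin n → Bool) → ℝ} (hQ : ∀ x, 0 ≤ Q x) (hPQ : ∀ x, Q x ≤ P x) (hP : ∀ x, P x ≤ 1) :
    p1 * cubeAverage (fun x => u (P x)) + q1 * cubeAverage (fun x => u (Q x)) +
      p2 * cubeAverage P + q2 * cubeAverage Q +
      l1 * cubeAverage (fun x => P x * (1 - P x)) + m1 * cubeAverage (fun x => Q x * (1 - Q x))
      - k ≤
    cubeAverage (fun x => u ((1 + ρ) / 2 * P x + (1 - ρ) / 2 * Q x)) +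
      cubeAverage (fun x => u ((1 - ρ) / 2 * P x + (1 + ρ) / 2 * Q x)) := by
  have h := cubeAverage_mono (n := n) (g := fun x => p1 * u (P x) +
      (q1 * u (Q x) + (p2 * P x + (q2 * Q x + (l1 * (P x * (1 - P x)) +
        (m1 * (Q x * (1 - Q x)) + (-k)))))))
    (h := fun x => u ((1 + ρ) / 2 * P x + (1 - ρ) / 2 * Q x) +
      u ((1 - ρ) / 2 * P x + (1 + ρ) / 2 * Q x))
    (fun x => by
      have := hc.2.2 (P x) (Q x) (hQ x) (hPQ x) (hP x)
      linarith)
  rw [cubeAverage_add, cubeAverage_add, cubeAverage_add, cubeAverage_add, cubeAverage_add,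
    cubeAverage_add, cubeAverage_const_mul, cubeAverage_const_mul, cubeAverage_const_mul,
    cubeAverage_const_mul, cubeAverage_const_mul, cubeAverage_const_mul, cubeAverage_const,
    cubeAverage_add] at h
  linarith

/-- certificate + Parseval for two ordered noises of Boolean functions -/
lemma certG_TT {ρ : ℝ} (hρ : |ρ| ≤ 1) {u : ℝ → ℝ} {p1 q1 p2 q2 l1 m1 k : ℝ}
    (hc : CertG ρ u p1 q1 p2 q2 l1 m1 k) {n : ℕ} (g0 g1 : (Fin n → Bool) → Bool)
    (hle : ∀ x, TT ρ g1 x ≤ TT ρ g0 x) :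
    p1 * cubeAverage (fun x => u (TT ρ g0 x)) + q1 * cubeAverage (fun x => u (TT ρ g1 x)) +
      p2 * cubeAverage (TT ρ g0) + q2 * cubeAverage (TT ρ g1) +
      (1 - ρ ^ 2) * (l1 * (cubeAverage (TT ρ g0) * (1 - cubeAverage (TT ρ g0))) +
        m1 * (cubeAverage (TT ρ g1) * (1 - cubeAverage (TT ρ g1)))) - k ≤
    cubeAverage (fun x => u ((1 + ρ) / 2 * TT ρ g0 x + (1 - ρ) / 2 * TT ρ g1 x)) +
      cubeAverage (fun x => u ((1 - ρ) / 2 * TT ρ g0 x + (1 + ρ) / 2 * TT ρ g1 x)) := by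
  have h := certG_average hc (P := TT ρ g0) (Q := TT ρ g1) (TT_nonneg hρ g1) hle
    (TT_le_one hρ g0)
  have a0 := mul_le_mul_of_nonneg_left (parseval_TT hρ g0) hc.1
  have a1 := mul_le_mul_of_nonneg_left (parseval_TT hρ g1) hc.2.1
  linarith


lemma concave_one_sub {u : ℝ → ℝ} (hu : ConcaveOn ℝ (Icc 0 1) u) :
    ConcaveOn ℝ (Icc 0 1) (fun x : ℝ => u (1 - x)) := by
  refine ⟨convex_Icc 0 1, ?_⟩
  intro x hx y hy a b ha hb hab
  have h := hu.2 (x := 1 - x) (y := 1 - y) ⟨by linarith [hx.2], by linarith [hx.1]⟩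
    ⟨by linarith [hy.2], by linarith [hy.1]⟩ ha hb hab
  simp only [smul_eq_mul] at h ⊢
  have e : a * (1 - x) + b * (1 - y) = 1 - (a * x + b * y) := by linear_combination hab
  rw [e] at h
  exact h

lemma mem_unit_TT {n : ℕ} {ρ : ℝ} (hρ : |ρ| ≤ 1) (f : (Fin n → Bool) → Bool) :
    0 ≤ cubeAverage (TT ρ f) ∧ cubeAverage (TT ρ f) ≤ 1 := by
  refine ⟨cubeAverage_nonneg (TT_nonneg hρ f), ?_⟩
  rw [← cubeAverage_const (n := n) 1]
  exact cubeAverage_mono (TT_le_one hρ f)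


/-- **G1.** One function: a lower bound `b` of `E u(T_ρ 1_A)` in terms of the mean. -/
theorem one_functionG {ρ : ℝ} (h0 : 0 ≤ ρ) (h1 : ρ ≤ 1) {u : ℝ → ℝ}
    (hu : ConcaveOn ℝ (Icc 0 1) u) (b : ℝ → ℝ) (hb0 : b 0 ≤ u 0) (hb1 : b 1 ≤ u 1)
    (hI : ∀ ν0 ν1 : ℝ, 0 ≤ ν1 → ν1 ≤ ν0 → ν0 ≤ 1 → ∃ p1 q1 p2 q2 l1 m1 k : ℝ,
      0 ≤ p1 ∧ 0 ≤ q1 ∧ CertG ρ u p1 q1 p2 q2 l1 m1 k ∧
      2 * b ((ν0 + ν1) / 2) ≤ p1 * b ν0 + q1 * b ν1 + p2 * ν0 + q2 * ν1 +
        (1 - ρ ^ 2) * (l1 * (ν0 * (1 - ν0)) + m1 * (ν1 * (1 - ν1))) - k)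
    (n : ℕ) (f : (Fin n → Bool) → Bool) :
    b (cubeAverage (TT ρ f)) ≤ cubeAverage (fun x => u (TT ρ f x)) := by
  have habs : |ρ| ≤ 1 := by rw [abs_of_nonneg h0]; exact h1
  refine bool_inductionG h0 h1 hu hu (fun μ s _ => b μ ≤ s) ?_ hb0 hb1 ?_ n f
  · intro μ s t s' t' hs hss' _
    exact hs.trans hss'
  · intro n g0 g1 hle a0 a1
    obtain ⟨p1, q1, p2, q2, l1, m1, k, hp1, hq1, hc, hineq⟩ :=
      hI (cubeAverage (TT ρ g0)) (cubeAverage (TT ρ g1)) (mem_unit_TT habs g1).1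
        (cubeAverage_mono hle) (mem_unit_TT habs g0).2
    have e := certG_TT habs hc g0 g1 hle
    have e1 := mul_le_mul_of_nonneg_left a0 hp1
    have e2 := mul_le_mul_of_nonneg_left a1 hq1
    linarith


/-- The family of functionals of the application. -/
noncomputable def FA (A0 A1 A2 q : ℝ) : ℝ :=
  2 * (Real.sqrt q - q) + q * (1 - q) * (A0 + A1 * q + A2 * q ^ 2)

lemma FA_zero (A0 A1 A2 : ℝ) : FA A0 A1 A2 0 = 0 := by simp [FA]

lemma FA_one (A0 A1 A2 : ℝ) : FA A0 A1 A2 1 = 0 := by simp [FA]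

lemma hasDerivAt_FA (A0 A1 A2 : ℝ) {q : ℝ} (hq : 0 < q) :
    HasDerivAt (FA A0 A1 A2)
      (1 / Real.sqrt q - 2 + (A0 + 2 * (A1 - A0) * q + 3 * (A2 - A1) * q ^ 2 - 4 * A2 * q ^ 3)) q := by
  have h1 : HasDerivAt (fun q : ℝ => Real.sqrt q) (1 / (2 * Real.sqrt q)) q :=
    Real.hasDerivAt_sqrt hq.ne'
  have h2 : HasDerivAt (fun q : ℝ => q) 1 q := hasDerivAt_id q
  have h3 : HasDerivAt (fun q : ℝ => q ^ 2) (2 * q) q := by simpa using hasDerivAt_pow 2 q
  have h4 : HasDerivAt (fun q : ℝ => q ^ 3) (3 * q ^ 2) q := by simpa using hasDerivAt_pow 3 q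
  have h5 : HasDerivAt (fun q : ℝ => q ^ 4) (4 * q ^ 3) q := by simpa using hasDerivAt_pow 4 q
  have h := ((h1.const_mul 2).add ((h2.const_mul (A0 - 2)).add ((h3.const_mul (A1 - A0)).add
    ((h4.const_mul (A2 - A1)).add (h5.const_mul (-A2))))))
  refine (h.congr_of_eventuallyEq (Filter.Eventually.of_forall fun x => ?_)).congr_deriv ?_
  · simp only [FA, Pi.add_apply]
    ring
  · have hs : Real.sqrt q ≠ 0 := (Real.sqrt_pos.mpr hq).ne'
    field_simp
    ring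

lemma hasDerivAt_FA' (A0 A1 A2 : ℝ) {q : ℝ} (hq : 0 < q) :
    HasDerivAt (fun q => 1 / Real.sqrt q - 2 +
        (A0 + 2 * (A1 - A0) * q + 3 * (A2 - A1) * q ^ 2 - 4 * A2 * q ^ 3))
      (-(1 / (2 * (Real.sqrt q) ^ 3)) +
        (2 * (A1 - A0) + 6 * (A2 - A1) * q - 12 * A2 * q ^ 2)) q := by
  have hs : Real.sqrt q ≠ 0 := (Real.sqrt_pos.mpr hq).ne'
  have h1 : HasDerivAt (fun q : ℝ => Real.sqrt q) (1 / (2 * Real.sqrt q)) q :=
    Real.hasDerivAt_sqrt hq.ne'
  have h1' := h1.inv hs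
  have h2 : HasDerivAt (fun q : ℝ => q) 1 q := hasDerivAt_id q
  have h3 : HasDerivAt (fun q : ℝ => q ^ 2) (2 * q) q := by simpa using hasDerivAt_pow 2 q
  have h4 : HasDerivAt (fun q : ℝ => q ^ 3) (3 * q ^ 2) q := by simpa using hasDerivAt_pow 3 q
  have h := (h1'.add ((h2.const_mul (2 * (A1 - A0))).add ((h3.const_mul (3 * (A2 - A1))).add
    ((h4.const_mul (-4 * A2)).add (hasDerivAt_const q (A0 - 2))))))
  refine (h.congr_of_eventuallyEq (Filter.Eventually.of_forall fun x => ?_)).congr_deriv ?_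
  · simp only [Pi.add_apply, Pi.inv_apply]
    ring
  · field_simp
    ring

/-- Concavity of `FA` from an explicit inequality for the second derivative, in `y = √q`. -/
theorem concave_FA {A0 A1 A2 : ℝ}
    (h : ∀ y : ℝ, 0 < y → y < 1 →
      (2 * (A1 - A0) + 6 * (A2 - A1) * y ^ 2 - 12 * A2 * y ^ 4) * y ^ 3 ≤ 1 / 2) :
    ConcaveOn ℝ (Icc 0 1) (FA A0 A1 A2) := by
  have hcont : ContinuousOn (FA A0 A1 A2) (Icc 0 1) := by
    have : Continuous (FA A0 A1 A2) := by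
      unfold FA
      fun_prop
    exact this.continuousOn
  have hint : interior (Icc (0 : ℝ) 1) = Ioo 0 1 := interior_Icc
  have hd : ∀ q ∈ Ioo (0 : ℝ) 1, deriv (FA A0 A1 A2) q =
      1 / Real.sqrt q - 2 +
        (A0 + 2 * (A1 - A0) * q + 3 * (A2 - A1) * q ^ 2 - 4 * A2 * q ^ 3) := fun q hq =>
    (hasDerivAt_FA A0 A1 A2 hq.1).deriv
  have hd2 : ∀ q ∈ Ioo (0 : ℝ) 1, HasDerivAt (deriv (FA A0 A1 A2))
      (-(1 / (2 * (Real.sqrt q) ^ 3)) +
        (2 * (A1 - A0) + 6 * (A2 - A1) * q - 12 * A2 * q ^ 2)) q := by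
    intro q hq
    refine (hasDerivAt_FA' A0 A1 A2 hq.1).congr_of_eventuallyEq ?_
    filter_upwards [isOpen_Ioo.mem_nhds hq] with x hx
    exact hd x hx
  refine concaveOn_of_deriv2_nonpos (convex_Icc 0 1) hcont ?_ ?_ ?_
  · rw [hint]
    exact fun q hq => (hasDerivAt_FA A0 A1 A2 hq.1).differentiableAt.differentiableWithinAt
  · rw [hint]
    exact fun q hq => (hd2 q hq).differentiableAt.differentiableWithinAt
  · rw [hint]
    intro q hq
    have e : deriv^[2] (FA A0 A1 A2) q = deriv (deriv (FA A0 A1 A2)) q := rfl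
    rw [e, (hd2 q hq).deriv]
    have hy : 0 < Real.sqrt q := Real.sqrt_pos.mpr hq.1
    have hy1 : Real.sqrt q < 1 := by
      rw [Real.sqrt_lt' one_pos]; simpa using hq.2
    have hh := h (Real.sqrt q) hy hy1
    have e2 : (Real.sqrt q) ^ 2 = q := Real.sq_sqrt hq.1.le
    have e4 : (Real.sqrt q) ^ 4 = q ^ 2 := by
      have : (Real.sqrt q) ^ 4 = ((Real.sqrt q) ^ 2) ^ 2 := by ring
      rw [this, e2]
    rw [e2, e4] at hh
    have hy3 : 0 < (Real.sqrt q) ^ 3 := by positivity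
    have : 2 * (A1 - A0) + 6 * (A2 - A1) * q - 12 * A2 * q ^ 2 ≤ 1 / 2 / (Real.sqrt q) ^ 3 := by
      rw [le_div_iff₀ hy3]; exact hh
    have e5 : 1 / 2 / (Real.sqrt q) ^ 3 = 1 / (2 * (Real.sqrt q) ^ 3) := by
      rw [div_div]
    linarith


end Crest.Agent.R307.GenInd
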