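import Crest.Agent.R307.GenPI
import Crest.Agent.R307.GenInd

/-!
Row 307, S0471, task G5: the conic collapse.

Conic family, `t ∈ [0,1]` (`t = tan (w/2)`):
`K = 2 (k1 t + k2 t²)/(1+t²)`, `β = 2 (e1 t + e2 t²)/(1+t²)`,
`L0 = 2 (m1 t + m2 t²)/(1+t²)` (on the larger slice), `L1 = 2 (l1 t + l2 t²)/(1+t²)` (on the
smaller slice), `C = (1-t²)/(1+t²)`.

* `PC D A B`: `(1+t²) D ≥ 2 t A - 2 t² B` for all `t ∈ [0,1]` (`PC_iff`).
* `SC G A B`: `(1+t²) G ≤ 2 t A - 2 t² B` for some `t ∈ [0,1]` (`SC_iff`).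
* `conic_cert`: the pointwise certificates for all `t` from `PC` at `(y0, y1)`.
* `conic_step`: the step hypothesis of `GenInd.one_functionG` from `SC`.
* `conic_gain`: the gain in the two-sided induction.
-/

set_option autoImplicit false

open Crest.CubeNoise Set

namespace Crest.Agent.R307.Conic

open Crest.Agent.R307.GenInd Crest.Agent.R307.GenPI

/-- `p(t) = D - 2At + (D+2B)t² ≥ 0` on `[0,1]`. -/
def PC (D A B : ℝ) : Prop :=
  0 ≤ D ∧ ((A ≤ D ∧ A ≤ D + B) ∨ (0 ≤ D + 2 * B ∧ A ^ 2 ≤ D * (D + 2 * B)))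

/-- `p(t) ≤ 0` for some `t ∈ [0,1]`. -/
def SC (G A B : ℝ) : Prop :=
  G ≤ 0 ∨ G ≤ A - B ∨ (0 ≤ A ∧ 0 ≤ B ∧ G * (G + 2 * B) ≤ A ^ 2)

theorem PC.nonneg {D A B : ℝ} (h : PC D A B) {t : ℝ} (h0 : 0 ≤ t) (h1 : t ≤ 1) :
    2 * t * A - 2 * t ^ 2 * B ≤ (1 + t ^ 2) * D := by
  obtain ⟨hD, ⟨h2, h3⟩ | ⟨h2, h3⟩⟩ := h
  · have a1 : 0 ≤ (1 - t) ^ 2 * D := mul_nonneg (sq_nonneg _) hD
    have a2 : 0 ≤ t * (1 - t) * (D - A) :=
      mul_nonneg (mul_nonneg h0 (by linarith)) (by linarith)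
    have a3 : 0 ≤ t ^ 2 * (D + B - A) := mul_nonneg (sq_nonneg _) (by linarith)
    nlinarith
  · rcases hD.eq_or_lt with hD0 | hD0
    · subst hD0
      have hA : A = 0 := by
        have : A ^ 2 ≤ 0 := by simpa using h3
        exact pow_eq_zero_iff (two_ne_zero) |>.mp (le_antisymm this (sq_nonneg _))
      subst hA
      have : 0 ≤ t ^ 2 * B := mul_nonneg (sq_nonneg _) (by linarith)
      linarith
    · -- D * p(t) = (D - A t)² + (D(D+2B) - A²) t²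
      have key : 0 ≤ D * ((1 + t ^ 2) * D - (2 * t * A - 2 * t ^ 2 * B)) := by
        have e : D * ((1 + t ^ 2) * D - (2 * t * A - 2 * t ^ 2 * B)) =
            (D - A * t) ^ 2 + (D * (D + 2 * B) - A ^ 2) * t ^ 2 := by ring
        rw [e]
        have : 0 ≤ (D * (D + 2 * B) - A ^ 2) * t ^ 2 :=
          mul_nonneg (by linarith) (sq_nonneg _)
        have := sq_nonneg (D - A * t)
        linarith
      have := nonneg_of_mul_nonneg_right key hD0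
      linarith

theorem PC_of_forall {D A B : ℝ}
    (h : ∀ t : ℝ, 0 ≤ t → t ≤ 1 → 2 * t * A - 2 * t ^ 2 * B ≤ (1 + t ^ 2) * D) : PC D A B := by
  have h0 := h 0 le_rfl zero_le_one
  have h1 := h 1 zero_le_one le_rfl
  have hD : 0 ≤ D := by linarith
  refine ⟨hD, ?_⟩
  by_cases hA : A ≤ D
  · exact Or.inl ⟨hA, by linarith⟩
  · right
    have hA' : D < A := not_le.mp hA
    have hpos : 0 < D + 2 * B := by linarith
    refine ⟨hpos.le, ?_⟩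
    have ht0 : 0 ≤ A / (D + 2 * B) := div_nonneg (by linarith) hpos.le
    have ht1 : A / (D + 2 * B) ≤ 1 := by
      rw [div_le_one hpos]
      linarith
    have h2 := h _ ht0 ht1
    set t := A / (D + 2 * B) with ht
    have hA2 : A = t * (D + 2 * B) := by
      rw [ht]; field_simp
    have h3 : t * A = t ^ 2 * (D + 2 * B) := by
      calc t * A = t * (t * (D + 2 * B)) := by rw [← hA2]
        _ = t ^ 2 * (D + 2 * B) := by ring
    have h4 : t * A ≤ D := by linarith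
    have h5 : A ^ 2 = (t * A) * (D + 2 * B) := by
      calc A ^ 2 = A * A := by ring
        _ = (t * (D + 2 * B)) * A := by rw [← hA2]
        _ = (t * A) * (D + 2 * B) := by ring
    rw [h5]
    exact mul_le_mul_of_nonneg_right h4 hpos.le

theorem PC_iff {D A B : ℝ} : PC D A B ↔
    ∀ t : ℝ, 0 ≤ t → t ≤ 1 → 2 * t * A - 2 * t ^ 2 * B ≤ (1 + t ^ 2) * D :=
  ⟨fun h _ h0 h1 => h.nonneg h0 h1, PC_of_forall⟩

theorem PC.mono {D D' A B : ℝ} (h : PC D A B) (hD : D ≤ D') : PC D' A B := by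
  rw [PC_iff] at h ⊢
  intro t h0 h1
  have := h t h0 h1
  have : (1 + t ^ 2) * D ≤ (1 + t ^ 2) * D' := mul_le_mul_of_nonneg_left hD (by positivity)
  linarith

theorem PC.smul {D A B c : ℝ} (h : PC D A B) (hc : 0 ≤ c) : PC (c * D) (c * A) (c * B) := by
  rw [PC_iff] at h ⊢
  intro t h0 h1
  have := mul_le_mul_of_nonneg_left (h t h0 h1) hc
  linarith


theorem SC.exists {G A B : ℝ} (h : SC G A B) :
    ∃ t : ℝ, 0 ≤ t ∧ t ≤ 1 ∧ (1 + t ^ 2) * G ≤ 2 * t * A - 2 * t ^ 2 * B := by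
  rcases h with h | h | ⟨hA, hB, h⟩
  · exact ⟨0, le_rfl, zero_le_one, by linarith⟩
  · exact ⟨1, zero_le_one, le_rfl, by linarith⟩
  · by_cases hG : G ≤ 0
    · exact ⟨0, le_rfl, zero_le_one, by linarith⟩
    · have hG' : 0 < G := not_le.mp hG
      have hpos : 0 < G + 2 * B := by linarith
      by_cases hA1 : A ≤ G + 2 * B
      · refine ⟨A / (G + 2 * B), div_nonneg hA hpos.le, (div_le_one hpos).mpr hA1, ?_⟩
        set t := A / (G + 2 * B) with ht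
        have hA2 : A = t * (G + 2 * B) := by
          rw [ht]; field_simp
        have h3 : t * A = t ^ 2 * (G + 2 * B) := by
          calc t * A = t * (t * (G + 2 * B)) := by rw [← hA2]
            _ = t ^ 2 * (G + 2 * B) := by ring
        have h5 : A ^ 2 = (t * A) * (G + 2 * B) := by
          calc A ^ 2 = A * A := by ring
            _ = (t * (G + 2 * B)) * A := by rw [← hA2]
            _ = (t * A) * (G + 2 * B) := by ring
        have h4 : G ≤ t * A := by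
          rw [h5] at h
          exact le_of_mul_le_mul_right h hpos
        linarith
      · exact ⟨1, zero_le_one, le_rfl, by linarith [not_le.mp hA1]⟩



/-! ### The pointwise side -/

/-- the four weights -/
noncomputable def wt2 (a1 a2 t : ℝ) : ℝ := 2 / (1 + t ^ 2) * (a1 * t + a2 * t ^ 2)

/-- `C = (1-t²)/(1+t²)` -/
noncomputable def wC (t : ℝ) : ℝ := (1 - t ^ 2) / (1 + t ^ 2)

lemma wt2_mul (a1 a2 t : ℝ) : (1 + t ^ 2) * wt2 a1 a2 t = 2 * (a1 * t + a2 * t ^ 2) := by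
  unfold wt2
  have : (1 + t ^ 2) ≠ 0 := by positivity
  field_simp

lemma wC_mul (t : ℝ) : (1 + t ^ 2) * wC t = 1 - t ^ 2 := by
  unfold wC
  have : (1 + t ^ 2) ≠ 0 := by positivity
  field_simp

lemma wt2_nonneg {a1 a2 t : ℝ} (h1 : 0 ≤ a1) (h2 : 0 ≤ a1 + a2) (h0 : 0 ≤ t) (ht : t ≤ 1) :
    0 ≤ wt2 a1 a2 t := by
  unfold wt2
  apply mul_nonneg (by positivity)
  have : 0 ≤ t * ((1 - t) * a1 + t * (a1 + a2)) :=
    mul_nonneg h0 (add_nonneg (mul_nonneg (by linarith) h1) (mul_nonneg h0 h2))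
  nlinarith

lemma one_add_K_nonneg {k1 k2 t : ℝ} (h1 : 0 ≤ 1 + k1) (h2 : 0 ≤ 1 + k1 + k2) (h0 : 0 ≤ t)
    (ht : t ≤ 1) : 0 ≤ 1 + wt2 k1 k2 t := by
  have hp : (0:ℝ) < 1 + t ^ 2 := by positivity
  have : 0 ≤ (1 + t ^ 2) * (1 + wt2 k1 k2 t) := by
    rw [mul_add, wt2_mul]
    have a1 : 0 ≤ t * (1 - t) * (1 + k1) := mul_nonneg (mul_nonneg h0 (by linarith)) h1
    have a2 : 0 ≤ t ^ 2 * (1 + k1 + k2) := mul_nonneg (sq_nonneg _) h2
    nlinarith [sq_nonneg (1 - t)]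
  exact nonneg_of_mul_nonneg_right this hp

lemma C_sub_K_nonneg {k1 k2 t : ℝ} (h1 : k1 ≤ 1) (h2 : k1 + k2 ≤ 0) (h0 : 0 ≤ t)
    (ht : t ≤ 1) : 0 ≤ wC t - wt2 k1 k2 t := by
  have hp : (0:ℝ) < 1 + t ^ 2 := by positivity
  have : 0 ≤ (1 + t ^ 2) * (wC t - wt2 k1 k2 t) := by
    rw [mul_sub, wt2_mul, wC_mul]
    have a1 : 0 ≤ t * (1 - t) * (1 - k1) :=
      mul_nonneg (mul_nonneg h0 (by linarith)) (by linarith)
    have a2 : 0 ≤ t ^ 2 * (-(k1 + k2)) := mul_nonneg (sq_nonneg _) (by linarith)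
    nlinarith [sq_nonneg (1 - t)]
  exact nonneg_of_mul_nonneg_right this hp

/-- The data of a conic family: `k` = transport, `e` = β, `m` = Parseval row on the larger slice,
`l` = Parseval row on the smaller slice. -/
structure Fam where
  (k1 k2 e1 e2 m1 m2 l1 l2 : ℝ)

/-- Sign conditions. -/
def Fam.OK (f : Fam) : Prop :=
  0 ≤ 1 + f.k1 ∧ 0 ≤ 1 + f.k1 + f.k2 ∧ f.k1 ≤ 1 ∧ f.k1 + f.k2 ≤ 0 ∧
    0 ≤ f.m1 ∧ 0 ≤ f.m1 + f.m2 ∧ 0 ≤ f.l1 ∧ 0 ≤ f.l1 + f.l2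

/-- `Â` at values `(F0, F1)` of the functional, points `(P, Q)` and Parseval values `(V0, V1)`. -/
def Fam.Ah (f : Fam) (F0 F1 P Q V0 V1 : ℝ) : ℝ :=
  f.k1 * (F0 - F1) + f.e1 * (P - Q) + f.m1 * V0 + f.l1 * V1

/-- `B̂`. -/
def Fam.Bh (f : Fam) (F0 F1 P Q V0 V1 : ℝ) : ℝ :=
  F1 - f.k2 * (F0 - F1) - f.e2 * (P - Q) - f.m2 * V0 - f.l2 * V1

/-- The algebra behind everything: a certificate row is `(1+t²) D ≥ 2tA - 2t²B`. -/
lemma Fam.row (f : Fam) (F0 F1 P Q V0 V1 S t : ℝ) :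
    (1 + t ^ 2) * (S - ((1 + wt2 f.k1 f.k2 t) * F0 + (wC t - wt2 f.k1 f.k2 t) * F1 +
      wt2 f.e1 f.e2 t * P + (-wt2 f.e1 f.e2 t) * Q + wt2 f.m1 f.m2 t * V0 +
      wt2 f.l1 f.l2 t * V1)) =
    (1 + t ^ 2) * (S - F0 - F1) -
      (2 * t * f.Ah F0 F1 P Q V0 V1 - 2 * t ^ 2 * f.Bh F0 F1 P Q V0 V1) := by
  have a := wt2_mul f.k1 f.k2 t
  have b := wt2_mul f.e1 f.e2 t
  have c := wt2_mul f.m1 f.m2 t
  have d := wt2_mul f.l1 f.l2 t
  have e := wC_mul t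
  unfold Fam.Ah Fam.Bh
  linear_combination (F1 - F0) * a + (Q - P) * b - V0 * c - V1 * d - F1 * e




/-- `√G + √G' - y0 - y1 ≥ y0 D` if `D(D+2)(D+2r)(D+2+2r) ≤ c²(1-r²)²`. -/
theorem D_le {c2 ρ y0 r D : ℝ} (hc : c2 = 1 - ρ ^ 2) (hρ : |ρ| ≤ 1)
    (h0 : 0 ≤ y0) (hr : 0 ≤ r) (hD : 0 ≤ D)
    (h : D * (D + 2) * (D + 2 * r) * (D + 2 + 2 * r) ≤ c2 * (1 - r ^ 2) ^ 2) :
    y0 * D ≤ Real.sqrt ((1 + ρ) / 2 * y0 ^ 2 + (1 - ρ) / 2 * (r * y0) ^ 2)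
        + Real.sqrt ((1 - ρ) / 2 * y0 ^ 2 + (1 + ρ) / 2 * (r * y0) ^ 2) - y0 - r * y0 := by
  refine tau_le hc hρ h0 (mul_nonneg hr h0) (Or.inr ⟨mul_nonneg h0 hD, ?_⟩)
  unfold gg
  have e1 : y0 * D * (2 * (y0 + r * y0) + y0 * D) *
      (y0 * D * (2 * (y0 + r * y0) + y0 * D) + 4 * (y0 * (r * y0))) =
      y0 ^ 4 * (D * (D + 2) * (D + 2 * r) * (D + 2 + 2 * r)) := by ring
  have e2 : c2 * (y0 ^ 2 - (r * y0) ^ 2) ^ 2 = y0 ^ 4 * (c2 * (1 - r ^ 2) ^ 2) := by ring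
  rw [e1, e2]
  exact mul_le_mul_of_nonneg_left h (by positivity)



/-! ### The scalar side -/





end Crest.Agent.R307.Conic
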