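import Crest.Agent.R307.Edge.B2_Mg

/-!
Row 307 (S0471), flow route: the two-point step on the edge lines `t = -1` and `s = 1`
for the potential `Ψ g = ρ²/c + ρ² b (φ(g) - c)`.
-/

set_option autoImplicit false

namespace Crest.Agent.R307.Edge

open Crest.Agent.R307.Flow Crest.Agent.R307.Elim

/-- edge `t = -1`, long side `ρ ≤ s` -/
theorem edgeA_long {ρ s b : ℝ} (h0 : 0 < ρ) (h1 : ρ < 1) (hreg : Reg ρ b) (hs : |s| < 1)
    (hsr : ρ ≤ s) : PairStep ρ s (-1) (fun g => ρ ^ 2 / ph ρ + ρ ^ 2 * b * (ph g - ph ρ)) := by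
  obtain ⟨s1, s2⟩ := abs_lt.1 hs
  obtain ⟨hb0, hb1⟩ := hreg.b
  obtain ⟨r, hr0, hr1, hr, hcr⟩ := exists_r h0 h1
  obtain ⟨v, hv0, hv1, hS1, hS2, hφ⟩ := par_long hr0 hr1 hr hs hsr
  have hrle := r_le2 hreg.rho hr1 hr
  obtain ⟨P, hP⟩ : ∃ P, P = (1 + r) * (1 + r) := ⟨_, rfl⟩
  obtain ⟨M, hM⟩ : ∃ M, M = (1 - r) * (1 - r) := ⟨_, rfl⟩
  obtain ⟨N, hN⟩ : ∃ N, N = 1 + r * r := ⟨_, rfl⟩
  obtain ⟨AA, hAA⟩ : ∃ AA, AA = P * M := ⟨_, rfl⟩
  obtain ⟨V, hV⟩ : ∃ V, V = v * v := ⟨_, rfl⟩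
  obtain ⟨N3, hN3⟩ : ∃ N3, N3 = N * N * N := ⟨_, rfl⟩
  obtain ⟨B, hB⟩ : ∃ B, B = N * N - b * AA := ⟨_, rfl⟩
  obtain ⟨D, hD⟩ : ∃ D, D = P + V * M := ⟨_, rfl⟩
  obtain ⟨Q, hQ⟩ : ∃ Q, Q = P * (1 + V) + V * M := ⟨_, rfl⟩
  obtain ⟨F, hF⟩ : ∃ F, F = 2 * r * D + M * Q := ⟨_, rfl⟩
  obtain ⟨g, hg⟩ : ∃ g, g = (1 + ρ) / 2 * s + (1 - ρ) / 2 * (-1) := ⟨_, rfl⟩
  rw [← hP, ← hM, ← hV, ← hD] at hS1 hS2 hφ
  rw [← hN] at hr hcr
  have hNMP : P + M = 2 * N := by rw [hP, hM, hN]; ring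
  have hMN : N - 2 * r = M := by rw [hM, hN]; ring
  have hPN : N + 2 * r = P := by rw [hP, hN]; ring
  have hNP : N * (1 + ρ) = P := by rw [← hPN]; linear_combination hr
  have hNM : N * (1 - ρ) = M := by rw [← hMN]; linear_combination -hr
  have hr3 : 0 < 1 - r := by linarith
  have pN : 0 < N := by rw [hN]; positivity
  have pP : 0 < P := by rw [hP]; positivity
  have pM : 0 < M := by rw [hM]; positivity
  have pV : 0 ≤ V := by rw [hV]; positivity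
  have pV1 : V ≤ 1 := by rw [hV]; nlinarith
  have pD : 0 < D := by rw [hD]; positivity
  have pQ : 0 < Q := by rw [hQ]; positivity
  have pF : 0 < F := by rw [hF]; positivity
  have hc : 0 < ph ρ := ph_pos (by rw [abs_lt]; constructor <;> linarith)
  have hκ0 := kappa_nonneg h0 h1 hb1
  have hκ := kappa_eq (b := b) hc hcr hP hM hAA hB
  have hu : ((1 + r) * (1 - r)) * ((1 + r) * (1 - r)) = AA := by rw [hAA, hP, hM]; ring
  have hg1 : |g| < 1 := by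
    rw [hg, abs_lt]
    constructor <;> nlinarith
  have hgp : 0 ≤ ph g := ph_nonneg g
  have hwg : ph g ^ 2 = 1 - g ^ 2 := ph_sq hg1.le
  have hG : (1 - g) * (N * D) = M * Q := by
    calc (1 - g) * (N * D) = (N * (1 + ρ)) * (D * (1 - s)) / 2 + (N * (1 - ρ)) * D := by
          rw [hg]; ring
      _ = M * Q := by rw [hNP, hS1, hNM, hQ, hD]; ring
  have hg2 : 1 + g = (1 + ρ) / 2 * (1 + s) := by rw [hg]; ring
  have hw : (1 - g ^ 2) * (N * D) ^ 2 = P ^ 2 * M * Q := by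
    calc (1 - g ^ 2) * (N * D) ^ 2 = (1 - g) * (N * D) * ((1 + g) * (N * D)) := by ring
      _ = M * Q * ((N * (1 + ρ)) * (D * (1 + s)) / 2) := by rw [hG, hg2]; ring
      _ = _ := by rw [hNP, hS2]; ring
  have hK : ((s + 1) / 2) ^ 2 / (1 - g ^ 2 + g * (ρ * (s + 1) / 2)) * F = P * N := by
    have e1 : 1 - g ^ 2 + g * (ρ * (s + 1) / 2) = (s + 1) * (1 - g + ρ) / 2 := by
      have : 1 - g ^ 2 = (1 - g) * (1 + g) := by ring
      rw [this, hg2]; ring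
    have e2 : (1 - g + ρ) * (N * D) = F := by
      rw [hF]; linear_combination hG + D * hr
    rw [e1, Kval (k := N * D) (by linarith) (by linarith [(abs_lt.1 hg1).2]) e2]
    linear_combination N / 2 * hS2
  -- the two candidates
  obtain ⟨Y0, hY0⟩ : ∃ Y, Y = N * P - r * D := ⟨_, rfl⟩
  obtain ⟨E0, hE0⟩ : ∃ E, E = 2 * r * V * N * D + Q * M * (P - 2 * r * V) := ⟨_, rfl⟩
  obtain ⟨Y2, hY2⟩ : ∃ Y, Y = N * P + r * D := ⟨_, rfl⟩
  obtain ⟨E2, hE2⟩ : ∃ E, E = Q * (N * P + 2 * r * D) - 2 * r * V * N * D := ⟨_, rfl⟩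
  have pE0 : 0 < E0 := by
    have : 0 < P - 2 * r * V := by
      have : 2 * r * V ≤ 2 * r * 1 := mul_le_mul_of_nonneg_left pV1 (by positivity)
      linarith
    rw [hE0]; positivity
  have pE2 : 0 < E2 := by
    have e1 : E2 = Q * (N * P) + 2 * r * D * (P + V * N) := by
      rw [hE2, hQ]; linear_combination 2 * r * D * V * hNMP
    rw [e1]; positivity
  obtain ⟨n0, hn0⟩ : ∃ n, n = (1 - s) * (1 - ρ + s) := ⟨_, rfl⟩
  obtain ⟨d0, hd0⟩ : ∃ n, n = ρ * (1 - s) + (1 - g) * (1 - 2 * ρ + s) := ⟨_, rfl⟩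
  obtain ⟨n2, hn2⟩ : ∃ n, n = (1 - s) * (1 + ρ + s) := ⟨_, rfl⟩
  obtain ⟨d2, hd2⟩ : ∃ n, n = (1 - g) * (1 + 2 * ρ + s) - ρ * (1 - s) := ⟨_, rfl⟩
  have kn0 : n0 * (N * D) ^ 2 = (2 * M) * (2 * V * N * Y0) := by
    calc n0 * (N * D) ^ 2 = (D * (1 - s)) * (N * (D * (1 + s)) - (N * ρ) * D) * N := by
          rw [hn0]; ring
      _ = _ := by rw [hS1, hS2, hr, hY0]; ring
  have kd0 : d0 * (N * D) ^ 2 = (2 * M) * E0 := by
    calc d0 * (N * D) ^ 2 = (N * ρ) * (D * (1 - s)) * (N * D) +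
          ((1 - g) * (N * D)) * (N * (D * (1 + s)) - 2 * (N * ρ) * D) := by rw [hd0]; ring
      _ = _ := by
          rw [hS1, hS2, hr, hG, hE0, hD]
          linear_combination 2 * M * Q * P * hMN
  have kn2 : n2 * (N * D) ^ 2 = (2 * M) * (2 * V * N * Y2) := by
    calc n2 * (N * D) ^ 2 = (D * (1 - s)) * (N * (D * (1 + s)) + (N * ρ) * D) * N := by
          rw [hn2]; ring
      _ = _ := by rw [hS1, hS2, hr, hY2]; ring
  have kd2 : d2 * (N * D) ^ 2 = (2 * M) * E2 := by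
    calc d2 * (N * D) ^ 2 = ((1 - g) * (N * D)) * (N * (D * (1 + s)) + 2 * (N * ρ) * D) -
          (N * ρ) * (D * (1 - s)) * (N * D) := by rw [hd2]; ring
      _ = _ := by rw [hS1, hS2, hr, hG, hE2]; ring
  have pd0 : 0 < d0 := by
    have : 0 < d0 * (N * D) ^ 2 := by rw [kd0]; positivity
    exact (mul_pos_iff_of_pos_right (by positivity)).1 this
  have pd2 : 0 < d2 := by
    have : 0 < d2 * (N * D) ^ 2 := by rw [kd2]; positivity
    exact (mul_pos_iff_of_pos_right (by positivity)).1 this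
  have pn0 : 0 ≤ n0 := by rw [hn0]; exact mul_nonneg (by linarith) (by linarith)
  have hα0 := al_of (by positivity) pd0.ne' kn0 kd0
  have hα2 := al_of (by positivity) pd2.ne' kn2 kd2
  -- the two potentials inequalities
  have ii0 : (1 + ρ) / 2 * (n0 / d0) * (ph s * ((1 / ph ρ - b * ph ρ) + b * ph s)) +
      ((s + 1) / 2) ^ 2 / (1 - g ^ 2 + g * (ρ * (s + 1) / 2)) ≤
      ph g * ((1 / ph ρ - b * ph ρ) + b * ph g) := by
    obtain ⟨Z, hZ⟩ : ∃ Z, Z = 2 * (v * V) * Y0 * (B * D + 2 * b * v * (AA * N)) * (N * F) +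
      N3 * (D * D) * E0 - b * AA * (Q * (E0 * F)) := ⟨_, rfl⟩
    obtain ⟨T, hT⟩ : ∃ T, T = Q * (B * B) * (D * D) * ((E0 * F) * (E0 * F)) - P * (Z * Z) :=
      ⟨_, rfl⟩
    refine A_long_ii pN pD pE0 pF pP pM hc hκ0 hgp hNP hAA hN3 hcr hu hφ hwg hw hK hκ hα0 hZ hT ?_
    rcases hreg with ⟨q1, q2, q3⟩ | ⟨q1, q2, q3⟩
    · have hrle1 := r_le1 q1 hr1 (by rw [← hN]; exact hr)
      exact A0.main v r b v r b P M N AA V N3 B D Q F Y0 E0 Z T (by linarith) (by linarith)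
        (by linarith) (by linarith) (by linarith) (by linarith) (by ring) (by ring) (by ring)
        hP hM hN hAA hV hN3 hB hD hQ hF hY0 hE0 hZ hT
    · exact A0b.main v r b v r b P M N AA V N3 B D Q F Y0 E0 Z T (by linarith) (by linarith)
        (by linarith) (by linarith) (by linarith) (by linarith) (by ring) (by ring) (by ring)
        hP hM hN hAA hV hN3 hB hD hQ hF hY0 hE0 hZ hT
  have ii2 : (1 + ρ) / 2 * (n2 / d2) * (ph s * ((1 / ph ρ - b * ph ρ) + b * ph s)) +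
      ((s + 1) / 2) ^ 2 / (1 - g ^ 2 + g * (ρ * (s + 1) / 2)) ≤
      ph g * ((1 / ph ρ - b * ph ρ) + b * ph g) := by
    obtain ⟨Z, hZ⟩ : ∃ Z, Z = 2 * (v * V) * Y2 * (B * D + 2 * b * v * (AA * N)) * (N * F) +
      N3 * (D * D) * E2 - b * AA * (Q * (E2 * F)) := ⟨_, rfl⟩
    obtain ⟨T, hT⟩ : ∃ T, T = Q * (B * B) * (D * D) * ((E2 * F) * (E2 * F)) - P * (Z * Z) :=
      ⟨_, rfl⟩
    refine A_long_ii pN pD pE2 pF pP pM hc hκ0 hgp hNP hAA hN3 hcr hu hφ hwg hw hK hκ hα2 hZ hT ?_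
    exact A2.main v r b v r b P M N AA V N3 B D Q F Y2 E2 Z T (by linarith) (by linarith)
        (by linarith) (by linarith) (by linarith) (by linarith) (by ring) (by ring) (by ring)
        hP hM hN hAA hV hN3 hB hD hQ hF hY2 hE2 hZ hT
  -- conclusion
  have key : ∀ al, n0 / d0 ≤ al → n2 / d2 ≤ al →
      (1 + ρ) / 2 * al * (ph s * ((1 / ph ρ - b * ph ρ) + b * ph s)) +
      ((s + 1) / 2) ^ 2 / (1 - g ^ 2 + g * (ρ * (s + 1) / 2)) ≤
      ph g * ((1 / ph ρ - b * ph ρ) + b * ph g) →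
      PairStep ρ s (-1) (fun g => ρ ^ 2 / ph ρ + ρ ^ 2 * b * (ph g - ph ρ)) := by
    intro al k0 k2 hii
    refine stepA h0 h1 hs ((div_nonneg pn0 pd0.le).trans k0) hg ?_ hii
    intro x hx _
    rw [div_le_iff₀ pd0] at k0
    rw [div_le_iff₀ pd2] at k2
    refine aff_nonneg (p := 1 - ρ) (q := 1 + ρ) (m := ρ * (1 - s)) (n := ρ * (1 - s))
      (by linarith) (by linarith) hx.1 (by linarith [hx.2.2.2]) ?_ ?_
    · have e : (1 - ρ) * (al * (1 - g ^ 2) - (1 + ρ) / 2 * (1 - s ^ 2)) +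
          (al * (g * ((1 + ρ) / 2)) - (1 + ρ) / 2 * s) * (ρ * (1 - s)) =
          (1 + ρ) / 2 * (al * d0 - n0) := by
        rw [hn0, hd0, hg]; ring
      rw [e]
      exact mul_nonneg (by linarith) (by linarith)
    · have e : (1 + ρ) * (al * (1 - g ^ 2) - (1 + ρ) / 2 * (1 - s ^ 2)) -
          (al * (g * ((1 + ρ) / 2)) - (1 + ρ) / 2 * s) * (ρ * (1 - s)) =
          (1 + ρ) / 2 * (al * d2 - n2) := by
        rw [hn2, hd2, hg]; ring
      rw [e]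
      exact mul_nonneg (by linarith) (by linarith)
  rcases le_total (n0 / d0) (n2 / d2) with h | h
  · exact key _ h le_rfl ii2
  · exact key _ le_rfl h ii0

/-- edge `t = -1`, short side `s ≤ ρ` -/
theorem edgeA_short {ρ s b : ℝ} (h0 : 0 < ρ) (h1 : ρ < 1) (hreg : Reg ρ b) (hs : |s| < 1)
    (hsr : s ≤ ρ) : PairStep ρ s (-1) (fun g => ρ ^ 2 / ph ρ + ρ ^ 2 * b * (ph g - ph ρ)) := by
  obtain ⟨s1, s2⟩ := abs_lt.1 hs
  obtain ⟨hb0, hb1⟩ := hreg.b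
  obtain ⟨r, hr0, hr1, hr, hcr⟩ := exists_r h0 h1
  obtain ⟨v, hv0, hv1, hS1, hS2, hφ⟩ := par_short hr0 hr1 hr hs hsr
  have hrle := r_le2 hreg.rho hr1 hr
  obtain ⟨P, hP⟩ : ∃ P, P = (1 + r) * (1 + r) := ⟨_, rfl⟩
  obtain ⟨M, hM⟩ : ∃ M, M = (1 - r) * (1 - r) := ⟨_, rfl⟩
  obtain ⟨N, hN⟩ : ∃ N, N = 1 + r * r := ⟨_, rfl⟩
  obtain ⟨AA, hAA⟩ : ∃ AA, AA = P * M := ⟨_, rfl⟩
  obtain ⟨V, hV⟩ : ∃ V, V = v * v := ⟨_, rfl⟩
  obtain ⟨N3, hN3⟩ : ∃ N3, N3 = N * N * N := ⟨_, rfl⟩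
  obtain ⟨B, hB⟩ : ∃ B, B = N * N - b * AA := ⟨_, rfl⟩
  obtain ⟨D, hD⟩ : ∃ D, D = M + V * P := ⟨_, rfl⟩
  obtain ⟨Q, hQ⟩ : ∃ Q, Q = 2 * N + V * P := ⟨_, rfl⟩
  obtain ⟨F, hF⟩ : ∃ F, F = 2 * r * D + M * Q := ⟨_, rfl⟩
  obtain ⟨g, hg⟩ : ∃ g, g = (1 + ρ) / 2 * s + (1 - ρ) / 2 * (-1) := ⟨_, rfl⟩
  rw [← hP, ← hM, ← hV, ← hD] at hS1 hS2 hφ
  rw [← hN] at hr hcr
  have hNMP : P + M = 2 * N := by rw [hP, hM, hN]; ring
  have hMN : N - 2 * r = M := by rw [hM, hN]; ring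
  have hPN : N + 2 * r = P := by rw [hP, hN]; ring
  have hNP : N * (1 + ρ) = P := by rw [← hPN]; linear_combination hr
  have hNM : N * (1 - ρ) = M := by rw [← hMN]; linear_combination -hr
  have hr3 : 0 < 1 - r := by linarith
  have pN : 0 < N := by rw [hN]; positivity
  have pP : 0 < P := by rw [hP]; positivity
  have pM : 0 < M := by rw [hM]; positivity
  have pV : 0 ≤ V := by rw [hV]; positivity
  have pD : 0 < D := by rw [hD]; positivity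
  have pQ : 0 < Q := by rw [hQ]; positivity
  have pF : 0 < F := by rw [hF]; positivity
  have hc : 0 < ph ρ := ph_pos (by rw [abs_lt]; constructor <;> linarith)
  have hκ0 := kappa_nonneg h0 h1 hb1
  have hκ := kappa_eq (b := b) hc hcr hP hM hAA hB
  have hu : ((1 + r) * (1 - r)) * ((1 + r) * (1 - r)) = AA := by rw [hAA, hP, hM]; ring
  have hg1 : |g| < 1 := by
    rw [hg, abs_lt]
    constructor <;> nlinarith
  have hgp : 0 ≤ ph g := ph_nonneg g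
  have hwg : ph g ^ 2 = 1 - g ^ 2 := ph_sq hg1.le
  have hG : (1 - g) * (N * D) = M * Q := by
    calc (1 - g) * (N * D) = (N * (1 + ρ)) * (D * (1 - s)) / 2 + (N * (1 - ρ)) * D := by
          rw [hg]; ring
      _ = M * Q := by rw [hNP, hS1, hNM, hQ, hD]; linear_combination M * hNMP
  have hg2 : 1 + g = (1 + ρ) / 2 * (1 + s) := by rw [hg]; ring
  have hw : (1 - g ^ 2) * (N * D) ^ 2 = V * P ^ 2 * M * Q := by
    calc (1 - g ^ 2) * (N * D) ^ 2 = (1 - g) * (N * D) * ((1 + g) * (N * D)) := by ring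
      _ = M * Q * ((N * (1 + ρ)) * (D * (1 + s)) / 2) := by rw [hG, hg2]; ring
      _ = _ := by rw [hNP, hS2]; ring
  have hK : ((s + 1) / 2) ^ 2 / (1 - g ^ 2 + g * (ρ * (s + 1) / 2)) * F = V * P * N := by
    have e1 : 1 - g ^ 2 + g * (ρ * (s + 1) / 2) = (s + 1) * (1 - g + ρ) / 2 := by
      have : 1 - g ^ 2 = (1 - g) * (1 + g) := by ring
      rw [this, hg2]; ring
    have e2 : (1 - g + ρ) * (N * D) = F := by
      rw [hF]; linear_combination hG + D * hr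
    rw [e1, Kval (k := N * D) (by linarith) (by linarith [(abs_lt.1 hg1).2]) e2]
    linear_combination N / 2 * hS2
  -- the two candidates
  obtain ⟨Y1, hY1⟩ : ∃ Y, Y = N * M + r * D := ⟨_, rfl⟩
  obtain ⟨Y3, hY3⟩ : ∃ Y, Y = N * (M * (N + 3 * r) - r * (V * P)) := ⟨_, rfl⟩
  obtain ⟨E3, hE3⟩ : ∃ E, E = 2 * M * N * (N + 3 * r) + V * P * (N * N - 8 * (r * r)) := ⟨_, rfl⟩
  have pE3 : 0 < E3 := by
    have h5 : r * r ≤ (101 / 256) * (101 / 256) :=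
      mul_le_mul hrle hrle hr0.le (by norm_num)
    have : 0 ≤ N * N - 8 * (r * r) := by
      rw [hN]; nlinarith [mul_nonneg hr0.le hr0.le, mul_nonneg (mul_nonneg hr0.le hr0.le) (mul_nonneg hr0.le hr0.le)]
    rw [hE3]; positivity
  obtain ⟨n1, hn1⟩ : ∃ n, n = 1 + ρ - s := ⟨_, rfl⟩
  obtain ⟨d1, hd1⟩ : ∃ n, n = (1 - g) + ρ := ⟨_, rfl⟩
  obtain ⟨n3, hn3⟩ : ∃ n, n = 1 + ρ - s - 2 * ρ * s := ⟨_, rfl⟩
  obtain ⟨d3, hd3⟩ : ∃ n, n = (1 - g) * (1 + 2 * ρ) - ρ := ⟨_, rfl⟩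
  have kn1 : n1 * (N * D) = 1 * (2 * Y1) := by
    rw [hn1, hY1]; linear_combination N * hS1 + D * hr
  have kd1 : d1 * (N * D) = 1 * F := by
    rw [hd1, hF]; linear_combination hG + D * hr
  have kn3 : n3 * (N * (N * D)) = 1 * (2 * Y3) := by
    calc n3 * (N * (N * D)) = N * ((N + 2 * (N * ρ)) * (D * (1 - s)) - (N * ρ) * D) := by
          rw [hn3]; ring
      _ = _ := by rw [hS1, hr, hY3, hD]; ring
  have kd3 : d3 * (N * (N * D)) = 1 * E3 := by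
    calc d3 * (N * (N * D)) = ((1 - g) * (N * D)) * (N + 2 * (N * ρ)) - (N * ρ) * (N * D) := by
          rw [hd3]; ring
      _ = _ := by
          rw [hr, hG, hE3, hQ, hD]
          linear_combination -V * P * (N + 4 * r) * hMN
  have pd1 : 0 < d1 := by
    have : 0 < d1 * (N * D) := by rw [kd1]; positivity
    exact (mul_pos_iff_of_pos_right (by positivity)).1 this
  have pd3 : 0 < d3 := by
    have : 0 < d3 * (N * (N * D)) := by rw [kd3]; positivity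
    exact (mul_pos_iff_of_pos_right (by positivity)).1 this
  have pn1 : 0 ≤ n1 := by rw [hn1]; linarith
  have hα1 := al_of one_ne_zero pd1.ne' kn1 kd1
  have hα3 := al_of one_ne_zero pd3.ne' kn3 kd3
  -- the two potentials inequalities
  have ii1 : (1 + ρ) / 2 * (n1 / d1) * (ph s * ((1 / ph ρ - b * ph ρ) + b * ph s)) +
      ((s + 1) / 2) ^ 2 / (1 - g ^ 2 + g * (ρ * (s + 1) / 2)) ≤
      ph g * ((1 / ph ρ - b * ph ρ) + b * ph g) := by
    obtain ⟨Z, hZ⟩ : ∃ Z, Z = 2 * Y1 * (B * D + 2 * b * v * (AA * N)) +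
      v * (N3 * (D * D) - b * AA * (Q * F)) := ⟨_, rfl⟩
    obtain ⟨T, hT⟩ : ∃ T, T = Q * (B * B) * (D * D) * (F * F) - P * (Z * Z) := ⟨_, rfl⟩
    refine A_short_ii' pN pD pF pP pM hc hκ0 hgp hNP hAA hN3 hV hcr hu hφ hwg hw hK hκ hα1 hZ
      hT ?_
    rcases hreg with ⟨q1, q2, q3⟩ | ⟨q1, q2, q3⟩
    · have hrle1 := r_le1 q1 hr1 (by rw [← hN]; exact hr)
      exact A1.main v r b v r b P M N AA V N3 B D Q F Y1 Z T (by linarith) (by linarith)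
        (by linarith) (by linarith) (by linarith) (by linarith) (by ring) (by ring) (by ring)
        hP hM hN hAA hV hN3 hB hD hQ hF hY1 hZ hT
    · exact A1b.main v r b v r b P M N AA V N3 B D Q F Y1 Z T (by linarith) (by linarith)
        (by linarith) (by linarith) (by linarith) (by linarith) (by ring) (by ring) (by ring)
        hP hM hN hAA hV hN3 hB hD hQ hF hY1 hZ hT
  have ii3 : (1 + ρ) / 2 * (n3 / d3) * (ph s * ((1 / ph ρ - b * ph ρ) + b * ph s)) +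
      ((s + 1) / 2) ^ 2 / (1 - g ^ 2 + g * (ρ * (s + 1) / 2)) ≤
      ph g * ((1 / ph ρ - b * ph ρ) + b * ph g) := by
    obtain ⟨Z, hZ⟩ : ∃ Z, Z = 2 * Y3 * (B * D + 2 * b * v * (AA * N)) * F +
      v * (N3 * (D * D) * E3 - b * AA * (Q * (E3 * F))) := ⟨_, rfl⟩
    obtain ⟨T, hT⟩ : ∃ T, T = Q * (B * B) * (D * D) * ((E3 * F) * (E3 * F)) - P * (Z * Z) :=
      ⟨_, rfl⟩
    refine A_short_ii pN pD pE3 pF pP pM hc hκ0 hgp hNP hAA hN3 hV hcr hu hφ hwg hw hK hκ hα3 hZ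
      hT ?_
    exact A3.main v r b v r b P M N AA V N3 B D Q F Y3 E3 Z T (by linarith) (by linarith)
        (by linarith) (by linarith) (by linarith) (by linarith) (by ring) (by ring) (by ring)
        hP hM hN hAA hV hN3 hB hD hQ hF hY3 hE3 hZ hT
  -- conclusion
  have key : ∀ al, n1 / d1 ≤ al → n3 / d3 ≤ al →
      (1 + ρ) / 2 * al * (ph s * ((1 / ph ρ - b * ph ρ) + b * ph s)) +
      ((s + 1) / 2) ^ 2 / (1 - g ^ 2 + g * (ρ * (s + 1) / 2)) ≤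
      ph g * ((1 / ph ρ - b * ph ρ) + b * ph g) →
      PairStep ρ s (-1) (fun g => ρ ^ 2 / ph ρ + ρ ^ 2 * b * (ph g - ph ρ)) := by
    intro al k0 k2 hii
    refine stepA h0 h1 hs ((div_nonneg pn1 pd1.le).trans k0) hg ?_ hii
    intro x hx hx2
    rw [div_le_iff₀ pd1] at k0
    rw [div_le_iff₀ pd3] at k2
    refine aff_nonneg (p := 1 + ρ) (q := 1 + ρ) (m := ρ * (1 + s)) (n := ρ * (1 + s))
      (by linarith) (by linarith) hx.2.1 (by linarith) ?_ ?_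
    · have e : (1 + ρ) * (al * (1 - g ^ 2) - (1 + ρ) / 2 * (1 - s ^ 2)) +
          (al * (g * ((1 + ρ) / 2)) - (1 + ρ) / 2 * s) * (ρ * (1 + s)) =
          (1 + ρ) / 2 * (1 + s) * (al * d1 - n1) := by
        rw [hn1, hd1, hg]; ring
      rw [e]
      exact mul_nonneg (mul_nonneg (by linarith) (by linarith)) (by linarith)
    · have e : (1 + ρ) * (al * (1 - g ^ 2) - (1 + ρ) / 2 * (1 - s ^ 2)) -
          (al * (g * ((1 + ρ) / 2)) - (1 + ρ) / 2 * s) * (ρ * (1 + s)) =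
          (1 + ρ) / 2 * (1 + s) * (al * d3 - n3) := by
        rw [hn3, hd3, hg]; ring
      rw [e]
      exact mul_nonneg (mul_nonneg (by linarith) (by linarith)) (by linarith)
  rcases le_total (n1 / d1) (n3 / d3) with h | h
  · exact key _ h le_rfl ii3
  · exact key _ le_rfl h ii1

end Crest.Agent.R307.Edge
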