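import Crest.Agent.R307.SubDefs
import Crest.Agent.R307.Split

-- ▼ part R307/Local
section

/-!
Row 307 (S0472), task T3: the local bound, cube version (helper145).
-/

set_option autoImplicit false

open Crest.CubeNoise Set

namespace Crest.Agent.R307

namespace Local

/-- `chi x = psi x - x^2/2`. -/
noncomputable def chi (x : ℝ) : ℝ := psi x - x ^ 2 / 2

theorem hasDerivAt_chi {x : ℝ} (hx : |x| < 1) : HasDerivAt chi (Real.artanh x - x) x := by
  have h1 := hasDerivAt_psi hx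
  have h2 : HasDerivAt (fun y : ℝ => y ^ 2 / 2) x x := by
    have h3 := (hasDerivAt_pow 2 x).div_const 2
    have e : ((2 : ℕ) : ℝ) * x ^ (2 - 1) / 2 = x := by norm_num
    rw [e] at h3
    exact h3
  exact h1.sub h2

theorem convexOn_chi : ConvexOn ℝ (Ioo (-1) 1) chi := by
  have hopen : IsOpen (Ioo (-1 : ℝ) 1) := isOpen_Ioo
  apply MonotoneOn.convexOn_of_deriv (convex_Ioo _ _)
  · intro x hx
    exact (hasDerivAt_chi (abs_lt.2 ⟨hx.1, hx.2⟩)).continuousAt.continuousWithinAt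
  · rw [hopen.interior_eq]
    intro x hx
    exact (hasDerivAt_chi (abs_lt.2 ⟨hx.1, hx.2⟩)).differentiableAt.differentiableWithinAt
  · rw [hopen.interior_eq]
    have hmono : MonotoneOn (fun x : ℝ => Real.artanh x - x) (Ioo (-1) 1) := by
      apply monotoneOn_of_deriv_nonneg (convex_Ioo _ _)
      · intro x hx
        exact ((hasDerivAt_artanh (abs_lt.2 ⟨hx.1, hx.2⟩)).sub
          (hasDerivAt_id x)).continuousAt.continuousWithinAt
      · rw [hopen.interior_eq]
        intro x hx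
        exact ((hasDerivAt_artanh (abs_lt.2 ⟨hx.1, hx.2⟩)).sub
          (hasDerivAt_id x)).differentiableAt.differentiableWithinAt
      · rw [hopen.interior_eq]
        intro x hx
        have hd := ((hasDerivAt_artanh (abs_lt.2 ⟨hx.1, hx.2⟩)).sub (hasDerivAt_id x)).deriv
        have e : deriv (fun x : ℝ => Real.artanh x - x) x = 1 / (1 - x ^ 2) - 1 := by
          rw [← hd]; rfl
        rw [e]
        have h0 : 0 < 1 - x ^ 2 := by nlinarith [hx.1, hx.2]
        rw [sub_nonneg, le_div_iff₀ h0]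
        nlinarith [sq_nonneg x]
    intro x hx y hy hxy
    rw [(hasDerivAt_chi (abs_lt.2 ⟨hx.1, hx.2⟩)).deriv, (hasDerivAt_chi (abs_lt.2 ⟨hy.1, hy.2⟩)).deriv]
    exact hmono hx hy hxy

theorem chi_tangent {x y : ℝ} (hx : |x| < 1) (hy : |y| < 1) :
    chi y + (Real.artanh y - y) * (x - y) ≤ chi x := by
  obtain ⟨hy1, hy2⟩ := abs_lt.mp hy
  obtain ⟨hx1, hx2⟩ := abs_lt.mp hx
  rcases lt_trichotomy x y with h | h | h
  · have := convexOn_chi.slope_le_of_hasDerivAt (x := x) (y := y) ⟨hx1, hx2⟩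
      ⟨hy1, hy2⟩ h (hasDerivAt_chi hy)
    rw [slope_def_field, div_le_iff₀ (by linarith)] at this
    linarith
  · rw [h]; simp
  · have := convexOn_chi.le_slope_of_hasDerivAt (x := y) (y := x) ⟨hy1, hy2⟩
      ⟨hx1, hx2⟩ h (hasDerivAt_chi hy)
    rw [slope_def_field, le_div_iff₀ (by linarith)] at this
    linarith

theorem psi_eq_logs {x : ℝ} (hx : |x| ≤ 1) :
    psi x = ((1 + x) * Real.log (1 + x) + (1 - x) * Real.log (1 - x)) / 2 := by
  unfold psi
  rw [signEntropy_eq_logs hx]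
  ring

/-- `p psi(d/p)` for `p > 0`, `|d| < p`. -/
theorem mul_psi_div {p d : ℝ} (h1 : 0 < p + d) (h2 : 0 < p - d) :
    p * psi (d / p) = ((p + d) * (Real.log (p + d) - Real.log p)
      + (p - d) * (Real.log (p - d) - Real.log p)) / 2 := by
  have hp : 0 < p := by linarith
  have hx : |d / p| ≤ 1 := by
    rw [abs_div, abs_of_pos hp, div_le_one hp, abs_le]
    constructor <;> linarith
  rw [psi_eq_logs hx]
  have e1 : 1 + d / p = (p + d) / p := by field_simp
  have e2 : 1 - d / p = (p - d) / p := by field_simp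
  rw [e1, e2, Real.log_div h1.ne' hp.ne', Real.log_div h2.ne' hp.ne']
  field_simp

theorem io_persp' {a b : ℝ} (ha : |a| < 1) (hb : |b| < 1) :
    io a b = ((1 + (a + b) / 2) * psi ((a - b) / 2 / (1 + (a + b) / 2)) +
      (1 - (a + b) / 2) * psi ((a - b) / 2 / (1 - (a + b) / 2))) / 2 := by
  obtain ⟨ha1, ha2⟩ := abs_lt.mp ha
  obtain ⟨hb1, hb2⟩ := abs_lt.mp hb
  rw [mul_psi_div (by linarith) (by linarith), mul_psi_div (by linarith) (by linarith)]
  unfold io
  rw [signEntropy_eq_logs ha.le, signEntropy_eq_logs hb.le,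
    signEntropy_eq_logs (x := (a + b) / 2) (abs_le.2 ⟨by linarith, by linarith⟩)]
  have e1 : 1 + (a + b) / 2 + (a - b) / 2 = 1 + a := by ring
  have e2 : 1 + (a + b) / 2 - (a - b) / 2 = 1 + b := by ring
  have e3 : 1 - (a + b) / 2 + (a - b) / 2 = 1 - b := by ring
  have e4 : 1 - (a + b) / 2 - (a - b) / 2 = 1 - a := by ring
  rw [e1, e2, e3, e4]
  ring

/-- `2 io - d^2/(1-M^2)`. -/
noncomputable def KK (a b : ℝ) : ℝ := 2 * io a b - ((a - b) / 2) ^ 2 / (1 - ((a + b) / 2) ^ 2)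

theorem KK_eq {a b : ℝ} (ha : |a| < 1) (hb : |b| < 1) :
    KK a b = (1 + (a + b) / 2) * chi ((a - b) / 2 / (1 + (a + b) / 2)) +
      (1 - (a + b) / 2) * chi ((a - b) / 2 / (1 - (a + b) / 2)) := by
  obtain ⟨ha1, ha2⟩ := abs_lt.mp ha
  obtain ⟨hb1, hb2⟩ := abs_lt.mp hb
  unfold KK chi
  rw [io_persp' ha hb]
  have h1 : 0 < 1 + (a + b) / 2 := by linarith
  have h2 : 0 < 1 - (a + b) / 2 := by linarith
  have h3 : 1 - ((a + b) / 2) ^ 2 = (1 + (a + b) / 2) * (1 - (a + b) / 2) := by ring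
  rw [h3]
  have key : ∀ p q d : ℝ, 0 < p → 0 < q → p + q = 2 →
      d ^ 2 / (p * q) = p * ((d / p) ^ 2 / 2) + q * ((d / q) ^ 2 / 2) := by
    intro p q d hp hq hpq
    have hq' : q = 2 - p := by linarith
    subst hq'
    field_simp
    ring
  rw [key _ _ _ h1 h2 (by ring)]
  ring

theorem term_support {p0 d0 : ℝ} (h01 : 0 < p0 + d0) (h02 : 0 < p0 - d0) {p d : ℝ}
    (h1 : 0 < p + d) (h2 : 0 < p - d) :
    p * chi (d0 / p0) + (Real.artanh (d0 / p0) - d0 / p0) * (d - p * (d0 / p0)) ≤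
      p * chi (d / p) := by
  have hp : 0 < p := by linarith
  have hp0 : 0 < p0 := by linarith
  have hx : |d / p| < 1 := by
    rw [abs_div, abs_of_pos hp, div_lt_one hp, abs_lt]
    constructor <;> linarith
  have hx0 : |d0 / p0| < 1 := by
    rw [abs_div, abs_of_pos hp0, div_lt_one hp0, abs_lt]
    constructor <;> linarith
  have h := mul_le_mul_of_nonneg_left (chi_tangent hx hx0) hp.le
  calc _ = p * (chi (d0 / p0) + (Real.artanh (d0 / p0) - d0 / p0) * (d / p - d0 / p0)) := by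
        field_simp
    _ ≤ _ := h

theorem KK_support {A B : ℝ} (hA : |A| < 1) (hB : |B| < 1) : ∃ P Q : ℝ, ∀ a b : ℝ, |a| < 1 →
    |b| < 1 → KK A B + P * (a - A) + Q * (b - B) ≤ KK a b := by
  obtain ⟨hA1, hA2⟩ := abs_lt.mp hA
  obtain ⟨hB1, hB2⟩ := abs_lt.mp hB
  set M0 := (A + B) / 2 with hM0
  set d0 := (A - B) / 2 with hd0
  set x := d0 / (1 + M0) with hx
  set y := d0 / (1 - M0) with hy
  set cx := Real.artanh x - x with hcx
  set cy := Real.artanh y - y with hcy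
  have hKAB : KK A B = (1 + M0) * chi x + (1 - M0) * chi y := KK_eq hA hB
  have hx' : (1 + M0) * x = d0 := by
    rw [hx]; field_simp [show (1 + M0) ≠ 0 by rw [hM0]; linarith]
  have hy' : (1 - M0) * y = d0 := by
    rw [hy]; field_simp [show (1 - M0) ≠ 0 by rw [hM0]; linarith]
  refine ⟨(chi x - chi y) / 2 + cx * (1 - x) / 2 + cy * (1 + y) / 2,
    (chi x - chi y) / 2 + cx * (-1 - x) / 2 + cy * (-1 + y) / 2, ?_⟩
  intro a b ha hb
  obtain ⟨ha1, ha2⟩ := abs_lt.mp ha
  obtain ⟨hb1, hb2⟩ := abs_lt.mp hb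
  have t1 := term_support (p0 := 1 + M0) (d0 := d0) (p := 1 + (a + b) / 2) (d := (a - b) / 2)
    (by rw [hM0, hd0]; linarith) (by rw [hM0, hd0]; linarith) (by linarith) (by linarith)
  have t2 := term_support (p0 := 1 - M0) (d0 := d0) (p := 1 - (a + b) / 2) (d := (a - b) / 2)
    (by rw [hM0, hd0]; linarith) (by rw [hM0, hd0]; linarith) (by linarith) (by linarith)
  rw [← hx, ← hcx] at t1
  rw [← hy, ← hcy] at t2
  rw [KK_eq ha hb, hKAB]
  refine le_trans (le_of_eq ?_) (add_le_add t1 t2)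
  have e1 : A = M0 + d0 := by rw [hM0, hd0]; ring
  have e2 : B = M0 - d0 := by rw [hM0, hd0]; ring
  rw [e1, e2]
  have e3 : d0 = (1 + M0) * x := hx'.symm
  have e4 : cy * d0 = cy * ((1 - M0) * y) := by rw [hy']
  have e5 : cx * d0 = cx * ((1 + M0) * x) := by rw [hx']
  linear_combination (-1) * e4 - e5

end Local

open Local

/-- The variance of the midpoint function. -/
noncomputable def VV {n : ℕ} (g0 g1 : (Fin n → Bool) → ℝ) : ℝ :=
  cubeAverage (fun x => ((g0 x + g1 x) / 2) ^ 2) - ((cubeAverage g0 + cubeAverage g1) / 2) ^ 2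

theorem cubeAverage_mid {n : ℕ} (g0 g1 : (Fin n → Bool) → ℝ) :
    cubeAverage (fun x => (g0 x + g1 x) / 2) = (cubeAverage g0 + cubeAverage g1) / 2 := by
  unfold cubeAverage
  rw [← Finset.sum_div, Finset.sum_add_distrib]
  ring

theorem cubeAverage_half_sub {n : ℕ} (g0 g1 : (Fin n → Bool) → ℝ) :
    cubeAverage (fun x => (g0 x - g1 x) / 2) = (cubeAverage g0 - cubeAverage g1) / 2 := by
  unfold cubeAverage
  rw [← Finset.sum_div, Finset.sum_sub_distrib]
  ring

theorem VV_nonneg {n : ℕ} (g0 g1 : (Fin n → Bool) → ℝ) : 0 ≤ VV g0 g1 := by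
  unfold VV
  set m := (cubeAverage g0 + cubeAverage g1) / 2 with hm
  have h : cubeAverage (fun x => 2 * m * ((g0 x + g1 x) / 2) + -m ^ 2) ≤
      cubeAverage (fun x => ((g0 x + g1 x) / 2) ^ 2) := by
    apply cubeAverage_mono
    intro x
    nlinarith [sq_nonneg ((g0 x + g1 x) / 2 - m)]
  rw [cubeAverage_add (fun x => 2 * m * ((g0 x + g1 x) / 2)) (fun _ => -m ^ 2),
    cubeAverage_const_mul, cubeAverage_const, cubeAverage_mid, ← hm] at h
  nlinarith

theorem cubeAverage_one_sub_sq {n : ℕ} (g0 g1 : (Fin n → Bool) → ℝ) :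
    cubeAverage (fun x => 1 - ((g0 x + g1 x) / 2) ^ 2) =
      1 - ((cubeAverage g0 + cubeAverage g1) / 2) ^ 2 - VV g0 g1 := by
  have e : (fun x => 1 - ((g0 x + g1 x) / 2) ^ 2) =
      fun x => (1 : ℝ) + (-1) * ((g0 x + g1 x) / 2) ^ 2 := by
    funext x; ring
  rw [e, cubeAverage_add (fun _ => (1 : ℝ)) (fun x => (-1) * ((g0 x + g1 x) / 2) ^ 2),
    cubeAverage_const_mul, cubeAverage_const]
  unfold VV
  ring

theorem abs_delta_lt {n : ℕ} {g0 g1 : (Fin n → Bool) → ℝ} (h0 : ∀ x, |g0 x| < 1)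
    (h1 : ∀ x, |g1 x| < 1) :
    |(cubeAverage g0 - cubeAverage g1) / 2| <
      1 - ((cubeAverage g0 + cubeAverage g1) / 2) ^ 2 - VV g0 g1 := by
  rw [← cubeAverage_one_sub_sq, ← cubeAverage_half_sub, abs_lt]
  have key : ∀ x, |(g0 x - g1 x) / 2| < 1 - ((g0 x + g1 x) / 2) ^ 2 := by
    intro x
    obtain ⟨ha1, ha2⟩ := abs_lt.mp (h0 x)
    obtain ⟨hb1, hb2⟩ := abs_lt.mp (h1 x)
    rw [abs_lt]
    constructor
    · by_cases hs : 0 ≤ g0 x + g1 x
      · nlinarith
      · push Not at hs; nlinarith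
    · by_cases hs : 0 ≤ g0 x + g1 x
      · nlinarith
      · push Not at hs; nlinarith
  constructor
  · have : -cubeAverage (fun x => 1 - ((g0 x + g1 x) / 2) ^ 2) =
        cubeAverage (fun x => (-1) * (1 - ((g0 x + g1 x) / 2) ^ 2)) := by
      rw [cubeAverage_const_mul]; ring
    rw [this]
    apply cubeAverage_lt
    intro x
    have := (abs_lt.mp (key x)).1
    linarith
  · apply cubeAverage_lt
    intro x
    exact (abs_lt.mp (key x)).2

/-- Cauchy--Schwarz type lower bound. -/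
theorem sq_div_le {n : ℕ} {g0 g1 : (Fin n → Bool) → ℝ} (h0 : ∀ x, |g0 x| < 1)
    (h1 : ∀ x, |g1 x| < 1) :
    ((cubeAverage g0 - cubeAverage g1) / 2) ^ 2 /
      (1 - ((cubeAverage g0 + cubeAverage g1) / 2) ^ 2 - VV g0 g1) ≤
    cubeAverage (fun x => ((g0 x - g1 x) / 2) ^ 2 / (1 - ((g0 x + g1 x) / 2) ^ 2)) := by
  have hpos : 0 < 1 - ((cubeAverage g0 + cubeAverage g1) / 2) ^ 2 - VV g0 g1 :=
    lt_of_le_of_lt (abs_nonneg _) (abs_delta_lt h0 h1)
  set δ := (cubeAverage g0 - cubeAverage g1) / 2 with hδ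
  set W := 1 - ((cubeAverage g0 + cubeAverage g1) / 2) ^ 2 - VV g0 g1 with hW
  set c := δ / W with hc
  have h : cubeAverage (fun x => 2 * c * ((g0 x - g1 x) / 2) +
      (-c ^ 2) * (1 - ((g0 x + g1 x) / 2) ^ 2)) ≤
      cubeAverage (fun x => ((g0 x - g1 x) / 2) ^ 2 / (1 - ((g0 x + g1 x) / 2) ^ 2)) := by
    apply cubeAverage_mono
    intro x
    obtain ⟨ha1, ha2⟩ := abs_lt.mp (h0 x)
    obtain ⟨hb1, hb2⟩ := abs_lt.mp (h1 x)
    have hv : 0 < 1 - ((g0 x + g1 x) / 2) ^ 2 := by nlinarith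
    rw [le_div_iff₀ hv]
    nlinarith [sq_nonneg ((g0 x - g1 x) / 2 - c * (1 - ((g0 x + g1 x) / 2) ^ 2))]
  rw [cubeAverage_add (fun x => 2 * c * ((g0 x - g1 x) / 2))
      (fun x => (-c ^ 2) * (1 - ((g0 x + g1 x) / 2) ^ 2)),
    cubeAverage_const_mul, cubeAverage_const_mul, cubeAverage_half_sub,
    cubeAverage_one_sub_sq, ← hδ, ← hW] at h
  refine le_trans (le_of_eq ?_) h
  rw [hc]
  field_simp
  ring

/-- **Local bound** (step (3) of the blueprint), cube version. -/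
theorem local_bound {n : ℕ} {g0 g1 : (Fin n → Bool) → ℝ} (h0 : ∀ x, |g0 x| < 1)
    (h1 : ∀ x, |g1 x| < 1) :
    ((cubeAverage g0 - cubeAverage g1) / 2) ^ 2 * VV g0 g1 /
      ((1 - ((cubeAverage g0 + cubeAverage g1) / 2) ^ 2) *
        (1 - ((cubeAverage g0 + cubeAverage g1) / 2) ^ 2 - VV g0 g1)) ≤
    2 * (cubeAverage (fun x => io (g0 x) (g1 x)) - io (cubeAverage g0) (cubeAverage g1)) := by
  have hpos : 0 < 1 - ((cubeAverage g0 + cubeAverage g1) / 2) ^ 2 - VV g0 g1 :=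
    lt_of_le_of_lt (abs_nonneg _) (abs_delta_lt h0 h1)
  have hV := VV_nonneg g0 g1
  have hw : 0 < 1 - ((cubeAverage g0 + cubeAverage g1) / 2) ^ 2 := by linarith
  have hJ := cube_jensen_of_support KK (fun A B hA hB => KK_support hA hB) h0 h1
  have hS := sq_div_le h0 h1
  have e : cubeAverage (fun x => KK (g0 x) (g1 x)) =
      2 * cubeAverage (fun x => io (g0 x) (g1 x)) +
      (-1) * cubeAverage (fun x => ((g0 x - g1 x) / 2) ^ 2 / (1 - ((g0 x + g1 x) / 2) ^ 2)) := by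
    rw [← cubeAverage_const_mul, ← cubeAverage_const_mul, ← cubeAverage_add]
    congr 1
    funext x
    unfold KK
    ring
  rw [e] at hJ
  have e2 : KK (cubeAverage g0) (cubeAverage g1) = 2 * io (cubeAverage g0) (cubeAverage g1) -
    ((cubeAverage g0 - cubeAverage g1) / 2) ^ 2 /
      (1 - ((cubeAverage g0 + cubeAverage g1) / 2) ^ 2) := rfl
  rw [e2] at hJ
  have e3 : ((cubeAverage g0 - cubeAverage g1) / 2) ^ 2 * VV g0 g1 /
      ((1 - ((cubeAverage g0 + cubeAverage g1) / 2) ^ 2) *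
        (1 - ((cubeAverage g0 + cubeAverage g1) / 2) ^ 2 - VV g0 g1)) =
      ((cubeAverage g0 - cubeAverage g1) / 2) ^ 2 /
      (1 - ((cubeAverage g0 + cubeAverage g1) / 2) ^ 2 - VV g0 g1) -
      ((cubeAverage g0 - cubeAverage g1) / 2) ^ 2 /
      (1 - ((cubeAverage g0 + cubeAverage g1) / 2) ^ 2) := by
    rw [div_sub_div _ _ hpos.ne' hw.ne']
    rw [div_eq_div_iff (by positivity) (by positivity)]
    ring
  rw [e3]
  linarith

end Crest.Agent.R307
end

-- ▼ part R307/Corner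
section

/-!
Row 307, task S0472-T4: the corner bound (helper403).
-/

set_option autoImplicit false

open Set Crest.CubeNoise

namespace Crest.Agent.R307.Corner

open Crest.Agent.R307

/-- `artanh x - artanh y = artanh ((x-y)/(1-xy))`. -/
theorem artanh_sub {x y : ℝ} (hx : |x| < 1) (hy : |y| < 1) :
    Real.artanh x - Real.artanh y = Real.artanh ((x - y) / (1 - x * y)) := by
  obtain ⟨x1, x2⟩ := abs_lt.mp hx
  obtain ⟨y1, y2⟩ := abs_lt.mp hy
  have hxy : 0 < 1 - x * y := by nlinarith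
  have ht : |(x - y) / (1 - x * y)| < 1 := by
    rw [abs_lt]
    constructor
    · rw [lt_div_iff₀ hxy]; nlinarith
    · rw [div_lt_iff₀ hxy]; nlinarith
  rw [artanh_eq_log_sub hx, artanh_eq_log_sub hy, artanh_eq_log_sub ht]
  have e1 : 1 + (x - y) / (1 - x * y) = (1 + x) * (1 - y) / (1 - x * y) := by
    field_simp; ring
  have e2 : 1 - (x - y) / (1 - x * y) = (1 - x) * (1 + y) / (1 - x * y) := by
    field_simp; ring
  have p1 : 0 < 1 + x := by linarith
  have p2 : 0 < 1 - x := by linarith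
  have p3 : 0 < 1 + y := by linarith
  have p4 : 0 < 1 - y := by linarith
  rw [e1, e2, Real.log_div (by positivity) hxy.ne', Real.log_div (by positivity) hxy.ne',
    Real.log_mul p1.ne' p4.ne', Real.log_mul p2.ne' p3.ne']
  ring

/-- `q = √(1 - t²(1-M²))` -/
noncomputable def qq (t M : ℝ) : ℝ := Real.sqrt (1 - t ^ 2 * (1 - M ^ 2))

/-- the optimal `d` -/
noncomputable def ds (t M : ℝ) : ℝ := (1 - qq t M) / t

/-- the Legendre transform -/
noncomputable def NN (t M : ℝ) : ℝ :=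
  Real.artanh t * ds t M - 2 * signEntropy M + signEntropy (M + ds t M) + signEntropy (M - ds t M)

theorem sq_lt_of_abs {M : ℝ} (hM : |M| < 1) : M ^ 2 < 1 := (sq_lt_one_iff_abs_lt_one M).mpr hM

section
variable {t M : ℝ} (ht0 : 0 < t) (ht1 : t < 1) (hM : |M| < 1)
include ht0 ht1 hM

theorem qq_arg_pos : 0 < 1 - t ^ 2 * (1 - M ^ 2) := by
  have h := sq_lt_of_abs hM
  have : t ^ 2 < 1 := by nlinarith
  nlinarith [sq_nonneg M, sq_nonneg t, mul_nonneg (sq_nonneg t) (sq_nonneg M)]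

theorem qq_pos : 0 < qq t M := Real.sqrt_pos.mpr (qq_arg_pos ht0 ht1 hM)

theorem qq_sq : qq t M ^ 2 = 1 - t ^ 2 * (1 - M ^ 2) := Real.sq_sqrt (qq_arg_pos ht0 ht1 hM).le

theorem qq_lt_one : qq t M < 1 := by
  have h := qq_sq ht0 ht1 hM
  have h1 := qq_pos ht0 ht1 hM
  have h2 := sq_lt_of_abs hM
  have h3 : 0 < t ^ 2 * (1 - M ^ 2) := mul_pos (pow_pos ht0 2) (by linarith)
  nlinarith

theorem abs_lt_qq : |M| < qq t M := by
  have h := qq_sq ht0 ht1 hM
  have h1 := qq_pos ht0 ht1 hM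
  have h2 := sq_lt_of_abs hM
  have h3 : t ^ 2 < 1 := by nlinarith
  refine abs_lt_of_sq_lt_sq ?_ h1.le
  rw [h]
  nlinarith [mul_pos (sub_pos.mpr h3) (sub_pos.mpr h2)]

theorem ds_pos : 0 < ds t M := div_pos (sub_pos.mpr (qq_lt_one ht0 ht1 hM)) ht0

theorem ds_eq : t * ds t M ^ 2 - 2 * ds t M + t * (1 - M ^ 2) = 0 := by
  have h := qq_sq ht0 ht1 hM
  have e : qq t M = 1 - t * ds t M := by
    unfold ds; field_simp; ring
  rw [e] at h
  have : t * (t * ds t M ^ 2 - 2 * ds t M + t * (1 - M ^ 2)) = 0 := by linarith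
  rcases mul_eq_zero.mp this with h' | h'
  · exact absurd h' ht0.ne'
  · exact h'

theorem ds_lt : ds t M < 1 - |M| := by
  have h := qq_sq ht0 ht1 hM
  have h1 := qq_pos ht0 ht1 hM
  unfold ds
  rw [div_lt_iff₀ ht0]
  have h0 := abs_nonneg M
  have hs : |M| ^ 2 = M ^ 2 := sq_abs M
  have key : (1 - t * (1 - |M|)) ^ 2 < qq t M ^ 2 := by
    rw [h]
    have : 0 < 2 * t * (1 - t) * (1 - |M|) := by
      apply mul_pos (mul_pos (by linarith) (by linarith)) (by linarith)
    nlinarith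
  have := abs_lt_of_sq_lt_sq key h1.le
  have := (abs_lt.mp this).2
  linarith

theorem abs_add_ds : |M + ds t M| < 1 := by
  have h1 := ds_lt ht0 ht1 hM
  have h2 := ds_pos ht0 ht1 hM
  calc |M + ds t M| ≤ |M| + |ds t M| := abs_add_le _ _
    _ < 1 := by rw [abs_of_pos h2]; linarith

theorem abs_sub_ds : |M - ds t M| < 1 := by
  have h1 := ds_lt ht0 ht1 hM
  have h2 := ds_pos ht0 ht1 hM
  calc |M - ds t M| ≤ |M| + |ds t M| := abs_sub _ _
    _ < 1 := by rw [abs_of_pos h2]; linarith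

theorem artanh_diff : Real.artanh (M + ds t M) - Real.artanh (M - ds t M) = Real.artanh t := by
  rw [artanh_sub (abs_add_ds ht0 ht1 hM) (abs_sub_ds ht0 ht1 hM)]
  congr 1
  have h := ds_eq ht0 ht1 hM
  have h2 := sq_lt_of_abs hM
  have hp : 0 < 1 - (M + ds t M) * (M - ds t M) := by
    nlinarith [sq_nonneg (ds t M)]
  rw [div_eq_iff hp.ne']
  linarith

theorem artanh_sum : Real.artanh (M + ds t M) + Real.artanh (M - ds t M) =
    Real.artanh (M / qq t M) + Real.artanh M := by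
  have hq := qq_pos ht0 ht1 hM
  have hMq := abs_lt_qq ht0 ht1 hM
  have hsub := abs_sub_ds ht0 ht1 hM
  have hadd := abs_add_ds ht0 ht1 hM
  have hneg : |-(M - ds t M)| < 1 := by rwa [abs_neg]
  have hMq' : |M / qq t M| < 1 := by
    rw [abs_div, abs_of_pos hq, div_lt_one hq]; exact hMq
  have hMn : |-M| < 1 := by rwa [abs_neg]
  have e1 : Real.artanh (M - ds t M) = -Real.artanh (-(M - ds t M)) := by
    rw [artanh_neg' hsub]; ring
  have e2 : Real.artanh M = -Real.artanh (-M) := by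
    rw [artanh_neg' hM]; ring
  rw [e1, e2, ← sub_eq_add_neg, ← sub_eq_add_neg, artanh_sub hadd hneg, artanh_sub hMq' hMn]
  congr 1
  have hd := ds_eq ht0 ht1 hM
  have hqe : qq t M = 1 - t * ds t M := by
    unfold ds; field_simp; ring
  have hsq := qq_sq ht0 ht1 hM
  have h2 := sq_lt_of_abs hM
  obtain ⟨a1, a2⟩ := abs_lt.mp hadd
  obtain ⟨b1, b2⟩ := abs_lt.mp hsub
  have hp : 0 < 1 - (M + ds t M) * -(M - ds t M) := by nlinarith
  have hp2 : 0 < qq t M + M ^ 2 := by positivity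
  have hp3 : 1 - M / qq t M * -M = (qq t M + M ^ 2) / qq t M := by field_simp; ring
  rw [hp3]
  have e3 : M / qq t M - -M = M * (1 + qq t M) / qq t M := by field_simp; ring
  rw [e3, div_div_div_cancel_right₀ hq.ne', div_eq_div_iff hp.ne' hp2.ne']
  -- 2M (q + M²) = M (1+q)(1 + M² - d²)
  set d := ds t M with hdd
  set q := qq t M with hqq
  -- use t*d = 1-q, t*(1-M^2) = 2d - t d^2
  have htd : t * d = 1 - q := by linarith
  -- multiply by t
  have key : t ^ 2 * ((M + d - -(M - d)) * (q + M ^ 2)) = t ^ 2 * (M * (1 + q) * (1 - (M + d) * -(M - d))) := by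
    have h5 : t ^ 2 * d ^ 2 = (1 - q) ^ 2 := by rw [← htd]; ring
    have h6 : t ^ 2 * (1 - M ^ 2) = 1 - q ^ 2 := by linarith
    have h7 : t ^ 2 * M ^ 2 = t ^ 2 - 1 + q ^ 2 := by linarith
    have l : t ^ 2 * ((M + d - -(M - d)) * (q + M ^ 2)) = 2 * M * (t ^ 2 * q + t ^ 2 * M ^ 2) := by ring
    have r : t ^ 2 * (M * (1 + q) * (1 - (M + d) * -(M - d))) =
        M * (1 + q) * (t ^ 2 + t ^ 2 * M ^ 2 - t ^ 2 * d ^ 2) := by ring
    rw [l, r, h5, h7]
    ring
  exact mul_left_cancel₀ (pow_pos ht0 2).ne' key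

theorem hasDerivAt_qq : HasDerivAt (qq t) (t ^ 2 * M / qq t M) M := by
  have hq := qq_arg_pos ht0 ht1 hM
  have h1 : HasDerivAt (fun M : ℝ => 1 - t ^ 2 * (1 - M ^ 2)) (2 * t ^ 2 * M) M := by
    have := (((hasDerivAt_pow 2 M).const_sub 1).const_mul (t ^ 2)).const_sub 1
    refine this.congr_deriv ?_
    push_cast; ring
  have h2 := h1.sqrt hq.ne'
  refine h2.congr_deriv ?_
  unfold qq
  field_simp

theorem hasDerivAt_ds : HasDerivAt (ds t) (-(t * M / qq t M)) M := by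
  have h := ((hasDerivAt_qq ht0 ht1 hM).const_sub 1).div_const t
  refine h.congr_deriv ?_
  have := (qq_pos ht0 ht1 hM).ne'
  field_simp

theorem hasDerivAt_NN : HasDerivAt (NN t) (Real.artanh M - Real.artanh (M / qq t M)) M := by
  have h1 := hasDerivAt_ds ht0 ht1 hM
  have h2 := (hasDerivAt_signEntropy hM)
  have h3 := (hasDerivAt_signEntropy (abs_add_ds ht0 ht1 hM)).comp M ((hasDerivAt_id M).add h1)
  have h4 := (hasDerivAt_signEntropy (abs_sub_ds ht0 ht1 hM)).comp M ((hasDerivAt_id M).sub h1)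
  have h5 := (((h1.const_mul (Real.artanh t)).sub (h2.const_mul 2)).add h3).add h4
  refine h5.congr_deriv ?_
  have e1 := artanh_diff ht0 ht1 hM
  have e2 := artanh_sum ht0 ht1 hM
  rw [← e1]
  linear_combination (-1 : ℝ) * e2

/-- `D''` -/
noncomputable def ww (t M : ℝ) : ℝ := t ^ 2 / (qq t M * (1 + qq t M))

theorem hasDerivAt_PP : HasDerivAt (fun M => Real.artanh (M / qq t M) - Real.artanh M)
    (ww t M) M := by
  have hq := qq_pos ht0 ht1 hM
  have hMq := abs_lt_qq ht0 ht1 hM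
  have hMq' : |M / qq t M| < 1 := by
    rw [abs_div, abs_of_pos hq, div_lt_one hq]; exact hMq
  have h1 : HasDerivAt (fun M => M / qq t M) ((1 * qq t M - M * (t ^ 2 * M / qq t M)) / qq t M ^ 2) M :=
    (hasDerivAt_id M).div (hasDerivAt_qq ht0 ht1 hM) hq.ne'
  have h2 := (hasDerivAt_artanh hMq').comp M h1
  have h3 := h2.sub (hasDerivAt_artanh hM)
  refine h3.congr_deriv ?_
  have hsq := qq_sq ht0 ht1 hM
  have h2M := sq_lt_of_abs hM
  have ht2 : t ^ 2 < 1 := by nlinarith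
  have hc : 0 < 1 - t ^ 2 := by linarith
  have hm : 0 < 1 - M ^ 2 := by linarith
  have e1 : 1 - (M / qq t M) ^ 2 = (1 - t ^ 2) * (1 - M ^ 2) / qq t M ^ 2 := by
    rw [div_pow, eq_div_iff (pow_pos hq 2).ne', sub_mul, div_mul_cancel₀ _ (pow_pos hq 2).ne', hsq]
    ring
  have e2 : (1 * qq t M - M * (t ^ 2 * M / qq t M)) / qq t M ^ 2 = (1 - t ^ 2) / qq t M ^ 3 := by
    rw [div_eq_div_iff (pow_pos hq 2).ne' (pow_pos hq 3).ne']
    have : (1 * qq t M - M * (t ^ 2 * M / qq t M)) * qq t M ^ 3 =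
        (qq t M ^ 2 - t ^ 2 * M ^ 2) * qq t M ^ 2 := by field_simp
    rw [this]
    congr 1
    rw [hsq]; ring
  rw [e1, e2]
  unfold ww
  have e3 : 1 / ((1 - t ^ 2) * (1 - M ^ 2) / qq t M ^ 2) * ((1 - t ^ 2) / qq t M ^ 3) =
      1 / ((1 - M ^ 2) * qq t M) := by
    field_simp
  rw [e3]
  have e4 : 1 / ((1 - M ^ 2) * qq t M) - 1 / (1 - M ^ 2) = (1 - qq t M) / ((1 - M ^ 2) * qq t M) := by
    field_simp
  rw [e4, div_eq_div_iff (mul_pos hm hq).ne' (mul_pos hq (by linarith)).ne']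
  have : t ^ 2 * (1 - M ^ 2) = (1 - qq t M) * (1 + qq t M) := by linarith
  linear_combination (-qq t M) * this

end

theorem ww_anti {t x y : ℝ} (ht0 : 0 < t) (ht1 : t < 1) (hx : |x| < 1) (hy : |y| < 1)
    (hxy : |x| ≤ |y|) : ww t y ≤ ww t x := by
  have q1 := qq_pos ht0 ht1 hx
  have q2 := qq_pos ht0 ht1 hy
  have hq : qq t x ≤ qq t y := by
    unfold qq
    apply Real.sqrt_le_sqrt
    have : x ^ 2 ≤ y ^ 2 := sq_le_sq.mpr hxy
    nlinarith [sq_nonneg t, mul_le_mul_of_nonneg_left this (sq_nonneg t)]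
  unfold ww
  apply div_le_div_of_nonneg_left (by positivity) (by positivity)
  nlinarith

theorem continuous_NN {t : ℝ} : Continuous (NN t) := by
  have h1 : Continuous (qq t) := by unfold qq; fun_prop
  have h2 : Continuous (ds t) := by unfold ds; fun_prop
  have h3 := continuous_signEntropy
  unfold NN
  exact (((continuous_const.mul h2).sub (continuous_const.mul h3)).add
    (h3.comp (continuous_id.add h2))).add (h3.comp (continuous_id.sub h2))

theorem NN_one {t : ℝ} : NN t 1 = 0 := by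
  have h : qq t 1 = 1 := by unfold qq; norm_num
  have h2 : ds t 1 = 0 := by unfold ds; rw [h]; simp
  unfold NN
  rw [h2, add_zero, sub_zero, signEntropy_one]
  ring

/-- main convexity comparison -/
theorem main_D {t m M : ℝ} (ht0 : 0 < t) (ht1 : t < 1) (hm0 : 0 ≤ m) (hm1 : m < 1) (hM : |M| < 1) :
    (M - m) ^ 2 * (NN t m + (Real.artanh m - Real.artanh (m / qq t m)) * (1 - m) - NN t 1) ≤
      (1 - m) ^ 2 * (NN t m + (Real.artanh m - Real.artanh (m / qq t m)) * (M - m) - NN t M) := by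
  set P : ℝ → ℝ := fun M => Real.artanh (M / qq t M) - Real.artanh M with hP
  obtain ⟨M1, M2⟩ := abs_lt.mp hM
  have hmabs : |m| < 1 := abs_lt_one_of_mem hm0 hm1
  -- the two paths
  have pa : ∀ s : ℝ, 0 ≤ s → s ≤ 1 → |m + s * (M - m)| < 1 := by
    intro s h0 h1
    have c1 : 0 < min (1 - m) (1 - M) := lt_min (by linarith) (by linarith)
    have c2 : 0 < min (1 + m) (1 + M) := lt_min (by linarith) (by linarith)
    have d1 := mul_le_mul_of_nonneg_left (min_le_left (1 - m) (1 - M)) (sub_nonneg.mpr h1)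
    have d2 := mul_le_mul_of_nonneg_left (min_le_right (1 - m) (1 - M)) h0
    have d3 := mul_le_mul_of_nonneg_left (min_le_left (1 + m) (1 + M)) (sub_nonneg.mpr h1)
    have d4 := mul_le_mul_of_nonneg_left (min_le_right (1 + m) (1 + M)) h0
    rw [abs_lt]; constructor <;> nlinarith
  have pb : ∀ s : ℝ, 0 ≤ s → s < 1 → |m + s * (1 - m)| < 1 := by
    intro s h0 h1
    rw [abs_lt]; constructor <;> nlinarith
  have pab : ∀ s : ℝ, 0 ≤ s → s < 1 → |m + s * (M - m)| ≤ |m + s * (1 - m)| := by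
    intro s h0 h1
    rw [abs_of_nonneg (a := m + s * (1 - m)) (by nlinarith), abs_le]
    constructor <;> nlinarith
  set Psi1 : ℝ → ℝ := fun s =>
    (1 - m) ^ 2 * ((M - m) * (P (m + s * (M - m)) - P m)) -
      (M - m) ^ 2 * ((1 - m) * (P (m + s * (1 - m)) - P m)) with hPsi1
  have la : ∀ s : ℝ, HasDerivAt (fun s : ℝ => m + s * (M - m)) (M - m) s := by
    intro s
    simpa using ((hasDerivAt_id s).mul_const (M - m)).const_add m
  have lb : ∀ s : ℝ, HasDerivAt (fun s : ℝ => m + s * (1 - m)) (1 - m) s := by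
    intro s
    simpa using ((hasDerivAt_id s).mul_const (1 - m)).const_add m
  have d1 : ∀ s ∈ Ico (0 : ℝ) 1, HasDerivAt Psi1
      ((1 - m) ^ 2 * (M - m) ^ 2 * (ww t (m + s * (M - m)) - ww t (m + s * (1 - m)))) s := by
    intro s hs
    have ha := (hasDerivAt_PP ht0 ht1 (pa s hs.1 hs.2.le)).comp s (la s)
    have hb := (hasDerivAt_PP ht0 ht1 (pb s hs.1 hs.2)).comp s (lb s)
    have h := ((ha.sub_const (P m)).const_mul (M - m)).const_mul ((1 - m) ^ 2)
    have h' := ((hb.sub_const (P m)).const_mul (1 - m)).const_mul ((M - m) ^ 2)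
    refine (h.sub h').congr_deriv ?_
    ring
  have mono1 : MonotoneOn Psi1 (Ico 0 1) := by
    refine monotoneOn_of_deriv_nonneg (convex_Ico 0 1) ?_ ?_ ?_
    · intro x hx
      exact (d1 x hx).continuousAt.continuousWithinAt
    · rw [interior_Ico]
      intro x hx
      exact (d1 x ⟨hx.1.le, hx.2⟩).differentiableAt.differentiableWithinAt
    · rw [interior_Ico]
      intro x hx
      rw [(d1 x ⟨hx.1.le, hx.2⟩).deriv]
      have := ww_anti ht0 ht1 (pa x hx.1.le hx.2.le) (pb x hx.1.le hx.2) (pab x hx.1.le hx.2)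
      exact mul_nonneg (by positivity) (by linarith)
  have Psi1_nonneg : ∀ s ∈ Ico (0 : ℝ) 1, 0 ≤ Psi1 s := by
    intro s hs
    have := mono1 (left_mem_Ico.mpr one_pos) hs hs.1
    have h0 : Psi1 0 = 0 := by simp [hPsi1]
    linarith
  set Psi : ℝ → ℝ := fun s =>
    (1 - m) ^ 2 * (- P m * (s * (M - m)) - NN t (m + s * (M - m))) -
      (M - m) ^ 2 * (- P m * (s * (1 - m)) - NN t (m + s * (1 - m))) with hPsi
  have d0 : ∀ s ∈ Ico (0 : ℝ) 1, HasDerivAt Psi (Psi1 s) s := by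
    intro s hs
    have ha := (hasDerivAt_NN ht0 ht1 (pa s hs.1 hs.2.le)).comp s (la s)
    have hb := (hasDerivAt_NN ht0 ht1 (pb s hs.1 hs.2)).comp s (lb s)
    have h := ((((hasDerivAt_id s).mul_const (M - m)).const_mul (- P m)).sub ha).const_mul ((1 - m) ^ 2)
    have h' := ((((hasDerivAt_id s).mul_const (1 - m)).const_mul (- P m)).sub hb).const_mul ((M - m) ^ 2)
    refine (h.sub h').congr_deriv ?_
    simp only [hPsi1, hP]
    ring
  have mono0 : MonotoneOn Psi (Icc 0 1) := by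
    refine monotoneOn_of_deriv_nonneg (convex_Icc 0 1) ?_ ?_ ?_
    · apply Continuous.continuousOn
      have hc := continuous_NN (t := t)
      fun_prop
    · rw [interior_Icc]
      intro x hx
      exact (d0 x ⟨hx.1.le, hx.2⟩).differentiableAt.differentiableWithinAt
    · rw [interior_Icc]
      intro x hx
      rw [(d0 x ⟨hx.1.le, hx.2⟩).deriv]
      exact Psi1_nonneg x ⟨hx.1.le, hx.2⟩
  have hfin := mono0 (left_mem_Icc.mpr zero_le_one) (right_mem_Icc.mpr zero_le_one) zero_le_one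
  simp only [hPsi, hP, zero_mul, mul_zero, add_zero, one_mul, add_sub_cancel] at hfin
  linarith

/-- the value of `D(1)` -/
theorem D_one {m δ : ℝ} (hm0 : 0 ≤ m) (hδ0 : 0 < δ) (hδ : δ < 1 - m) :
    (Real.artanh (m + δ) - Real.artanh (m - δ)) * δ -
      (2 * signEntropy m - signEntropy (m + δ) - signEntropy (m - δ)) -
      (Real.artanh (m + δ) + Real.artanh (m - δ) - 2 * Real.artanh m) * (1 - m) =
    -Real.log (1 - δ ^ 2 / (1 + m) ^ 2) := by
  have hA : |m + δ| < 1 := abs_lt.mpr ⟨by linarith, by linarith⟩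
  have hB : |m - δ| < 1 := abs_lt.mpr ⟨by linarith, by linarith⟩
  have hm : |m| < 1 := abs_lt.mpr ⟨by linarith, by linarith⟩
  rw [signEntropy_eq_logs hA.le, signEntropy_eq_logs hB.le, signEntropy_eq_logs hm.le,
    artanh_eq_log_sub hA, artanh_eq_log_sub hB, artanh_eq_log_sub hm]
  have e : 1 - δ ^ 2 / (1 + m) ^ 2 = (1 + (m + δ)) * (1 + (m - δ)) / (1 + m) ^ 2 := by
    have : (1 + m) ≠ 0 := by linarith
    field_simp
    ring
  have p1 : (1 + (m + δ)) ≠ 0 := by linarith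
  have p2 : (1 + (m - δ)) ≠ 0 := by linarith
  have p3 : (1 + m) ≠ 0 := by linarith
  rw [e, Real.log_div (mul_ne_zero p1 p2) (pow_ne_zero 2 p3), Real.log_mul p1 p2, Real.log_pow]
  push_cast
  ring

set_option maxHeartbeats 1000000 in
/-- **pointwise corner bound.** -/
theorem corner {m δ a b : ℝ} (hm0 : 0 ≤ m) (hδ0 : 0 < δ) (hδ : δ < 1 - m)
    (ha : |a| < 1) (hb : |b| < 1) :
    2 * io (m + δ) (m - δ) +
      (Real.artanh (m + δ) + Real.artanh (m - δ) - 2 * Real.artanh m) * ((a + b) / 2 - m) +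
      (Real.artanh (m + δ) - Real.artanh (m - δ)) * ((a - b) / 2 - δ) +
      (-Real.log (1 - δ ^ 2 / (1 + m) ^ 2) / (1 - m) ^ 2) * ((a + b) / 2 - m) ^ 2 ≤
    2 * io a b := by
  have hA : |m + δ| < 1 := abs_lt.mpr ⟨by linarith, by linarith⟩
  have hB : |m - δ| < 1 := abs_lt.mpr ⟨by linarith, by linarith⟩
  have hm : |m| < 1 := abs_lt.mpr ⟨by linarith, by linarith⟩
  have hm1 : m < 1 := by linarith
  obtain ⟨a1, a2⟩ := abs_lt.mp ha
  obtain ⟨b1, b2⟩ := abs_lt.mp hb
  set M := (a + b) / 2 with hMdef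
  set d := (a - b) / 2 with hddef
  have hM : |M| < 1 := abs_lt.mpr ⟨by rw [hMdef]; linarith, by rw [hMdef]; linarith⟩
  set t := 2 * δ / (1 - m ^ 2 + δ ^ 2) with ht
  have hden : 0 < 1 - m ^ 2 + δ ^ 2 := by nlinarith [sq_nonneg δ, sq_lt_of_abs hm]
  have ht0 : 0 < t := div_pos (by linarith) hden
  have ht1 : t < 1 := by
    rw [ht, div_lt_one hden]
    nlinarith
  -- at M = m : q = 1 - tδ and ds = δ
  have htd : t * (1 - m ^ 2 + δ ^ 2) = 2 * δ := div_mul_cancel₀ _ hden.ne'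
  have hqm : qq t m = 1 - t * δ := by
    unfold qq
    have h1 : 1 - t ^ 2 * (1 - m ^ 2) = (1 - t * δ) ^ 2 := by
      have : t ^ 2 * (1 - m ^ 2 + δ ^ 2) = 2 * δ * t := by
        calc t ^ 2 * (1 - m ^ 2 + δ ^ 2) = t * (t * (1 - m ^ 2 + δ ^ 2)) := by ring
          _ = 2 * δ * t := by rw [htd]; ring
      linarith
    rw [h1, Real.sqrt_sq]
    nlinarith
  have hdm : ds t m = δ := by
    unfold ds; rw [hqm]; field_simp; ring
  have hβ : Real.artanh t = Real.artanh (m + δ) - Real.artanh (m - δ) := by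
    have := artanh_diff ht0 ht1 hm
    rw [hdm] at this
    exact this.symm
  have hsum : Real.artanh (m + δ) + Real.artanh (m - δ) =
      Real.artanh (m / qq t m) + Real.artanh m := by
    have := artanh_sum ht0 ht1 hm
    rwa [hdm] at this
  have hmain := main_D ht0 ht1 hm0 hm1 hM
  have hNm : NN t m = Real.artanh t * δ - 2 * signEntropy m + signEntropy (m + δ) +
      signEntropy (m - δ) := by
    unfold NN; rw [hdm]
  -- Legendre bound at M
  have hleg : Real.artanh t * d - (2 * signEntropy M - signEntropy a - signEntropy b) ≤ NN t M := by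
    have hadd := abs_add_ds ht0 ht1 hM
    have hsub := abs_sub_ds ht0 ht1 hM
    have e1 := signEntropy_le_tangent ha.le hadd
    have e2 := signEntropy_le_tangent hb.le hsub
    have e3 := artanh_diff ht0 ht1 hM
    have ea : a = M + d := by rw [hMdef, hddef]; ring
    have eb : b = M - d := by rw [hMdef, hddef]; ring
    unfold NN
    rw [← e3]
    have : Real.artanh (M + ds t M) * (a - (M + ds t M)) +
        Real.artanh (M - ds t M) * (b - (M - ds t M)) =
        (Real.artanh (M + ds t M) - Real.artanh (M - ds t M)) * (d - ds t M) := by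
      rw [ea, eb]; ring
    nlinarith
  have hD := D_one hm0 hδ0 hδ
  rw [NN_one, hNm, hβ] at hmain
  rw [hβ] at hleg
  have h1m : 0 < (1 - m) ^ 2 := pow_pos (by linarith) 2
  -- rewrite the slope
  have hslope : Real.artanh m - Real.artanh (m / qq t m) =
      -(Real.artanh (m + δ) + Real.artanh (m - δ) - 2 * Real.artanh m) := by
    rw [hsum]; ring
  rw [hslope] at hmain
  set L := -Real.log (1 - δ ^ 2 / (1 + m) ^ 2) with hL
  set S := Real.artanh (m + δ) + Real.artanh (m - δ) - 2 * Real.artanh m with hS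
  set β := Real.artanh (m + δ) - Real.artanh (m - δ) with hβd
  have hmain' : (M - m) ^ 2 * L ≤ (1 - m) ^ 2 *
      (β * δ - 2 * signEntropy m + signEntropy (m + δ) + signEntropy (m - δ) + -S * (M - m) - NN t M) := by
    have : β * δ - 2 * signEntropy m + signEntropy (m + δ) + signEntropy (m - δ) + -S * (1 - m) - 0 = L := by
      rw [← hD]; ring
    rw [this] at hmain
    exact hmain
  have h2 : L / (1 - m) ^ 2 * (M - m) ^ 2 ≤
      β * δ - 2 * signEntropy m + signEntropy (m + δ) + signEntropy (m - δ) + -S * (M - m) - NN t M := by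
    rw [div_mul_eq_mul_div, div_le_iff₀ h1m]
    linarith
  have ioA : 2 * io (m + δ) (m - δ) = 2 * signEntropy m - signEntropy (m + δ) - signEntropy (m - δ) := by
    unfold io
    have : (m + δ + (m - δ)) / 2 = m := by ring
    rw [this]; ring
  have ioa : 2 * io a b = 2 * signEntropy M - signEntropy a - signEntropy b := by
    unfold io
    rw [← hMdef]; ring
  rw [ioA, ioa]
  nlinarith

/-- **cube version.** -/
theorem corner_cube {n : ℕ} {g0 g1 : (Fin n → Bool) → ℝ} (h0 : ∀ x, |g0 x| < 1)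
    (h1 : ∀ x, |g1 x| < 1)
    (hm : 0 ≤ (cubeAverage g0 + cubeAverage g1) / 2)
    (hδ : 0 < (cubeAverage g0 - cubeAverage g1) / 2) :
    (-Real.log (1 - ((cubeAverage g0 - cubeAverage g1) / 2) ^ 2 /
        (1 + (cubeAverage g0 + cubeAverage g1) / 2) ^ 2) /
        (1 - (cubeAverage g0 + cubeAverage g1) / 2) ^ 2) *
      (cubeAverage (fun x => ((g0 x + g1 x) / 2) ^ 2) - ((cubeAverage g0 + cubeAverage g1) / 2) ^ 2) ≤
    2 * (cubeAverage (fun x => io (g0 x) (g1 x)) - io (cubeAverage g0) (cubeAverage g1)) := by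
  set m0 := cubeAverage g0 with hm0
  set m1 := cubeAverage g1 with hm1
  set m := (m0 + m1) / 2 with hmd
  set δ := (m0 - m1) / 2 with hδd
  have hm0' : |m0| < 1 := abs_cubeAverage_lt_one h0
  have hlt : δ < 1 - m := by
    have := (abs_lt.mp hm0').2
    rw [hδd, hmd]; linarith
  set K := -Real.log (1 - δ ^ 2 / (1 + m) ^ 2) / (1 - m) ^ 2 with hK
  have e0 : m + δ = m0 := by rw [hmd, hδd]; ring
  have e1 : m - δ = m1 := by rw [hmd, hδd]; ring
  set S := Real.artanh (m + δ) + Real.artanh (m - δ) - 2 * Real.artanh m with hS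
  set β := Real.artanh (m + δ) - Real.artanh (m - δ) with hβ
  have hpt : ∀ x, 2 * io m0 m1 + S * ((g0 x + g1 x) / 2 - m) + β * ((g0 x - g1 x) / 2 - δ) +
      K * ((g0 x + g1 x) / 2 - m) ^ 2 ≤ 2 * io (g0 x) (g1 x) := by
    intro x
    have := corner hm hδ hlt (h0 x) (h1 x)
    rw [← hS, ← hβ, ← hK, e0, e1] at this
    exact this
  have havg := cubeAverage_mono hpt
  have hl : cubeAverage (fun x => 2 * io m0 m1 + S * ((g0 x + g1 x) / 2 - m) +
      β * ((g0 x - g1 x) / 2 - δ) + K * ((g0 x + g1 x) / 2 - m) ^ 2) =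
      2 * io m0 m1 + K * (cubeAverage (fun x => ((g0 x + g1 x) / 2) ^ 2) - m ^ 2) := by
    have hexp : (fun x => 2 * io m0 m1 + S * ((g0 x + g1 x) / 2 - m) +
        β * ((g0 x - g1 x) / 2 - δ) + K * ((g0 x + g1 x) / 2 - m) ^ 2) =
        fun x => ((2 * io m0 m1 - S * m - β * δ + K * m ^ 2) +
          (S / 2 + β / 2 - K * m) * g0 x) + ((S / 2 - β / 2 - K * m) * g1 x +
          K * ((g0 x + g1 x) / 2) ^ 2) := by
      funext x; ring
    rw [hexp, cubeAverage_add (fun x => (2 * io m0 m1 - S * m - β * δ + K * m ^ 2) +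
          (S / 2 + β / 2 - K * m) * g0 x) (fun x => (S / 2 - β / 2 - K * m) * g1 x +
          K * ((g0 x + g1 x) / 2) ^ 2),
      cubeAverage_add (fun _ => 2 * io m0 m1 - S * m - β * δ + K * m ^ 2)
        (fun x => (S / 2 + β / 2 - K * m) * g0 x),
      cubeAverage_add (fun x => (S / 2 - β / 2 - K * m) * g1 x)
        (fun x => K * ((g0 x + g1 x) / 2) ^ 2),
      cubeAverage_const, cubeAverage_const_mul, cubeAverage_const_mul, cubeAverage_const_mul,
      ← hm0, ← hm1]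
    have e2 : m0 = m + δ := e0.symm
    have e3 : m1 = m - δ := e1.symm
    rw [show (S / 2 + β / 2 - K * m) * m0 = (S / 2 + β / 2 - K * m) * (m + δ) by rw [← e2],
      show (S / 2 - β / 2 - K * m) * m1 = (S / 2 - β / 2 - K * m) * (m - δ) by rw [← e3]]
    ring
  rw [hl, cubeAverage_const_mul] at havg
  linarith

end Crest.Agent.R307.Corner
end

-- ▼ part R307/NOne

/-!
Row 307 (S0472), task T2: the one-coordinate case `GG t M hbar ≤ kk a b`.
-/

set_option autoImplicit false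

open Set Crest.CubeNoise

namespace Crest.Agent.R307.NOne

/-- perspective formula for `io` (private copy) -/
theorem io_persp' {a b : ℝ} (ha : |a| < 1) (hb : |b| < 1) :
    io a b = ((1 + (a + b) / 2) * psi ((a - b) / 2 / (1 + (a + b) / 2)) +
      (1 - (a + b) / 2) * psi ((a - b) / 2 / (1 - (a + b) / 2))) / 2 := by
  obtain ⟨ha1, ha2⟩ := abs_lt.mp ha
  obtain ⟨hb1, hb2⟩ := abs_lt.mp hb
  have p1 : 0 < 1 + (a + b) / 2 := by linarith
  have p2 : 0 < 1 - (a + b) / 2 := by linarith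
  have hM : |(a + b) / 2| ≤ 1 := abs_le.mpr ⟨by linarith, by linarith⟩
  have hx1 : |(a - b) / 2 / (1 + (a + b) / 2)| ≤ 1 := by
    rw [abs_div, abs_of_pos p1, div_le_one p1]
    exact abs_le.mpr ⟨by linarith, by linarith⟩
  have hx2 : |(a - b) / 2 / (1 - (a + b) / 2)| ≤ 1 := by
    rw [abs_div, abs_of_pos p2, div_le_one p2]
    exact abs_le.mpr ⟨by linarith, by linarith⟩
  unfold io psi
  rw [signEntropy_eq_logs ha.le, signEntropy_eq_logs hb.le, signEntropy_eq_logs hM,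
    signEntropy_eq_logs hx1, signEntropy_eq_logs hx2]
  have e1 : 1 + (a - b) / 2 / (1 + (a + b) / 2) = (1 + a) / (1 + (a + b) / 2) := by
    rw [eq_div_iff p1.ne', add_mul, div_mul_cancel₀ _ p1.ne']; ring
  have e2 : 1 - (a - b) / 2 / (1 + (a + b) / 2) = (1 + b) / (1 + (a + b) / 2) := by
    rw [eq_div_iff p1.ne', sub_mul, div_mul_cancel₀ _ p1.ne']; ring
  have e3 : 1 + (a - b) / 2 / (1 - (a + b) / 2) = (1 - b) / (1 - (a + b) / 2) := by
    rw [eq_div_iff p2.ne', add_mul, div_mul_cancel₀ _ p2.ne']; ring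
  have e4 : 1 - (a - b) / 2 / (1 - (a + b) / 2) = (1 - a) / (1 - (a + b) / 2) := by
    rw [eq_div_iff p2.ne', sub_mul, div_mul_cancel₀ _ p2.ne']; ring
  rw [e1, e2, e3, e4, Real.log_div (by linarith) p1.ne', Real.log_div (by linarith) p1.ne',
    Real.log_div (by linarith) p2.ne', Real.log_div (by linarith) p2.ne']
  have f1 : (1 + (a + b) / 2) * ((1 + a) / (1 + (a + b) / 2)) = 1 + a := by
    rw [mul_comm]; exact div_mul_cancel₀ _ p1.ne'
  have f2 : (1 + (a + b) / 2) * ((1 + b) / (1 + (a + b) / 2)) = 1 + b := by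
    rw [mul_comm]; exact div_mul_cancel₀ _ p1.ne'
  have f3 : (1 - (a + b) / 2) * ((1 - b) / (1 - (a + b) / 2)) = 1 - b := by
    rw [mul_comm]; exact div_mul_cancel₀ _ p2.ne'
  have f4 : (1 - (a + b) / 2) * ((1 - a) / (1 - (a + b) / 2)) = 1 - a := by
    rw [mul_comm]; exact div_mul_cancel₀ _ p2.ne'
  set u1 := (1 + a) / (1 + (a + b) / 2)
  set u2 := (1 + b) / (1 + (a + b) / 2)
  set u3 := (1 - b) / (1 - (a + b) / 2)
  set u4 := (1 - a) / (1 - (a + b) / 2)
  linear_combination (-(Real.log (1 + a) - Real.log (1 + (a + b) / 2)) / 4) * f1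
    - ((Real.log (1 + b) - Real.log (1 + (a + b) / 2)) / 4) * f2
    - ((Real.log (1 - b) - Real.log (1 - (a + b) / 2)) / 4) * f3
    - ((Real.log (1 - a) - Real.log (1 - (a + b) / 2)) / 4) * f4

theorem io_lt {M d : ℝ} (hd0 : 0 ≤ d) (hd : d < 1 - |M|) :
    io (M + d) (M - d) < (1 - M ^ 2) * Real.log 2 := by
  have hM : |M| < 1 := by linarith
  obtain ⟨hM1, hM2⟩ := abs_lt.mp hM
  have hle := neg_abs_le M
  have hle' := le_abs_self M
  have ha : |M + d| < 1 := abs_lt.mpr ⟨by linarith, by linarith⟩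
  have hb : |M - d| < 1 := abs_lt.mpr ⟨by linarith, by linarith⟩
  have h := io_persp' ha hb
  have e1 : (M + d + (M - d)) / 2 = M := by ring
  have e2 : (M + d - (M - d)) / 2 = d := by ring
  rw [e1, e2] at h
  have p1 : 0 < 1 + M := by linarith
  have p2 : 0 < 1 - M := by linarith
  have q1 : |d / (1 + M)| ≤ 1 := by
    rw [abs_div, abs_of_pos p1, div_le_one p1, abs_of_nonneg hd0]; linarith
  have q2 : |d / (1 - M)| ≤ 1 := by
    rw [abs_div, abs_of_pos p2, div_le_one p2, abs_of_nonneg hd0]; linarith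
  have b1 := mul_le_mul_of_nonneg_left (psi_le_sq q1) p1.le
  have b2 := mul_le_mul_of_nonneg_left (psi_le_sq q2) p2.le
  have hl : 0 < Real.log 2 := Real.log_pos (by norm_num)
  have e3 : ((1 + M) * ((d / (1 + M)) ^ 2 * Real.log 2) +
      (1 - M) * ((d / (1 - M)) ^ 2 * Real.log 2)) / 2 = d ^ 2 / (1 - M ^ 2) * Real.log 2 := by
    have e4 : 1 - M ^ 2 = (1 + M) * (1 - M) := by ring
    rw [e4]
    field_simp
    ring
  have hv : 0 < 1 - M ^ 2 := by nlinarith
  have hdv : d < 1 - M ^ 2 := by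
    have : 1 - |M| ≤ 1 - M ^ 2 := by
      have := sq_abs M
      nlinarith [abs_nonneg M]
    linarith
  have e5 : d ^ 2 / (1 - M ^ 2) < 1 - M ^ 2 := by
    rw [div_lt_iff₀ hv]
    nlinarith
  have := mul_lt_mul_of_pos_right e5 hl
  linarith

/-- the comparison function -/
noncomputable def ff (M c d : ℝ) : ℝ := (1 - M ^ 2) * psi (c * d) - io (M + d) (M - d)

noncomputable def ff' (M c d : ℝ) : ℝ :=
  (1 - M ^ 2) * (c * Real.artanh (c * d)) - (Real.artanh (M + d) - Real.artanh (M - d)) / 2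

noncomputable def ff'' (M c d : ℝ) : ℝ :=
  (1 - M ^ 2) * (c ^ 2 / (1 - (c * d) ^ 2)) - (1 / (1 - (M + d) ^ 2) + 1 / (1 - (M - d) ^ 2)) / 2

noncomputable def QQ (M c D : ℝ) : ℝ :=
  (1 - M ^ 2) * (c ^ 2 * (1 - M ^ 2) ^ 2 - 1) +
    D * (1 + 2 * c ^ 2 * (1 - M ^ 2) ^ 2 - 3 * c ^ 2 * (1 - M ^ 2)) - D ^ 2 * (c ^ 2 * M ^ 2)

theorem hasDerivAt_ff {M c d : ℝ} (h1 : |M + d| < 1) (h2 : |M - d| < 1) (h3 : |c * d| < 1) :
    HasDerivAt (ff M c) (ff' M c d) d := by
  have d1 : HasDerivAt (fun x : ℝ => c * x) c d := by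
    simpa using (hasDerivAt_id d).const_mul c
  have d2 : HasDerivAt (fun x : ℝ => M + x) 1 d := (hasDerivAt_id d).const_add M
  have d3 : HasDerivAt (fun x : ℝ => M - x) (-1) d := (hasDerivAt_id d).const_sub M
  have p1 := ((hasDerivAt_psi h3).comp d d1).const_mul (1 - M ^ 2)
  have p2 := (hasDerivAt_signEntropy h1).comp d d2
  have p3 := (hasDerivAt_signEntropy h2).comp d d3
  have p4 := ((p2.add p3).div_const 2).const_sub (signEntropy M)
  have p5 := p1.sub p4
  refine (p5.congr_of_eventuallyEq ?_).congr_deriv ?_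
  · refine Filter.Eventually.of_forall fun x => ?_
    simp only [ff, io, Function.comp, Pi.sub_apply, Pi.add_apply]
    have e1 : (M + x + (M - x)) / 2 = M := by ring
    rw [e1]
  · unfold ff'
    ring

theorem hasDerivAt_ff' {M c d : ℝ} (h1 : |M + d| < 1) (h2 : |M - d| < 1) (h3 : |c * d| < 1) :
    HasDerivAt (ff' M c) (ff'' M c d) d := by
  have d1 : HasDerivAt (fun x : ℝ => c * x) c d := by
    simpa using (hasDerivAt_id d).const_mul c
  have d2 : HasDerivAt (fun x : ℝ => M + x) 1 d := (hasDerivAt_id d).const_add M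
  have d3 : HasDerivAt (fun x : ℝ => M - x) (-1) d := (hasDerivAt_id d).const_sub M
  have p1 := (((hasDerivAt_artanh h3).comp d d1).const_mul c).const_mul (1 - M ^ 2)
  have p2 := (hasDerivAt_artanh h1).comp d d2
  have p3 := (hasDerivAt_artanh h2).comp d d3
  have p4 := ((p2.sub p3).div_const 2)
  have p5 := p1.sub p4
  refine (p5.congr_of_eventuallyEq ?_).congr_deriv ?_
  · refine Filter.Eventually.of_forall fun x => ?_
    simp only [ff', Function.comp, Pi.sub_apply]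
  · unfold ff''
    ring

theorem ff''_eq {M c d : ℝ} (h1 : |M + d| < 1) (h2 : |M - d| < 1) (h3 : |c * d| < 1) :
    ff'' M c d = QQ M c (d ^ 2) /
      ((1 - (c * d) ^ 2) * ((1 - (M + d) ^ 2) * (1 - (M - d) ^ 2))) := by
  have p1 : 1 - (M + d) ^ 2 ≠ 0 := by
    have := (sq_lt_one_iff_abs_lt_one (M + d)).mpr h1
    linarith
  have p2 : 1 - (M - d) ^ 2 ≠ 0 := by
    have := (sq_lt_one_iff_abs_lt_one (M - d)).mpr h2
    linarith
  have p3 : 1 - (c * d) ^ 2 ≠ 0 := by
    have := (sq_lt_one_iff_abs_lt_one (c * d)).mpr h3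
    linarith
  have key : ∀ P A B k : ℝ, P ≠ 0 → A ≠ 0 → B ≠ 0 →
      k / P - (1 / A + 1 / B) / 2 = (k * (A * B) - P * (A + B) / 2) / (P * (A * B)) := by
    intro P A B k hP hA hB
    field_simp
    ring
  unfold ff'' QQ
  rw [← mul_div_assoc, key _ _ _ _ p3 p1 p2]
  congr 1
  ring

theorem den_pos {M c d : ℝ} (h1 : |M + d| < 1) (h2 : |M - d| < 1) (h3 : |c * d| < 1) :
    0 < (1 - (c * d) ^ 2) * ((1 - (M + d) ^ 2) * (1 - (M - d) ^ 2)) := by
  have p1 := (sq_lt_one_iff_abs_lt_one (M + d)).mpr h1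
  have p2 := (sq_lt_one_iff_abs_lt_one (M - d)).mpr h2
  have p3 := (sq_lt_one_iff_abs_lt_one (c * d)).mpr h3
  exact mul_pos (by linarith) (mul_pos (by linarith) (by linarith))

theorem ff_zero (M c : ℝ) : ff M c 0 = 0 := by
  unfold ff io
  rw [mul_zero, psi_zero]
  simp

theorem ff'_zero (M c : ℝ) : ff' M c 0 = 0 := by
  unfold ff'
  simp

/-- abstract calculus lemma -/
theorem calc_lemma {f f' f'' : ℝ → ℝ} {d : ℝ} (hd : 0 < d)
    (h1 : ∀ x ∈ Icc 0 d, HasDerivAt f (f' x) x) (h2 : ∀ x ∈ Icc 0 d, HasDerivAt f' (f'' x) x)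
    (h0 : f' 0 = 0) (hq : ∀ y z, 0 < y → y < z → z ≤ d → 0 < f'' z → 0 ≤ f'' y)
    (hf : f d ≤ f 0) : f' d ≤ 0 := by
  by_contra hcon
  push Not at hcon
  have hc' : ContinuousOn f' (Icc 0 d) := fun x hx => (h2 x hx).continuousAt.continuousWithinAt
  have hc : ContinuousOn f (Icc 0 d) := fun x hx => (h1 x hx).continuousAt.continuousWithinAt
  have hpos : ∀ x ∈ Icc 0 d, 0 ≤ f' x := by
    intro x hx
    by_contra hneg
    push Not at hneg
    have hx0 : 0 < x := by
      rcases eq_or_lt_of_le hx.1 with h | h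
      · rw [← h, h0] at hneg; exact absurd hneg (lt_irrefl _)
      · exact h
    have hxd : x < d := by
      rcases eq_or_lt_of_le hx.2 with h | h
      · rw [h] at hneg; linarith
      · exact h
    obtain ⟨y, hy, hy'⟩ := exists_hasDerivAt_eq_slope f' f'' hx0
      (hc'.mono (Icc_subset_Icc_right hx.2)) (fun z hz => h2 z ⟨hz.1.le, hz.2.le.trans hx.2⟩)
    obtain ⟨z, hz, hz'⟩ := exists_hasDerivAt_eq_slope f' f'' hxd
      (hc'.mono (Icc_subset_Icc_left hx.1)) (fun w hw => h2 w ⟨hx.1.trans hw.1.le, hw.2.le⟩)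
    have hy2 : f'' y < 0 := by
      rw [hy', h0]
      exact div_neg_of_neg_of_pos (by linarith) (by linarith)
    have hz2 : 0 < f'' z := by
      rw [hz']
      exact div_pos (by linarith) (by linarith)
    have := hq y z hy.1 (hy.2.trans hz.1) hz.2.le hz2
    linarith
  have hmono : MonotoneOn f (Icc 0 d) := by
    refine monotoneOn_of_deriv_nonneg (convex_Icc 0 d) hc ?_ ?_
    · rw [interior_Icc]
      intro x hx
      exact (h1 x ⟨hx.1.le, hx.2.le⟩).differentiableAt.differentiableWithinAt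
    · rw [interior_Icc]
      intro x hx
      rw [(h1 x ⟨hx.1.le, hx.2.le⟩).deriv]
      exact hpos x ⟨hx.1.le, hx.2.le⟩
  -- `f` is constant on `[0,d]`
  have hconst : ∀ x ∈ Icc 0 d, f x = f d := by
    intro x hx
    have i1 := hmono (left_mem_Icc.mpr hd.le) hx hx.1
    have i2 := hmono hx (right_mem_Icc.mpr hd.le) hx.2
    linarith
  have hz : ∀ x ∈ Ioo 0 d, f' x = 0 := by
    intro x hx
    have hev : f =ᶠ[nhds x] fun _ => f d := by
      filter_upwards [Ioo_mem_nhds hx.1 hx.2] with y hy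
      exact hconst y ⟨hy.1.le, hy.2.le⟩
    have := (hasDerivAt_const x (f d)).congr_of_eventuallyEq hev
    exact (h1 x ⟨hx.1.le, hx.2.le⟩).unique this
  have hcl : f' d = 0 := by
    have hcw : ContinuousWithinAt f' (Ioo 0 d) d :=
      ((h2 d (right_mem_Icc.mpr hd.le)).continuousAt).continuousWithinAt
    have hne : (nhdsWithin d (Ioo 0 d)).NeBot := by
      rw [← mem_closure_iff_nhdsWithin_neBot, closure_Ioo hd.ne]
      exact right_mem_Icc.mpr hd.le
    have ht : Filter.Tendsto f' (nhdsWithin d (Ioo 0 d)) (nhds 0) := by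
      refine tendsto_const_nhds.congr' ?_
      filter_upwards [self_mem_nhdsWithin] with x hx
      exact (hz x hx).symm
    exact tendsto_nhds_unique hcw ht
  linarith

/-- `psi (d/v) ≤ io / v` -/
theorem lower_io {M d : ℝ} (hd0 : 0 < d) (hd : d < 1 - |M|) :
    (1 - M ^ 2) * psi (d / (1 - M ^ 2)) ≤ io (M + d) (M - d) := by
  have hM : |M| < 1 := by linarith
  have hle := neg_abs_le M
  have hle' := le_abs_self M
  have hv : 0 < 1 - M ^ 2 := by
    have := (sq_lt_one_iff_abs_lt_one M).mpr hM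
    linarith
  have hdv : 1 - |M| ≤ 1 - M ^ 2 := by
    have := sq_abs M
    nlinarith [abs_nonneg M]
  set c := 1 / (1 - M ^ 2) with hc
  have hc0 : 0 < c := by positivity
  have hcv : c * (1 - M ^ 2) = 1 := by rw [hc]; field_simp
  have hr : ∀ x ∈ Icc 0 d, |M + x| < 1 ∧ |M - x| < 1 ∧ |c * x| < 1 := by
    intro x hx
    refine ⟨abs_lt.mpr ⟨by linarith [hx.1, hx.2], by linarith [hx.1, hx.2]⟩,
      abs_lt.mpr ⟨by linarith [hx.1, hx.2], by linarith [hx.1, hx.2]⟩, ?_⟩
    rw [abs_of_nonneg (mul_nonneg hc0.le hx.1), ← hcv]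
    exact mul_lt_mul_of_pos_left (by linarith [hx.2]) hc0
  have hneg : ∀ x ∈ Icc 0 d, ff'' M c x ≤ 0 := by
    intro x hx
    obtain ⟨r1, r2, r3⟩ := hr x hx
    rw [ff''_eq r1 r2 r3]
    refine div_nonpos_of_nonpos_of_nonneg ?_ (den_pos r1 r2 r3).le
    unfold QQ
    have e1 : c ^ 2 * (1 - M ^ 2) ^ 2 = 1 := by
      rw [← mul_pow, hcv, one_pow]
    have e2 : c ^ 2 * (1 - M ^ 2) = c := by
      rw [pow_two, mul_assoc, hcv, mul_one]
    have e3 : 1 + 2 * c ^ 2 * (1 - M ^ 2) ^ 2 - 3 * c ^ 2 * (1 - M ^ 2) = 3 * (1 - c) := by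
      linear_combination 2 * e1 - 3 * e2
    rw [e1, e3]
    have hc1 : 1 ≤ c := by
      rw [hc, le_div_iff₀ hv]
      nlinarith [sq_nonneg M]
    have := mul_nonneg (sq_nonneg x) (by linarith : (0 : ℝ) ≤ c - 1)
    have := mul_nonneg (sq_nonneg (x ^ 2)) (mul_nonneg (sq_nonneg c) (sq_nonneg M))
    nlinarith
  have hanti' : AntitoneOn (ff' M c) (Icc 0 d) := by
    refine antitoneOn_of_deriv_nonpos (convex_Icc 0 d) ?_ ?_ ?_
    · intro x hx
      obtain ⟨r1, r2, r3⟩ := hr x hx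
      exact (hasDerivAt_ff' r1 r2 r3).continuousAt.continuousWithinAt
    · rw [interior_Icc]
      intro x hx
      obtain ⟨r1, r2, r3⟩ := hr x ⟨hx.1.le, hx.2.le⟩
      exact (hasDerivAt_ff' r1 r2 r3).differentiableAt.differentiableWithinAt
    · rw [interior_Icc]
      intro x hx
      obtain ⟨r1, r2, r3⟩ := hr x ⟨hx.1.le, hx.2.le⟩
      rw [(hasDerivAt_ff' r1 r2 r3).deriv]
      exact hneg x ⟨hx.1.le, hx.2.le⟩
  have hanti : AntitoneOn (ff M c) (Icc 0 d) := by
    refine antitoneOn_of_deriv_nonpos (convex_Icc 0 d) ?_ ?_ ?_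
    · intro x hx
      obtain ⟨r1, r2, r3⟩ := hr x hx
      exact (hasDerivAt_ff r1 r2 r3).continuousAt.continuousWithinAt
    · rw [interior_Icc]
      intro x hx
      obtain ⟨r1, r2, r3⟩ := hr x ⟨hx.1.le, hx.2.le⟩
      exact (hasDerivAt_ff r1 r2 r3).differentiableAt.differentiableWithinAt
    · rw [interior_Icc]
      intro x hx
      obtain ⟨r1, r2, r3⟩ := hr x ⟨hx.1.le, hx.2.le⟩
      rw [(hasDerivAt_ff r1 r2 r3).deriv]
      have := hanti' (left_mem_Icc.mpr hd0.le) ⟨hx.1.le, hx.2.le⟩ hx.1.le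
      rwa [ff'_zero] at this
  have h := hanti (left_mem_Icc.mpr hd0.le) (right_mem_Icc.mpr hd0.le) hd0.le
  rw [ff_zero] at h
  unfold ff at h
  have e : c * d = d / (1 - M ^ 2) := by rw [hc]; ring
  rw [e] at h
  linarith

/-- main step for `d > 0` -/
theorem main_pos {M d r : ℝ} (hd0 : 0 < d) (hd : d < 1 - |M|) (hr0 : 0 ≤ r) (hr1 : r < 1)
    (hr : (1 - M ^ 2) * psi r = io (M + d) (M - d)) :
    (1 - M ^ 2) * (r * Real.artanh r) ≤ kk (M + d) (M - d) := by
  have hM : |M| < 1 := by linarith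
  have hle := neg_abs_le M
  have hle' := le_abs_self M
  have hv : 0 < 1 - M ^ 2 := by
    have := (sq_lt_one_iff_abs_lt_one M).mpr hM
    linarith
  have hdv : 1 - |M| ≤ 1 - M ^ 2 := by
    have := sq_abs M
    nlinarith [abs_nonneg M]
  -- `d / v ≤ r`
  have hlow := lower_io hd0 hd
  rw [← hr] at hlow
  have hdr : d / (1 - M ^ 2) ≤ r := by
    have h1 : psi (d / (1 - M ^ 2)) ≤ psi r := le_of_mul_le_mul_left hlow hv
    have h2 : d / (1 - M ^ 2) ∈ Icc (0 : ℝ) 1 :=
      ⟨by positivity, by rw [div_le_one hv]; linarith⟩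
    exact (strictMonoOn_psi.le_iff_le h2 ⟨hr0, hr1.le⟩).mp h1
  set c := r / d with hc
  have hcd : c * d = r := by rw [hc]; field_simp
  have hcv : 1 ≤ c * (1 - M ^ 2) := by
    rw [div_le_iff₀ hv] at hdr
    rw [hc, div_mul_eq_mul_div, le_div_iff₀ hd0]
    linarith
  have hc0 : 0 ≤ c := by positivity
  have hR : ∀ x ∈ Icc 0 d, |M + x| < 1 ∧ |M - x| < 1 ∧ |c * x| < 1 := by
    intro x hx
    refine ⟨abs_lt.mpr ⟨by linarith [hx.1, hx.2], by linarith [hx.1, hx.2]⟩,
      abs_lt.mpr ⟨by linarith [hx.1, hx.2], by linarith [hx.1, hx.2]⟩, ?_⟩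
    rw [abs_of_nonneg (mul_nonneg hc0 hx.1)]
    have := mul_le_mul_of_nonneg_left hx.2 hc0
    rw [hcd] at this
    linarith
  have hmain := calc_lemma (f := ff M c) (f' := ff' M c) (f'' := ff'' M c) hd0
    (fun x hx => by obtain ⟨r1, r2, r3⟩ := hR x hx; exact hasDerivAt_ff r1 r2 r3)
    (fun x hx => by obtain ⟨r1, r2, r3⟩ := hR x hx; exact hasDerivAt_ff' r1 r2 r3)
    (ff'_zero M c)
    (fun y z hy hyz hz hpos => by
      obtain ⟨r1, r2, r3⟩ := hR y ⟨hy.le, (hyz.trans_le hz).le⟩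
      obtain ⟨s1, s2, s3⟩ := hR z ⟨(hy.trans hyz).le, hz⟩
      rw [ff''_eq r1 r2 r3]
      rw [ff''_eq s1 s2 s3] at hpos
      have hQz : 0 < QQ M c (z ^ 2) := by
        by_contra hcon
        push Not at hcon
        have := div_nonpos_of_nonpos_of_nonneg hcon (den_pos s1 s2 s3).le
        linarith
      have hQ0 : 0 ≤ QQ M c 0 := by
        unfold QQ
        have : 1 ≤ c ^ 2 * (1 - M ^ 2) ^ 2 := by
          rw [← mul_pow]
          exact one_le_pow₀ hcv
        have := mul_nonneg hv.le (by linarith : (0 : ℝ) ≤ c ^ 2 * (1 - M ^ 2) ^ 2 - 1)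
        linarith
      refine div_nonneg ?_ (den_pos r1 r2 r3).le
      -- concavity
      have hyz2 : y ^ 2 ≤ z ^ 2 := by nlinarith
      have hz2 : 0 < z ^ 2 := by nlinarith
      have key : z ^ 2 * QQ M c (y ^ 2) = (z ^ 2 - y ^ 2) * QQ M c 0 + y ^ 2 * QQ M c (z ^ 2) +
          c ^ 2 * M ^ 2 * (y ^ 2 * z ^ 2 * (z ^ 2 - y ^ 2)) := by
        unfold QQ; ring
      have : 0 ≤ z ^ 2 * QQ M c (y ^ 2) := by
        rw [key]
        have t1 := mul_nonneg (by linarith : (0 : ℝ) ≤ z ^ 2 - y ^ 2) hQ0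
        have t2 := mul_nonneg (sq_nonneg y) hQz.le
        have t3 : 0 ≤ c ^ 2 * M ^ 2 * (y ^ 2 * z ^ 2 * (z ^ 2 - y ^ 2)) := by
          have : (0 : ℝ) ≤ z ^ 2 - y ^ 2 := by linarith
          positivity
        linarith
      exact nonneg_of_mul_nonneg_right this hz2)
    (by
      rw [ff_zero]
      unfold ff
      rw [hcd, hr]
      linarith)
  unfold ff' at hmain
  rw [hcd] at hmain
  have h3 := mul_le_mul_of_nonneg_right hmain hd0.le
  have e1 : ((1 - M ^ 2) * (c * Real.artanh r) -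
      (Real.artanh (M + d) - Real.artanh (M - d)) / 2) * d =
      (1 - M ^ 2) * ((c * d) * Real.artanh r) - kk (M + d) (M - d) := by
    unfold kk; ring
  rw [e1, hcd, zero_mul] at h3
  linarith

theorem io_comm' (a b : ℝ) : io a b = io b a := by unfold io; rw [add_comm a b]; ring

theorem kk_comm' (a b : ℝ) : kk a b = kk b a := by unfold kk; ring

theorem io_self' (a : ℝ) : io a a = 0 := by
  unfold io
  have : (a + a) / 2 = a := by ring
  rw [this]; ring

/-- `kk ≥ v F(io / v)` in parametrised form, together with existence of the parameter -/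
theorem kk_ge {a b : ℝ} (ha : |a| < 1) (hb : |b| < 1) :
    ∃ r : ℝ, 0 ≤ r ∧ r < 1 ∧ (1 - ((a + b) / 2) ^ 2) * psi r = io a b ∧
      (1 - ((a + b) / 2) ^ 2) * (r * Real.artanh r) ≤ kk a b := by
  have key : ∀ a b : ℝ, |a| < 1 → |b| < 1 → b < a →
      ∃ r : ℝ, 0 ≤ r ∧ r < 1 ∧ (1 - ((a + b) / 2) ^ 2) * psi r = io a b ∧
      (1 - ((a + b) / 2) ^ 2) * (r * Real.artanh r) ≤ kk a b := by
    intro a b ha hb hab
    obtain ⟨ha1, ha2⟩ := abs_lt.mp ha
    obtain ⟨hb1, hb2⟩ := abs_lt.mp hb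
    set M := (a + b) / 2 with hM
    set d := (a - b) / 2 with hdd
    have eA : M + d = a := by rw [hM, hdd]; ring
    have eB : M - d = b := by rw [hM, hdd]; ring
    have hd0 : 0 < d := by rw [hdd]; linarith
    have hd : d < 1 - |M| := by
      rcases abs_cases M with ⟨h, _⟩ | ⟨h, _⟩ <;> rw [h] <;> linarith
    have hMlt : |M| < 1 := by linarith
    have hv : 0 < 1 - M ^ 2 := by
      have := (sq_lt_one_iff_abs_lt_one M).mpr hMlt
      linarith
    have hlt := io_lt hd0.le hd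
    have hlow := lower_io hd0 hd
    have hio0 : 0 ≤ io (M + d) (M - d) := (mul_nonneg hv.le (psi_nonneg _)).trans hlow
    obtain ⟨r, hr0, hr1, hr⟩ := exists_psi_eq (y := io (M + d) (M - d) / (1 - M ^ 2))
      (div_nonneg hio0 hv.le) (by rw [div_lt_iff₀ hv]; linarith)
    have hr' : (1 - M ^ 2) * psi r = io (M + d) (M - d) := by
      rw [hr]; field_simp
    have hfin := main_pos hd0 hd hr0 hr1 hr'
    rw [eA, eB] at hr' hfin
    exact ⟨r, hr0, hr1, hr', hfin⟩
  rcases lt_trichotomy a b with h | h | h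
  · obtain ⟨r, h0, h1, h2, h3⟩ := key b a hb ha h
    refine ⟨r, h0, h1, ?_, ?_⟩
    · rw [add_comm a b, h2, io_comm']
    · rw [add_comm a b, kk_comm' a b]; exact h3
  · subst h
    refine ⟨0, le_rfl, one_pos, ?_, ?_⟩
    · rw [psi_zero, io_self', mul_zero]
    · unfold kk; simp
  · exact key a b ha hb h

end Crest.Agent.R307.NOne

namespace Crest.Agent.R307

theorem GG_le_kk {a b t : ℝ} (ha : |a| < 1) (hb : |b| < 1) (ht0 : 0 ≤ t) (ht1 : t < 1) :
    GG t ((a + b) / 2) ((signEntropy a + signEntropy b) / 2) ≤ kk a b := by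
  obtain ⟨r, hr0, hr1, hr, hk⟩ := NOne.kk_ge ha hb
  obtain ⟨ha1, ha2⟩ := abs_lt.mp ha
  obtain ⟨hb1, hb2⟩ := abs_lt.mp hb
  have hM : |(a + b) / 2| < 1 := abs_lt.mpr ⟨by linarith, by linarith⟩
  have hv : 0 < 1 - ((a + b) / 2) ^ 2 := by
    have := (sq_lt_one_iff_abs_lt_one ((a + b) / 2)).mpr hM
    linarith
  have hF := mul_le_mul_of_nonneg_left (F_tangent_le ht0 ht1 hr0 hr1) hv.le
  have hS := le_signEntropy hM.le
  have hK := two_le_kappa ht0 ht1
  have hmul := mul_nonneg (by linarith : (0 : ℝ) ≤ kappa t - 2) (sub_nonneg.mpr hS)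
  have e1 : (signEntropy a + signEntropy b) / 2 = signEntropy ((a + b) / 2) - io a b := by
    unfold io; ring
  have e2 : signEntropy t = Real.log 2 - psi t := by unfold psi; ring
  unfold GG CC
  rw [e1, e2]
  set M := (a + b) / 2
  set v := 1 - M ^ 2
  nlinarith [hF, hmul, hk, hr]

end Crest.Agent.R307
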