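import Crest.Agent.R307.SubDefs
import Crest.Agent.R307.Persp
import Crest.Agent.R307.NOne_Mg
import Crest.Agent.R307.Split
import Mathlib

-- ▼ part R307/PPconcA
section

/-!
Row 307, task T5 part (i) (helper868): `h(r)^2 kappa'(r) / artanh r ≤ (4/3) (log 2)^2`.
-/

set_option autoImplicit false

open Set Crest.CubeNoise

namespace Crest.Agent.R307.T5

/-- truncated series of `artanh` -/
noncomputable def a5 (r : ℝ) : ℝ := r + r ^ 3 / 3 + r ^ 5 / 5 + r ^ 7 / 7 + r ^ 9 / 9 + r ^ 11 / 11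

theorem a5_le_artanh {r : ℝ} (h0 : 0 ≤ r) (h1 : r < 1) : a5 r ≤ Real.artanh r := by
  have hd : ∀ x : ℝ, 0 ≤ x → x < 1 → HasDerivAt (fun x => Real.artanh x - a5 x)
      (x ^ 12 / (1 - x ^ 2)) x := by
    intro x hx0 hx1
    have h3 := one_sub_sq_pos hx0 hx1
    have e1 : HasDerivAt a5 (1 + x ^ 2 + x ^ 4 + x ^ 6 + x ^ 8 + x ^ 10) x := by
      unfold a5
      refine ((((((hasDerivAt_id x).add ((hasDerivAt_pow 3 x).div_const 3)).add
        ((hasDerivAt_pow 5 x).div_const 5)).add ((hasDerivAt_pow 7 x).div_const 7)).add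
        ((hasDerivAt_pow 9 x).div_const 9)).add ((hasDerivAt_pow 11 x).div_const 11)).congr_deriv ?_
      norm_num
    refine ((hasDerivAt_artanh (abs_lt_one_of_mem hx0 hx1)).sub e1).congr_deriv ?_
    field_simp
    ring
  have hmono : MonotoneOn (fun x => Real.artanh x - a5 x) (Ico 0 1) := by
    refine monotoneOn_of_deriv_nonneg (convex_Ico 0 1) ?_ ?_ ?_
    · intro x hx
      exact (hd x hx.1 hx.2).continuousAt.continuousWithinAt
    · rw [interior_Ico]
      intro x hx
      exact (hd x hx.1.le hx.2).differentiableAt.differentiableWithinAt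
    · rw [interior_Ico]
      intro x hx
      rw [(hd x hx.1.le hx.2).deriv]
      have h3 := one_sub_sq_pos hx.1.le hx.2
      positivity
  have := hmono (left_mem_Ico.mpr one_pos) ⟨h0, h1⟩ h0
  simp [a5] at this
  unfold a5
  linarith

/-- the polynomial inequality at the truncated series, as a Bernstein expansion -/
theorem poly_pos {s : ℝ} (h0 : 0 ≤ s) (h1 : s ≤ 1) :
    0 ≤ 2752/4725 + 3712/4725*s + 102464/121275*s^2 + (-1351288/606375)*s^3
      + (-51728/218295)*s^4 + 2402648/27286875*s^5 + 175435168/2101089375*s^6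
      + 72521576/2101089375*s^7 + 1707809/420217875*s^8 + 11619456104/26473726125*s^9
      + 7322987132/26473726125*s^10 + 35271728/196101675*s^11 + 20864996/169802325*s^12
      + 2174579432/24960941775*s^13 + 45346156/713169765*s^14 + 3401660/142633953*s^15
      + 125648/11320155*s^16 + 4892/922383*s^17 + 104/43923*s^18 + 12/14641*s^19 := by
  have ht : 0 ≤ 1 - s := by linarith
  have key : 0 ≤ 58/100 + 78/100*s + 84/100*s^2 - 2229/1000*s^3 - 237/1000*s^4 + 88/1000*s^5
      + 83/1000*s^6 + 43/100*s^9 + 27/100*s^10 := by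
    have e : 58/100 + 78/100*s + 84/100*s^2 - 2229/1000*s^3 - 237/1000*s^4 + 88/1000*s^5
      + 83/1000*s^6 + 43/100*s^9 + 27/100*s^10 = 29/50*(s^0*(1-s)^10) + 329/50*(s^1*(1-s)^9) + 849/25*(s^2*(1-s)^8) + 102171/1000*(s^3*(1-s)^7) + 195/1*(s^4*(1-s)^6) + 243337/1000*(s^5*(1-s)^5) + 197833/1000*(s^6*(1-s)^4) + 100617/1000*(s^7*(1-s)^3) + 14357/500*(s^8*(1-s)^2) + 3717/1000*(s^9*(1-s)^1) + 121/200*(s^10*(1-s)^0) := by
      ring
    rw [e]
    positivity
  have h2 : 0 ≤ s ^ 7 := by positivity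
  have h3 : 0 ≤ s ^ 8 := by positivity
  have h4 : 0 ≤ s ^ 9 := by positivity
  have h5 : 0 ≤ s ^ 10 := by positivity
  have h6 : 0 ≤ s ^ 11 := by positivity
  have h7 : 0 ≤ s ^ 12 := by positivity
  have h8 : 0 ≤ s ^ 13 := by positivity
  have h9 : 0 ≤ s ^ 14 := by positivity
  have h10 : 0 ≤ s ^ 15 := by positivity
  have h11 : 0 ≤ s ^ 16 := by positivity
  have h12 : 0 ≤ s ^ 17 := by positivity
  have h13 : 0 ≤ s ^ 18 := by positivity
  have h14 : 0 ≤ s ^ 19 := by positivity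
  have h15 : 0 ≤ s ^ 2 := by positivity
  have h16 : 0 ≤ s ^ 3 := by positivity
  have h17 : 0 ≤ s ^ 4 := by positivity
  have h18 : 0 ≤ s ^ 5 := by positivity
  have h19 : 0 ≤ s ^ 6 := by positivity
  linarith

/-- the quartic in `a` -/
noncomputable def dl (r a : ℝ) : ℝ :=
  12*(1-r^2)^2*a^4 + 4*r*(1-r^4)*a^3 + (3-6*r^2+11*r^4)*a^2 - (6*r+10*r^3)*a + 3*r^2

theorem dl_a5 {r : ℝ} (h0 : 0 < r) (h1 : r < 1) : 0 ≤ dl r (a5 r) := by
  have h := poly_pos (s := r ^ 2) (by positivity) (by nlinarith)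
  have e : dl r (a5 r) = r ^ 10 * (2752/4725 + 3712/4725*(r^2) + 102464/121275*(r^2)^2
      + (-1351288/606375)*(r^2)^3
      + (-51728/218295)*(r^2)^4 + 2402648/27286875*(r^2)^5 + 175435168/2101089375*(r^2)^6
      + 72521576/2101089375*(r^2)^7 + 1707809/420217875*(r^2)^8 + 11619456104/26473726125*(r^2)^9
      + 7322987132/26473726125*(r^2)^10 + 35271728/196101675*(r^2)^11 + 20864996/169802325*(r^2)^12
      + 2174579432/24960941775*(r^2)^13 + 45346156/713169765*(r^2)^14 + 3401660/142633953*(r^2)^15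
      + 125648/11320155*(r^2)^16 + 4892/922383*(r^2)^17 + 104/43923*(r^2)^18
      + 12/14641*(r^2)^19) := by
    unfold dl a5
    ring
  rw [e]
  exact mul_nonneg (by positivity) h

theorem dl_nonneg {r a : ℝ} (h0 : 0 < r) (h1 : r < 1) (ha : a5 r ≤ a) : 0 ≤ dl r a := by
  have hb := dl_a5 h0 h1
  set b := a5 r with hbdef
  have hr2 : r ^ 2 < 1 := by nlinarith
  have hr4 : r ^ 4 < 1 := by nlinarith [sq_nonneg r]
  have hbr : r + r ^ 3 / 3 ≤ b := by
    rw [hbdef]; unfold a5
    have : 0 ≤ r ^ 5 / 5 + r ^ 7 / 7 + r ^ 9 / 9 + r ^ 11 / 11 := by positivity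
    linarith
  have hbr' : r ≤ b := by
    have : 0 ≤ r ^ 3 / 3 := by positivity
    linarith
  have har : r ≤ a := hbr'.trans ha
  have hb0 : 0 ≤ b := h0.le.trans hbr'
  have ha0 : 0 ≤ a := h0.le.trans har
  have hq : 0 < 3 - 6 * r ^ 2 + 11 * r ^ 4 := by nlinarith [sq_nonneg (r ^ 2 - 3 / 11)]
  -- difference factorisation
  have e : dl r a - dl r b = (a - b) * (12*(1-r^2)^2*(a^3+a^2*b+a*b^2+b^3)
      + 4*r*(1-r^4)*(a^2+a*b+b^2) + (3-6*r^2+11*r^4)*(a+b) - (6*r+10*r^3)) := by
    unfold dl; ring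
  have c1 : 4 * r ^ 3 ≤ a^3+a^2*b+a*b^2+b^3 := by
    have p1 : r ^ 3 ≤ a ^ 3 := pow_le_pow_left₀ h0.le har 3
    have p2 : r ^ 3 ≤ b ^ 3 := pow_le_pow_left₀ h0.le hbr' 3
    have p3 : r ^ 2 ≤ a ^ 2 := pow_le_pow_left₀ h0.le har 2
    have p4 : r ^ 2 ≤ b ^ 2 := pow_le_pow_left₀ h0.le hbr' 2
    have p5 : r ^ 2 * r ≤ a ^ 2 * b := mul_le_mul p3 hbr' h0.le (by positivity)
    have p6 : r * r ^ 2 ≤ a * b ^ 2 := mul_le_mul har p4 (by positivity) ha0
    nlinarith
  have c2 : 3 * r ^ 2 ≤ a^2+a*b+b^2 := by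
    have p3 : r ^ 2 ≤ a ^ 2 := pow_le_pow_left₀ h0.le har 2
    have p4 : r ^ 2 ≤ b ^ 2 := pow_le_pow_left₀ h0.le hbr' 2
    have p5 : r * r ≤ a * b := mul_le_mul har hbr' h0.le ha0
    nlinarith
  have c3 : 2 * (r + r ^ 3 / 3) ≤ a + b := by linarith
  have d1 : 12*(1-r^2)^2*(4 * r ^ 3) ≤ 12*(1-r^2)^2*(a^3+a^2*b+a*b^2+b^3) :=
    mul_le_mul_of_nonneg_left c1 (by positivity)
  have d2 : 4*r*(1-r^4)*(3 * r ^ 2) ≤ 4*r*(1-r^4)*(a^2+a*b+b^2) :=
    mul_le_mul_of_nonneg_left c2 (mul_nonneg (by positivity) (by linarith))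
  have d3 : (3-6*r^2+11*r^4)*(2 * (r + r ^ 3 / 3)) ≤ (3-6*r^2+11*r^4)*(a+b) :=
    mul_le_mul_of_nonneg_left c3 hq.le
  have d4 : 12*(1-r^2)^2*(4 * r ^ 3) + 4*r*(1-r^4)*(3 * r ^ 2)
      + (3-6*r^2+11*r^4)*(2 * (r + r ^ 3 / 3)) - (6*r+10*r^3)
      = r ^ 3 * (40 - 78 * r ^ 2 + 130 / 3 * (r ^ 2) ^ 2) := by ring
  have d5 : 0 ≤ r ^ 3 * (40 - 78 * r ^ 2 + 130 / 3 * (r ^ 2) ^ 2) := by
    apply mul_nonneg (by positivity)
    nlinarith [sq_nonneg (r ^ 2 - 9 / 10)]
  have d6 : 0 ≤ (a - b) * (12*(1-r^2)^2*(a^3+a^2*b+a*b^2+b^3)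
      + 4*r*(1-r^4)*(a^2+a*b+b^2) + (3-6*r^2+11*r^4)*(a+b) - (6*r+10*r^3)) :=
    mul_nonneg (by linarith) (by linarith)
  linarith

/-! ### the sign of `K` -/

/-- `P(r) = (1+r^2) a - r` -/
noncomputable def Pf (r : ℝ) : ℝ := (1 + r ^ 2) * Real.artanh r - r

/-- `K(r) = (6r+2r^3) a^2 - (3+5r^2) a + 3r` -/
noncomputable def Kf (r : ℝ) : ℝ :=
  (6*r+2*r^3) * Real.artanh r ^ 2 - (3+5*r^2) * Real.artanh r + 3*r

theorem hasDerivAt_Pf {x : ℝ} (h0 : 0 ≤ x) (h1 : x < 1) :
    HasDerivAt Pf (2 * x * Real.artanh x + 2 * x ^ 2 / (1 - x ^ 2)) x := by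
  have h3 := one_sub_sq_pos h0 h1
  have e1 : HasDerivAt (fun x : ℝ => 1 + x ^ 2) (2 * x) x := by
    have := (hasDerivAt_pow 2 x).const_add 1
    simpa using this
  have := (e1.mul (hasDerivAt_artanh (abs_lt_one_of_mem h0 h1))).sub (hasDerivAt_id x)
  refine this.congr_deriv ?_
  field_simp
  ring

theorem hasDerivAt_Kf {x : ℝ} (h0 : 0 ≤ x) (h1 : x < 1) :
    HasDerivAt Kf ((6+6*x^2) * Real.artanh x ^ 2
      + ((2*x+14*x^3) * Real.artanh x - 8*x^2) / (1 - x ^ 2)) x := by
  have h3 := one_sub_sq_pos h0 h1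
  have ha := hasDerivAt_artanh (abs_lt_one_of_mem h0 h1)
  have e1 : HasDerivAt (fun x : ℝ => 6*x+2*x^3) (6 + 6 * x ^ 2) x := by
    refine (((hasDerivAt_id x).const_mul 6).add ((hasDerivAt_pow 3 x).const_mul 2)).congr_deriv ?_
    norm_num
    ring
  have e2 : HasDerivAt (fun x : ℝ => 3+5*x^2) (10 * x) x := by
    refine (((hasDerivAt_pow 2 x).const_mul 5).const_add 3).congr_deriv ?_
    norm_num
    ring
  have := ((e1.mul (ha.pow 2)).sub (e2.mul ha)).add ((hasDerivAt_id x).const_mul 3)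
  refine this.congr_deriv ?_
  simp only [Pi.pow_apply]
  field_simp
  ring

theorem Kf_pos {r : ℝ} (h0 : 0 < r) (h1 : r < 1) : 0 < Kf r := by
  have hmono : StrictMonoOn Kf (Ico 0 1) := by
    refine strictMonoOn_of_deriv_pos (convex_Ico 0 1) ?_ ?_
    · intro x hx
      exact (hasDerivAt_Kf hx.1 hx.2).continuousAt.continuousWithinAt
    · rw [interior_Ico]
      intro x hx
      rw [(hasDerivAt_Kf hx.1.le hx.2).deriv]
      have h3 := one_sub_sq_pos hx.1.le hx.2
      have ha := le_artanh hx.1.le hx.2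
      have hx0 := hx.1
      have ha0 : 0 < Real.artanh x := artanh_pos' hx.1 hx.2
      have q1 : x ^ 2 ≤ Real.artanh x ^ 2 := pow_le_pow_left₀ hx0.le ha 2
      have q2 : (6+6*x^2) * x ^ 2 + ((2*x+14*x^3) * x - 8*x^2) / (1 - x ^ 2)
          ≤ (6+6*x^2) * Real.artanh x ^ 2
          + ((2*x+14*x^3) * Real.artanh x - 8*x^2) / (1 - x ^ 2) := by
        apply add_le_add
        · exact mul_le_mul_of_nonneg_left q1 (by positivity)
        · apply div_le_div_of_nonneg_right _ h3.le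
          have : (2*x+14*x^3) * x ≤ (2*x+14*x^3) * Real.artanh x :=
            mul_le_mul_of_nonneg_left ha (by positivity)
          linarith
      refine lt_of_lt_of_le ?_ q2
      have e : (6+6*x^2) * x ^ 2 + ((2*x+14*x^3) * x - 8*x^2) / (1 - x ^ 2)
          = x ^ 4 * (14 - 6 * x ^ 2) / (1 - x ^ 2) := by
        field_simp
        ring
      rw [e]
      apply div_pos _ h3
      apply mul_pos (by positivity)
      nlinarith
  have := hmono (left_mem_Ico.mpr one_pos) ⟨h0.le, h1⟩ h0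
  simpa [Kf] using this

theorem Pf_pos {r : ℝ} (h0 : 0 < r) (h1 : r < 1) : 0 < Pf r := by
  have h4 := lt_artanh h0 h1
  have h2 := artanh_pos' h0 h1
  unfold Pf
  nlinarith [mul_pos (pow_pos h0 2) h2]

/-- `W = 2 a^2 (1-r^2) P / K` -/
noncomputable def Wf (r : ℝ) : ℝ := 2 * Real.artanh r ^ 2 * (1 - r ^ 2) * Pf r / Kf r

theorem hasDerivAt_Wf {x : ℝ} (h0 : 0 < x) (h1 : x < 1) :
    HasDerivAt (fun x => Wf x - signEntropy x) (-(Real.artanh x * dl x (Real.artanh x) / Kf x ^ 2)) x := by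
  have h3 := one_sub_sq_pos h0.le h1
  have hab := abs_lt_one_of_mem h0.le h1
  have ha := hasDerivAt_artanh hab
  have hK := Kf_pos h0 h1
  have e1 : HasDerivAt (fun x : ℝ => 1 - x ^ 2) (-(2 * x)) x := by
    have := (hasDerivAt_pow 2 x).const_sub 1
    simpa using this
  have hnum := (((ha.pow 2).const_mul 2).mul e1).mul (hasDerivAt_Pf h0.le h1)
  have hW := (hnum.div (hasDerivAt_Kf h0.le h1) hK.ne').sub (hasDerivAt_signEntropy hab)
  refine hW.congr_deriv ?_
  simp only [Pi.pow_apply, Pi.mul_apply]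
  field_simp
  unfold dl Kf Pf
  ring

theorem Wf_ge {r : ℝ} (h0 : 0 < r) (h1 : r < 1) : signEntropy r ≤ Wf r := by
  have hanti : AntitoneOn (fun x => Wf x - signEntropy x) (Ioo 0 1) := by
    refine antitoneOn_of_deriv_nonpos (convex_Ioo 0 1) ?_ ?_ ?_
    · intro x hx
      exact (hasDerivAt_Wf hx.1 hx.2).continuousAt.continuousWithinAt
    · rw [interior_Ioo]
      intro x hx
      exact (hasDerivAt_Wf hx.1 hx.2).differentiableAt.differentiableWithinAt
    · rw [interior_Ioo]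
      intro x hx
      rw [(hasDerivAt_Wf hx.1 hx.2).deriv]
      have hd := dl_nonneg hx.1 hx.2 (a5_le_artanh hx.1.le hx.2)
      have ha := artanh_pos' hx.1 hx.2
      have hK := Kf_pos hx.1 hx.2
      have : 0 ≤ Real.artanh x * dl x (Real.artanh x) / Kf x ^ 2 := by positivity
      linarith
  have hlim : Filter.Tendsto (fun s : ℝ => Wf r - signEntropy r + signEntropy s)
      (nhdsWithin 1 (Iio 1)) (nhds (Wf r - signEntropy r + signEntropy 1)) :=
    ((continuous_const.add continuous_signEntropy).tendsto 1).mono_left nhdsWithin_le_nhds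
  rw [signEntropy_one, add_zero] at hlim
  have : 0 ≤ Wf r - signEntropy r := by
    refine ge_of_tendsto hlim ?_
    have hIoo : Ioo r 1 ∈ nhdsWithin (1:ℝ) (Iio 1) := Ioo_mem_nhdsLT h1
    filter_upwards [hIoo] with s hs
    have hs0 : 0 < s := h0.trans hs.1
    have hh := hanti ⟨h0, h1⟩ ⟨hs0, hs.2⟩ hs.1.le
    simp only at hh
    have hW : 0 ≤ Wf s := by
      unfold Wf
      have ha := artanh_pos' hs0 hs.2
      have hK := Kf_pos hs0 hs.2
      have hP := Pf_pos hs0 hs.2
      have h3 := one_sub_sq_pos hs0.le hs.2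
      positivity
    linarith
  linarith

/-- `B = h^2 P / ((1-r^2)^2 a^3)` -/
noncomputable def Bf (r : ℝ) : ℝ :=
  signEntropy r ^ 2 * Pf r / ((1 - r ^ 2) ^ 2 * Real.artanh r ^ 3)

theorem hasDerivAt_Bf {x : ℝ} (h0 : 0 < x) (h1 : x < 1) :
    HasDerivAt Bf (signEntropy x * (1 - x ^ 2) * Real.artanh x ^ 2 *
      (signEntropy x * Kf x - 2 * Real.artanh x ^ 2 * (1 - x ^ 2) * Pf x)
      / ((1 - x ^ 2) ^ 2 * Real.artanh x ^ 3) ^ 2) x := by
  have h3 := one_sub_sq_pos h0.le h1
  have hab := abs_lt_one_of_mem h0.le h1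
  have ha := hasDerivAt_artanh hab
  have hapos := artanh_pos' h0 h1
  have e1 : HasDerivAt (fun x : ℝ => 1 - x ^ 2) (-(2 * x)) x := by
    have := (hasDerivAt_pow 2 x).const_sub 1
    simpa using this
  have hnum := ((hasDerivAt_signEntropy hab).pow 2).mul (hasDerivAt_Pf h0.le h1)
  have hden := (e1.pow 2).mul (ha.pow 3)
  have hne : ((fun x : ℝ => 1 - x ^ 2) ^ 2 * Real.artanh ^ 3 : ℝ → ℝ) x ≠ 0 := by
    simp only [Pi.mul_apply, Pi.pow_apply]
    positivity
  have hB := hnum.div hden hne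
  refine hB.congr_deriv ?_
  simp only [Pi.pow_apply, Pi.mul_apply]
  norm_num
  field_simp
  unfold Kf Pf
  ring

theorem Bf_anti : AntitoneOn Bf (Ioo 0 1) := by
  refine antitoneOn_of_deriv_nonpos (convex_Ioo 0 1) ?_ ?_ ?_
  · intro x hx
    exact (hasDerivAt_Bf hx.1 hx.2).continuousAt.continuousWithinAt
  · rw [interior_Ioo]
    intro x hx
    exact (hasDerivAt_Bf hx.1 hx.2).differentiableAt.differentiableWithinAt
  · rw [interior_Ioo]
    intro x hx
    rw [(hasDerivAt_Bf hx.1 hx.2).deriv]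
    have ha := artanh_pos' hx.1 hx.2
    have hK := Kf_pos hx.1 hx.2
    have hP := Pf_pos hx.1 hx.2
    have h3 := one_sub_sq_pos hx.1.le hx.2
    have hs := signEntropy_pos (abs_lt_one_of_mem hx.1.le hx.2)
    have hW := Wf_ge hx.1 hx.2
    unfold Wf at hW
    rw [le_div_iff₀ hK] at hW
    apply div_nonpos_of_nonpos_of_nonneg
    · apply mul_nonpos_of_nonneg_of_nonpos
      · positivity
      · linarith
    · positivity

theorem artanh_le_small {r : ℝ} (h0 : 0 ≤ r) (h1 : r ≤ 1 / 2) :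
    Real.artanh r ≤ r + r ^ 3 / 3 + r ^ 5 := by
  have hd : ∀ x : ℝ, 0 ≤ x → x ≤ 1 / 2 → HasDerivAt (fun x => (x + x ^ 3 / 3 + x ^ 5) - Real.artanh x)
      (1 + x ^ 2 + 5 * x ^ 4 - 1 / (1 - x ^ 2)) x := by
    intro x hx0 hx1
    refine ((((hasDerivAt_id x).add ((hasDerivAt_pow 3 x).div_const 3)).add
        (hasDerivAt_pow 5 x)).sub
        (hasDerivAt_artanh (abs_lt_one_of_mem hx0 (by linarith)))).congr_deriv ?_
    norm_num
  have hmono : MonotoneOn (fun x => (x + x ^ 3 / 3 + x ^ 5) - Real.artanh x) (Icc 0 (1/2)) := by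
    refine monotoneOn_of_deriv_nonneg (convex_Icc 0 (1/2)) ?_ ?_ ?_
    · intro x hx
      exact (hd x hx.1 hx.2).continuousAt.continuousWithinAt
    · rw [interior_Icc]
      intro x hx
      exact (hd x hx.1.le hx.2.le).differentiableAt.differentiableWithinAt
    · rw [interior_Icc]
      intro x hx
      rw [(hd x hx.1.le hx.2.le).deriv]
      have hx0 := hx.1
      have hx1 := hx.2
      have hx2 : x ^ 2 ≤ 1 / 4 := by nlinarith
      have h3 : 0 < 1 - x ^ 2 := by linarith
      rw [sub_nonneg, div_le_iff₀ h3]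
      nlinarith [pow_pos hx0 4, mul_pos (pow_pos hx0 4) h3, mul_nonneg (pow_pos hx0 4).le (sub_nonneg.mpr hx2)]
  have := hmono (left_mem_Icc.mpr (by norm_num)) ⟨h0, h1⟩ h0
  simp at this
  linarith

theorem Bf_le_small {s : ℝ} (h0 : 0 < s) (h1 : s ≤ 1 / 2) :
    Bf s ≤ (Real.log 2) ^ 2 * (4 / 3 + 4 / 3 * s ^ 2 + s ^ 4) / (1 - s ^ 2) ^ 2 := by
  have hs1 : s < 1 := by linarith
  have h3 := one_sub_sq_pos h0.le hs1
  have hab := abs_lt_one_of_mem h0.le hs1
  have ha := artanh_pos' h0 hs1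
  have hle := artanh_le_small h0.le h1
  have hge := le_artanh h0.le hs1
  have hP : Pf s ≤ s ^ 3 * (4 / 3 + 4 / 3 * s ^ 2 + s ^ 4) := by
    unfold Pf
    have : (1 + s ^ 2) * Real.artanh s ≤ (1 + s ^ 2) * (s + s ^ 3 / 3 + s ^ 5) :=
      mul_le_mul_of_nonneg_left hle (by positivity)
    nlinarith
  have hP0 := Pf_pos h0 hs1
  have hh := signEntropy_le s
  have hh0 := signEntropy_pos hab
  have hnum : signEntropy s ^ 2 * Pf s
      ≤ (Real.log 2) ^ 2 * (s ^ 3 * (4 / 3 + 4 / 3 * s ^ 2 + s ^ 4)) :=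
    mul_le_mul (pow_le_pow_left₀ hh0.le hh 2) hP hP0.le (by positivity)
  have hden : (1 - s ^ 2) ^ 2 * s ^ 3 ≤ (1 - s ^ 2) ^ 2 * Real.artanh s ^ 3 :=
    mul_le_mul_of_nonneg_left (pow_le_pow_left₀ h0.le hge 3) (by positivity)
  unfold Bf
  calc signEntropy s ^ 2 * Pf s / ((1 - s ^ 2) ^ 2 * Real.artanh s ^ 3)
      ≤ (Real.log 2) ^ 2 * (s ^ 3 * (4 / 3 + 4 / 3 * s ^ 2 + s ^ 4))
        / ((1 - s ^ 2) ^ 2 * s ^ 3) := by
        apply div_le_div₀ (by positivity) hnum (by positivity) hden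
    _ = _ := by
        field_simp

/-- **T5 (i)** -/
theorem kappa'_bound {r : ℝ} (h0 : 0 < r) (h1 : r < 1) :
    signEntropy r ^ 2 * kappa' r / Real.artanh r ≤ (4 / 3) * (Real.log 2) ^ 2 := by
  have h3 := one_sub_sq_pos h0.le h1
  have ha := artanh_pos' h0 h1
  have e : signEntropy r ^ 2 * kappa' r / Real.artanh r = Bf r := by
    unfold kappa' Bf Pf
    field_simp
  rw [e]
  have hlim : Filter.Tendsto
      (fun s : ℝ => (Real.log 2) ^ 2 * (4 / 3 + 4 / 3 * s ^ 2 + s ^ 4) / (1 - s ^ 2) ^ 2)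
      (nhdsWithin 0 (Ioi 0)) (nhds ((4 / 3) * (Real.log 2) ^ 2)) := by
    have hc : ContinuousAt
        (fun s : ℝ => (Real.log 2) ^ 2 * (4 / 3 + 4 / 3 * s ^ 2 + s ^ 4) / (1 - s ^ 2) ^ 2) 0 := by
      refine ContinuousAt.div ?_ ?_ (by norm_num)
      · fun_prop
      · fun_prop
    have h5 := hc.tendsto.mono_left (nhdsWithin_le_nhds (s := Ioi (0:ℝ)))
    have e5 : (Real.log 2) ^ 2 * (4 / 3 + 4 / 3 * (0:ℝ) ^ 2 + 0 ^ 4) / (1 - 0 ^ 2) ^ 2
        = (4 / 3) * (Real.log 2) ^ 2 := by norm_num; ring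
    rw [e5] at h5
    exact h5
  refine ge_of_tendsto hlim ?_
  have hm : Ioo (0:ℝ) (min r (1/2)) ∈ nhdsWithin (0:ℝ) (Ioi 0) :=
    Ioo_mem_nhdsGT (lt_min h0 (by norm_num))
  filter_upwards [hm] with s hs
  have hs1 : s < r := lt_of_lt_of_le hs.2 (min_le_left _ _)
  have hs2 : s < 1 / 2 := lt_of_lt_of_le hs.2 (min_le_right _ _)
  exact (Bf_anti ⟨hs.1, hs1.trans h1⟩ ⟨h0, h1⟩ hs1.le).trans (Bf_le_small hs.1 hs2.le)

end Crest.Agent.R307.T5
end

-- ▼ part R307/PPconc
section

/-!
Row 307, task T5 (helper868): the perspective `PP w A` minus `(4/3) (log 2)^2 w log w` is concave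
in `w`, and the resulting bound for second differences.
-/

set_option autoImplicit false

open Set Crest.CubeNoise

namespace Crest.Agent.R307


namespace T5

theorem continuousOn_cc : ContinuousOn cc (Ico 0 1) := by
  have h1 : ContinuousOn (fun t => t * Real.artanh t + kappa t * signEntropy t) (Ico 0 1) := by
    refine (continuousOn_id.mul (continuousOn_artanh.mono ?_)).add
      (continuousOn_kappa.mul continuous_signEntropy.continuousOn)
    intro x hx
    exact ⟨by linarith [hx.1], hx.2⟩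
  unfold cc CC
  exact h1.sub continuousOn_const

theorem antitone_cc_add : AntitoneOn
    (fun s => cc s + (4 / 3) * (Real.log 2) ^ 2 * Real.log (signEntropy s)) (Ico 0 1) := by
  have hpos : ∀ x ∈ Ico (0:ℝ) 1, 0 < signEntropy x := fun x hx =>
    signEntropy_pos (abs_lt_one_of_mem hx.1 hx.2)
  have hd : ∀ x : ℝ, 0 < x → x < 1 → HasDerivAt
      (fun s => cc s + (4 / 3) * (Real.log 2) ^ 2 * Real.log (signEntropy s))
      (kappa' x * signEntropy x + (4 / 3) * (Real.log 2) ^ 2 *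
        (-(Real.artanh x) / signEntropy x)) x := by
    intro x hx0 hx1
    have hab := abs_lt_one_of_mem hx0.le hx1
    have e1 : HasDerivAt cc (kappa' x * signEntropy x) x := by
      unfold cc
      exact (hasDerivAt_CC hx0 hx1).sub_const _
    exact e1.add (((hasDerivAt_signEntropy hab).log (hpos x ⟨hx0.le, hx1⟩).ne').const_mul _)
  refine antitoneOn_of_deriv_nonpos (convex_Ico 0 1) ?_ ?_ ?_
  · refine continuousOn_cc.add (continuousOn_const.mul ?_)
    exact ContinuousOn.log continuous_signEntropy.continuousOn (fun x hx => (hpos x hx).ne')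
  · rw [interior_Ico]
    intro x hx
    exact (hd x hx.1 hx.2).differentiableAt.differentiableWithinAt
  · rw [interior_Ico]
    intro x hx
    rw [(hd x hx.1 hx.2).deriv]
    have hs := hpos x ⟨hx.1.le, hx.2⟩
    have ha := artanh_pos' hx.1 hx.2
    have hb := kappa'_bound hx.1 hx.2
    rw [div_le_iff₀ ha] at hb
    have e : kappa' x * signEntropy x + (4 / 3) * (Real.log 2) ^ 2 *
        (-(Real.artanh x) / signEntropy x)
        = (signEntropy x ^ 2 * kappa' x - 4 / 3 * Real.log 2 ^ 2 * Real.artanh x)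
          / signEntropy x := by
      field_simp
      ring
    rw [e]
    exact div_nonpos_of_nonpos_of_nonneg (by linarith) hs.le

theorem signEntropy_hinv_eq_min {y : ℝ} (hy : 0 < y) :
    signEntropy (hinv y) = min y (Real.log 2) := by
  rcases le_or_gt y (Real.log 2) with h | h
  · rw [signEntropy_hinv hy h, min_eq_left h]
  · rw [hinv_of_gt h, signEntropy_zero, min_eq_right h.le]

theorem hinv_antitone {x y : ℝ} (hx : 0 < x) (hxy : x ≤ y) : hinv y ≤ hinv x := by
  have hm1 := hinv_mem hx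
  have hm2 := hinv_mem (hx.trans_le hxy)
  by_contra hcon
  push Not at hcon
  have h := strictAntiOn_signEntropy ⟨hm1.1, hm1.2.le⟩ ⟨hm2.1, hm2.2.le⟩ hcon
  rw [signEntropy_hinv_eq_min hx, signEntropy_hinv_eq_min (hx.trans_le hxy)] at h
  have : min x (Real.log 2) ≤ min y (Real.log 2) := min_le_min_right _ hxy
  linarith

/-- log-Lipschitz bound for `w ↦ cc (hinv (A/w))`. -/
theorem cc_hinv_le {A w w' : ℝ} (hA : 0 < A) (hw : 0 < w) (hww : w ≤ w') :
    cc (hinv (A / w')) - cc (hinv (A / w))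
      ≤ (4 / 3) * (Real.log 2) ^ 2 * (Real.log w' - Real.log w) := by
  have hw' : 0 < w' := hw.trans_le hww
  have hy := div_pos hA hw
  have hy' := div_pos hA hw'
  have hle : A / w' ≤ A / w := div_le_div_of_nonneg_left hA.le hw hww
  have hm := hinv_mem hy
  have hm' := hinv_mem hy'
  have h := antitone_cc_add hm hm' (hinv_antitone hy' hle)
  simp only at h
  rw [signEntropy_hinv_eq_min hy, signEntropy_hinv_eq_min hy'] at h
  have hL : 0 < Real.log 2 := Real.log_pos one_lt_two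
  have key : Real.log (min (A / w) (Real.log 2)) - Real.log (min (A / w') (Real.log 2))
      ≤ Real.log w' - Real.log w := by
    have e : Real.log w' - Real.log w = Real.log (A / w) - Real.log (A / w') := by
      rw [Real.log_div hA.ne' hw.ne', Real.log_div hA.ne' hw'.ne']
      ring
    rw [e]
    rcases le_total (A / w) (Real.log 2) with h1 | h1
    · rw [min_eq_left h1, min_eq_left (hle.trans h1)]
    · rw [min_eq_right h1]
      rcases le_total (A / w') (Real.log 2) with h2 | h2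
      · rw [min_eq_left h2]
        have := Real.log_le_log hL h1
        linarith
      · rw [min_eq_right h2]
        have := Real.log_le_log hy' hle
        linarith
  have h2 : (4 / 3) * (Real.log 2) ^ 2 *
      (Real.log (min (A / w) (Real.log 2)) - Real.log (min (A / w') (Real.log 2)))
      ≤ (4 / 3) * (Real.log 2) ^ 2 * (Real.log w' - Real.log w) :=
    mul_le_mul_of_nonneg_left key (by positivity)
  linarith

theorem hasDerivAt_PP {A w : ℝ} (hA : 0 < A) (hw : 0 < w) :
    HasDerivAt (fun w => PP w A) (cc (hinv (A / w))) w := by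
  have hy := div_pos hA hw
  have hI : Real.log 2 - A / w < Real.log 2 := by linarith
  have e1 : HasDerivAt (fun w : ℝ => Real.log 2 - A / w) (A / w ^ 2) w := by
    have := ((hasDerivAt_inv hw.ne').const_mul A).const_sub (Real.log 2)
    refine (this.congr_of_eventuallyEq ?_).congr_deriv ?_
    · filter_upwards with x
      rw [div_eq_mul_inv]
    · field_simp
  have e2 := (hasDerivAt_id w).mul ((hasDerivAt_SS' hI).comp w e1)
  refine e2.congr_deriv ?_
  simp only [id, Function.comp]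
  unfold SSd
  rw [sub_sub_cancel]
  have e3 : SS (Real.log 2 - A / w) = sF (hinv (A / w)) := by
    unfold SS
    rw [sub_sub_cancel]
  rw [e3, cc_eq]
  rcases le_or_gt (A / w) (Real.log 2) with h | h
  · rw [signEntropy_hinv hy h]
    field_simp
  · rw [hinv_of_gt h, kappa_zero]
    ring

theorem hasDerivAt_sub {A w : ℝ} (hA : 0 < A) (hw : 0 < w) :
    HasDerivAt (fun w => PP w A - (4 / 3) * (Real.log 2) ^ 2 * (w * Real.log w))
      (cc (hinv (A / w)) - (4 / 3) * (Real.log 2) ^ 2 * (Real.log w + 1)) w :=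
  (hasDerivAt_PP hA hw).sub ((Real.hasDerivAt_mul_log hw.ne').const_mul _)

end T5

/-- **T5 (ii)** -/
theorem concaveOn_PP_sub {A : ℝ} (hA : 0 < A) : ConcaveOn ℝ (Ioi 0)
    (fun w => PP w A - (4 / 3) * (Real.log 2) ^ 2 * (w * Real.log w)) := by
  refine AntitoneOn.concaveOn_of_deriv (convex_Ioi 0) ?_ ?_ ?_
  · intro x hx
    exact (T5.hasDerivAt_sub hA hx).continuousAt.continuousWithinAt
  · rw [interior_Ioi]
    intro x hx
    exact (T5.hasDerivAt_sub hA hx).differentiableAt.differentiableWithinAt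
  · rw [interior_Ioi]
    intro x hx y hy hxy
    rw [(T5.hasDerivAt_sub hA hx).deriv, (T5.hasDerivAt_sub hA hy).deriv]
    have := T5.cc_hinv_le hA hx hxy
    linarith

/-- **T5 (iii)** -/
theorem PP_second_diff {A w V e : ℝ} (hA : 0 < A) (hV : 0 ≤ V) (he : 0 ≤ e) (hw : V + e < w) :
    PP w A - PP (w - V) A - PP (w - e) A
      ≤ (4 / 3) * (Real.log 2) ^ 2 * (w * Real.log w - (w - V) * Real.log (w - V)
        - (w - e) * Real.log (w - e) + (w - V - e) * Real.log (w - V - e)) := by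
  have hp := PP_nonneg (w := w - V - e) (by linarith) hA
  have hc := concaveOn_PP_sub hA
  rcases eq_or_lt_of_le (add_nonneg hV he) with h | h
  · have hV0 : V = 0 := by linarith
    have he0 : e = 0 := by linarith
    subst hV0
    subst he0
    simp only [sub_zero] at hp ⊢
    linarith
  · have hne : V + e ≠ 0 := h.ne'
    have m1 : (w - V - e) ∈ Ioi (0:ℝ) := by simp only [mem_Ioi]; linarith
    have m2 : w ∈ Ioi (0:ℝ) := by simp only [mem_Ioi]; linarith
    have a1 : 0 ≤ V / (V + e) := by positivity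
    have a2 : 0 ≤ e / (V + e) := by positivity
    have a3 : V / (V + e) + e / (V + e) = 1 := by field_simp
    have a3' : e / (V + e) + V / (V + e) = 1 := by rw [add_comm, a3]
    have h1 := hc.2 m1 m2 a1 a2 a3
    have h2 := hc.2 m1 m2 a2 a1 a3'
    simp only [smul_eq_mul] at h1 h2
    have e1 : V / (V + e) * (w - V - e) + e / (V + e) * w = w - V := by
      field_simp
      ring
    have e2 : e / (V + e) * (w - V - e) + V / (V + e) * w = w - e := by
      field_simp
      ring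
    rw [e1] at h1
    rw [e2] at h2
    have key : ∀ X Y : ℝ, (V / (V + e) * X + e / (V + e) * Y) + (e / (V + e) * X + V / (V + e) * Y)
        = X + Y := by
      intro X Y
      have : (V / (V + e) * X + e / (V + e) * Y) + (e / (V + e) * X + V / (V + e) * Y)
        = (V / (V + e) + e / (V + e)) * (X + Y) := by ring
      rw [this, a3, one_mul]
    have h3 := add_le_add h1 h2
    rw [key] at h3
    linarith

end Crest.Agent.R307
end

-- ▼ part R307/GGfinal
section

/-!
Row 307, task T7 (helper868): the mean-profile bound `GG t m A ≤ production`, by induction on the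
dimension (parts 2 and 3 of S0472), from T1-T5 and the explicit inequality T6.
-/

set_option autoImplicit false

open Set Crest.CubeNoise

namespace Crest.Agent.R307

/-- T6, in the form used here -/
def ExplicitStmt : Prop :=
  ∀ m δ V : ℝ, 0 ≤ m → 0 < δ → δ < 1 - m → 0 ≤ V → δ < 1 - m ^ 2 - V →
    (4 / 3) * (Real.log 2) ^ 2 *
      ((1 - m ^ 2) * Real.log (1 - m ^ 2) - (1 - m ^ 2 - V) * Real.log (1 - m ^ 2 - V)
        - (1 - m ^ 2 - δ ^ 2) * Real.log (1 - m ^ 2 - δ ^ 2)
        + (1 - m ^ 2 - V - δ ^ 2) * Real.log (1 - m ^ 2 - V - δ ^ 2))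
      ≤ max (-Real.log (1 - δ ^ 2 / (1 + m) ^ 2) / (1 - m) ^ 2 * V)
          (δ ^ 2 * V / ((1 - m ^ 2) * (1 - m ^ 2 - V)))

namespace GGF

variable {n : ℕ}

theorem cubeAverage_neg (g : (Fin n → Bool) → ℝ) :
    cubeAverage (fun x => -g x) = -cubeAverage g := by
  have := cubeAverage_const_mul (-1) g
  simpa using this

/-- subadditivity defect of `PP` in the first variable, `m ≥ 0`, `δ > 0` -/
theorem PP_step_pos (H6 : ExplicitStmt) {g0 g1 : (Fin n → Bool) → ℝ} (h0 : ∀ x, |g0 x| < 1)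
    (h1 : ∀ x, |g1 x| < 1) {A : ℝ} (hA : 0 < A)
    (hm : 0 ≤ (cubeAverage g0 + cubeAverage g1) / 2)
    (hδ : 0 < (cubeAverage g0 - cubeAverage g1) / 2) :
    PP (1 - ((cubeAverage g0 + cubeAverage g1) / 2) ^ 2) A ≤
      PP (1 - ((cubeAverage g0 + cubeAverage g1) / 2) ^ 2 - VV g0 g1) A
      + PP (1 - ((cubeAverage g0 + cubeAverage g1) / 2) ^ 2
          - ((cubeAverage g0 - cubeAverage g1) / 2) ^ 2) A
      + 2 * (cubeAverage (fun x => io (g0 x) (g1 x)) - io (cubeAverage g0) (cubeAverage g1)) := by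
  have hloc := local_bound h0 h1
  have hcor := Corner.corner_cube h0 h1 hm hδ
  have hV := VV_nonneg g0 g1
  have hd := abs_delta_lt h0 h1
  have ha0 := abs_lt.mp (abs_cubeAverage_lt_one h0)
  have ha1 := abs_lt.mp (abs_cubeAverage_lt_one h1)
  change (-Real.log (1 - ((cubeAverage g0 - cubeAverage g1) / 2) ^ 2 /
        (1 + (cubeAverage g0 + cubeAverage g1) / 2) ^ 2) /
        (1 - (cubeAverage g0 + cubeAverage g1) / 2) ^ 2) * VV g0 g1 ≤ _ at hcor
  have hδ1 : (cubeAverage g0 - cubeAverage g1) / 2 < 1 - (cubeAverage g0 + cubeAverage g1) / 2 := by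
    linarith [ha0.2]
  rw [abs_of_pos hδ] at hd
  have h6 := H6 ((cubeAverage g0 + cubeAverage g1) / 2) ((cubeAverage g0 - cubeAverage g1) / 2)
    (VV g0 g1) hm hδ hδ1 hV hd
  have hδ2 : (cubeAverage g0 - cubeAverage g1) / 2 < 1 := by linarith
  have hsq : ((cubeAverage g0 - cubeAverage g1) / 2) ^ 2 ≤ (cubeAverage g0 - cubeAverage g1) / 2 := by
    nlinarith
  have h5 := PP_second_diff (w := 1 - ((cubeAverage g0 + cubeAverage g1) / 2) ^ 2)
    (V := VV g0 g1) (e := ((cubeAverage g0 - cubeAverage g1) / 2) ^ 2) hA hV (sq_nonneg _)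
    (by linarith)
  have hmax := max_le hcor hloc
  linarith

theorem PP_step_nonneg (H6 : ExplicitStmt) {g0 g1 : (Fin n → Bool) → ℝ} (h0 : ∀ x, |g0 x| < 1)
    (h1 : ∀ x, |g1 x| < 1) {A : ℝ} (hA : 0 < A)
    (hm : 0 ≤ (cubeAverage g0 + cubeAverage g1) / 2)
    (hδ : 0 ≤ (cubeAverage g0 - cubeAverage g1) / 2) :
    PP (1 - ((cubeAverage g0 + cubeAverage g1) / 2) ^ 2) A ≤
      PP (1 - ((cubeAverage g0 + cubeAverage g1) / 2) ^ 2 - VV g0 g1) A
      + PP (1 - ((cubeAverage g0 + cubeAverage g1) / 2) ^ 2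
          - ((cubeAverage g0 - cubeAverage g1) / 2) ^ 2) A
      + 2 * (cubeAverage (fun x => io (g0 x) (g1 x)) - io (cubeAverage g0) (cubeAverage g1)) := by
  rcases eq_or_lt_of_le hδ with h | h
  · have hloc := local_bound h0 h1
    have hd := abs_delta_lt h0 h1
    rw [← h] at hloc hd ⊢
    simp only [abs_zero, ne_eq, OfNat.ofNat_ne_zero, not_false_eq_true, zero_pow, zero_mul,
      zero_div, sub_zero] at hloc hd ⊢
    have := PP_nonneg hd hA
    linarith
  · exact PP_step_pos H6 h0 h1 hA hm h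

theorem VV_comm (g0 g1 : (Fin n → Bool) → ℝ) : VV g1 g0 = VV g0 g1 := by
  unfold VV
  have e : (fun x => ((g1 x + g0 x) / 2) ^ 2) = fun x => ((g0 x + g1 x) / 2) ^ 2 := by
    funext x; ring
  rw [e, add_comm (cubeAverage g1)]

theorem PP_step_mean (H6 : ExplicitStmt) {g0 g1 : (Fin n → Bool) → ℝ} (h0 : ∀ x, |g0 x| < 1)
    (h1 : ∀ x, |g1 x| < 1) {A : ℝ} (hA : 0 < A)
    (hm : 0 ≤ (cubeAverage g0 + cubeAverage g1) / 2) :
    PP (1 - ((cubeAverage g0 + cubeAverage g1) / 2) ^ 2) A ≤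
      PP (1 - ((cubeAverage g0 + cubeAverage g1) / 2) ^ 2 - VV g0 g1) A
      + PP (1 - ((cubeAverage g0 + cubeAverage g1) / 2) ^ 2
          - ((cubeAverage g0 - cubeAverage g1) / 2) ^ 2) A
      + 2 * (cubeAverage (fun x => io (g0 x) (g1 x)) - io (cubeAverage g0) (cubeAverage g1)) := by
  rcases le_total 0 ((cubeAverage g0 - cubeAverage g1) / 2) with h | h
  · exact PP_step_nonneg H6 h0 h1 hA hm h
  · have := PP_step_nonneg H6 h1 h0 hA (by linarith) (by linarith)
    rw [VV_comm g0 g1, add_comm (cubeAverage g1), io_comm (cubeAverage g1)] at this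
    have e1 : ((cubeAverage g1 - cubeAverage g0) / 2) ^ 2
      = ((cubeAverage g0 - cubeAverage g1) / 2) ^ 2 := by ring
    have e2 : (fun x => io (g1 x) (g0 x)) = fun x => io (g0 x) (g1 x) := by
      funext x; exact io_comm _ _
    rw [e1, e2] at this
    exact this

theorem PP_step (H6 : ExplicitStmt) {g0 g1 : (Fin n → Bool) → ℝ} (h0 : ∀ x, |g0 x| < 1)
    (h1 : ∀ x, |g1 x| < 1) {A : ℝ} (hA : 0 < A) :
    PP (1 - ((cubeAverage g0 + cubeAverage g1) / 2) ^ 2) A ≤
      PP (1 - ((cubeAverage g0 + cubeAverage g1) / 2) ^ 2 - VV g0 g1) A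
      + PP (1 - ((cubeAverage g0 + cubeAverage g1) / 2) ^ 2
          - ((cubeAverage g0 - cubeAverage g1) / 2) ^ 2) A
      + 2 * (cubeAverage (fun x => io (g0 x) (g1 x)) - io (cubeAverage g0) (cubeAverage g1)) := by
  rcases le_total 0 ((cubeAverage g0 + cubeAverage g1) / 2) with h | h
  · exact PP_step_mean H6 h0 h1 hA h
  · have h0' : ∀ x, |(fun x => -g0 x) x| < 1 := fun x => by simpa using h0 x
    have h1' : ∀ x, |(fun x => -g1 x) x| < 1 := fun x => by simpa using h1 x
    have := PP_step_mean H6 h0' h1' hA (by rw [cubeAverage_neg, cubeAverage_neg]; linarith)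
    have e1 : VV (fun x => -g0 x) (fun x => -g1 x) = VV g0 g1 := by
      unfold VV
      rw [cubeAverage_neg, cubeAverage_neg]
      have e : (fun x => ((-g0 x + -g1 x) / 2) ^ 2) = fun x => ((g0 x + g1 x) / 2) ^ 2 := by
        funext x; ring
      rw [e]
      ring
    have e2 : (fun x => io (-g0 x) (-g1 x)) = fun x => io (g0 x) (g1 x) := by
      funext x; exact Persp.io_neg _ _
    rw [e1, cubeAverage_neg, cubeAverage_neg, Persp.io_neg, e2] at this
    have e3 : ((-cubeAverage g0 + -cubeAverage g1) / 2) ^ 2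
      = ((cubeAverage g0 + cubeAverage g1) / 2) ^ 2 := by ring
    have e4 : ((-cubeAverage g0 - -cubeAverage g1) / 2) ^ 2
      = ((cubeAverage g0 - cubeAverage g1) / 2) ^ 2 := by ring
    rw [e3, e4] at this
    exact this

theorem kk_average {g0 g1 : (Fin n → Bool) → ℝ} (h0 : ∀ x, |g0 x| < 1)
    (h1 : ∀ x, |g1 x| < 1) {t : ℝ} (ht0 : 0 ≤ t) (ht1 : t < 1) :
    2 * cubeAverage (fun x => io (g0 x) (g1 x))
      + (1 - ((cubeAverage g0 + cubeAverage g1) / 2) ^ 2 - VV g0 g1) * cc t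
      - (kappa t - 2) * ((cubeAverage (fun x => signEntropy (g0 x))
          + cubeAverage (fun x => signEntropy (g1 x))) / 2)
      ≤ cubeAverage (fun x => kk (g0 x) (g1 x)) := by
  have hle : cubeAverage (fun x => (2 * io (g0 x) (g1 x) + cc t * (1 - ((g0 x + g1 x) / 2) ^ 2))
        + (-(kappa t - 2) / 2) * (signEntropy (g0 x) + signEntropy (g1 x)))
      ≤ cubeAverage (fun x => kk (g0 x) (g1 x)) := by
    apply cubeAverage_mono
    intro x
    have := GG_le_kk (h0 x) (h1 x) ht0 ht1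
    unfold GG at this
    unfold io cc
    linarith
  rw [cubeAverage_add, cubeAverage_add, cubeAverage_const_mul, cubeAverage_const_mul,
    cubeAverage_const_mul, cubeAverage_add, cubeAverage_one_sub_sq] at hle
  linarith

theorem step (H6 : ExplicitStmt) {g0 g1 : (Fin n → Bool) → ℝ} (h0 : ∀ x, |g0 x| < 1)
    (h1 : ∀ x, |g1 x| < 1) {D0 D1 : ℝ}
    (hD0 : ∀ t, 0 ≤ t → t < 1 →
      GG t (cubeAverage g0) (cubeAverage fun x => signEntropy (g0 x)) ≤ D0)
    (hD1 : ∀ t, 0 ≤ t → t < 1 →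
      GG t (cubeAverage g1) (cubeAverage fun x => signEntropy (g1 x)) ≤ D1)
    {t : ℝ} (ht0 : 0 ≤ t) (ht1 : t < 1) :
    GG t ((cubeAverage g0 + cubeAverage g1) / 2)
        ((cubeAverage (fun x => signEntropy (g0 x))
          + cubeAverage (fun x => signEntropy (g1 x))) / 2)
      ≤ (D0 + D1) / 2 + cubeAverage (fun x => kk (g0 x) (g1 x)) := by
  have hA0 : 0 < cubeAverage (fun x => signEntropy (g0 x)) := by
    rw [← cubeAverage_const (n := n) 0]
    exact cubeAverage_lt fun x => signEntropy_pos (h0 x)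
  have hA1 : 0 < cubeAverage (fun x => signEntropy (g1 x)) := by
    rw [← cubeAverage_const (n := n) 0]
    exact cubeAverage_lt fun x => signEntropy_pos (h1 x)
  set A0 := cubeAverage (fun x => signEntropy (g0 x)) with hA0d
  set A1 := cubeAverage (fun x => signEntropy (g1 x)) with hA1d
  have hA : 0 < (A0 + A1) / 2 := by linarith
  have hmain := PP_step H6 h0 h1 hA
  have hd := abs_delta_lt h0 h1
  have hV := VV_nonneg g0 g1
  have ha0 := abs_lt.mp (abs_cubeAverage_lt_one h0)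
  have ha1 := abs_lt.mp (abs_cubeAverage_lt_one h1)
  have hw1 : 0 < 1 - ((cubeAverage g0 + cubeAverage g1) / 2) ^ 2 - VV g0 g1 :=
    lt_of_le_of_lt (abs_nonneg _) hd
  have hw : 0 < 1 - ((cubeAverage g0 + cubeAverage g1) / 2) ^ 2 := by linarith
  have hw2 : 0 < 1 - ((cubeAverage g0 + cubeAverage g1) / 2) ^ 2
      - ((cubeAverage g0 - cubeAverage g1) / 2) ^ 2 := by
    nlinarith [mul_pos (sub_pos.mpr ha0.2) (sub_pos.mpr ha0.1),
      mul_pos (sub_pos.mpr ha1.2) (sub_pos.mpr ha1.1)]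
  have m1 := hinv_mem (div_pos hA hw1)
  have m2 := hinv_mem (div_pos hA hw2)
  have p1 := PP_eq_tangent hw1 hA
  have p2 := PP_eq_tangent hw2 hA
  have q1 := kk_average h0 h1 m1.1 m1.2
  have q2 := hD0 _ m2.1 m2.2
  have q3 := hD1 _ m2.1 m2.2
  have p := PP_tangent hw hA ht0 ht1
  rw [← hA0d, ← hA1d] at q1
  unfold GG at q2 q3 ⊢
  unfold cc at p p1 p2 q1
  have hio : io (cubeAverage g0) (cubeAverage g1)
    = signEntropy ((cubeAverage g0 + cubeAverage g1) / 2)
      - (signEntropy (cubeAverage g0) + signEntropy (cubeAverage g1)) / 2 := rfl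
  rw [hio] at hmain
  nlinarith [hmain, p, p1, p2, q1, q2, q3]

end GGF

/-- **T7**, from the explicit inequality T6 -/
theorem GG_le_production_of (H6 : ExplicitStmt) : ∀ (n : ℕ) (g : (Fin n → Bool) → ℝ),
    (∀ x, |g x| < 1) → ∀ t, 0 ≤ t → t < 1 →
      GG t (cubeAverage g) (cubeAverage fun x => signEntropy (g x)) ≤ production g := by
  intro n
  induction n with
  | zero =>
    intro g hg t ht0 ht1
    rw [production_zero, cubeAverage_zero, cubeAverage_zero]
    have h := GG_le_kk (hg default) (hg default) ht0 ht1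
    have e1 : (g default + g default) / 2 = g default := by ring
    have e2 : (signEntropy (g default) + signEntropy (g default)) / 2
        = signEntropy (g default) := by ring
    rw [e1, e2, Persp.kk_self] at h
    exact h
  | succ n ih =>
    intro g hg t ht0 ht1
    have hg0 : ∀ x, |sl0 g x| < 1 := fun x => hg _
    have hg1 : ∀ x, |sl1 g x| < 1 := fun x => hg _
    rw [production_split, cubeAverage_split, cubeAverage_split]
    exact GGF.step H6 hg0 hg1 (ih (sl0 g) hg0) (ih (sl1 g) hg1) ht0 ht1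

end Crest.Agent.R307
end

-- ▼ part R307/Explicit

/-!
Row 307 (S0472), task T6 (helper675): the explicit inequality (6) of the blueprint.

`Δ(V) = f w - f (w-V) - f (w-δ²) + f (w-V-δ²)`, `f x = x log x`, is the integral over `[0,V]` of the convex
function `u ↦ log ((w-u)/(w-u-δ²))`, so the trapezoid rule gives
`Δ(V) ≤ V/2 * (-log (1-δ²/w) - log (1-δ²/(w-V)))`.
* `δ ≤ 7/10`: compare with `δ² V/(w (w-V))`.
* `δ ≥ 7/10`: compare with `kap V`; for fixed `m` the difference is first increasing and then decreasing in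
  `δ`, so only `δ = 7/10` and `δ = 1-m` have to be checked.
-/

set_option autoImplicit false

open Set Real

namespace Crest.Agent.R307

/-! ### the trapezoid bound -/

theorem secDiff_le_trap {w e V : ℝ} (he : 0 < e) (hV : 0 ≤ V) (h : V + e < w) :
    w * log w - (w - V) * log (w - V) - (w - e) * log (w - e) + (w - V - e) * log (w - V - e)
      ≤ V / 2 * ((log w - log (w - e)) + (log (w - V) - log (w - V - e))) := by
  set D : ℝ → ℝ := fun u => u / 2 * ((log w - log (w - e)) + (log (w - u) - log (w - u - e)))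
    - (w * log w - (w - u) * log (w - u) - (w - e) * log (w - e) + (w - u - e) * log (w - u - e))
    with hD
  have hder : ∀ u ∈ Icc (0 : ℝ) V, HasDerivAt D
      (1 / 2 * ((log w - log (w - e)) + (log (w - u) - log (w - u - e)))
        + u / 2 * (- (1 / (w - u)) + 1 / (w - u - e))
        - (log (w - u) - log (w - u - e))) u := by
    intro u hu
    have h1 : 0 < w - u := by linarith [hu.2]
    have h2 : 0 < w - u - e := by linarith [hu.2]
    have d1 : HasDerivAt (fun u : ℝ => w - u) (-1) u := by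
      simpa using (hasDerivAt_id u).const_sub w
    have d2 : HasDerivAt (fun u : ℝ => w - u - e) (-1) u := d1.sub_const e
    have l1 : HasDerivAt (fun u : ℝ => log (w - u)) (-1 / (w - u)) u := d1.log h1.ne'
    have l2 : HasDerivAt (fun u : ℝ => log (w - u - e)) (-1 / (w - u - e)) u := d2.log h2.ne'
    have m1 := d1.mul l1
    have m2 := d2.mul l2
    have t1 := ((hasDerivAt_id u).div_const 2).mul
      ((l1.sub l2).const_add (log w - log (w - e)))
    have t2 := t1.sub (((((hasDerivAt_const u (w * log w)).sub m1)).sub_const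
      ((w - e) * log (w - e))).add m2)
    refine t2.congr_deriv ?_
    simp only [id, Pi.sub_apply]
    field_simp
    ring
  have hmono : MonotoneOn D (Icc 0 V) := by
    apply monotoneOn_of_deriv_nonneg (convex_Icc 0 V)
    · intro u hu
      exact (hder u hu).continuousAt.continuousWithinAt
    · intro u hu
      rw [interior_Icc] at hu
      exact (hder u ⟨hu.1.le, hu.2.le⟩).differentiableAt.differentiableWithinAt
    · intro u hu
      rw [interior_Icc] at hu
      rw [(hder u ⟨hu.1.le, hu.2.le⟩).deriv]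
      have hw : 0 < w := by linarith
      have hwe : 0 < w - e := by linarith
      have h1 : 0 < w - u := by linarith [hu.2]
      have h2 : 0 < w - u - e := by linarith [hu.2]
      have hlog : log ((w - u) * (w - e) / (w * (w - u - e)))
          = log (w - u) + log (w - e) - log w - log (w - u - e) := by
        rw [log_div (by positivity) (by positivity), log_mul h1.ne' hwe.ne', log_mul hw.ne' h2.ne']
        ring
      have hle := log_le_sub_one_of_pos (x := (w - u) * (w - e) / (w * (w - u - e))) (by positivity)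
      rw [hlog] at hle
      have e1 : (w - u) * (w - e) / (w * (w - u - e)) - 1 = u * e / (w * (w - u - e)) := by
        field_simp
        ring
      have e2 : u * e / (w * (w - u - e)) ≤ u * (- (1 / (w - u)) + 1 / (w - u - e)) := by
        have : u * (- (1 / (w - u)) + 1 / (w - u - e)) = u * e / ((w - u) * (w - u - e)) := by
          field_simp
          ring
        rw [this]
        apply div_le_div_of_nonneg_left
        · exact mul_nonneg hu.1.le he.le
        · positivity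
        · apply mul_le_mul_of_nonneg_right _ h2.le
          linarith [hu.1]
      rw [e1] at hle
      nlinarith [hle, e2]
  have h0 : D 0 = 0 := by
    simp only [hD, sub_zero]
    ring
  have := hmono (left_mem_Icc.2 hV) (right_mem_Icc.2 hV) hV
  rw [h0] at this
  simp only [hD] at this
  linarith

theorem secDiff_le_end {w e V : ℝ} (he : 0 < e) (hV : 0 ≤ V) (h : V + e < w) :
    w * log w - (w - V) * log (w - V) - (w - e) * log (w - e) + (w - V - e) * log (w - V - e)
      ≤ V * (log (w - V) - log (w - V - e)) := by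
  have h1 := secDiff_le_trap he hV h
  have hw : 0 < w := by linarith
  have hwe : 0 < w - e := by linarith
  have h3 : 0 < w - V := by linarith
  have h2 : 0 < w - V - e := by linarith
  have h4 : log w - log (w - e) ≤ log (w - V) - log (w - V - e) := by
    rw [← log_div hw.ne' hwe.ne', ← log_div h3.ne' h2.ne']
    apply log_le_log (by positivity)
    rw [div_le_div_iff₀ hwe h2]
    nlinarith [mul_nonneg hV he.le]
  have h5 : V / 2 * ((log w - log (w - e)) + (log (w - V) - log (w - V - e)))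
      ≤ V * (log (w - V) - log (w - V - e)) := by
    nlinarith
  linarith

/-! ### chord bound for the logarithm, numerical values -/

theorem neg_log_one_sub_le_chord {x x1 : ℝ} (h0 : 0 ≤ x) (hx : x ≤ x1) (h1 : x1 < 1) (hp : 0 < x1) :
    - log (1 - x) ≤ x / x1 * (- log (1 - x1)) := by
  have hc := strictConcaveOn_log_Ioi.concaveOn.2 (show (1 : ℝ) ∈ Ioi 0 by simp)
    (show (1 - x1) ∈ Ioi (0 : ℝ) by simpa using h1)
    (show 0 ≤ 1 - x / x1 by rw [sub_nonneg, div_le_one hp]; exact hx) (show 0 ≤ x / x1 by positivity)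
    (by ring)
  simp only [smul_eq_mul, log_one, mul_zero, zero_add, mul_one] at hc
  have e : 1 - x / x1 + x / x1 * (1 - x1) = 1 - x := by
    field_simp
    ring
  rw [e] at hc
  linarith

theorem bb_lt : 4 / 3 * (log 2) ^ 2 < 0.64062 := by
  have h1 := Real.log_two_lt_d9
  have h2 := Real.log_two_gt_d9
  nlinarith

theorem log_384 : - log (0.384 : ℝ) ≤ 0.957113 := by
  have e : (0.384 : ℝ) = 2 ^ 4 * 3 / 5 ^ 3 := by norm_num
  rw [e, log_div (by norm_num) (by norm_num), log_mul (by norm_num) (by norm_num), log_pow, log_pow]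
  have := Real.log_two_gt_d9
  have := Real.log_three_gt_d9
  have := Real.log_five_lt_d9
  push_cast
  linarith


theorem log_4608 : - log (0.4608 : ℝ) ≤ 0.774792 := by
  have e : (0.4608 : ℝ) = 2 ^ 5 * 3 ^ 2 / 5 ^ 4 := by norm_num
  rw [e, log_div (by norm_num) (by norm_num), log_mul (by norm_num) (by norm_num), log_pow, log_pow,
    log_pow]
  have := Real.log_two_gt_d9
  have := Real.log_three_gt_d9
  have := Real.log_five_lt_d9
  push_cast
  linarith

theorem log_3_10 : - log (0.3 : ℝ) ≤ 1.203973 := by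
  have e : (0.3 : ℝ) = 3 / (2 * 5) := by norm_num
  rw [e, log_div (by norm_num) (by norm_num), log_mul (by norm_num) (by norm_num)]
  have := Real.log_two_lt_d9
  have := Real.log_three_gt_d9
  have := Real.log_five_lt_d9
  linarith

/-! ### first case: `δ ≤ 7/10` -/

theorem explicit_case_small {m δ V : ℝ} (hm : 0 ≤ m) (hδ : 0 < δ) (hδm : δ < 1 - m) (hV : 0 ≤ V)
    (hVw : V ≤ 1 - m ^ 2 - δ) (h7 : δ ≤ 0.7) :
    4 / 3 * (log 2) ^ 2 * ((1 - m ^ 2) * log (1 - m ^ 2) - (1 - m ^ 2 - V) * log (1 - m ^ 2 - V)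
      - (1 - m ^ 2 - δ ^ 2) * log (1 - m ^ 2 - δ ^ 2)
      + (1 - m ^ 2 - V - δ ^ 2) * log (1 - m ^ 2 - V - δ ^ 2))
      ≤ δ ^ 2 * V / ((1 - m ^ 2) * (1 - m ^ 2 - V)) := by
  have hbb := bb_lt
  have hbb0 : 0 < 4 / 3 * (log 2) ^ 2 := by
    have := Real.log_two_gt_d9
    positivity
  set bb := 4 / 3 * (log 2) ^ 2 with hbbdef
  set w := 1 - m ^ 2 with hw
  have hw1 : w ≤ 1 := by nlinarith
  have hwδ : δ * (2 - δ) ≤ w := by nlinarith
  have hδ1 : δ < 1 := by linarith
  have hw0 : 0 < w := by nlinarith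
  have hδ2 : 0 < δ ^ 2 := by positivity
  have hδδ : δ ^ 2 < δ := by nlinarith
  have hwV : 0 < w - V := by linarith
  have hsum : V + δ ^ 2 < w := by linarith
  have hwVe : 0 < w - V - δ ^ 2 := by linarith
  have hwe : 0 < w - δ ^ 2 := by linarith
  set x := δ ^ 2 / (w - V) with hx
  have hx0 : 0 < x := by positivity
  have hxδ : x ≤ δ := by
    rw [hx, div_le_iff₀ hwV]
    nlinarith
  have hx1 : x < 1 := by linarith
  have hlogx : log (w - V) - log (w - V - δ ^ 2) = - log (1 - x) := by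
    have : 1 - x = (w - V - δ ^ 2) / (w - V) := by rw [hx]; field_simp
    rw [this, log_div hwVe.ne' hwV.ne']
    ring
  have hR : δ ^ 2 * V / (w * (w - V)) = x * V / w := by
    rw [hx]; field_simp
  rw [hR]
  have hxV : x * V ≤ x * V / w := by
    rw [le_div_iff₀ hw0]
    nlinarith [mul_nonneg hx0.le hV]
  rcases le_or_gt x 0.616 with hc | hc
  · have h1 := secDiff_le_end hδ2 hV hsum
    rw [hlogx] at h1
    have h2 := neg_log_one_sub_le_chord hx0.le hc (by norm_num) (by norm_num)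
    have e : (1 : ℝ) - 0.616 = 0.384 := by norm_num
    rw [e] at h2
    have h3 := log_384
    have h4 : bb * (- log (1 - x)) ≤ x := by
      calc bb * (- log (1 - x)) ≤ bb * (x / 0.616 * 0.957113) := by
            apply mul_le_mul_of_nonneg_left _ hbb0.le
            refine h2.trans ?_
            apply mul_le_mul_of_nonneg_left h3
            positivity
        _ ≤ 0.64062 * (x / 0.616 * 0.957113) := by
            apply mul_le_mul_of_nonneg_right hbb.le
            positivity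
        _ ≤ x := by
            rw [div_mul_eq_mul_div, ← mul_div_assoc, div_le_iff₀ (by norm_num)]
            nlinarith
    calc _ ≤ bb * (V * (- log (1 - x))) := by
            apply mul_le_mul_of_nonneg_left h1 hbb0.le
      _ = V * (bb * (- log (1 - x))) := by ring
      _ ≤ V * x := by exact mul_le_mul_of_nonneg_left h4 hV
      _ ≤ x * V / w := by linarith
  · have h1 := secDiff_le_trap hδ2 hV hsum
    rw [hlogx] at h1
    set y := δ ^ 2 / w with hy
    have hy0 : 0 < y := by positivity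
    have hyle : y ≤ 0.5392 := by
      rw [hy, div_le_iff₀ hw0]
      have h10 : δ * δ ≤ δ * (0.5392 * (2 - δ)) :=
        mul_le_mul_of_nonneg_left (by linarith) hδ.le
      linarith
    have hlogy : log w - log (w - δ ^ 2) = - log (1 - y) := by
      have : 1 - y = (w - δ ^ 2) / w := by rw [hy]; field_simp
      rw [this, log_div hwe.ne' hw0.ne']
      ring
    rw [hlogy] at h1
    have h2 := neg_log_one_sub_le_chord hy0.le hyle (by norm_num) (by norm_num)
    have e : (1 : ℝ) - 0.5392 = 0.4608 := by norm_num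
    rw [e] at h2
    have h3 := log_4608
    have h5 : - log (1 - x) ≤ 1.203973 := by
      refine le_trans ?_ log_3_10
      rw [neg_le_neg_iff]
      apply log_le_log (by norm_num)
      linarith
    have h6 : - log (1 - y) ≤ 0.70411 / w := by
      refine h2.trans ?_
      have : y / 0.5392 * (- log 0.4608) ≤ y / 0.5392 * 0.774792 :=
        mul_le_mul_of_nonneg_left h3 (by positivity)
      refine this.trans ?_
      rw [hy, le_div_iff₀ hw0]
      have : δ ^ 2 / w / 0.5392 * 0.774792 * w = δ ^ 2 * (0.774792 / 0.5392) := by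
        field_simp
      rw [this]
      have h49 : δ ^ 2 ≤ 0.49 := by nlinarith
      calc δ ^ 2 * (0.774792 / 0.5392) ≤ 0.49 * (0.774792 / 0.5392) :=
            mul_le_mul_of_nonneg_right h49 (by norm_num)
        _ ≤ 0.70411 := by norm_num
    have h7' : - log (1 - x) ≤ 1.203973 / w := by
      refine h5.trans ?_
      rw [le_div_iff₀ hw0]
      linarith
    have h8 : bb * ((- log (1 - y)) + (- log (1 - x))) ≤ 2 * (x / w) := by
      calc bb * ((- log (1 - y)) + (- log (1 - x))) ≤ bb * (0.70411 / w + 1.203973 / w) := by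
            apply mul_le_mul_of_nonneg_left _ hbb0.le
            linarith
        _ ≤ 0.64062 * (0.70411 / w + 1.203973 / w) := by
            apply mul_le_mul_of_nonneg_right hbb.le
            positivity
        _ = 0.64062 * (0.70411 + 1.203973) / w := by ring
        _ ≤ 2 * x / w := by
            apply div_le_div_of_nonneg_right _ hw0.le
            norm_num at hc ⊢
            linarith
        _ = 2 * (x / w) := by ring
    calc _ ≤ bb * (V / 2 * ((- log (1 - y)) + (- log (1 - x)))) := by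
            apply mul_le_mul_of_nonneg_left h1 hbb0.le
      _ = V / 2 * (bb * ((- log (1 - y)) + (- log (1 - x)))) := by ring
      _ ≤ V / 2 * (2 * (x / w)) := mul_le_mul_of_nonneg_left h8 (by linarith)
      _ = x * V / w := by ring

/-! ### second case: `δ ≥ 7/10` -/

/-- the function whose nonnegativity is needed, as a function of `δ`. -/
noncomputable def Gex (c m δ : ℝ) : ℝ :=
  2 * log (1 + m) - log (1 + m - δ) - log (1 + m + δ)
    - c * (1 - m) ^ 2 * (log (1 - m ^ 2) - log (1 - m ^ 2 - δ ^ 2) - log (1 - δ))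

/-- `-(p² - δ²)` times the derivative of `Gex`; convex in `δ`. -/
noncomputable def Psix (c m δ : ℝ) : ℝ :=
  c * (1 - m) ^ 2 * (3 * δ + 1 + 2 * m * (1 + m) * (2 * δ / (1 - m ^ 2 - δ ^ 2))
    + m * (2 + m) * (1 / (1 - δ))) - 2 * δ

theorem hasDerivAt_Gex {c m δ : ℝ} (hm : 0 ≤ m) (h0 : 0 < δ) (h1 : δ < 1) (hw : δ ^ 2 < 1 - m ^ 2) :
    HasDerivAt (Gex c m) (- (Psix c m δ / ((1 + m) ^ 2 - δ ^ 2))) δ := by
  have a1 : 0 < 1 + m - δ := by linarith
  have a2 : 0 < 1 + m + δ := by linarith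
  have a3 : 0 < 1 - m ^ 2 - δ ^ 2 := by linarith
  have a4 : 0 < 1 - δ := by linarith
  have a5 : (1 + m) ^ 2 - δ ^ 2 ≠ 0 := by
    have : (1 + m) ^ 2 - δ ^ 2 = (1 + m - δ) * (1 + m + δ) := by ring
    rw [this]; positivity
  have d1 : HasDerivAt (fun δ : ℝ => 1 + m - δ) (-1) δ := by
    simpa using (hasDerivAt_id δ).const_sub (1 + m)
  have d2 : HasDerivAt (fun δ : ℝ => 1 + m + δ) 1 δ := by
    simpa using (hasDerivAt_id δ).const_add (1 + m)
  have d3 : HasDerivAt (fun δ : ℝ => 1 - m ^ 2 - δ ^ 2) (-(2 * δ)) δ := by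
    simpa using (hasDerivAt_pow 2 δ).const_sub (1 - m ^ 2)
  have d4 : HasDerivAt (fun δ : ℝ => 1 - δ) (-1) δ := by
    simpa using (hasDerivAt_id δ).const_sub 1
  have l1 := d1.log a1.ne'
  have l2 := d2.log a2.ne'
  have l3 := d3.log a3.ne'
  have l4 := d4.log a4.ne'
  have t := (((hasDerivAt_const δ (2 * log (1 + m))).sub l1).sub l2).sub
    ((((hasDerivAt_const δ (log (1 - m ^ 2))).sub l3).sub l4).const_mul (c * (1 - m) ^ 2))
  refine (t.congr_deriv ?_)
  unfold Psix
  have a5' : (1 + m - δ) * (1 + m + δ) ≠ 0 := by positivity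
  have e5 : (1 + m) ^ 2 - δ ^ 2 = (1 + m - δ) * (1 + m + δ) := by ring
  rw [e5]
  field_simp
  ring

theorem Psix_tangent {c m y : ℝ} (hc : 0 < c) (hm : 0 ≤ m) (h0 : 0 ≤ y) (h1 : y < 1)
    (hw : y ^ 2 < 1 - m ^ 2) :
    ∃ S : ℝ, ∀ t : ℝ, 0 ≤ t → t < 1 → t ^ 2 < 1 - m ^ 2 → Psix c m y + S * (t - y) ≤ Psix c m t := by
  refine ⟨c * (1 - m) ^ 2 * (3 + 2 * m * (1 + m) * (2 * (1 - m ^ 2 + y ^ 2) / (1 - m ^ 2 - y ^ 2) ^ 2)
    + m * (2 + m) * (1 / (1 - y) ^ 2)) - 2, fun t ht0 ht1 htw => ?_⟩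
  have b1 : 0 < 1 - y := by linarith
  have b2 : 0 < 1 - t := by linarith
  set w := 1 - m ^ 2 with hwdef
  have b3 : 0 < w - y ^ 2 := by linarith
  have b4 : 0 < w - t ^ 2 := by linarith
  have hw0 : 0 < w := by nlinarith
  have k1 : 1 / (1 - y) + 1 / (1 - y) ^ 2 * (t - y) ≤ 1 / (1 - t) := by
    have e : 1 / (1 - t) - (1 / (1 - y) + 1 / (1 - y) ^ 2 * (t - y))
        = (t - y) ^ 2 / ((1 - t) * (1 - y) ^ 2) := by
      field_simp
      ring
    have : 0 ≤ (t - y) ^ 2 / ((1 - t) * (1 - y) ^ 2) := by positivity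
    linarith
  have k2 : 2 * y / (w - y ^ 2) + 2 * (w + y ^ 2) / (w - y ^ 2) ^ 2 * (t - y) ≤ 2 * t / (w - t ^ 2) := by
    have e : 2 * t / (w - t ^ 2) - (2 * y / (w - y ^ 2) + 2 * (w + y ^ 2) / (w - y ^ 2) ^ 2 * (t - y))
        = 2 * (t - y) ^ 2 * (w * (t + 2 * y) + y ^ 2 * t) / ((w - t ^ 2) * (w - y ^ 2) ^ 2) := by
      field_simp
      ring
    have : 0 ≤ 2 * (t - y) ^ 2 * (w * (t + 2 * y) + y ^ 2 * t) / ((w - t ^ 2) * (w - y ^ 2) ^ 2) := by
      positivity
    linarith
  have c1 : 0 ≤ 2 * m * (1 + m) := by positivity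
  have c2 : 0 ≤ m * (2 + m) := by positivity
  have k3 := mul_le_mul_of_nonneg_left k2 c1
  have k4 := mul_le_mul_of_nonneg_left k1 c2
  have c3 : 0 ≤ c * (1 - m) ^ 2 := by positivity
  have k5 := mul_le_mul_of_nonneg_left (add_le_add k3 k4) c3
  unfold Psix
  rw [← hwdef]
  nlinarith [k5]

theorem Psix_cross {c m x y z : ℝ} (hc : 0 < c) (hm : 0 ≤ m) (hx : 0 ≤ x) (hxy : x ≤ y) (hyz : y ≤ z)
    (hz : z < 1) (hzw : z ^ 2 < 1 - m ^ 2) (h1 : Psix c m x ≤ 0) (h2 : Psix c m z ≤ 0) :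
    Psix c m y ≤ 0 := by
  have hy : 0 ≤ y := hx.trans hxy
  obtain ⟨S, hS⟩ := Psix_tangent (c := c) (m := m) (y := y) hc hm hy (by linarith) (by nlinarith)
  by_contra hcon
  push Not at hcon
  have t1 := hS x hx (by linarith) (by nlinarith)
  have t2 := hS z (by linarith) hz hzw
  rcases le_total 0 S with h | h
  · have := mul_nonneg h (sub_nonneg.2 hyz)
    linarith
  · have := mul_nonneg_of_nonpos_of_nonpos h (sub_nonpos.2 hxy)
    linarith

theorem Psix_seven {c m : ℝ} (hc : 0 < c) (hc' : c ≤ 0.32031) (hm : 0 ≤ m) (hm' : m ≤ 0.3) :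
    Psix c m 0.7 ≤ 0 := by
  unfold Psix
  have a3 : 0 < 1 - m ^ 2 - 0.7 ^ 2 := by nlinarith
  have hpos : 0 ≤ 3 * (0.7 : ℝ) + 1 + 2 * m * (1 + m) * (2 * 0.7 / (1 - m ^ 2 - 0.7 ^ 2))
    + m * (2 + m) * (1 / (1 - 0.7)) := by
    have : (0 : ℝ) < 1 - 0.7 := by norm_num
    positivity
  have h1 : c * (1 - m) ^ 2 * (3 * (0.7 : ℝ) + 1 + 2 * m * (1 + m) * (2 * 0.7 / (1 - m ^ 2 - 0.7 ^ 2))
    + m * (2 + m) * (1 / (1 - 0.7))) ≤ 0.32031 * (1 - m) ^ 2 * (3 * (0.7 : ℝ) + 1 + 2 * m * (1 + m) *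
    (2 * 0.7 / (1 - m ^ 2 - 0.7 ^ 2)) + m * (2 + m) * (1 / (1 - 0.7))) := by
    apply mul_le_mul_of_nonneg_right _ hpos
    apply mul_le_mul_of_nonneg_right hc'
    positivity
  refine (sub_le_sub_right h1 _).trans ?_
  have e : 0.32031 * (1 - m) ^ 2 * (3 * (0.7 : ℝ) + 1 + 2 * m * (1 + m) *
    (2 * 0.7 / (1 - m ^ 2 - 0.7 ^ 2)) + m * (2 + m) * (1 / (1 - 0.7))) - 2 * 0.7
    = (0.32031 * (1 - m) ^ 2 * ((3.1 + m * (2 + m) / 0.3) * (0.51 - m ^ 2) + 2.8 * m * (1 + m))
      - 1.4 * (0.51 - m ^ 2)) / (1 - m ^ 2 - 0.7 ^ 2) := by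
    have e1 : (1 : ℝ) - 0.7 = 0.3 := by norm_num
    have e2 : 1 - m ^ 2 - 0.7 ^ 2 = 0.51 - m ^ 2 := by ring
    rw [e1, e2]
    have : (0.51 : ℝ) - m ^ 2 ≠ 0 := by rw [← e2]; exact a3.ne'
    field_simp
    ring
  rw [e]
  apply div_nonpos_of_nonpos_of_nonneg _ a3.le
  have g0 : 0 ≤ (0.3 - m) := by linarith
  have h : 0 ≤ 0.42 * (0.51 - m ^ 2)
      - 0.32031 * ((1 - m ^ 2) ^ 2 - 0.49 * (1 - m) ^ 2) * (0.93 - m ^ 2) := by
    have q0 := pow_nonneg g0 6
    have q1 := mul_nonneg (pow_nonneg hm 1) (pow_nonneg g0 5)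
    have q2 := mul_nonneg (pow_nonneg hm 2) (pow_nonneg g0 4)
    have q3 := mul_nonneg (pow_nonneg hm 3) (pow_nonneg g0 3)
    have q4 := mul_nonneg (pow_nonneg hm 4) (pow_nonneg g0 2)
    have q5 := mul_nonneg (pow_nonneg hm 5) (pow_nonneg g0 1)
    have q6 := pow_nonneg hm 6
    linarith
  have e3 : 0.32031 * (1 - m) ^ 2 * ((3.1 + m * (2 + m) / 0.3) * (0.51 - m ^ 2) + 2.8 * m * (1 + m))
      - 1.4 * (0.51 - m ^ 2) = - ((0.42 * (0.51 - m ^ 2)
      - 0.32031 * ((1 - m ^ 2) ^ 2 - 0.49 * (1 - m) ^ 2) * (0.93 - m ^ 2)) / 0.3) := by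
    ring
  rw [e3]
  have : 0 ≤ (0.42 * (0.51 - m ^ 2)
      - 0.32031 * ((1 - m ^ 2) ^ 2 - 0.49 * (1 - m) ^ 2) * (0.93 - m ^ 2)) / 0.3 := by positivity
  linarith

theorem Gex_seven {c m : ℝ} (hc : 0 < c) (hc' : c ≤ 0.32031) (hm : 0 ≤ m) (hm' : m ≤ 0.3) :
    0 ≤ Gex c m 0.7 := by
  unfold Gex
  have hp : 0 < 1 + m := by linarith
  have a1 : 0 < 1 + m - 0.7 := by linarith
  have a2 : 0 < 1 + m + 0.7 := by linarith
  have a3 : 0 < 1 - m ^ 2 - 0.7 ^ 2 := by nlinarith
  have a4 : 0 < 1 - m ^ 2 := by nlinarith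
  have hl1 : 2 * log (1 + m) - log (1 + m - 0.7) - log (1 + m + 0.7)
      = - log ((1 + m - 0.7) * (1 + m + 0.7) / (1 + m) ^ 2) := by
    rw [log_div (by positivity) (by positivity), log_mul a1.ne' a2.ne', log_pow]
    push_cast
    ring
  have hl2 : -0.140496 + 0.797526 / (1 + m) ^ 2
      ≤ - log ((1 + m - 0.7) * (1 + m + 0.7) / (1 + m) ^ 2) := by
    set z := (1 + m - 0.7) * (1 + m + 0.7) / (1 + m) ^ 2 with hz
    have hz0 : 0 < z := by positivity
    have h1 := log_le_sub_one_of_pos (x := z / 0.6144) (by positivity)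
    rw [log_div hz0.ne' (by norm_num)] at h1
    have h2 : log (0.6144 : ℝ) ≤ -0.487109 := by
      have e : (0.6144 : ℝ) = 2 ^ 7 * 3 / 5 ^ 4 := by norm_num
      rw [e, log_div (by norm_num) (by norm_num), log_mul (by norm_num) (by norm_num), log_pow, log_pow]
      have := Real.log_two_lt_d9
      have := Real.log_three_lt_d9
      have := Real.log_five_gt_d9
      push_cast
      linarith
    have hz' : z = 1 - 0.49 * (1 / (1 + m) ^ 2) := by
      rw [hz]; field_simp; ring
    have hi : 0 ≤ ((1 + m) ^ 2)⁻¹ := by positivity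
    have e4 : 0.797526 / (1 + m) ^ 2 = 0.797526 * (1 / (1 + m) ^ 2) := by ring
    rw [e4]
    rw [hz'] at h1 ⊢
    rw [one_div] at h1 ⊢
    norm_num at h1 h2 ⊢
    linarith
  have hl3 : log (1 - m ^ 2) - log (1 - m ^ 2 - 0.7 ^ 2) - log (1 - 0.7) ≤ 1.978765 := by
    have e : log (1 - m ^ 2) - log (1 - m ^ 2 - 0.7 ^ 2) - log (1 - 0.7)
        = log ((1 - m ^ 2) / ((1 - m ^ 2 - 0.7 ^ 2) * (1 - 0.7))) := by
      rw [log_div a4.ne' (by have : (0:ℝ) < 1 - 0.7 := by norm_num
                             positivity), log_mul a3.ne' (by norm_num)]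
      ring
    rw [e]
    have h1 : (1 - m ^ 2) / ((1 - m ^ 2 - 0.7 ^ 2) * (1 - 0.7)) ≤ 5 ^ 5 / (2 ^ 4 * 3 ^ 3) := by
      have a5 : (0:ℝ) < 1 - 0.7 := by norm_num
      rw [div_le_div_iff₀ (by positivity) (by norm_num)]
      nlinarith
    have a5 : (0:ℝ) < 1 - 0.7 := by norm_num
    refine (log_le_log (by positivity) h1).trans ?_
    rw [log_div (by norm_num) (by norm_num), log_mul (by norm_num) (by norm_num), log_pow, log_pow,
      log_pow]
    have := Real.log_two_gt_d9
    have := Real.log_three_gt_d9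
    have := Real.log_five_lt_d9
    push_cast
    linarith
  have hl4 : c * (1 - m) ^ 2 * (log (1 - m ^ 2) - log (1 - m ^ 2 - 0.7 ^ 2) - log (1 - 0.7))
      ≤ 0.63382 * (1 - m) ^ 2 := by
    calc c * (1 - m) ^ 2 * (log (1 - m ^ 2) - log (1 - m ^ 2 - 0.7 ^ 2) - log (1 - 0.7))
        ≤ c * (1 - m) ^ 2 * 1.978765 := mul_le_mul_of_nonneg_left hl3 (by positivity)
      _ = (1 - m) ^ 2 * (c * 1.978765) := by ring
      _ ≤ (1 - m) ^ 2 * 0.63382 := by
          apply mul_le_mul_of_nonneg_left _ (sq_nonneg _)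
          linarith
      _ = 0.63382 * (1 - m) ^ 2 := by ring
  have hl5 : 0.63382 * (1 - m) ^ 2 ≤ -0.140496 + 0.797526 / (1 + m) ^ 2 := by
    have e : -0.140496 + 0.797526 / (1 + m) ^ 2
        = (-0.140496 * (1 + m) ^ 2 + 0.797526) / (1 + m) ^ 2 := by field_simp
    rw [e, le_div_iff₀ (by positivity)]
    nlinarith [mul_nonneg (pow_nonneg hm 2) (sub_nonneg.2 hm'), mul_nonneg (pow_nonneg hm 3)
      (sub_nonneg.2 hm'), sq_nonneg (m - 0.13)]
  rw [hl1]
  linarith

/-- polynomial inequality on a piece -/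
theorem Gex_end_piece {m A B m0 m1 L T : ℝ} (hm : 0 < m) (hm' : m ≤ 0.3)
    (hL : A - m / m0 ≤ L) (hT : T ≤ B + (m1 - m) / (1 + m))
    (hpoly : 0 ≤ (1 + m) * (1 - 2 * 0.32031 * (1 - m) ^ 2) * (A - m / m0)
      - (2 - 0.32031 * (1 - m) ^ 2) * (B * (1 + m) + m1 - m)) :
    0 ≤ L - 2 * T - 0.32031 * (1 - m) ^ 2 * (2 * L - T) := by
  have hp : 0 < 1 + m := by linarith
  have c1 : 0 ≤ 1 - 2 * 0.32031 * (1 - m) ^ 2 := by nlinarith
  have c2 : 0 ≤ 2 - 0.32031 * (1 - m) ^ 2 := by nlinarith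
  have e1 := mul_le_mul_of_nonneg_left hL c1
  have e2 := mul_le_mul_of_nonneg_left hT c2
  have e3 : 0 ≤ (1 - 2 * 0.32031 * (1 - m) ^ 2) * (A - m / m0)
      - (2 - 0.32031 * (1 - m) ^ 2) * (B + (m1 - m) / (1 + m)) := by
    have : (1 - 2 * 0.32031 * (1 - m) ^ 2) * (A - m / m0)
      - (2 - 0.32031 * (1 - m) ^ 2) * (B + (m1 - m) / (1 + m))
      = ((1 + m) * (1 - 2 * 0.32031 * (1 - m) ^ 2) * (A - m / m0)
      - (2 - 0.32031 * (1 - m) ^ 2) * (B * (1 + m) + m1 - m)) / (1 + m) := by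
      field_simp
      ring
    rw [this]
    positivity
  linarith

theorem neg_log_ge_tangent {m m0 : ℝ} (hm : 0 < m) (hm0 : 0 < m0) :
    - log m0 + 1 - m / m0 ≤ - log m := by
  have h := log_le_sub_one_of_pos (x := m / m0) (by positivity)
  rw [log_div hm.ne' hm0.ne'] at h
  linarith

theorem log_two_sub_le {m m1 : ℝ} (hm : 0 < m) (hm1 : 0 < m1) :
    log 2 - log (1 + m) ≤ (log 2 - log (1 + m1)) + (m1 - m) / (1 + m) := by
  have h := log_le_sub_one_of_pos (x := (1 + m1) / (1 + m)) (by positivity)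
  rw [log_div (by positivity) (by positivity)] at h
  have e : (1 + m1) / (1 + m) - 1 = (m1 - m) / (1 + m) := by
    field_simp
    ring
  rw [e] at h
  linarith

theorem Gex_end {c m : ℝ} (hc : 0 < c) (hc' : c ≤ 0.32031) (hm : 0 < m) (hm' : m ≤ 0.3) :
    0 ≤ Gex c m (1 - m) := by
  have l2 := Real.log_two_gt_d9
  have l2' := Real.log_two_lt_d9
  have l3 := Real.log_three_gt_d9
  have l3' := Real.log_three_lt_d9
  have l5 := Real.log_five_gt_d9
  have l5' := Real.log_five_lt_d9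
  have hq : 0 < 1 - m := by linarith
  have hp : 0 < 1 + m := by linarith
  have e0 : Gex c m (1 - m) = (- log m) - 2 * (log 2 - log (1 + m))
      - c * (1 - m) ^ 2 * (2 * (- log m) - (log 2 - log (1 + m))) := by
    unfold Gex
    have e1 : 1 + m - (1 - m) = 2 * m := by ring
    have e2 : 1 + m + (1 - m) = 2 := by ring
    have e3 : 1 - m ^ 2 = (1 - m) * (1 + m) := by ring
    have e4 : (1 - m) * (1 + m) - (1 - m) ^ 2 = 2 * m * (1 - m) := by ring
    have e5 : 1 - (1 - m) = m := by ring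
    rw [e1, e2, e3, e4, e5, log_mul (by norm_num) hm.ne', log_mul hq.ne' hp.ne',
      log_mul (by positivity) hq.ne', log_mul (by norm_num) hm.ne']
    ring
  rw [e0]
  set L := - log m with hLdef
  set T := log 2 - log (1 + m) with hTdef
  have hLT : 0 ≤ 2 * L - T := by
    have h1 := neg_log_ge_tangent hm (m0 := 1) (by norm_num)
    rw [log_one] at h1
    have h2 := log_two_sub_le hm (m1 := 1) (by norm_num)
    have e : (1:ℝ) + 1 = 2 := by norm_num
    rw [e] at h2
    have h3 : (1 - m) / (1 + m) ≤ 1 - m := by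
      rw [div_le_iff₀ hp]
      nlinarith
    linarith
  have hmain : 0 ≤ L - 2 * T - 0.32031 * (1 - m) ^ 2 * (2 * L - T) := by
    rcases le_or_gt m (1 / 20) with h1 | h1
    · have hL := neg_log_ge_tangent hm (m0 := 3 / 100) (by norm_num)
      have hT := log_two_sub_le hm (m1 := 3 / 125) (by norm_num)
      have e1 : log (3 / 100 : ℝ) ≤ -3.506557 := by
        have e : (3 / 100 : ℝ) = 3 / (2 ^ 2 * 5 ^ 2) := by norm_num
        rw [e, log_div (by norm_num) (by norm_num), log_mul (by norm_num) (by norm_num), log_pow,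
          log_pow]
        push_cast
        linarith
      have e2 : 0.023716 ≤ log (1 + 3 / 125 : ℝ) := by
        have e : (1 + 3 / 125 : ℝ) = 2 ^ 7 / 5 ^ 3 := by norm_num
        rw [e, log_div (by norm_num) (by norm_num), log_pow, log_pow]
        push_cast
        linarith
      refine Gex_end_piece (A := 4.506557) (B := 0.669432) (m0 := 3 / 100) (m1 := 3 / 125) hm hm'
        (by refine le_trans ?_ hL; linarith) (by refine hT.trans ?_; linarith) ?_
      have g0 : 0 ≤ 1 / 20 - m := by linarith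
      have q0 := pow_nonneg g0 4
      have q1 := mul_nonneg (pow_nonneg hm.le 1) (pow_nonneg g0 3)
      have q2 := mul_nonneg (pow_nonneg hm.le 2) (pow_nonneg g0 2)
      have q3 := mul_nonneg (pow_nonneg hm.le 3) (pow_nonneg g0 1)
      have q4 := pow_nonneg hm.le 4
      linarith
    rcases le_or_gt m (1 / 10) with h2 | h2
    · have hL := neg_log_ge_tangent hm (m0 := 3 / 40) (by norm_num)
      have hT := log_two_sub_le hm (m1 := 2 / 25) (by norm_num)
      have e1 : log (3 / 40 : ℝ) ≤ -2.590267 := by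
        have e : (3 / 40 : ℝ) = 3 / (2 ^ 3 * 5) := by norm_num
        rw [e, log_div (by norm_num) (by norm_num), log_mul (by norm_num) (by norm_num), log_pow]
        push_cast
        linarith
      have e2 : 0.076960 ≤ log (1 + 2 / 25 : ℝ) := by
        have e : (1 + 2 / 25 : ℝ) = 3 ^ 3 / 5 ^ 2 := by norm_num
        rw [e, log_div (by norm_num) (by norm_num), log_pow, log_pow]
        push_cast
        linarith
      refine Gex_end_piece (A := 3.590267) (B := 0.616188) (m0 := 3 / 40) (m1 := 2 / 25) hm hm'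
        (by refine le_trans ?_ hL; linarith) (by refine hT.trans ?_; linarith) ?_
      have g0 : 0 ≤ 1 / 10 - m := by linarith
      have g1 : 0 ≤ m - 1 / 20 := by linarith
      have q0 := pow_nonneg g0 4
      have q1 := mul_nonneg (pow_nonneg g1 1) (pow_nonneg g0 3)
      have q2 := mul_nonneg (pow_nonneg g1 2) (pow_nonneg g0 2)
      have q3 := mul_nonneg (pow_nonneg g1 3) (pow_nonneg g0 1)
      have q4 := pow_nonneg g1 4
      linarith
    rcases le_or_gt m (9 / 50) with h3 | h3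
    · have hL := neg_log_ge_tangent hm (m0 := 18 / 125) (by norm_num)
      have hT := log_two_sub_le hm (m1 := 1 / 8) (by norm_num)
      have e1 : log (18 / 125 : ℝ) ≤ -1.937941 := by
        have e : (18 / 125 : ℝ) = 2 * 3 ^ 2 / 5 ^ 3 := by norm_num
        rw [e, log_div (by norm_num) (by norm_num), log_mul (by norm_num) (by norm_num), log_pow,
          log_pow]
        push_cast
        linarith
      have e2 : 0.117783 ≤ log (1 + 1 / 8 : ℝ) := by
        have e : (1 + 1 / 8 : ℝ) = 3 ^ 2 / 2 ^ 3 := by norm_num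
        rw [e, log_div (by norm_num) (by norm_num), log_pow, log_pow]
        push_cast
        linarith
      refine Gex_end_piece (A := 2.937941) (B := 0.575365) (m0 := 18 / 125) (m1 := 1 / 8) hm hm'
        (by refine le_trans ?_ hL; linarith) (by refine hT.trans ?_; linarith) ?_
      have g0 : 0 ≤ 9 / 50 - m := by linarith
      have g1 : 0 ≤ m - 1 / 10 := by linarith
      have q0 := pow_nonneg g0 4
      have q1 := mul_nonneg (pow_nonneg g1 1) (pow_nonneg g0 3)
      have q2 := mul_nonneg (pow_nonneg g1 2) (pow_nonneg g0 2)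
      have q3 := mul_nonneg (pow_nonneg g1 3) (pow_nonneg g0 1)
      have q4 := pow_nonneg g1 4
      linarith
    · have hL := neg_log_ge_tangent hm (m0 := 6 / 25) (by norm_num)
      have hT := log_two_sub_le hm (m1 := 1 / 4) (by norm_num)
      have e1 : log (6 / 25 : ℝ) ≤ -1.427116 := by
        have e : (6 / 25 : ℝ) = 2 * 3 / 5 ^ 2 := by norm_num
        rw [e, log_div (by norm_num) (by norm_num), log_mul (by norm_num) (by norm_num), log_pow]
        push_cast
        linarith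
      have e2 : 0.223143 ≤ log (1 + 1 / 4 : ℝ) := by
        have e : (1 + 1 / 4 : ℝ) = 5 / 2 ^ 2 := by norm_num
        rw [e, log_div (by norm_num) (by norm_num), log_pow]
        push_cast
        linarith
      refine Gex_end_piece (A := 2.427116) (B := 0.470005) (m0 := 6 / 25) (m1 := 1 / 4) hm hm'
        (by refine le_trans ?_ hL; linarith) (by refine hT.trans ?_; linarith) ?_
      have g0 : 0 ≤ 0.3 - m := by linarith
      have g1 : 0 ≤ m - 9 / 50 := by linarith
      have q0 := pow_nonneg g0 4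
      have q1 := mul_nonneg (pow_nonneg g1 1) (pow_nonneg g0 3)
      have q2 := mul_nonneg (pow_nonneg g1 2) (pow_nonneg g0 2)
      have q3 := mul_nonneg (pow_nonneg g1 3) (pow_nonneg g0 1)
      have q4 := pow_nonneg g1 4
      linarith
  have : c * (1 - m) ^ 2 * (2 * L - T) ≤ 0.32031 * (1 - m) ^ 2 * (2 * L - T) := by
    apply mul_le_mul_of_nonneg_right _ hLT
    apply mul_le_mul_of_nonneg_right hc' (sq_nonneg _)
  linarith

theorem Gex_nonneg {c m δ : ℝ} (hc : 0 < c) (hc' : c ≤ 0.32031) (hm : 0 ≤ m) (h7 : 0.7 ≤ δ)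
    (hδm : δ < 1 - m) : 0 ≤ Gex c m δ := by
  have hm' : m ≤ 0.3 := by linarith
  have hδ1 : δ < 1 := by linarith
  have hw : δ ^ 2 < 1 - m ^ 2 := by nlinarith
  have h7' := Psix_seven hc hc' hm hm'
  by_cases hΨ : Psix c m δ ≤ 0
  · refine (Gex_seven hc hc' hm hm').trans ?_
    have hmono : MonotoneOn (Gex c m) (Icc 0.7 δ) := by
      have hd : ∀ t ∈ Icc (0.7 : ℝ) δ, HasDerivAt (Gex c m)
          (- (Psix c m t / ((1 + m) ^ 2 - t ^ 2))) t := by
        intro t ht
        exact hasDerivAt_Gex hm (by linarith [ht.1]) (by linarith [ht.2])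
          (by nlinarith [ht.1, ht.2])
      apply monotoneOn_of_deriv_nonneg (convex_Icc _ _)
      · intro t ht
        exact (hd t ht).continuousAt.continuousWithinAt
      · intro t ht
        rw [interior_Icc] at ht
        exact (hd t ⟨ht.1.le, ht.2.le⟩).differentiableAt.differentiableWithinAt
      · intro t ht
        rw [interior_Icc] at ht
        rw [(hd t ⟨ht.1.le, ht.2.le⟩).deriv]
        have h1 : Psix c m t ≤ 0 :=
          Psix_cross hc hm (by norm_num) ht.1.le ht.2.le hδ1 hw h7' hΨ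
        have h2 : 0 < (1 + m) ^ 2 - t ^ 2 := by nlinarith [ht.1, ht.2]
        rw [neg_nonneg]
        exact div_nonpos_of_nonpos_of_nonneg h1 h2.le
    exact hmono (left_mem_Icc.2 h7) (right_mem_Icc.2 h7) h7
  · push Not at hΨ
    have hm0 : 0 < m := by
      rcases hm.lt_or_eq with h | h
      · exact h
      · exfalso
        rw [← h] at hΨ
        unfold Psix at hΨ
        norm_num at hΨ
        nlinarith
    refine (Gex_end hc hc' hm0 hm').trans ?_
    have hanti : AntitoneOn (Gex c m) (Icc δ (1 - m)) := by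
      have hd : ∀ t ∈ Icc δ (1 - m), HasDerivAt (Gex c m)
          (- (Psix c m t / ((1 + m) ^ 2 - t ^ 2))) t := by
        intro t ht
        exact hasDerivAt_Gex hm (by linarith [ht.1]) (by linarith [ht.2])
          (by nlinarith [ht.1, ht.2])
      apply antitoneOn_of_deriv_nonpos (convex_Icc _ _)
      · intro t ht
        exact (hd t ht).continuousAt.continuousWithinAt
      · intro t ht
        rw [interior_Icc] at ht
        exact (hd t ⟨ht.1.le, ht.2.le⟩).differentiableAt.differentiableWithinAt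
      · intro t ht
        rw [interior_Icc] at ht
        rw [(hd t ⟨ht.1.le, ht.2.le⟩).deriv]
        have h1 : 0 ≤ Psix c m t := by
          by_contra hcon
          push Not at hcon
          have := Psix_cross hc hm (by norm_num) h7 ht.1.le (by linarith [ht.2])
            (by nlinarith [ht.1, ht.2]) h7' hcon.le
          linarith
        have h2 : 0 < (1 + m) ^ 2 - t ^ 2 := by nlinarith [ht.1, ht.2]
        rw [neg_nonpos]
        exact div_nonneg h1 h2.le
    exact hanti (left_mem_Icc.2 hδm.le) (right_mem_Icc.2 hδm.le) hδm.le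

theorem explicit_case_large {m δ V : ℝ} (hm : 0 ≤ m) (hδm : δ < 1 - m) (hV : 0 ≤ V)
    (hVw : V ≤ 1 - m ^ 2 - δ) (h7 : 0.7 ≤ δ) :
    4 / 3 * (log 2) ^ 2 * ((1 - m ^ 2) * log (1 - m ^ 2) - (1 - m ^ 2 - V) * log (1 - m ^ 2 - V)
      - (1 - m ^ 2 - δ ^ 2) * log (1 - m ^ 2 - δ ^ 2)
      + (1 - m ^ 2 - V - δ ^ 2) * log (1 - m ^ 2 - V - δ ^ 2))
      ≤ - log (1 - δ ^ 2 / (1 + m) ^ 2) / (1 - m) ^ 2 * V := by
  have hbb := bb_lt
  have hbb0 : 0 < 4 / 3 * (log 2) ^ 2 := by
    have := Real.log_two_gt_d9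
    positivity
  set bb := 4 / 3 * (log 2) ^ 2 with hbbdef
  have hδ : 0 < δ := by linarith
  have hδ1 : δ < 1 := by linarith
  have hq : 0 < 1 - m := by linarith
  have hp : 0 < 1 + m := by linarith
  have hG := Gex_nonneg (c := bb / 2) (by positivity) (by linarith) hm h7 hδm
  set w := 1 - m ^ 2 with hw
  have hw0 : 0 < w := by nlinarith
  have hδ2 : 0 < δ ^ 2 := by positivity
  have hδδ : δ ^ 2 < δ := by nlinarith
  have hwV : 0 < w - V := by linarith
  have hsum : V + δ ^ 2 < w := by linarith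
  have hwVe : 0 < w - V - δ ^ 2 := by linarith
  have h1 := secDiff_le_trap hδ2 hV hsum
  have h2 : log (w - V) - log (w - V - δ ^ 2) ≤ - log (1 - δ) := by
    have e : log (w - V) - log (w - V - δ ^ 2) = - log ((w - V - δ ^ 2) / (w - V)) := by
      rw [log_div hwVe.ne' hwV.ne']; ring
    rw [e, neg_le_neg_iff]
    apply log_le_log (by linarith)
    rw [le_div_iff₀ hwV]
    nlinarith
  have h3 : log (1 - δ ^ 2 / (1 + m) ^ 2) = log (1 + m - δ) + log (1 + m + δ) - 2 * log (1 + m) := by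
    have e : 1 - δ ^ 2 / (1 + m) ^ 2 = (1 + m - δ) * (1 + m + δ) / (1 + m) ^ 2 := by
      field_simp; ring
    have a1 : 0 < 1 + m - δ := by linarith
    have a2 : 0 < 1 + m + δ := by linarith
    rw [e, log_div (by positivity) (by positivity), log_mul a1.ne' a2.ne', log_pow]
    push_cast
    ring
  unfold Gex at hG
  rw [← hw] at hG
  have h4 : bb / 2 * (log w - log (w - δ ^ 2) - log (1 - δ))
      ≤ - log (1 - δ ^ 2 / (1 + m) ^ 2) / (1 - m) ^ 2 := by
    rw [h3, le_div_iff₀ (by positivity)]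
    linarith
  calc _ ≤ bb * (V / 2 * ((log w - log (w - δ ^ 2)) + (log (w - V) - log (w - V - δ ^ 2)))) :=
        mul_le_mul_of_nonneg_left h1 hbb0.le
    _ ≤ bb * (V / 2 * ((log w - log (w - δ ^ 2)) + (- log (1 - δ)))) := by
        apply mul_le_mul_of_nonneg_left _ hbb0.le
        apply mul_le_mul_of_nonneg_left _ (by linarith)
        linarith
    _ = V * (bb / 2 * (log w - log (w - δ ^ 2) - log (1 - δ))) := by ring
    _ ≤ V * (- log (1 - δ ^ 2 / (1 + m) ^ 2) / (1 - m) ^ 2) := mul_le_mul_of_nonneg_left h4 hV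
    _ = _ := by ring

/-- T6: the explicit inequality (6). -/
theorem explicit_ineq {m δ V : ℝ} (hm : 0 ≤ m) (hδ : 0 < δ) (hδm : δ < 1 - m) (hV : 0 ≤ V)
    (hVw : V ≤ 1 - m ^ 2 - δ) :
    4 / 3 * (log 2) ^ 2 * ((1 - m ^ 2) * log (1 - m ^ 2) - (1 - m ^ 2 - V) * log (1 - m ^ 2 - V)
      - (1 - m ^ 2 - δ ^ 2) * log (1 - m ^ 2 - δ ^ 2)
      + (1 - m ^ 2 - V - δ ^ 2) * log (1 - m ^ 2 - V - δ ^ 2))
      ≤ max (- log (1 - δ ^ 2 / (1 + m) ^ 2) / (1 - m) ^ 2 * V)
        (δ ^ 2 * V / ((1 - m ^ 2) * (1 - m ^ 2 - V))) := by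
  rcases le_total δ 0.7 with h | h
  · exact (explicit_case_small hm hδ hδm hV hVw h).trans (le_max_right _ _)
  · exact (explicit_case_large hm hδm hV hVw h).trans (le_max_left _ _)

end Crest.Agent.R307
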