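import Mathlib

/-!
Row 307, task S0471-G4: the pointwise certificate (PI) for the functional
`F(q) = 2(√q - q) + q(1-q)(A0 + A1 q + A2 q²)` from one polynomial inequality in
`y0 = √q0`, `y1 = √q1`.
-/

namespace Crest.Agent.R307.GenPI

/-- The functional `F(q) = 2(√q - q) + q(1-q)(A0 + A1 q + A2 q²)`. -/
noncomputable def FG (A0 A1 A2 q : ℝ) : ℝ :=
  2 * (Real.sqrt q - q) + q * (1 - q) * (A0 + A1 * q + A2 * q ^ 2)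

/-- `F(y²)` for `y ≥ 0`, a polynomial in `y`. -/
noncomputable def FP (A0 A1 A2 y : ℝ) : ℝ :=
  2 * (y - y ^ 2) + y ^ 2 * (1 - y ^ 2) * (A0 + A1 * y ^ 2 + A2 * y ^ 4)

theorem FG_sq (A0 A1 A2 : ℝ) {y : ℝ} (hy : 0 ≤ y) :
    FG A0 A1 A2 (y ^ 2) = FP A0 A1 A2 y := by
  unfold FG FP
  rw [Real.sqrt_sq hy]
  ring

theorem FG_zero (A0 A1 A2 : ℝ) : FG A0 A1 A2 0 = 0 := by simp [FG]


/-- The polynomial correction: `F(G) + F(G') - F(q0) - F(q1) = 2(√G + √G' - y0 - y1) + Corr`. -/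
noncomputable def Corr (A0 A1 A2 c2 y0 y1 : ℝ) : ℝ :=
  c2 * (y0 ^ 2 - y1 ^ 2) ^ 2 *
    ((A0 - A1) / 2 + 3 * (y0 ^ 2 + y1 ^ 2) * (A1 - A2) / 4
      + A2 * (y0 ^ 4 + y1 ^ 4 + y0 ^ 2 * y1 ^ 2) - A2 * c2 * (y0 ^ 2 - y1 ^ 2) ^ 2 / 8)

/-- The polynomial `τ`. -/
noncomputable def tau (A0 A1 A2 c2 K C beta L0 L1 y0 y1 : ℝ) : ℝ :=
  (1 / 2) * (K * (FP A0 A1 A2 y0 - FP A0 A1 A2 y1) - (1 - C) * FP A0 A1 A2 y1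
    + beta * (y0 ^ 2 - y1 ^ 2) + L1 * (y1 ^ 2 * (1 - y1 ^ 2)) + L0 * (y0 ^ 2 * (1 - y0 ^ 2))
    - Corr A0 A1 A2 c2 y0 y1)

/-- `g = τ(2(y0+y1)+τ)`. -/
noncomputable def gg (t y0 y1 : ℝ) : ℝ := t * (2 * (y0 + y1) + t)

/-- The polynomial condition for one pair `(y0, y1)`. -/
def PolyOK (A0 A1 A2 c2 K C beta L0 L1 y0 y1 : ℝ) : Prop :=
  tau A0 A1 A2 c2 K C beta L0 L1 y0 y1 ≤ 0 ∨
    (0 ≤ tau A0 A1 A2 c2 K C beta L0 L1 y0 y1 ∧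
      gg (tau A0 A1 A2 c2 K C beta L0 L1 y0 y1) y0 y1 *
        (gg (tau A0 A1 A2 c2 K C beta L0 L1 y0 y1) y0 y1 + 4 * (y0 * y1)) ≤
          c2 * (y0 ^ 2 - y1 ^ 2) ^ 2)

/-- Exact identity for the two sides. -/
theorem FG_add (A0 A1 A2 ρ y0 y1 : ℝ) :
    FG A0 A1 A2 ((1 + ρ) / 2 * y0 ^ 2 + (1 - ρ) / 2 * y1 ^ 2) +
      FG A0 A1 A2 ((1 - ρ) / 2 * y0 ^ 2 + (1 + ρ) / 2 * y1 ^ 2) =
    FP A0 A1 A2 y0 + FP A0 A1 A2 y1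
      + 2 * (Real.sqrt ((1 + ρ) / 2 * y0 ^ 2 + (1 - ρ) / 2 * y1 ^ 2)
        + Real.sqrt ((1 - ρ) / 2 * y0 ^ 2 + (1 + ρ) / 2 * y1 ^ 2) - y0 - y1)
      + Corr A0 A1 A2 (1 - ρ ^ 2) y0 y1 := by
  unfold FG FP Corr
  ring

/-- Lower bound `τ ≤ √G + √G' - y0 - y1`. -/
theorem tau_le {c2 ρ y0 y1 t : ℝ} (hc : c2 = 1 - ρ ^ 2) (hρ : |ρ| ≤ 1)
    (h0 : 0 ≤ y0) (h1 : 0 ≤ y1)
    (h : t ≤ 0 ∨ (0 ≤ t ∧ gg t y0 y1 * (gg t y0 y1 + 4 * (y0 * y1)) ≤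
      c2 * (y0 ^ 2 - y1 ^ 2) ^ 2)) :
    t ≤ Real.sqrt ((1 + ρ) / 2 * y0 ^ 2 + (1 - ρ) / 2 * y1 ^ 2)
        + Real.sqrt ((1 - ρ) / 2 * y0 ^ 2 + (1 + ρ) / 2 * y1 ^ 2) - y0 - y1 := by
  have hρ1 : -1 ≤ ρ ∧ ρ ≤ 1 := abs_le.mp hρ
  set G : ℝ := (1 + ρ) / 2 * y0 ^ 2 + (1 - ρ) / 2 * y1 ^ 2 with hG
  set G' : ℝ := (1 - ρ) / 2 * y0 ^ 2 + (1 + ρ) / 2 * y1 ^ 2 with hG'
  have hGn : 0 ≤ G := by
    have := hρ1.1; have := hρ1.2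
    have e1 : 0 ≤ (1 + ρ) / 2 * y0 ^ 2 := mul_nonneg (by linarith) (sq_nonneg _)
    have e2 : 0 ≤ (1 - ρ) / 2 * y1 ^ 2 := mul_nonneg (by linarith) (sq_nonneg _)
    linarith
  have hGn' : 0 ≤ G' := by
    have := hρ1.1; have := hρ1.2
    have e1 : 0 ≤ (1 - ρ) / 2 * y0 ^ 2 := mul_nonneg (by linarith) (sq_nonneg _)
    have e2 : 0 ≤ (1 + ρ) / 2 * y1 ^ 2 := mul_nonneg (by linarith) (sq_nonneg _)
    linarith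
  have hc0 : 0 ≤ c2 := by
    have := sq_abs ρ
    have h2 : ρ ^ 2 ≤ 1 := by nlinarith [abs_nonneg ρ]
    linarith
  -- reduce to `t ≥ 0`
  have key : ∀ t : ℝ, 0 ≤ t → gg t y0 y1 * (gg t y0 y1 + 4 * (y0 * y1)) ≤
      c2 * (y0 ^ 2 - y1 ^ 2) ^ 2 → y0 + y1 + t ≤ Real.sqrt G + Real.sqrt G' := by
    intro t ht hg
    have hs0 : 0 ≤ Real.sqrt G + Real.sqrt G' := by positivity
    have hsq : (y0 + y1 + t) ^ 2 ≤ (Real.sqrt G + Real.sqrt G') ^ 2 := by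
      have e1 : (Real.sqrt G + Real.sqrt G') ^ 2 = G + G' + 2 * Real.sqrt (G * G') := by
        rw [Real.sqrt_mul hGn]
        have := Real.sq_sqrt hGn
        have := Real.sq_sqrt hGn'
        nlinarith
      have e2 : G + G' = y0 ^ 2 + y1 ^ 2 := by rw [hG, hG']; ring
      have e3 : G * G' = (y0 * y1) ^ 2 + c2 * (y0 ^ 2 - y1 ^ 2) ^ 2 / 4 := by
        rw [hG, hG', hc]; ring
      have hg0 : 0 ≤ gg t y0 y1 := by unfold gg; positivity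
      have e4 : y0 * y1 + gg t y0 y1 / 2 ≤ Real.sqrt (G * G') := by
        apply Real.le_sqrt_of_sq_le
        rw [e3]
        nlinarith
      rw [e1, e2]
      unfold gg at e4
      nlinarith
    exact (abs_le_of_sq_le_sq' hsq hs0).2
  rcases h with h | ⟨h, h'⟩
  · have := key 0 le_rfl (by unfold gg; simp; positivity)
    linarith
  · have := key t h h'
    linarith

/-- The pointwise certificate, in terms of `y0 = √q0 ≥ 0`, `y1 = √q1 ≥ 0`. -/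
theorem pi_y (A0 A1 A2 K C beta L0 L1 : ℝ) {ρ y0 y1 : ℝ} (hρ : |ρ| ≤ 1)
    (h0 : 0 ≤ y0) (h1 : 0 ≤ y1)
    (h : PolyOK A0 A1 A2 (1 - ρ ^ 2) K C beta L0 L1 y0 y1) :
    (1 + K) * FG A0 A1 A2 (y0 ^ 2) + (C - K) * FG A0 A1 A2 (y1 ^ 2)
        + beta * y0 ^ 2 + (-beta) * y1 ^ 2
        + L0 * (y0 ^ 2 * (1 - y0 ^ 2)) + L1 * (y1 ^ 2 * (1 - y1 ^ 2)) ≤
      FG A0 A1 A2 ((1 + ρ) / 2 * y0 ^ 2 + (1 - ρ) / 2 * y1 ^ 2) +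
      FG A0 A1 A2 ((1 - ρ) / 2 * y0 ^ 2 + (1 + ρ) / 2 * y1 ^ 2) := by
  rw [FG_add A0 A1 A2 ρ y0 y1, FG_sq _ _ _ h0, FG_sq _ _ _ h1]
  have := tau_le (c2 := 1 - ρ ^ 2) rfl hρ h0 h1 h
  unfold tau at this
  linarith

/-- **G4.** The pointwise certificate `CertG ρ F (1+K) (C-K) β (-β) L0 L1 0` from the polynomial
condition on `0 ≤ y1 ≤ y0 ≤ 1`. -/
theorem pi_of_poly (A0 A1 A2 K C beta L0 L1 : ℝ) {ρ : ℝ} (hρ : |ρ| ≤ 1)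
    (h : ∀ y0 y1 : ℝ, 0 ≤ y1 → y1 ≤ y0 → y0 ≤ 1 →
      PolyOK A0 A1 A2 (1 - ρ ^ 2) K C beta L0 L1 y0 y1) :
    ∀ P Q : ℝ, 0 ≤ Q → Q ≤ P → P ≤ 1 →
      (1 + K) * FG A0 A1 A2 P + (C - K) * FG A0 A1 A2 Q + beta * P + (-beta) * Q
          + L0 * (P * (1 - P)) + L1 * (Q * (1 - Q)) - 0 ≤
        FG A0 A1 A2 ((1 + ρ) / 2 * P + (1 - ρ) / 2 * Q) +
        FG A0 A1 A2 ((1 - ρ) / 2 * P + (1 + ρ) / 2 * Q) := by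
  intro P Q hQ hQP hP
  have hP0 : 0 ≤ P := hQ.trans hQP
  have e0 : (Real.sqrt P) ^ 2 = P := Real.sq_sqrt hP0
  have e1 : (Real.sqrt Q) ^ 2 = Q := Real.sq_sqrt hQ
  have h1 : Real.sqrt P ≤ 1 := by
    exact Real.sqrt_le_iff.mpr ⟨by norm_num, by simpa using hP⟩
  have := pi_y A0 A1 A2 K C beta L0 L1 hρ (Real.sqrt_nonneg P) (Real.sqrt_nonneg Q)
    (h _ _ (Real.sqrt_nonneg Q) (Real.sqrt_le_sqrt hQP) h1)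
  rw [e0, e1] at this
  linarith


end Crest.Agent.R307.GenPI
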