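import Crest.Agent.Tools.KB
import Crest.Agent.R307.Flow
import Crest.Agent.R307.FlowB
import Crest.Agent.R307.GenIntFin_Mg

-- ▼ part R307/BBx
section

/-!
Row 307 (S0471), regime L: kernel verification of the three-variable polynomial inequality behind
helper14's scalar inequality (b) (`c ≥ .896`).  Variables: `x 0 = z`, `x 1 = y`, `x 2 = r`.
-/

set_option autoImplicit false

namespace Crest.Agent.R307.BB

open Crest.Agent.KB

def den1 : Ex := (.add (.W 0 2) (.X 0 2))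
def Fn : Ex := (.sub (.W 0 2) (.X 0 2))
def Dn : Ex := (.mul (.c (2)) (.mul (.X 0 1) (.W 0 1)))
def den2 : Ex := (.add (.mul (.W 0 2) (.W 1 2)) (.mul (.X 0 2) (.X 1 2)))
def Cn : Ex := (.sub (.mul (.W 0 2) (.W 1 2)) (.mul (.X 0 2) (.X 1 2)))
def En : Ex := (.mul (.c (2)) (.mul (.mul (.X 0 1) (.W 0 1)) (.mul (.X 1 1) (.W 1 1))))
def den3 : Ex := (.add (.W 2 2) (.X 2 2))
def cn : Ex := (.sub (.W 2 2) (.X 2 2))
def rn : Ex := (.mul (.c (2)) (.mul (.X 2 1) (.W 2 1)))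
def CDn : Ex := (.mul Cn Dn)
def EFn : Ex := (.mul En Fn)
def Ln : Ex := (.sub (.mul den3 CDn) (.mul rn EFn))
def cFn : Ex := (.mul (.mul cn Fn) den2)
def Qn : Ex := (.add (.mul Ln Ln) (.mul cFn cFn))
def c2n : Ex := (.mul cn cn)
def c3n : Ex := (.mul c2n cn)
def dp3_2 : Ex := (.mul den3 den3)
def k4n : Ex := (.mul (.mul rn rn) (.add c2n (.mul dp3_2 (.c (1)))))
def CCn : Ex := (.mul Cn Cn)
def FFn : Ex := (.mul Fn Fn)
def CCFFn : Ex := (.mul CCn FFn)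
def ABn : Ex := (.sub (.mul CDn CDn) (.mul EFn EFn))
def X0n : Ex := (.mul (.mul (.mul c2n En) En) ABn)
def P1n : Ex := (.sub Qn (.mul c2n CCFFn))
def CLcn : Ex := (.mul CCn (.sub Ln (.mul den2 (.mul den1 cn))))
def CLn : Ex := (.mul CCn Ln)
def QLn : Ex := (.mul Qn Ln)
def QQn : Ex := (.mul Qn Qn)
def fCDn : Ex := (.mul (.c (4)) CDn)
def kCLPn : Ex := (.mul (.mul k4n CLn) P1n)
def k4CFn : Ex := (.mul k4n CCFFn)
def dp2_2 : Ex := (.mul den2 den2)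
def On : Ex := (.add (.mul fCDn (.sub (.mul c3n (.add (.mul dp2_2 QQn) (.mul CLcn QLn))) (.mul den2 (.mul den1 kCLPn)))) (.mul den3 (.mul X0n (.add (.mul cn QLn) (.mul den2 (.mul den1 k4CFn))))))
def Evn : Ex := (.add (.mul fCDn (.sub (.mul (.mul c3n CLcn) QQn) (.mul den2 (.mul den1 (.mul kCLPn Ln))))) (.mul den3 (.mul X0n (.add (.mul cn QQn) (.mul den2 (.mul den1 (.mul k4CFn Ln)))))))
def T0n : Ex := (.add (.mul (.add (.add (.mul (.mul (.c (2)) cFn) cFn) (.mul cFn Ln)) (.mul Ln Ln)) On) (.mul (.add Ln (.mul (.c (2)) cFn)) Evn))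

set_option maxRecDepth 100000 in
theorem run_ok : run 3 497 6 [33, 19, 19] [96, 128, 15] [[On, T0n]]
    (.node 0 (.leaf 0) (.node 1 (.leaf 0) (.leaf 0))) [(0, 64), (-64, 64), (0, 15)] = true := by
  decide +kernel

end Crest.Agent.R307.BB
end

-- ▼ part R307/BB
section

/-!
Row 307 (S0471), regime L: helper14's scalar inequality (b) for `c ≥ .896` (helper437).
-/

set_option autoImplicit false

namespace Crest.Agent.R307.BB

open Crest.Agent.KB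

/-- the point -/
def xv (z y r : ℝ) : ℕ → ℝ
  | 0 => z
  | 1 => y
  | _ => r

theorem core1 (z y r : ℝ) (hz : 0 ≤ z) (hz1 : z ≤ 1) (hy : |y| ≤ 1) (hr : 0 ≤ r)
    (hr1 : r ≤ 15 / 64) :
    0 ≤ On.val (xv z y r) (fun _ => 1) ∧ 0 ≤ T0n.val (xv z y r) (fun _ => 1) := by
  obtain ⟨cl, hcl, h⟩ := run_sound _ _ _ _ _ _ _ _ run_ok (xv z y r) (by
    have hy' := abs_le.mp hy
    intro i hi
    interval_cases i <;> norm_num [ba, bb, xv] <;> constructor <;> linarith [hy'.1, hy'.2])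
  simp only [List.mem_singleton] at hcl
  subst hcl
  exact ⟨h On (by simp), h T0n (by simp)⟩

/-- the values of the two expressions -/
theorem vals (z y r C D E F c ρ : ℝ) (hF : 1 - z ^ 2 = (1 + z ^ 2) * F)
    (hD : 2 * z = (1 + z ^ 2) * D) (hC : 1 - z ^ 2 * y ^ 2 = (1 + z ^ 2 * y ^ 2) * C)
    (hE : 2 * (z * y) = (1 + z ^ 2 * y ^ 2) * E) (hc : 1 - r ^ 2 = (1 + r ^ 2) * c)
    (hρ : 2 * r = (1 + r ^ 2) * ρ) (L Q K X0 O Ev T : ℝ) (hL : L = C * D - ρ * (E * F))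
    (hQ : Q = L ^ 2 + (c * F) ^ 2) (hK : K = ρ ^ 2 * (c ^ 2 + 1))
    (hX0 : X0 = c ^ 2 * E ^ 2 * (C ^ 2 * D ^ 2 - E ^ 2 * F ^ 2))
    (hO : O = 4 * (C * D) * (c ^ 3 * (Q ^ 2 + C ^ 2 * (L - c) * (Q * L)) -
      K * (C ^ 2 * L) * (Q - c ^ 2 * (C ^ 2 * F ^ 2))) + X0 * (c * (Q * L) + K * (C ^ 2 * F ^ 2)))
    (hEv : Ev = 4 * (C * D) * (c ^ 3 * (C ^ 2 * (L - c)) * Q ^ 2 -
      K * (C ^ 2 * L) * (Q - c ^ 2 * (C ^ 2 * F ^ 2)) * L) +
        X0 * (c * Q ^ 2 + K * (C ^ 2 * F ^ 2) * L))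
    (hT : T = (2 * (c * F) ^ 2 + (c * F) * L + L ^ 2) * O + (L + 2 * (c * F)) * Ev) :
    On.val (xv z y r) (fun _ => 1) = (1 + z ^ 2) ^ 5 * (1 + z ^ 2 * y ^ 2) ^ 7 * (1 + r ^ 2) ^ 7 * O ∧
    T0n.val (xv z y r) (fun _ => 1) =
      (1 + z ^ 2) ^ 7 * (1 + z ^ 2 * y ^ 2) ^ 9 * (1 + r ^ 2) ^ 9 * T := by
  set X := xv z y r with hX
  have x0 : X 0 = z := rfl
  have x1 : X 1 = y := rfl
  have x2 : X 2 = r := rfl
  obtain ⟨d1, hd1⟩ : ∃ d1, d1 = 1 + z ^ 2 := ⟨_, rfl⟩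
  obtain ⟨d2, hd2⟩ : ∃ d2, d2 = 1 + z ^ 2 * y ^ 2 := ⟨_, rfl⟩
  obtain ⟨d3, hd3⟩ : ∃ d3, d3 = 1 + r ^ 2 := ⟨_, rfl⟩
  rw [← hd1] at hF hD ⊢
  rw [← hd2] at hC hE ⊢
  rw [← hd3] at hc hρ ⊢
  have v1 : den1.val X (fun _ => 1) = d1 := by
    simp only [den1, Ex.val, x0, hd1]; ring
  have vF : Fn.val X (fun _ => 1) = d1 * F := by
    simp only [Fn, Ex.val, x0, ← hF]; ring
  have vD : Dn.val X (fun _ => 1) = d1 * D := by
    simp only [Dn, Ex.val, x0, ← hD]; push_cast; ring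
  have v2 : den2.val X (fun _ => 1) = d2 := by
    simp only [den2, Ex.val, x0, x1, hd2]; ring
  have vC : Cn.val X (fun _ => 1) = d2 * C := by
    simp only [Cn, Ex.val, x0, x1, ← hC]; ring
  have vE : En.val X (fun _ => 1) = d2 * E := by
    simp only [En, Ex.val, x0, x1, ← hE]; push_cast; ring
  have v3 : den3.val X (fun _ => 1) = d3 := by
    simp only [den3, Ex.val, x2, hd3]; ring
  have vc : cn.val X (fun _ => 1) = d3 * c := by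
    simp only [cn, Ex.val, x2, ← hc]; ring
  have vr : rn.val X (fun _ => 1) = d3 * ρ := by
    simp only [rn, Ex.val, x2, ← hρ]; push_cast; ring
  clear_value X
  have vCD : CDn.val X (fun _ => 1) = d1 * d2 * (C * D) := by
    simp only [CDn, Ex.val, vC, vD]; ring
  have vEF : EFn.val X (fun _ => 1) = d1 * d2 * (E * F) := by
    simp only [EFn, Ex.val, vE, vF]; ring
  have vL : Ln.val X (fun _ => 1) = d1 * d2 * d3 * L := by
    simp only [Ln, Ex.val, vCD, vEF, v3, vr, hL]; ring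
  have vcF : cFn.val X (fun _ => 1) = d1 * d2 * d3 * (c * F) := by
    simp only [cFn, Ex.val, vc, vF, v2]; ring
  have vQ : Qn.val X (fun _ => 1) = d1 ^ 2 * d2 ^ 2 * d3 ^ 2 * Q := by
    simp only [Qn, Ex.val, vL, vcF, hQ]; ring
  clear hQ hL
  have vc2 : c2n.val X (fun _ => 1) = d3 ^ 2 * c ^ 2 := by
    simp only [c2n, Ex.val, vc]; ring
  have vc3 : c3n.val X (fun _ => 1) = d3 ^ 3 * c ^ 3 := by
    simp only [c3n, Ex.val, vc2, vc]; ring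
  have vd3 : dp3_2.val X (fun _ => 1) = d3 ^ 2 := by
    simp only [dp3_2, Ex.val, v3]; ring
  have vk4 : k4n.val X (fun _ => 1) = d3 ^ 4 * K := by
    simp only [k4n, Ex.val, vr, vc2, vd3, hK]; push_cast; ring
  have vCC : CCn.val X (fun _ => 1) = d2 ^ 2 * C ^ 2 := by
    simp only [CCn, Ex.val, vC]; ring
  have vFF : FFn.val X (fun _ => 1) = d1 ^ 2 * F ^ 2 := by
    simp only [FFn, Ex.val, vF]; ring
  have vCCFF : CCFFn.val X (fun _ => 1) = d1 ^ 2 * d2 ^ 2 * (C ^ 2 * F ^ 2) := by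
    simp only [CCFFn, Ex.val, vCC, vFF]; ring
  have vAB : ABn.val X (fun _ => 1) = d1 ^ 2 * d2 ^ 2 * (C ^ 2 * D ^ 2 - E ^ 2 * F ^ 2) := by
    simp only [ABn, Ex.val, vCD, vEF]; ring
  have vX0 : X0n.val X (fun _ => 1) = d1 ^ 2 * d2 ^ 4 * d3 ^ 2 * X0 := by
    simp only [X0n, Ex.val, vc2, vE, vAB, hX0]; ring
  have vP1 : P1n.val X (fun _ => 1) = d1 ^ 2 * d2 ^ 2 * d3 ^ 2 * (Q - c ^ 2 * (C ^ 2 * F ^ 2)) := by
    simp only [P1n, Ex.val, vQ, vc2, vCCFF]; ring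
  have vCLc : CLcn.val X (fun _ => 1) = d1 * d2 ^ 3 * d3 * (C ^ 2 * (L - c)) := by
    simp only [CLcn, Ex.val, vCC, vL, v1, v2, vc]; ring
  have vCL : CLn.val X (fun _ => 1) = d1 * d2 ^ 3 * d3 * (C ^ 2 * L) := by
    simp only [CLn, Ex.val, vCC, vL]; ring
  have vQL : QLn.val X (fun _ => 1) = d1 ^ 3 * d2 ^ 3 * d3 ^ 3 * (Q * L) := by
    simp only [QLn, Ex.val, vQ, vL]; ring
  have vQQ : QQn.val X (fun _ => 1) = d1 ^ 4 * d2 ^ 4 * d3 ^ 4 * Q ^ 2 := by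
    simp only [QQn, Ex.val, vQ]; ring
  have vf : fCDn.val X (fun _ => 1) = d1 * d2 * (4 * (C * D)) := by
    simp only [fCDn, Ex.val, vCD]; push_cast; ring
  have vkC : kCLPn.val X (fun _ => 1) = d1 ^ 3 * d2 ^ 5 * d3 ^ 7 *
      (K * (C ^ 2 * L) * (Q - c ^ 2 * (C ^ 2 * F ^ 2))) := by
    simp only [kCLPn, Ex.val, vk4, vCL, vP1]; ring
  have vk4C : k4CFn.val X (fun _ => 1) = d1 ^ 2 * d2 ^ 2 * d3 ^ 4 * (K * (C ^ 2 * F ^ 2)) := by
    simp only [k4CFn, Ex.val, vk4, vCCFF]; ring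
  have vd2 : dp2_2.val X (fun _ => 1) = d2 ^ 2 := by
    simp only [dp2_2, Ex.val, v2]; ring
  have vO : On.val X (fun _ => 1) = d1 ^ 5 * d2 ^ 7 * d3 ^ 7 * O := by
    simp only [On, Ex.val, vf, vc3, vd2, vQQ, vCLc, vQL, v1, v2, v3, vkC, vX0, vc, vk4C, hO]
    ring
  have vEv : Evn.val X (fun _ => 1) = d1 ^ 6 * d2 ^ 8 * d3 ^ 8 * Ev := by
    simp only [Evn, Ex.val, vf, vc3, vQQ, vCLc, v1, v2, v3, vkC, vX0, vc, vk4C, vL, hEv]
    ring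
  refine ⟨vO, ?_⟩
  simp only [T0n, Ex.val, vcF, vL, vO, vEv, hT]
  push_cast
  ring

theorem le_of_sq {a b : ℝ} (h : a ^ 2 ≤ b ^ 2) (hb : 0 ≤ b) : a ≤ b := by
  by_contra hc
  push Not at hc
  nlinarith

theorem params (C D E F c ρ : ℝ) (hCE : C ^ 2 + E ^ 2 = 1) (hDF : D ^ 2 + F ^ 2 = 1)
    (hcρ : c ^ 2 + ρ ^ 2 = 1) (hC0 : 0 ≤ C) (hD0 : 0 < D) (hF0 : 0 ≤ F) (hED : |E| ≤ D)
    (hc0 : 0 < c) (hρ0 : 0 ≤ ρ) (hρ1 : ρ ≤ 0.44) (hFC : F ≤ C) :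
    ∃ z y r : ℝ, 0 ≤ z ∧ z ≤ 1 ∧ |y| ≤ 1 ∧ 0 ≤ r ∧ r ≤ 15 / 64 ∧
      1 - z ^ 2 = (1 + z ^ 2) * F ∧ 2 * z = (1 + z ^ 2) * D ∧
      1 - z ^ 2 * y ^ 2 = (1 + z ^ 2 * y ^ 2) * C ∧
      2 * (z * y) = (1 + z ^ 2 * y ^ 2) * E ∧ 1 - r ^ 2 = (1 + r ^ 2) * c ∧
      2 * r = (1 + r ^ 2) * ρ := by
  have hz1 : (0 : ℝ) < 1 + F := by linarith
  have hq1 : (0 : ℝ) < 1 + C := by linarith
  have hr1 : (0 : ℝ) < 1 + c := by linarith
  have hcl : 0.897 ≤ c := by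
    refine le_of_sq ?_ hc0.le
    have : ρ ^ 2 ≤ 0.44 ^ 2 := by gcongr
    norm_num at this ⊢
    linarith
  obtain ⟨z, hz⟩ : ∃ z, z = D / (1 + F) := ⟨_, rfl⟩
  obtain ⟨q, hq⟩ : ∃ q, q = E / (1 + C) := ⟨_, rfl⟩
  obtain ⟨r, hr⟩ : ∃ r, r = ρ / (1 + c) := ⟨_, rfl⟩
  have hzp : 0 < z := by rw [hz]; positivity
  have hzle : z ≤ 1 := by
    rw [hz, div_le_one hz1]
    have : D ≤ 1 := le_of_sq (by linarith [sq_nonneg F]) one_pos.le
    linarith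
  have hqz : |q| ≤ z := by
    rw [hq, hz, abs_div, abs_of_pos hq1, div_le_div_iff₀ hq1 hz1]
    exact mul_le_mul hED (by linarith) hz1.le hD0.le
  obtain ⟨y, hy⟩ : ∃ y, y = q / z := ⟨_, rfl⟩
  have hzy : z * y = q := by rw [hy]; field_simp
  have hy1 : |y| ≤ 1 := by
    rw [hy, abs_div, abs_of_pos hzp, div_le_one hzp]; exact hqz
  have hrz : 0 ≤ r := by rw [hr]; positivity
  have hrl : r ≤ 15 / 64 := by
    rw [hr, div_le_iff₀ hr1]
    linarith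
  have hzz : z ^ 2 = (1 - F) / (1 + F) := by
    rw [hz, div_pow, eq_div_iff hz1.ne', div_mul_eq_mul_div, div_eq_iff (by positivity)]
    linear_combination (1 + F) * hDF
  have hqq : q ^ 2 = (1 - C) / (1 + C) := by
    rw [hq, div_pow, eq_div_iff hq1.ne', div_mul_eq_mul_div, div_eq_iff (by positivity)]
    linear_combination (1 + C) * hCE
  have hrr : r ^ 2 = (1 - c) / (1 + c) := by
    rw [hr, div_pow, eq_div_iff hr1.ne', div_mul_eq_mul_div, div_eq_iff (by positivity)]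
    linear_combination (1 + c) * hcρ
  have hzy2 : z ^ 2 * y ^ 2 = q ^ 2 := by rw [← mul_pow, hzy]
  refine ⟨z, y, r, hzp.le, hzle, hy1, hrz, hrl, ?_, ?_, ?_, ?_, ?_, ?_⟩
  · rw [hzz]; field_simp; ring
  · rw [hzz, hz]; field_simp; ring
  · rw [hzy2, hqq]; field_simp; ring
  · rw [hzy2, hqq, hzy, hq]; field_simp; ring
  · rw [hrr]; field_simp; ring
  · rw [hrr, hr]; field_simp; ring

theorem final_step (L cF f O Ev : ℝ) (hL0 : 0 ≤ L) (hcF : 0 ≤ cF) (hf0 : 0 ≤ f)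
    (hf2 : f ^ 2 = L ^ 2 + cF ^ 2) (hOn : 0 ≤ O)
    (hTn : 0 ≤ (2 * cF ^ 2 + cF * L + L ^ 2) * O + (L + 2 * cF) * Ev)
    (hz : L = 0 → cF = 0 → Ev = 0) : 0 ≤ f * O + Ev := by
  have hfu : f ≤ L + cF := by
    refine le_of_sq ?_ (by positivity)
    nlinarith [mul_nonneg hL0 hcF]
  have hfl : cF ≤ f := by
    refine le_of_sq ?_ hf0
    nlinarith [sq_nonneg L]
  have hlow : 2 * cF ^ 2 + cF * L + L ^ 2 ≤ (L + 2 * cF) * f := by
    nlinarith [mul_nonneg (sub_nonneg.mpr hfl) (sub_nonneg.mpr hfu)]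
  rcases eq_or_lt_of_le (show 0 ≤ L + 2 * cF by positivity) with h0 | h0
  · have hLz : L = 0 := by linarith
    have hcFz : cF = 0 := by linarith
    have hfz : f = 0 := by
      have : f ^ 2 = 0 := by rw [hf2, hLz, hcFz]; ring
      exact pow_eq_zero_iff (two_ne_zero) |>.mp this
    rw [hfz, hz hLz hcFz]; simp
  · have h1 : 0 ≤ (L + 2 * cF) * (f * O + Ev) := by
      have := mul_le_mul_of_nonneg_right hlow hOn
      nlinarith
    exact nonneg_of_mul_nonneg_right h1 h0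

theorem core2 (C D E F c ρ : ℝ) (hCE : C ^ 2 + E ^ 2 = 1) (hDF : D ^ 2 + F ^ 2 = 1)
    (hcρ : c ^ 2 + ρ ^ 2 = 1) (hC0 : 0 ≤ C) (hD0 : 0 < D) (hF0 : 0 ≤ F) (hED : |E| ≤ D)
    (hc0 : 0 < c) (hρ0 : 0 ≤ ρ) (hρ1 : ρ ≤ 0.44) (L Q K X0 O Ev f : ℝ)
    (hL : L = C * D - ρ * (E * F))
    (hQ : Q = L ^ 2 + (c * F) ^ 2) (hK : K = ρ ^ 2 * (c ^ 2 + 1))
    (hX0 : X0 = c ^ 2 * E ^ 2 * (C ^ 2 * D ^ 2 - E ^ 2 * F ^ 2))
    (hO : O = 4 * (C * D) * (c ^ 3 * (Q ^ 2 + C ^ 2 * (L - c) * (Q * L)) -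
      K * (C ^ 2 * L) * (Q - c ^ 2 * (C ^ 2 * F ^ 2))) + X0 * (c * (Q * L) + K * (C ^ 2 * F ^ 2)))
    (hEv : Ev = 4 * (C * D) * (c ^ 3 * (C ^ 2 * (L - c)) * Q ^ 2 -
      K * (C ^ 2 * L) * (Q - c ^ 2 * (C ^ 2 * F ^ 2)) * L) +
        X0 * (c * Q ^ 2 + K * (C ^ 2 * F ^ 2) * L))
    (hf0 : 0 ≤ f) (hf : f ^ 2 = Q) :
    0 ≤ L ∧ 0 ≤ f * O + Ev := by
  have hE2 : E ^ 2 ≤ D ^ 2 := sq_le_sq' (abs_le.mp hED).1 (abs_le.mp hED).2
  have hFC : F ≤ C := le_of_sq (by linarith) hC0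
  have hF1 : F ≤ 1 := le_of_sq (by linarith [sq_nonneg D]) one_pos.le
  have hEF : E * F ≤ C * D := by
    calc E * F ≤ |E| * F := mul_le_mul_of_nonneg_right (le_abs_self E) hF0
      _ ≤ D * C := mul_le_mul hED hFC hF0 hD0.le
      _ = C * D := mul_comm _ _
  have hL0 : 0 ≤ L := by
    have h2 : ρ * (E * F) ≤ C * D := by
      have h0 : 0 ≤ C * D := by positivity
      rcases le_total 0 (E * F) with h | h
      · have : ρ * (E * F) ≤ 1 * (E * F) := mul_le_mul_of_nonneg_right (by linarith) h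
        linarith
      · have : ρ * (E * F) ≤ 0 := mul_nonpos_of_nonneg_of_nonpos hρ0 h
        linarith
    rw [hL]; linarith
  refine ⟨hL0, ?_⟩
  obtain ⟨z, y, r, hz0, hzle, hy1, hrz, hrl, e1, e2, e3, e4, e5, e6⟩ :=
    params C D E F c ρ hCE hDF hcρ hC0 hD0 hF0 hED hc0 hρ0 hρ1 hFC
  have hv := vals z y r C D E F c ρ e1 e2 e3 e4 e5 e6 L Q K X0 O Ev _ hL hQ hK hX0 hO hEv rfl
  have hc := core1 z y r hz0 hzle hy1 hrz hrl
  rw [hv.1, hv.2] at hc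
  have hOn : 0 ≤ O := nonneg_of_mul_nonneg_right hc.1 (by positivity)
  have hTn := nonneg_of_mul_nonneg_right hc.2 (by positivity)
  refine final_step L (c * F) f O Ev hL0 (by positivity) hf0 (by rw [hf, hQ]) hOn hTn ?_
  intro hLz hcFz
  have hQz : Q = 0 := by rw [hQ, hLz, hcFz]; ring
  rw [hEv, hQz, hLz]; ring

/-- the algebraic identity behind (b) -/
theorem ident (C D F c K L f X0 S2 q P' O Ev Q : ℝ) (hf : f ^ 2 = Q)
    (hfL : f ^ 2 = L ^ 2 + (c * F) ^ 2) (hq : q = C ^ 2 * F ^ 2)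
    (hK : K = 1 - c ^ 4)
    (hP : P' = f ^ 2 - c ^ 2 * (C ^ 2 * F ^ 2))
    (hO : O = 4 * (C * D) * (c ^ 3 * (Q ^ 2 + C ^ 2 * (L - c) * (Q * L)) -
      K * (C ^ 2 * L) * (Q - c ^ 2 * (C ^ 2 * F ^ 2))) + X0 * (c * (Q * L) + K * (C ^ 2 * F ^ 2)))
    (hEv : Ev = 4 * (C * D) * (c ^ 3 * (C ^ 2 * (L - c)) * Q ^ 2 -
      K * (C ^ 2 * L) * (Q - c ^ 2 * (C ^ 2 * F ^ 2)) * L) +
        X0 * (c * Q ^ 2 + K * (C ^ 2 * F ^ 2) * L))
    (hS : 4 * (C * D) * S2 = 4 * (C * D) * (L * P') - F ^ 2 * X0) :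
    4 * (C * D) * (f + L) * (f ^ 3 * (c * f ^ 3 + K * q - q) - S2 * (c * f ^ 3 + K * q)) =
      F ^ 2 * (f * O + Ev) := by
  have h1 : 4 * (C * D) * (f + L) * (f ^ 3 * (c * f ^ 3 + K * q - q) - S2 * (c * f ^ 3 + K * q)) =
      (f + L) * (4 * (C * D) * (f ^ 3 * (c * f ^ 3 + K * q - q)) -
        (4 * (C * D) * S2) * (c * f ^ 3 + K * q)) := by ring
  rw [h1, hS, hP, hO, hEv, hq, hK, ← hf]
  have h2 : L ^ 2 = f ^ 2 - (c * F) ^ 2 := by rw [hfL]; ring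
  ring_nf
  simp only [h2]
  ring

set_option maxHeartbeats 2000000 in
theorem bb_alg (C D E F c ρ : ℝ) (hCE : C ^ 2 + E ^ 2 = 1) (hDF : D ^ 2 + F ^ 2 = 1)
    (hcρ : c ^ 2 + ρ ^ 2 = 1) (hC0 : 0 ≤ C) (hD0 : 0 ≤ D) (hF0 : 0 ≤ F)
    (hc0 : 0 < c) (hρ0 : 0 ≤ ρ) (hρ1 : ρ ≤ 0.44) (u v f : ℝ) (hu0 : 0 ≤ u) (hv0 : 0 ≤ v)
    (hu : u ^ 2 = C * D - E * F) (hv : v ^ 2 = C * D + E * F) (hf0 : 0 ≤ f)
    (hf : f ^ 2 = 1 - ((1 + ρ) / 2 * (E * D + C * F) + (1 - ρ) / 2 * (E * D - C * F)) ^ 2) :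
    ((1 + ρ) / 2 * u ^ 3 + (1 - ρ) / 2 * v ^ 3) ^ 2 * (c * f ^ 3 + (1 - c ^ 4) * (C * F) ^ 2) ≤
      f ^ 3 * (c * f ^ 3 + (1 - c ^ 4) * (C * F) ^ 2 - (C * F) ^ 2) := by
  have hc1 : c ≤ 1 := le_of_sq (by linarith [sq_nonneg ρ]) one_pos.le
  have hρ2 : ρ ≤ 1 := by linarith
  obtain ⟨L, hL⟩ : ∃ L, L = C * D - ρ * (E * F) := ⟨_, rfl⟩
  have hfL : f ^ 2 = L ^ 2 + (c * F) ^ 2 := by
    rw [hf, hL]
    linear_combination (-(D ^ 2 + ρ ^ 2 * F ^ 2)) * hCE - hDF - F ^ 2 * hcρ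
  have hK4 : (0 : ℝ) ≤ 1 - c ^ 4 := by
    have : c ^ 4 ≤ 1 := pow_le_one₀ hc0.le hc1
    linarith
  have hCD0 : 0 ≤ C * D := mul_nonneg hC0 hD0
  rcases eq_or_lt_of_le hCD0 with hz | hCD
  · -- degenerate case
    have hEF : E * F = 0 := by
      have h1 := sq_nonneg u
      have h2 := sq_nonneg v
      rw [hu] at h1
      rw [hv] at h2
      linarith
    have hu' : u = 0 := by
      have : u ^ 2 = 0 := by rw [hu, ← hz, hEF]; ring
      exact pow_eq_zero_iff (two_ne_zero) |>.mp this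
    have hv' : v = 0 := by
      have : v ^ 2 = 0 := by rw [hv, ← hz, hEF]; ring
      exact pow_eq_zero_iff (two_ne_zero) |>.mp this
    have hL0 : L = 0 := by rw [hL, ← hz, hEF]; ring
    have hfc : f = c * F := by
      have h1 : f ^ 2 = (c * F) ^ 2 := by rw [hfL, hL0]; ring
      have h2 : 0 ≤ c * F := by positivity
      exact le_antisymm (le_of_sq h1.le h2) (le_of_sq h1.ge hf0)
    rw [hu', hv', hfc]
    have h3 : (0 : ℝ) ≤ F * (F - C ^ 2) := by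
      rcases mul_eq_zero.mp hz.symm with h | h
      · rw [h]
        have : F * (F - 0 ^ 2) = F ^ 2 := by ring
        rw [this]; positivity
      · have hF2 : F ^ 2 = 1 := by rw [h] at hDF; linarith
        have hF1 : F = 1 := le_antisymm (le_of_sq (by linarith) one_pos.le)
          (le_of_sq (by linarith) hF0)
        rw [hF1]
        have := sq_nonneg E
        linarith
    have h4 : (c * F) ^ 3 * (c * (c * F) ^ 3 + (1 - c ^ 4) * (C * F) ^ 2 - (C * F) ^ 2) =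
        (c * F) ^ 3 * (c ^ 4 * F * (F * (F - C ^ 2))) := by ring
    rw [h4]
    have h5 : 0 ≤ (c * F) ^ 3 * (c ^ 4 * F * (F * (F - C ^ 2))) := by positivity
    simpa using h5
  · have hD1 : 0 < D := by
      rcases eq_or_lt_of_le hD0 with h | h
      · rw [← h] at hCD; simp at hCD
      · exact h
    have hEFle : (E * F) ^ 2 ≤ (C * D) ^ 2 := by
      have h1 : E * F ≤ C * D := by
        have := sq_nonneg u
        rw [hu] at this; linarith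
      have h2 : -(C * D) ≤ E * F := by
        have := sq_nonneg v
        rw [hv] at this; linarith
      exact sq_le_sq' h2 h1
    have hED2 : E ^ 2 ≤ D ^ 2 := by
      have e1 : (C * D) ^ 2 - (E * F) ^ 2 = D ^ 2 - E ^ 2 := by
        linear_combination D ^ 2 * hCE - E ^ 2 * hDF
      linarith
    have hED : |E| ≤ D := by
      apply abs_le_of_sq_le_sq hED2 hD0
    have h := core2 C D E F c ρ hCE hDF hcρ hC0 hD1 hF0 hED hc0 hρ0 hρ1 L _ _ _ _ _ f hL rfl rfl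
      rfl rfl rfl hf0 hfL
    obtain ⟨hL0, hmain⟩ := h
    -- S² bound
    obtain ⟨S, hS⟩ : ∃ S, S = (1 + ρ) / 2 * u ^ 3 + (1 - ρ) / 2 * v ^ 3 := ⟨_, rfl⟩
    rw [← hS]
    obtain ⟨P', hP⟩ : ∃ P', P' = (1 + ρ) / 2 * (u ^ 2) ^ 2 + (1 - ρ) / 2 * (v ^ 2) ^ 2 := ⟨_, rfl⟩
    have hP2 : P' = f ^ 2 - c ^ 2 * (C ^ 2 * F ^ 2) := by
      rw [hP, hu, hv, hfL, hL]
      linear_combination (-(E ^ 2 * F ^ 2)) * hcρ + (c ^ 2 * F ^ 2) * hCE
    have hLu : L = (1 + ρ) / 2 * u ^ 2 + (1 - ρ) / 2 * v ^ 2 := by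
      rw [hu, hv, hL]; ring
    obtain ⟨X0, hX0⟩ : ∃ X0, X0 = c ^ 2 * E ^ 2 * (C ^ 2 * D ^ 2 - E ^ 2 * F ^ 2) := ⟨_, rfl⟩
    rw [← hX0] at hmain
    have hkey : 4 * (C * D) * S ^ 2 ≤ 4 * (C * D) * (L * P') - F ^ 2 * X0 := by
      have hCDuv : C * D = (u ^ 2 + v ^ 2) / 2 := by rw [hu, hv]; ring
      have hEFuv : E * F = (v ^ 2 - u ^ 2) / 2 := by rw [hu, hv]; ring
      have hX : F ^ 2 * X0 = c ^ 2 * (E * F) ^ 2 * ((C * D) ^ 2 - (E * F) ^ 2) := by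
        rw [hX0]; ring
      have h1 : 4 * (C * D) * (L * P') - F ^ 2 * X0 - 4 * (C * D) * S ^ 2 =
          c ^ 2 * u ^ 2 * v ^ 2 * (u - v) ^ 4 / 4 := by
        rw [hX, hCDuv, hEFuv, hLu, hP, hS]
        have hc2 : c ^ 2 = 1 - ρ ^ 2 := by linarith
        rw [hc2]
        ring
      have h2 : 0 ≤ c ^ 2 * u ^ 2 * v ^ 2 * (u - v) ^ 4 / 4 := by positivity
      linarith
    obtain ⟨S2, hS2⟩ : ∃ S2, S2 = (4 * (C * D) * (L * P') - F ^ 2 * X0) / (4 * (C * D)) := ⟨_, rfl⟩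
    have h4CD : 0 < 4 * (C * D) := by linarith
    have hS2' : 4 * (C * D) * S2 = 4 * (C * D) * (L * P') - F ^ 2 * X0 := by
      have hC' : C ≠ 0 := by rintro rfl; simp at hCD
      have hD' : D ≠ 0 := hD1.ne'
      rw [hS2]; field_simp
    have hSS : S ^ 2 ≤ S2 := by
      rw [← hS2'] at hkey
      exact le_of_mul_le_mul_left hkey h4CD
    have hK : ρ ^ 2 * (c ^ 2 + 1) = 1 - c ^ 4 := by
      linear_combination (c ^ 2 + 1) * hcρ
    have hid := ident C D F c (ρ ^ 2 * (c ^ 2 + 1)) L f X0 S2 (C ^ 2 * F ^ 2) P' _ _ _ hfL hfL rfl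
      hK hP2 rfl rfl hS2'
    have hfLpos : 0 < f + L := by
      rcases eq_or_lt_of_le hL0 with h | h
      · have hF : F ≠ 0 := by
          intro h0
          rw [hL, h0] at h
          have : C * D = 0 := by linarith
          linarith
        have h1 : 0 < f ^ 2 := by
          rw [hfL]
          have h3 : 0 < (c * F) ^ 2 := by positivity
          have h4 := sq_nonneg L
          linarith
        have h2 : 0 < f := by
          rcases eq_or_lt_of_le hf0 with h' | h'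
          · rw [← h'] at h1; simp at h1
          · exact h'
        linarith
      · linarith
    have hfin : 0 ≤ 4 * (C * D) * (f + L) * (f ^ 3 * (c * f ^ 3 + ρ ^ 2 * (c ^ 2 + 1) *
        (C ^ 2 * F ^ 2) - C ^ 2 * F ^ 2) - S2 * (c * f ^ 3 + ρ ^ 2 * (c ^ 2 + 1) *
        (C ^ 2 * F ^ 2))) := by
      rw [hid]
      exact mul_nonneg (sq_nonneg F) hmain
    have hfin2 := nonneg_of_mul_nonneg_right hfin (mul_pos h4CD hfLpos)
    rw [hK] at hfin2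
    have h6 : 0 ≤ c * f ^ 3 + (1 - c ^ 4) * (C ^ 2 * F ^ 2) := by positivity
    have h7 := mul_le_mul_of_nonneg_right hSS h6
    rw [mul_pow]
    linarith

/-- helper14's scalar inequality (b) for `ρ ≤ 0.44` -/
theorem bb_ineq (ρ s t : ℝ) (hρ0 : 0 ≤ ρ) (hρ1 : ρ ≤ 0.44) (hs : |s| ≤ 1) (ht : |t| ≤ 1) :
    ((1 + ρ) / 2 * (Flow.ph s * Real.sqrt (Flow.ph s)) +
        (1 - ρ) / 2 * (Flow.ph t * Real.sqrt (Flow.ph t))) ^ 2 *
      (Flow.ph ρ * Flow.ph ((1 + ρ) / 2 * s + (1 - ρ) / 2 * t) ^ 3 +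
        (1 - Flow.ph ρ ^ 4) * ((s - t) / 2) ^ 2) ≤
      Flow.ph ((1 + ρ) / 2 * s + (1 - ρ) / 2 * t) ^ 3 *
        (Flow.ph ρ * Flow.ph ((1 + ρ) / 2 * s + (1 - ρ) / 2 * t) ^ 3 +
          (1 - Flow.ph ρ ^ 4) * ((s - t) / 2) ^ 2 - ((s - t) / 2) ^ 2) := by
  wlog hst : t ≤ s with H
  · have h := H ρ (-s) (-t) hρ0 hρ1 (by rwa [abs_neg]) (by rwa [abs_neg]) (by linarith)
    have e1 : (1 + ρ) / 2 * -s + (1 - ρ) / 2 * -t = -((1 + ρ) / 2 * s + (1 - ρ) / 2 * t) := by ring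
    have e2 : ((-s - -t) / 2) ^ 2 = ((s - t) / 2) ^ 2 := by ring
    rw [e1, e2, Flow.ph_neg, Flow.ph_neg, Flow.ph_neg] at h
    exact h
  have hs' := abs_le.mp hs
  have ht' := abs_le.mp ht
  have hg1 : |(1 + ρ) / 2 * s + (1 - ρ) / 2 * t| ≤ 1 := by
    rw [abs_le]; constructor <;> nlinarith
  set M := (Real.arcsin s + Real.arcsin t) / 2 with hM
  set d := (Real.arcsin s - Real.arcsin t) / 2 with hd
  have a1 := Real.arcsin_le_pi_div_two s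
  have a2 := Real.neg_pi_div_two_le_arcsin s
  have a3 := Real.arcsin_le_pi_div_two t
  have a4 := Real.neg_pi_div_two_le_arcsin t
  have a5 : Real.arcsin t ≤ Real.arcsin s := Real.arcsin_le_arcsin hst
  have eMd : M + d = Real.arcsin s := by rw [hM, hd]; ring
  have eMd' : M - d = Real.arcsin t := by rw [hM, hd]; ring
  have es : s = Real.sin M * Real.cos d + Real.cos M * Real.sin d := by
    rw [← Real.sin_add, eMd, Real.sin_arcsin hs'.1 hs'.2]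
  have et : t = Real.sin M * Real.cos d - Real.cos M * Real.sin d := by
    rw [← Real.sin_sub, eMd', Real.sin_arcsin ht'.1 ht'.2]
  have eps : Flow.ph s = Real.cos M * Real.cos d - Real.sin M * Real.sin d := by
    rw [← Real.cos_add, eMd, Real.cos_arcsin]; rfl
  have ept : Flow.ph t = Real.cos M * Real.cos d + Real.sin M * Real.sin d := by
    rw [← Real.cos_sub, eMd', Real.cos_arcsin]; rfl
  have hC0 : 0 ≤ Real.cos M := Real.cos_nonneg_of_mem_Icc ⟨by rw [hM]; linarith, by rw [hM]; linarith⟩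
  have hD0 : 0 ≤ Real.cos d := Real.cos_nonneg_of_mem_Icc ⟨by rw [hd]; linarith, by rw [hd]; linarith⟩
  have hF0 : 0 ≤ Real.sin d := Real.sin_nonneg_of_nonneg_of_le_pi (by rw [hd]; linarith)
    (by rw [hd]; linarith [Real.pi_pos])
  have hρa : |ρ| ≤ 1 := by rw [abs_le]; constructor <;> linarith
  have hc2 := Flow.ph_sq hρa
  have hcpos : 0 < Flow.ph ρ := Flow.ph_pos (by rw [abs_lt]; constructor <;> linarith)
  have h := bb_alg (Real.cos M) (Real.cos d) (Real.sin M) (Real.sin d) (Flow.ph ρ) ρ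
    (by rw [Real.cos_sq_add_sin_sq]) (by rw [Real.cos_sq_add_sin_sq]) (by linarith) hC0 hD0 hF0
    hcpos hρ0 hρ1 (Real.sqrt (Flow.ph s)) (Real.sqrt (Flow.ph t))
    (Flow.ph ((1 + ρ) / 2 * s + (1 - ρ) / 2 * t)) (Real.sqrt_nonneg _) (Real.sqrt_nonneg _)
    (by rw [Real.sq_sqrt (Flow.ph_nonneg _), eps]) (by rw [Real.sq_sqrt (Flow.ph_nonneg _), ept])
    (Flow.ph_nonneg _) (by rw [Flow.ph_sq hg1, ← es, ← et])
  have e3 : ∀ a : ℝ, 0 ≤ a → Real.sqrt a ^ 3 = a * Real.sqrt a := by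
    intro a ha
    calc Real.sqrt a ^ 3 = Real.sqrt a ^ 2 * Real.sqrt a := by ring
      _ = a * Real.sqrt a := by rw [Real.sq_sqrt ha]
  have e4 : (s - t) / 2 = Real.cos M * Real.sin d := by
    rw [es, et]; ring
  rw [e3 _ (Flow.ph_nonneg _), e3 _ (Flow.ph_nonneg _)] at h
  rw [e4]
  exact h

end Crest.Agent.R307.BB
private theorem rz_a48899fab0 : type_of% @_root_.Crest.Agent.R307.BB.xv.eq_1 := @_root_.Crest.Agent.R307.BB.xv.eq_1 -- L15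
end

-- ▼ part R307/FlowBfinal
section

/-!
Row 307 (S0471), flow route for large `c = √(1 - ρ²)` (helper14): assembly with the scalar
inequality `BB.bb_ineq` (helper437).
-/

set_option autoImplicit false

namespace Crest.Agent.R307.FlowB

open Crest.Agent.R307.Flow

/-- the scalar condition from inequality (b) -/
lemma SC_of_b {ρ s t : ℝ} (h0 : 0 < ρ) (h1 : ρ < 1)
    (hg : |(1 + ρ) / 2 * s + (1 - ρ) / 2 * t| < 1)
    (hb : ((1 + ρ) / 2 * √(ph s ^ 3) + (1 - ρ) / 2 * √(ph t ^ 3)) ^ 2 *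
      (ph ρ * ph ((1 + ρ) / 2 * s + (1 - ρ) / 2 * t) ^ 3 + (1 - ph ρ ^ 4) * ((s - t) ^ 2 / 4)) ≤
      ph ((1 + ρ) / 2 * s + (1 - ρ) / 2 * t) ^ 3 *
        (ph ρ * ph ((1 + ρ) / 2 * s + (1 - ρ) / 2 * t) ^ 3 - ph ρ ^ 4 * ((s - t) ^ 2 / 4))) :
    SC ρ s t := by
  have hρ : |ρ| < 1 := by rw [abs_of_pos h0]; exact h1
  have hc : 0 < ph ρ := ph_pos hρ
  have hcρ : ph ρ ^ 2 = 1 - ρ ^ 2 := ph_sq hρ.le
  have hH : 0 < ph ((1 + ρ) / 2 * s + (1 - ρ) / 2 * t) ^ 3 := pow_pos (ph_pos hg) 3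
  unfold SC
  obtain ⟨S, hS⟩ : ∃ S, S = (1 + ρ) / 2 * √(ph s ^ 3) + (1 - ρ) / 2 * √(ph t ^ 3) := ⟨_, rfl⟩
  obtain ⟨H, hHd⟩ : ∃ H, H = ph ((1 + ρ) / 2 * s + (1 - ρ) / 2 * t) ^ 3 := ⟨_, rfl⟩
  obtain ⟨q, hq⟩ : ∃ q, q = (s - t) ^ 2 / 4 := ⟨_, rfl⟩
  obtain ⟨c, hcd⟩ : ∃ c, c = ph ρ := ⟨_, rfl⟩
  rw [← hS, ← hHd, ← hq, ← hcd] at hb ⊢
  rw [← hHd] at hH
  rw [← hcd] at hc hcρ
  have hq0 : 0 ≤ q := by rw [hq]; positivity
  have hρ2 : 0 < ρ ^ 2 := by positivity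
  have hc1 : c ^ 2 ≤ 1 := by rw [hcρ]; linarith
  have hc4 : 0 ≤ 1 - c ^ 4 := by nlinarith [sq_nonneg (c ^ 2)]
  have hX : 0 < c * H + (1 - c ^ 4) * q := by
    have := mul_nonneg hc4 hq0
    have h2 := mul_pos hc hH
    linarith
  have hSH : S ^ 2 ≤ H := by
    have h3 : S ^ 2 * (c * H + (1 - c ^ 4) * q) ≤ H * (c * H + (1 - c ^ 4) * q) := by
      refine hb.trans (mul_le_mul_of_nonneg_left ?_ hH.le)
      have : 0 ≤ (1 - c ^ 4) * q := mul_nonneg hc4 hq0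
      have h4 : 0 ≤ c ^ 4 * q := by positivity
      linarith
    exact le_of_mul_le_mul_right h3 hX
  have hden : 0 < c ^ 2 * H + ρ ^ 2 * S ^ 2 := by positivity
  refine ⟨S ^ 2 / (c ^ 2 * H + ρ ^ 2 * S ^ 2), by positivity, ?_, ?_⟩
  · intro m hm hm1 _
    rw [div_mul_eq_mul_div, le_div_iff₀ hden]
    have key : (1 + c * m) * (c ^ 2 * H + ρ ^ 2 * S ^ 2) ≤ H + c * (S ^ 2 * m) := by
      have e : H + c * (S ^ 2 * m) - (1 + c * m) * (c ^ 2 * H + ρ ^ 2 * S ^ 2) =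
          (H - S ^ 2) * (ρ ^ 2 - c ^ 3 * m) + (1 - c ^ 2 - ρ ^ 2) * (H + c * m * S ^ 2) := by ring
      have h5 : 0 ≤ (H - S ^ 2) * (ρ ^ 2 - c ^ 3 * m) :=
        mul_nonneg (by linarith) (by linarith)
      have h6 : (1 - c ^ 2 - ρ ^ 2) * (H + c * m * S ^ 2) = 0 := by
        rw [hcρ]; ring
      linarith
    have := mul_le_mul_of_nonneg_left key (sq_nonneg S)
    linarith
  · have hd2 : 0 < H + c * (ρ ^ 2 * q) := by positivity
    rw [div_add_div _ _ hden.ne' hd2.ne', div_le_one (by positivity)]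
    have hr : ρ ^ 2 = 1 - c ^ 2 := by rw [hcρ]; ring
    rw [hr]
    have hb2 := mul_le_mul_of_nonneg_left hb hc.le
    have e5 : (c ^ 2 * H + (1 - c ^ 2) * S ^ 2) * (H + c * ((1 - c ^ 2) * q)) -
        (S ^ 2 * (H + c * ((1 - c ^ 2) * q)) + (c ^ 2 * H + (1 - c ^ 2) * S ^ 2) * (c * q)) =
        c * (H * (c * H - c ^ 4 * q)) - c * (S ^ 2 * (c * H + (1 - c ^ 4) * q)) := by
      ring
    linarith

lemma sqrt_cube {x : ℝ} (hx : 0 ≤ x) : √(x ^ 3) = x * √x := by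
  rw [show x ^ 3 = x ^ 2 * x by ring, Real.sqrt_mul (sq_nonneg x), Real.sqrt_sq hx]

theorem flowHyp_B {ρ : ℝ} (h0 : 0 < ρ) (h1 : ρ < 1) (hρc : 3 * ρ ^ 2 ≤ ph ρ ^ 2)
    (H : ∀ s t : ℝ, |s| ≤ 1 → |t| ≤ 1 → |(1 + ρ) / 2 * s + (1 - ρ) / 2 * t| < 1 → SC ρ s t) :
    FlowHyp ρ := by
  have hρ : |ρ| < 1 := by rw [abs_of_pos h0]; exact h1
  have hc : 0 < ph ρ := ph_pos hρ
  refine ⟨WB (ph ρ), fun g => if |g| < 1 then ρ ^ 2 / ph ρ else 0, 0, 0, 0, le_rfl, le_rfl,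
    by simp, pairOK_WB h0 h1, ?_, ?_⟩
  · intro g hg
    simp only [if_pos hg]
    linarith
  · refine fun n f _ x => PW_of_stepR h0.le h1.le ?_ ?_ (stepR_WB h0 h1 hρc H) n f x
    · simp
    · simp

/-- `c ≥ .898` -/
theorem flowHyp_44 {ρ : ℝ} (h0 : 0 < ρ) (h1 : ρ ≤ 0.44) : FlowHyp ρ := by
  have hlt : ρ < 1 := by norm_num at h1; linarith
  have hρ : |ρ| < 1 := by rw [abs_of_pos h0]; exact hlt
  refine flowHyp_B h0 hlt ?_ ?_
  · rw [ph_sq hρ.le]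
    norm_num at h1
    nlinarith
  · intro s t hs ht hg
    refine SC_of_b h0 hlt hg ?_
    have h := BB.bb_ineq ρ s t h0.le h1 hs ht
    rw [sqrt_cube (ph_nonneg s), sqrt_cube (ph_nonneg t)]
    have e : ((s - t) / 2) ^ 2 = (s - t) ^ 2 / 4 := by ring
    rw [e] at h
    refine h.trans (le_of_eq ?_)
    ring

end Crest.Agent.R307.FlowB
end

-- ▼ part R307/Final71

/-!
Row 307, S0471: final assembly.  `BoundOn a b` collects the intervals of `c = √(1-ρ²)` on which the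
bound is known; `s0471_of_regimes` needs `Bound` on `(0, cs]` (regime S) and on `[cs, 898/1000]`
(regime M).  Regime L (`898/1000 ≤ c < 1`) is `flowHyp_44`.
-/

set_option autoImplicit false

open Crest.CubeNoise Set

namespace Crest.Agent.R307.Final71

open Crest.Agent.R307 Crest.Agent.R307.Ode Crest.Agent.R307.TwoSet Crest.Agent.R307.Flow
open Crest.Agent.R307.GenInd Crest.Agent.R307.GenFin Crest.Agent.R307.GenProd
open Crest.Agent.R307.FlowB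

/-- The bound of S0471 for all `c = √(1-ρ²)` in `[a,b]`. -/
def BoundOn (a b : ℝ) : Prop := ∀ c, a ≤ c → c ≤ b → Bound (Real.sqrt (1 - c ^ 2))

lemma BoundOn.append {a b d : ℝ} (h1 : BoundOn a b) (h2 : BoundOn b d) : BoundOn a d := by
  intro c ha hd
  rcases le_total c b with h | h
  · exact h1 c ha h
  · exact h2 c h hd

lemma BoundOn.mono {a b a' b' : ℝ} (h : BoundOn a b) (ha : a ≤ a') (hb : b' ≤ b) :
    BoundOn a' b' := fun c h1 h2 => h c (ha.trans h1) (h2.trans hb)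

/-- `MSHyp` on an interval (tangent form of the last step) gives `BoundOn`. -/
lemma BoundOn.of_msHyp {a b : ℝ} (ha : 0 ≤ a) (hb : b ≤ 1)
    (h : ∀ c, a ≤ c → c ≤ b → MSHyp (Real.sqrt (1 - c ^ 2))) : BoundOn a b := by
  intro c h1 h2
  have hc0 : 0 ≤ c := ha.trans h1
  have hc1 : c ≤ 1 := h2.trans hb
  refine bound_of_msHyp ?_ (h c h1 h2)
  rw [abs_of_nonneg (Real.sqrt_nonneg _)]
  exact Real.sqrt_le_one.mpr (by nlinarith [sq_nonneg c])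

/-- Regime L. -/
theorem flow_L (c : ℝ) (h : (898 / 1000 : ℝ) ≤ c) (h1 : c < 1) :
    FlowHyp (Real.sqrt (1 - c ^ 2)) := by
  have hc : 0 < c := by linarith
  refine flowHyp_44 (Real.sqrt_pos.mpr (by nlinarith)) ?_
  rw [Real.sqrt_le_left (by norm_num)]
  nlinarith



/-- `FlowHyp` on an interval of `c`. -/
def FlowOn (a b : ℝ) : Prop := ∀ c, a ≤ c → c ≤ b → FlowHyp (Real.sqrt (1 - c ^ 2))

lemma FlowOn.append {a b d : ℝ} (h1 : FlowOn a b) (h2 : FlowOn b d) : FlowOn a d := by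
  intro c ha hd
  rcases le_total c b with h | h
  · exact h1 c ha h
  · exact h2 c h hd

/-- **Assembly, general form**: flow regime on `[c₀, 898/1000]` (the part `≥ 898/1000` is landed),
regime M on `[cs, c₀]`, regime S on `(0, cs]`. -/
theorem s0471_of_LMS {c₀ cs : ℝ} (h0 : 0 < c₀) (h1 : c₀ < 1)
    (L : FlowOn c₀ (898 / 1000)) (M : BoundOn cs c₀)
    (S : ∀ c, 0 < c → c ≤ cs → Bound (Real.sqrt (1 - c ^ 2)))
    (n : ℕ) (f : (Fin n → Bool) → Bool) (ρ : ℝ) (hρ : |ρ| ≤ 1) :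
    Real.sqrt (1 - (cubeAverage (fun x => spin (f x))) ^ 2)
        - cubeAverage (fun x => Real.sqrt (1 - (noise ρ (fun y => spin (f y)) x) ^ 2))
      ≤ 1 - Real.sqrt (1 - ρ ^ 2) :=
  s0471_of_flow_boundc (c₀ := c₀) h0 h1
    (fun c h h1 => (le_total c (898 / 1000)).elim (fun h2 => L c h h2) (fun h2 => flow_L c h2 h1))
    (fun c h h1 => (le_total c cs).elim (fun h2 => S c h h2) (fun h2 => M c h2 h1)) n f ρ hρ


end Crest.Agent.R307.Final71
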