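import Crest.Agent.R307.PISex

set_option autoImplicit false
set_option linter.unusedSimpArgs false
set_option linter.unusedTactic false
set_option linter.unusedVariables false

namespace Crest.Agent.R307.PISe

open Crest.Agent.KB

/-- the point -/
def xv (x0 x1 x2 x3 : ℝ) : ℕ → ℝ
  | 0 => x0
  | 1 => x1
  | 2 => x2
  | _ => x3

theorem core (x0 x1 x2 x3 : ℝ) (hx0 : (16 : ℝ) / 16 ≤ x0) (hx0' : x0 ≤ (19 : ℝ) / 16) (hx1 : (0 : ℝ) / 16 ≤ x1) (hx1' : x1 ≤ (8 : ℝ) / 16) (hx2 : (0 : ℝ) / 16 ≤ x2) (hx2' : x2 ≤ (25 : ℝ) / 16) (hx3 : (0 : ℝ) / 16 ≤ x3) (hx3' : x3 ≤ (16 : ℝ) / 16) :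
    (0 ≤ ON.val (xv x0 x1 x2 x3) (fun _ => 1)) := by
  obtain ⟨cl, hcl, h⟩ := run_sound _ _ _ _ _ _ _ _ run_ok (xv x0 x1 x2 x3) (by
    intro i hi
    interval_cases i <;> norm_num [ba, bb, xv] <;> constructor <;> linarith)
  simp only [List.mem_cons, List.not_mem_nil, or_false] at hcl
  subst hcl
  exact h ON (by simp)

theorem vals (x0 x1 x2 x3 g p ta v s t g1 c s2 sh R U R2 s3 H DN c2 t2 ct KN KD p2 p3 p4 p5 p7 E0 E16 FR WG th fp shF A B O : ℝ)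
    (hg : x0 = 1 * g)
    (hp : x3 = 1 * p)
    (hta : x1 = 1 * ta)
    (hv : x2 = 1 * v)
    (hs : s = ((1 : ℝ) - (ta * v)))
    (ht : t = ((1 : ℝ) - ta))
    (hg1 : g1 = (g + (1 : ℝ)))
    (hc : c = ((g - (1 : ℝ)) * g1))
    (hs2 : s2 = (s * s))
    (hsh : sh = ((1 : ℝ) - s2))
    (hR : R = (c * sh))
    (hU : U = (((4 : ℝ) * s) + R))
    (hR2 : R2 = (R * R))
    (hs3 : s3 = (s2 * s))
    (hH : H = (((16 : ℝ) * s3) - R2))
    (hDN : DN = (((g1 * g1) * (U * U)) + (c * H)))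
    (hc2 : c2 = (c * c))
    (ht2 : t2 = (t * t))
    (hct : ct = (c * t))
    (hKN : KN = ((((335 : ℝ) * c2) + ((156 : ℝ) * ct)) + ((286 : ℝ) * t2)))
    (hKD : KD = ((((500 : ℝ) * c2) + ((600 : ℝ) * ct)) + ((1100 : ℝ) * t2)))
    (hp2 : p2 = (p * p))
    (hp3 : p3 = (p2 * p))
    (hp4 : p4 = (p2 * p2))
    (hp5 : p5 = (p3 * p2))
    (hp7 : p7 = (p4 * p3))
    (hE0 : E0 = ((((216 : ℝ) - ((402 : ℝ) * p2)) + ((344 : ℝ) * p4)) - ((43 : ℝ) * (c2 * p4))))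
    (hE16 : E16 = (((((16 : ℝ) * s2) - ((2 : ℝ) * R2)) * E0) - (R2 * (((402 : ℝ) * p2) - ((344 : ℝ) * p4)))))
    (hFR : FR = ((((4000 : ℝ) * s2) - ((850 : ℝ) * (s * (R * p)))) - ((27 : ℝ) * (R2 * p2))))
    (hWG : WG = ((1600 : ℝ) + (g1 * (((158 : ℝ) * c) - ((43 : ℝ) * (c2 * c))))))
    (hth : th = ((100 : ℝ) - (ta * ta)))
    (hfp : fp = (((((200 : ℝ) - ((170 : ℝ) * p)) - ((54 : ℝ) * p3)) + ((67 : ℝ) * p5)) - ((43 : ℝ) * p7)))
    (hshF : shF = (sh * FR))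
    (hA : A = ((((1 : ℝ) + t2) * (((128000 : ℝ) * (s2 * (g * (U * H)))) + ((10 : ℝ) * ((s * c) * (p3 * (DN * E16)))))) + ((32 : ℝ) * (t2 * (DN * shF)))))
    (hB : B = ((((1 : ℝ) - t2) * (KN * (((80 : ℝ) * (s3 * fp)) - (c * shF)))) + ((5 : ℝ) * (KD * (th * (p * (s * (((16 : ℝ) * s2) - R2))))))))
    (hO : O = (((25 : ℝ) * (g1 * (KD * A))) - (WG * (t * (DN * B)))))
    :
    ON.val (xv x0 x1 x2 x3) (fun _ => 1) = 1 * O := by
  set X := (xv x0 x1 x2 x3) with hX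
  have e0 : X 0 = x0 := rfl
  have e1 : X 1 = x1 := rfl
  have e2 : X 2 = x2 := rfl
  have e3 : X 3 = x3 := rfl
  have vgN : gN.val X (fun _ => 1) = 1 * g := by
    simp only [gN, Ex.val, e0, e1, e2, e3]; rw [← hg]; push_cast; ring
  have vpN : pN.val X (fun _ => 1) = 1 * p := by
    simp only [pN, Ex.val, e0, e1, e2, e3]; rw [← hp]; push_cast; ring
  have vtaN : taN.val X (fun _ => 1) = 1 * ta := by
    simp only [taN, Ex.val, e0, e1, e2, e3]; rw [← hta]; push_cast; ring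
  have vvN : vN.val X (fun _ => 1) = 1 * v := by
    simp only [vN, Ex.val, e0, e1, e2, e3]; rw [← hv]; push_cast; ring
  clear_value X
  have vsN : sN.val X (fun _ => 1) = 1 * s := by
    simp only [sN, Ex.val, vtaN, vvN]; rw [hs]; push_cast; ring
  have vtN : tN.val X (fun _ => 1) = 1 * t := by
    simp only [tN, Ex.val, vtaN]; rw [ht]; push_cast; ring
  have vg1N : g1N.val X (fun _ => 1) = 1 * g1 := by
    simp only [g1N, Ex.val, vgN]; rw [hg1]; push_cast; ring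
  have vcN : cN.val X (fun _ => 1) = 1 * c := by
    simp only [cN, Ex.val, vgN, vg1N]; rw [hc]; push_cast; ring
  have vs2N : s2N.val X (fun _ => 1) = 1 * s2 := by
    simp only [s2N, Ex.val, vsN]; rw [hs2]; push_cast; ring
  have vshN : shN.val X (fun _ => 1) = 1 * sh := by
    simp only [shN, Ex.val, vs2N]; rw [hsh]; push_cast; ring
  have vRN : RN.val X (fun _ => 1) = 1 * R := by
    simp only [RN, Ex.val, vcN, vshN]; rw [hR]; push_cast; ring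
  have vUN : UN.val X (fun _ => 1) = 1 * U := by
    simp only [UN, Ex.val, vsN, vRN]; rw [hU]; push_cast; ring
  have vR2N : R2N.val X (fun _ => 1) = 1 * R2 := by
    simp only [R2N, Ex.val, vRN]; rw [hR2]; push_cast; ring
  have vs3N : s3N.val X (fun _ => 1) = 1 * s3 := by
    simp only [s3N, Ex.val, vs2N, vsN]; rw [hs3]; push_cast; ring
  have vHN : HN.val X (fun _ => 1) = 1 * H := by
    simp only [HN, Ex.val, vs3N, vR2N]; rw [hH]; push_cast; ring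
  have vDNN : DNN.val X (fun _ => 1) = 1 * DN := by
    simp only [DNN, Ex.val, vg1N, vUN, vcN, vHN]; rw [hDN]; push_cast; ring
  have vc2N : c2N.val X (fun _ => 1) = 1 * c2 := by
    simp only [c2N, Ex.val, vcN]; rw [hc2]; push_cast; ring
  have vt2N : t2N.val X (fun _ => 1) = 1 * t2 := by
    simp only [t2N, Ex.val, vtN]; rw [ht2]; push_cast; ring
  have vctN : ctN.val X (fun _ => 1) = 1 * ct := by
    simp only [ctN, Ex.val, vcN, vtN]; rw [hct]; push_cast; ring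
  have vKNN : KNN.val X (fun _ => 1) = 1 * KN := by
    simp only [KNN, Ex.val, vc2N, vctN, vt2N]; rw [hKN]; push_cast; ring
  have vKDN : KDN.val X (fun _ => 1) = 1 * KD := by
    simp only [KDN, Ex.val, vc2N, vctN, vt2N]; rw [hKD]; push_cast; ring
  have vp2N : p2N.val X (fun _ => 1) = 1 * p2 := by
    simp only [p2N, Ex.val, vpN]; rw [hp2]; push_cast; ring
  have vp3N : p3N.val X (fun _ => 1) = 1 * p3 := by
    simp only [p3N, Ex.val, vp2N, vpN]; rw [hp3]; push_cast; ring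
  have vp4N : p4N.val X (fun _ => 1) = 1 * p4 := by
    simp only [p4N, Ex.val, vp2N]; rw [hp4]; push_cast; ring
  have vp5N : p5N.val X (fun _ => 1) = 1 * p5 := by
    simp only [p5N, Ex.val, vp3N, vp2N]; rw [hp5]; push_cast; ring
  have vp7N : p7N.val X (fun _ => 1) = 1 * p7 := by
    simp only [p7N, Ex.val, vp4N, vp3N]; rw [hp7]; push_cast; ring
  have vE0N : E0N.val X (fun _ => 1) = 1 * E0 := by
    simp only [E0N, Ex.val, vp2N, vp4N, vc2N]; rw [hE0]; push_cast; ring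
  have vE16N : E16N.val X (fun _ => 1) = 1 * E16 := by
    simp only [E16N, Ex.val, vs2N, vR2N, vE0N, vp2N, vp4N]; rw [hE16]; push_cast; ring
  have vFRN : FRN.val X (fun _ => 1) = 1 * FR := by
    simp only [FRN, Ex.val, vs2N, vsN, vRN, vpN, vR2N, vp2N]; rw [hFR]; push_cast; ring
  have vWGN : WGN.val X (fun _ => 1) = 1 * WG := by
    simp only [WGN, Ex.val, vg1N, vcN, vc2N]; rw [hWG]; push_cast; ring
  have vthN : thN.val X (fun _ => 1) = 1 * th := by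
    simp only [thN, Ex.val, vtaN]; rw [hth]; push_cast; ring
  have vfpN : fpN.val X (fun _ => 1) = 1 * fp := by
    simp only [fpN, Ex.val, vpN, vp3N, vp5N, vp7N]; rw [hfp]; push_cast; ring
  have vshFN : shFN.val X (fun _ => 1) = 1 * shF := by
    simp only [shFN, Ex.val, vshN, vFRN]; rw [hshF]; push_cast; ring
  have vAN : AN.val X (fun _ => 1) = 1 * A := by
    simp only [AN, Ex.val, vt2N, vs2N, vgN, vUN, vHN, vsN, vcN, vp3N, vDNN, vE16N, vshFN]; rw [hA]; push_cast; ring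
  have vBN : BN.val X (fun _ => 1) = 1 * B := by
    simp only [BN, Ex.val, vt2N, vKNN, vs3N, vfpN, vcN, vshFN, vKDN, vthN, vpN, vsN, vs2N, vR2N]; rw [hB]; push_cast; ring
  have vON : ON.val X (fun _ => 1) = 1 * O := by
    simp only [ON, Ex.val, vg1N, vKDN, vAN, vWGN, vtN, vDNN, vBN]; rw [hO]; push_cast; ring
  exact vON

theorem main (x0 x1 x2 x3 g p ta v s t g1 c s2 sh R U R2 s3 H DN c2 t2 ct KN KD p2 p3 p4 p5 p7 E0 E16 FR WG th fp shF A B O : ℝ) (hx0 : (16 : ℝ) / 16 ≤ x0) (hx0' : x0 ≤ (19 : ℝ) / 16) (hx1 : (0 : ℝ) / 16 ≤ x1) (hx1' : x1 ≤ (8 : ℝ) / 16) (hx2 : (0 : ℝ) / 16 ≤ x2) (hx2' : x2 ≤ (25 : ℝ) / 16) (hx3 : (0 : ℝ) / 16 ≤ x3) (hx3' : x3 ≤ (16 : ℝ) / 16)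
    (hg : x0 = 1 * g)
    (hp : x3 = 1 * p)
    (hta : x1 = 1 * ta)
    (hv : x2 = 1 * v)
    (hs : s = ((1 : ℝ) - (ta * v)))
    (ht : t = ((1 : ℝ) - ta))
    (hg1 : g1 = (g + (1 : ℝ)))
    (hc : c = ((g - (1 : ℝ)) * g1))
    (hs2 : s2 = (s * s))
    (hsh : sh = ((1 : ℝ) - s2))
    (hR : R = (c * sh))
    (hU : U = (((4 : ℝ) * s) + R))
    (hR2 : R2 = (R * R))
    (hs3 : s3 = (s2 * s))
    (hH : H = (((16 : ℝ) * s3) - R2))
    (hDN : DN = (((g1 * g1) * (U * U)) + (c * H)))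
    (hc2 : c2 = (c * c))
    (ht2 : t2 = (t * t))
    (hct : ct = (c * t))
    (hKN : KN = ((((335 : ℝ) * c2) + ((156 : ℝ) * ct)) + ((286 : ℝ) * t2)))
    (hKD : KD = ((((500 : ℝ) * c2) + ((600 : ℝ) * ct)) + ((1100 : ℝ) * t2)))
    (hp2 : p2 = (p * p))
    (hp3 : p3 = (p2 * p))
    (hp4 : p4 = (p2 * p2))
    (hp5 : p5 = (p3 * p2))
    (hp7 : p7 = (p4 * p3))
    (hE0 : E0 = ((((216 : ℝ) - ((402 : ℝ) * p2)) + ((344 : ℝ) * p4)) - ((43 : ℝ) * (c2 * p4))))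
    (hE16 : E16 = (((((16 : ℝ) * s2) - ((2 : ℝ) * R2)) * E0) - (R2 * (((402 : ℝ) * p2) - ((344 : ℝ) * p4)))))
    (hFR : FR = ((((4000 : ℝ) * s2) - ((850 : ℝ) * (s * (R * p)))) - ((27 : ℝ) * (R2 * p2))))
    (hWG : WG = ((1600 : ℝ) + (g1 * (((158 : ℝ) * c) - ((43 : ℝ) * (c2 * c))))))
    (hth : th = ((100 : ℝ) - (ta * ta)))
    (hfp : fp = (((((200 : ℝ) - ((170 : ℝ) * p)) - ((54 : ℝ) * p3)) + ((67 : ℝ) * p5)) - ((43 : ℝ) * p7)))
    (hshF : shF = (sh * FR))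
    (hA : A = ((((1 : ℝ) + t2) * (((128000 : ℝ) * (s2 * (g * (U * H)))) + ((10 : ℝ) * ((s * c) * (p3 * (DN * E16)))))) + ((32 : ℝ) * (t2 * (DN * shF)))))
    (hB : B = ((((1 : ℝ) - t2) * (KN * (((80 : ℝ) * (s3 * fp)) - (c * shF)))) + ((5 : ℝ) * (KD * (th * (p * (s * (((16 : ℝ) * s2) - R2))))))))
    (hO : O = (((25 : ℝ) * (g1 * (KD * A))) - (WG * (t * (DN * B)))))
    :
    (0 ≤ O) := by
  have hv := vals x0 x1 x2 x3 g p ta v s t g1 c s2 sh R U R2 s3 H DN c2 t2 ct KN KD p2 p3 p4 p5 p7 E0 E16 FR WG th fp shF A B O hg hp hta hv hs ht hg1 hc hs2 hsh hR hU hR2 hs3 hH hDN hc2 ht2 hct hKN hKD hp2 hp3 hp4 hp5 hp7 hE0 hE16 hFR hWG hth hfp hshF hA hB hO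
  have hc := core x0 x1 x2 x3 hx0 hx0' hx1 hx1' hx2 hx2' hx3 hx3'
  have w0 := hv
  simp only [w0] at hc
  have a0 := hc
  exact nonneg_of_mul_nonneg_right a0 (by positivity)

end Crest.Agent.R307.PISe
private theorem rz_178b19f6bc : type_of% @_root_.Crest.Agent.R307.PISe.xv.eq_1 := @_root_.Crest.Agent.R307.PISe.xv.eq_1 -- L13
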