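import Crest.Agent.Tools.KB

-- ▼ part R307/PISfx
section

set_option autoImplicit false

namespace Crest.Agent.R307.PISf

open Crest.Agent.KB

def gN : Ex := (.X 0 1)
def pN : Ex := (.X 3 1)
def epN : Ex := (.X 1 1)
def sN : Ex := (.sub (.mul (.W 1 1) (.c (1))) epN)
def vN : Ex := (.X 2 1)
def taN : Ex := (.mul epN vN)
def tN : Ex := (.sub (.mul (.W 2 1) (.mul (.W 1 1) (.c (1)))) taN)
def g1N : Ex := (.add gN (.mul (.W 0 1) (.c (1))))
def cN : Ex := (.mul (.sub gN (.mul (.W 0 1) (.c (1)))) g1N)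
def s2N : Ex := (.mul sN sN)
def shN : Ex := (.sub (.mul (.W 1 2) (.c (1))) s2N)
def RN : Ex := (.mul cN shN)
def UN : Ex := (.add (.mul (.W 1 1) (.mul (.W 0 2) (.mul (.c (4)) sN))) RN)
def R2N : Ex := (.mul RN RN)
def s3N : Ex := (.mul s2N sN)
def HN : Ex := (.sub (.mul (.W 1 1) (.mul (.W 0 4) (.mul (.c (16)) s3N))) R2N)
def DNN : Ex := (.add (.mul (.mul g1N g1N) (.mul UN UN)) (.mul cN HN))
def c2N : Ex := (.mul cN cN)
def t2N : Ex := (.mul tN tN)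
def ctN : Ex := (.mul cN tN)
def KNN : Ex := (.add (.mul (.W 2 1) (.mul (.W 1 1) (.add (.mul (.W 2 1) (.mul (.W 1 1) (.mul (.c (335)) c2N))) (.mul (.W 0 2) (.mul (.c (156)) ctN))))) (.mul (.W 0 4) (.mul (.c (286)) t2N)))
def KDN : Ex := (.add (.mul (.W 2 1) (.mul (.W 1 1) (.add (.mul (.W 2 1) (.mul (.W 1 1) (.mul (.c (500)) c2N))) (.mul (.W 0 2) (.mul (.c (600)) ctN))))) (.mul (.W 0 4) (.mul (.c (1100)) t2N)))
def p2N : Ex := (.mul pN pN)
def p3N : Ex := (.mul p2N pN)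
def p4N : Ex := (.mul p2N p2N)
def p5N : Ex := (.mul p3N p2N)
def p7N : Ex := (.mul p4N p3N)
def E0N : Ex := (.sub (.mul (.W 0 4) (.add (.mul (.W 3 2) (.sub (.mul (.W 3 2) (.c (216))) (.mul (.c (402)) p2N))) (.mul (.c (344)) p4N))) (.mul (.c (43)) (.mul c2N p4N)))
def E16N : Ex := (.sub (.mul (.sub (.mul (.W 1 2) (.mul (.W 0 4) (.mul (.c (16)) s2N))) (.mul (.c (2)) R2N)) E0N) (.mul (.W 0 4) (.mul R2N (.sub (.mul (.W 3 2) (.mul (.c (402)) p2N)) (.mul (.c (344)) p4N)))))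
def FRN : Ex := (.sub (.mul (.W 3 1) (.mul (.W 1 1) (.mul (.W 0 2) (.sub (.mul (.W 3 1) (.mul (.W 1 1) (.mul (.W 0 2) (.mul (.c (4000)) s2N)))) (.mul (.c (850)) (.mul sN (.mul RN pN))))))) (.mul (.c (27)) (.mul R2N p2N)))
def WGN : Ex := (.add (.mul (.W 0 7) (.c (1600))) (.mul g1N (.sub (.mul (.W 0 4) (.mul (.c (158)) cN)) (.mul (.c (43)) (.mul c2N cN)))))
def thN : Ex := (.sub (.mul (.W 2 2) (.mul (.W 1 2) (.c (100)))) (.mul taN taN))
def fpN : Ex := (.sub (.mul (.W 3 2) (.add (.mul (.W 3 2) (.sub (.mul (.W 3 2) (.sub (.mul (.W 3 1) (.c (200))) (.mul (.c (170)) pN))) (.mul (.c (54)) p3N))) (.mul (.c (67)) p5N))) (.mul (.c (43)) p7N))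
def shFN : Ex := (.mul shN FRN)
def AN : Ex := (.add (.mul (.W 1 1) (.mul (.add (.mul (.W 2 2) (.mul (.W 1 2) (.c (1)))) t2N) (.add (.mul (.W 3 7) (.mul (.W 1 1) (.mul (.W 0 9) (.mul (.c (128000)) (.mul s2N (.mul gN (.mul UN HN))))))) (.mul (.c (10)) (.mul (.mul sN cN) (.mul p3N (.mul DNN E16N))))))) (.mul (.W 3 5) (.mul (.W 0 6) (.mul (.c (32)) (.mul t2N (.mul DNN shFN))))))
def BN : Ex := (.add (.mul (.sub (.mul (.W 2 2) (.mul (.W 1 2) (.c (1)))) t2N) (.mul KNN (.sub (.mul (.W 1 3) (.mul (.W 0 6) (.mul (.c (80)) (.mul s3N fpN)))) (.mul (.W 3 5) (.mul cN shFN))))) (.mul (.W 3 6) (.mul (.W 1 1) (.mul (.W 0 2) (.mul (.c (5)) (.mul KDN (.mul thN (.mul pN (.mul sN (.sub (.mul (.W 1 2) (.mul (.W 0 4) (.mul (.c (16)) s2N))) R2N))))))))))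
def ON : Ex := (.sub (.mul (.W 2 1) (.mul (.W 1 1) (.mul (.W 0 2) (.mul (.c (25)) (.mul g1N (.mul KDN AN)))))) (.mul WGN (.mul tN (.mul DNN BN))))

set_option maxRecDepth 100000 in
theorem run_ok : run 4 514 8 [24, 16, 6, 8] [606, 392, 336, 512] [[ON]]
    (.leaf 0) [(256, 303), (0, 196), (0, 168), (0, 256)] = true := by
  decide +kernel

end Crest.Agent.R307.PISf
end

-- ▼ part R307/PISf

set_option autoImplicit false
set_option linter.unusedSimpArgs false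
set_option linter.unusedTactic false
set_option linter.unusedVariables false

namespace Crest.Agent.R307.PISf

open Crest.Agent.KB

/-- the point -/
def xv (x0 x1 x2 x3 : ℝ) : ℕ → ℝ
  | 0 => x0
  | 1 => x1
  | 2 => x2
  | _ => x3

theorem core (x0 x1 x2 x3 : ℝ) (hx0 : (256 : ℝ) / 256 ≤ x0) (hx0' : x0 ≤ (303 : ℝ) / 256) (hx1 : (0 : ℝ) / 256 ≤ x1) (hx1' : x1 ≤ (196 : ℝ) / 256) (hx2 : (0 : ℝ) / 256 ≤ x2) (hx2' : x2 ≤ (168 : ℝ) / 256) (hx3 : (0 : ℝ) / 256 ≤ x3) (hx3' : x3 ≤ (256 : ℝ) / 256) :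
    (0 ≤ ON.val (xv x0 x1 x2 x3) (fun _ => 1)) := by
  obtain ⟨cl, hcl, h⟩ := run_sound _ _ _ _ _ _ _ _ run_ok (xv x0 x1 x2 x3) (by
    intro i hi
    interval_cases i <;> norm_num [ba, bb, xv] <;> constructor <;> linarith)
  simp only [List.mem_cons, List.not_mem_nil, or_false] at hcl
  subst hcl
  exact h ON (by simp)

theorem vals (x0 x1 x2 x3 g p ep v s ta t g1 c s2 sh R U R2 s3 H DN c2 t2 ct KN KD p2 p3 p4 p5 p7 E0 E16 FR WG th fp shF A B O : ℝ)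
    (hg : x0 = 1 * g)
    (hp : x3 = 1 * p)
    (hep : x1 = 1 * ep)
    (hv : x2 = 1 * v)
    (hs : s = ((1 : ℝ) - ep))
    (hta : ta = (ep * v))
    (ht : t = ((1 : ℝ) - ta))
    (hg1 : g1 = (g + (1 : ℝ)))
    (hc : c = ((g - (1 : ℝ)) * g1))
    (hs2 : s2 = (s * s))
    (hsh : sh = ((1 : ℝ) - s2))
    (hR : R = (c * sh))
    (hU : U = (((4 : ℝ) * s) + R))
    (hR2 : R2 = (R * R))
    (hs3 : s3 = (s2 * s))
    (hH : H = (((16 : ℝ) * s3) - R2))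
    (hDN : DN = (((g1 * g1) * (U * U)) + (c * H)))
    (hc2 : c2 = (c * c))
    (ht2 : t2 = (t * t))
    (hct : ct = (c * t))
    (hKN : KN = ((((335 : ℝ) * c2) + ((156 : ℝ) * ct)) + ((286 : ℝ) * t2)))
    (hKD : KD = ((((500 : ℝ) * c2) + ((600 : ℝ) * ct)) + ((1100 : ℝ) * t2)))
    (hp2 : p2 = (p * p))
    (hp3 : p3 = (p2 * p))
    (hp4 : p4 = (p2 * p2))
    (hp5 : p5 = (p3 * p2))
    (hp7 : p7 = (p4 * p3))
    (hE0 : E0 = ((((216 : ℝ) - ((402 : ℝ) * p2)) + ((344 : ℝ) * p4)) - ((43 : ℝ) * (c2 * p4))))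
    (hE16 : E16 = (((((16 : ℝ) * s2) - ((2 : ℝ) * R2)) * E0) - (R2 * (((402 : ℝ) * p2) - ((344 : ℝ) * p4)))))
    (hFR : FR = ((((4000 : ℝ) * s2) - ((850 : ℝ) * (s * (R * p)))) - ((27 : ℝ) * (R2 * p2))))
    (hWG : WG = ((1600 : ℝ) + (g1 * (((158 : ℝ) * c) - ((43 : ℝ) * (c2 * c))))))
    (hth : th = ((100 : ℝ) - (ta * ta)))
    (hfp : fp = (((((200 : ℝ) - ((170 : ℝ) * p)) - ((54 : ℝ) * p3)) + ((67 : ℝ) * p5)) - ((43 : ℝ) * p7)))
    (hshF : shF = (sh * FR))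
    (hA : A = ((((1 : ℝ) + t2) * (((128000 : ℝ) * (s2 * (g * (U * H)))) + ((10 : ℝ) * ((s * c) * (p3 * (DN * E16)))))) + ((32 : ℝ) * (t2 * (DN * shF)))))
    (hB : B = ((((1 : ℝ) - t2) * (KN * (((80 : ℝ) * (s3 * fp)) - (c * shF)))) + ((5 : ℝ) * (KD * (th * (p * (s * (((16 : ℝ) * s2) - R2))))))))
    (hO : O = (((25 : ℝ) * (g1 * (KD * A))) - (WG * (t * (DN * B)))))
    :
    ON.val (xv x0 x1 x2 x3) (fun _ => 1) = 1 * O := by
  set X := (xv x0 x1 x2 x3) with hX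
  have e0 : X 0 = x0 := rfl
  have e1 : X 1 = x1 := rfl
  have e2 : X 2 = x2 := rfl
  have e3 : X 3 = x3 := rfl
  have vgN : gN.val X (fun _ => 1) = 1 * g := by
    simp only [gN, Ex.val, e0, e1, e2, e3]; rw [← hg]; push_cast; ring
  have vpN : pN.val X (fun _ => 1) = 1 * p := by
    simp only [pN, Ex.val, e0, e1, e2, e3]; rw [← hp]; push_cast; ring
  have vepN : epN.val X (fun _ => 1) = 1 * ep := by
    simp only [epN, Ex.val, e0, e1, e2, e3]; rw [← hep]; push_cast; ring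
  have vvN : vN.val X (fun _ => 1) = 1 * v := by
    simp only [vN, Ex.val, e0, e1, e2, e3]; rw [← hv]; push_cast; ring
  clear_value X
  have vsN : sN.val X (fun _ => 1) = 1 * s := by
    simp only [sN, Ex.val, vepN]; rw [hs]; push_cast; ring
  have vtaN : taN.val X (fun _ => 1) = 1 * ta := by
    simp only [taN, Ex.val, vepN, vvN]; rw [hta]; push_cast; ring
  have vtN : tN.val X (fun _ => 1) = 1 * t := by
    simp only [tN, Ex.val, vtaN]; rw [ht]; push_cast; ring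
  have vg1N : g1N.val X (fun _ => 1) = 1 * g1 := by
    simp only [g1N, Ex.val, vgN]; rw [hg1]; push_cast; ring
  have vcN : cN.val X (fun _ => 1) = 1 * c := by
    simp only [cN, Ex.val, vgN, vg1N]; rw [hc]; push_cast; ring
  have vs2N : s2N.val X (fun _ => 1) = 1 * s2 := by
    simp only [s2N, Ex.val, vsN]; rw [hs2]; push_cast; ring
  have vshN : shN.val X (fun _ => 1) = 1 * sh := by
    simp only [shN, Ex.val, vs2N]; rw [hsh]; push_cast; ring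
  have vRN : RN.val X (fun _ => 1) = 1 * R := by
    simp only [RN, Ex.val, vcN, vshN]; rw [hR]; push_cast; ring
  have vUN : UN.val X (fun _ => 1) = 1 * U := by
    simp only [UN, Ex.val, vsN, vRN]; rw [hU]; push_cast; ring
  have vR2N : R2N.val X (fun _ => 1) = 1 * R2 := by
    simp only [R2N, Ex.val, vRN]; rw [hR2]; push_cast; ring
  have vs3N : s3N.val X (fun _ => 1) = 1 * s3 := by
    simp only [s3N, Ex.val, vs2N, vsN]; rw [hs3]; push_cast; ring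
  have vHN : HN.val X (fun _ => 1) = 1 * H := by
    simp only [HN, Ex.val, vs3N, vR2N]; rw [hH]; push_cast; ring
  have vDNN : DNN.val X (fun _ => 1) = 1 * DN := by
    simp only [DNN, Ex.val, vg1N, vUN, vcN, vHN]; rw [hDN]; push_cast; ring
  have vc2N : c2N.val X (fun _ => 1) = 1 * c2 := by
    simp only [c2N, Ex.val, vcN]; rw [hc2]; push_cast; ring
  have vt2N : t2N.val X (fun _ => 1) = 1 * t2 := by
    simp only [t2N, Ex.val, vtN]; rw [ht2]; push_cast; ring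
  have vctN : ctN.val X (fun _ => 1) = 1 * ct := by
    simp only [ctN, Ex.val, vcN, vtN]; rw [hct]; push_cast; ring
  have vKNN : KNN.val X (fun _ => 1) = 1 * KN := by
    simp only [KNN, Ex.val, vc2N, vctN, vt2N]; rw [hKN]; push_cast; ring
  have vKDN : KDN.val X (fun _ => 1) = 1 * KD := by
    simp only [KDN, Ex.val, vc2N, vctN, vt2N]; rw [hKD]; push_cast; ring
  have vp2N : p2N.val X (fun _ => 1) = 1 * p2 := by
    simp only [p2N, Ex.val, vpN]; rw [hp2]; push_cast; ring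
  have vp3N : p3N.val X (fun _ => 1) = 1 * p3 := by
    simp only [p3N, Ex.val, vp2N, vpN]; rw [hp3]; push_cast; ring
  have vp4N : p4N.val X (fun _ => 1) = 1 * p4 := by
    simp only [p4N, Ex.val, vp2N]; rw [hp4]; push_cast; ring
  have vp5N : p5N.val X (fun _ => 1) = 1 * p5 := by
    simp only [p5N, Ex.val, vp3N, vp2N]; rw [hp5]; push_cast; ring
  have vp7N : p7N.val X (fun _ => 1) = 1 * p7 := by
    simp only [p7N, Ex.val, vp4N, vp3N]; rw [hp7]; push_cast; ring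
  have vE0N : E0N.val X (fun _ => 1) = 1 * E0 := by
    simp only [E0N, Ex.val, vp2N, vp4N, vc2N]; rw [hE0]; push_cast; ring
  have vE16N : E16N.val X (fun _ => 1) = 1 * E16 := by
    simp only [E16N, Ex.val, vs2N, vR2N, vE0N, vp2N, vp4N]; rw [hE16]; push_cast; ring
  have vFRN : FRN.val X (fun _ => 1) = 1 * FR := by
    simp only [FRN, Ex.val, vs2N, vsN, vRN, vpN, vR2N, vp2N]; rw [hFR]; push_cast; ring
  have vWGN : WGN.val X (fun _ => 1) = 1 * WG := by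
    simp only [WGN, Ex.val, vg1N, vcN, vc2N]; rw [hWG]; push_cast; ring
  have vthN : thN.val X (fun _ => 1) = 1 * th := by
    simp only [thN, Ex.val, vtaN]; rw [hth]; push_cast; ring
  have vfpN : fpN.val X (fun _ => 1) = 1 * fp := by
    simp only [fpN, Ex.val, vpN, vp3N, vp5N, vp7N]; rw [hfp]; push_cast; ring
  have vshFN : shFN.val X (fun _ => 1) = 1 * shF := by
    simp only [shFN, Ex.val, vshN, vFRN]; rw [hshF]; push_cast; ring
  have vAN : AN.val X (fun _ => 1) = 1 * A := by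
    simp only [AN, Ex.val, vt2N, vs2N, vgN, vUN, vHN, vsN, vcN, vp3N, vDNN, vE16N, vshFN]; rw [hA]; push_cast; ring
  have vBN : BN.val X (fun _ => 1) = 1 * B := by
    simp only [BN, Ex.val, vt2N, vKNN, vs3N, vfpN, vcN, vshFN, vKDN, vthN, vpN, vsN, vs2N, vR2N]; rw [hB]; push_cast; ring
  have vON : ON.val X (fun _ => 1) = 1 * O := by
    simp only [ON, Ex.val, vg1N, vKDN, vAN, vWGN, vtN, vDNN, vBN]; rw [hO]; push_cast; ring
  exact vON

theorem main (x0 x1 x2 x3 g p ep v s ta t g1 c s2 sh R U R2 s3 H DN c2 t2 ct KN KD p2 p3 p4 p5 p7 E0 E16 FR WG th fp shF A B O : ℝ) (hx0 : (256 : ℝ) / 256 ≤ x0) (hx0' : x0 ≤ (303 : ℝ) / 256) (hx1 : (0 : ℝ) / 256 ≤ x1) (hx1' : x1 ≤ (196 : ℝ) / 256) (hx2 : (0 : ℝ) / 256 ≤ x2) (hx2' : x2 ≤ (168 : ℝ) / 256) (hx3 : (0 : ℝ) / 256 ≤ x3) (hx3' : x3 ≤ (256 : ℝ) / 256)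
    (hg : x0 = 1 * g)
    (hp : x3 = 1 * p)
    (hep : x1 = 1 * ep)
    (hv : x2 = 1 * v)
    (hs : s = ((1 : ℝ) - ep))
    (hta : ta = (ep * v))
    (ht : t = ((1 : ℝ) - ta))
    (hg1 : g1 = (g + (1 : ℝ)))
    (hc : c = ((g - (1 : ℝ)) * g1))
    (hs2 : s2 = (s * s))
    (hsh : sh = ((1 : ℝ) - s2))
    (hR : R = (c * sh))
    (hU : U = (((4 : ℝ) * s) + R))
    (hR2 : R2 = (R * R))
    (hs3 : s3 = (s2 * s))
    (hH : H = (((16 : ℝ) * s3) - R2))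
    (hDN : DN = (((g1 * g1) * (U * U)) + (c * H)))
    (hc2 : c2 = (c * c))
    (ht2 : t2 = (t * t))
    (hct : ct = (c * t))
    (hKN : KN = ((((335 : ℝ) * c2) + ((156 : ℝ) * ct)) + ((286 : ℝ) * t2)))
    (hKD : KD = ((((500 : ℝ) * c2) + ((600 : ℝ) * ct)) + ((1100 : ℝ) * t2)))
    (hp2 : p2 = (p * p))
    (hp3 : p3 = (p2 * p))
    (hp4 : p4 = (p2 * p2))
    (hp5 : p5 = (p3 * p2))
    (hp7 : p7 = (p4 * p3))
    (hE0 : E0 = ((((216 : ℝ) - ((402 : ℝ) * p2)) + ((344 : ℝ) * p4)) - ((43 : ℝ) * (c2 * p4))))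
    (hE16 : E16 = (((((16 : ℝ) * s2) - ((2 : ℝ) * R2)) * E0) - (R2 * (((402 : ℝ) * p2) - ((344 : ℝ) * p4)))))
    (hFR : FR = ((((4000 : ℝ) * s2) - ((850 : ℝ) * (s * (R * p)))) - ((27 : ℝ) * (R2 * p2))))
    (hWG : WG = ((1600 : ℝ) + (g1 * (((158 : ℝ) * c) - ((43 : ℝ) * (c2 * c))))))
    (hth : th = ((100 : ℝ) - (ta * ta)))
    (hfp : fp = (((((200 : ℝ) - ((170 : ℝ) * p)) - ((54 : ℝ) * p3)) + ((67 : ℝ) * p5)) - ((43 : ℝ) * p7)))
    (hshF : shF = (sh * FR))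
    (hA : A = ((((1 : ℝ) + t2) * (((128000 : ℝ) * (s2 * (g * (U * H)))) + ((10 : ℝ) * ((s * c) * (p3 * (DN * E16)))))) + ((32 : ℝ) * (t2 * (DN * shF)))))
    (hB : B = ((((1 : ℝ) - t2) * (KN * (((80 : ℝ) * (s3 * fp)) - (c * shF)))) + ((5 : ℝ) * (KD * (th * (p * (s * (((16 : ℝ) * s2) - R2))))))))
    (hO : O = (((25 : ℝ) * (g1 * (KD * A))) - (WG * (t * (DN * B)))))
    :
    (0 ≤ O) := by
  have hv := vals x0 x1 x2 x3 g p ep v s ta t g1 c s2 sh R U R2 s3 H DN c2 t2 ct KN KD p2 p3 p4 p5 p7 E0 E16 FR WG th fp shF A B O hg hp hep hv hs hta ht hg1 hc hs2 hsh hR hU hR2 hs3 hH hDN hc2 ht2 hct hKN hKD hp2 hp3 hp4 hp5 hp7 hE0 hE16 hFR hWG hth hfp hshF hA hB hO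
  have hc := core x0 x1 x2 x3 hx0 hx0' hx1 hx1' hx2 hx2' hx3 hx3'
  have w0 := hv
  simp only [w0] at hc
  have a0 := hc
  exact nonneg_of_mul_nonneg_right a0 (by positivity)

end Crest.Agent.R307.PISf
private theorem rz_58e0775fb6 : type_of% @_root_.Crest.Agent.R307.PISf.xv.eq_1 := @_root_.Crest.Agent.R307.PISf.xv.eq_1 -- L13
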