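import Crest.Agent.R307.GenS
import Crest.Agent.R307.Conic

-- ▼ part R307/PISbase
section

/-!
Row 307, S0471, regime S: reduction of `PIS (13/50) (41/100) (6/5) (11/5) (1/100) (2/5)` to a
polynomial inequality in `(c, t, p, r)`, `p = √P`, `r p = √Q`, with a lower bound `D` of
`(√G + √G' - √P - √Q)/√P`.
-/

set_option autoImplicit false

namespace Crest.Agent.R307.PIS1

open Crest.Agent.R307 Crest.Agent.R307.GenInd Crest.Agent.R307.GenPI Crest.Agent.R307.GenFin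
  Crest.Agent.R307.GenS

/-- `W(c)` of the frozen functional. -/
noncomputable abbrev WS (c : ℝ) : ℝ := WA (3 / 10) (-6 / 25) (43 / 100) c

/-- `100 F(y)/y`. -/
noncomputable def f1 (y : ℝ) : ℝ := 200 - 170 * y - 54 * y ^ 3 + 67 * y ^ 5 - 43 * y ^ 7

/-- `800 E`. -/
noncomputable def E8 (c p r : ℝ) : ℝ :=
  216 - 402 * (p ^ 2 * (1 + r ^ 2)) + 344 * (p ^ 4 * (1 + r ^ 2 + r ^ 4))
    - 43 * (c ^ 2 * p ^ 4 * (1 - r ^ 2) ^ 2)

/-- numerator of `κ` -/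
noncomputable def kn (c t : ℝ) : ℝ := 335 * c ^ 2 + 156 * (c * t) + 286 * t ^ 2

/-- denominator of `κ` -/
noncomputable def kd (c t : ℝ) : ℝ := 500 * c ^ 2 + 600 * (c * t) + 1100 * t ^ 2

/-- the part without `W` -/
noncomputable def LL (c t p r D : ℝ) : ℝ :=
  kd c t * ((1 + t ^ 2) * (D + c ^ 2 * p ^ 3 * (1 - r ^ 2) ^ 2 * E8 c p r / 1600)
    + t ^ 2 * r * f1 (r * p) / 100)

/-- the factor of `W t` -/
noncomputable def BB (c t p r : ℝ) : ℝ :=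
  (1 - t ^ 2) * kn c t * (f1 p - r * f1 (r * p)) / 100
    + kd c t * (1 - (1 - t) ^ 2 / 100) * p * (1 - r ^ 2)

/-- The condition on `D`. -/
def DOK (c r D : ℝ) : Prop :=
  0 ≤ D ∧ D * (D + 2) * (D + 2 * r) * (D + 2 + 2 * r) ≤ c ^ 2 * (1 - r ^ 2) ^ 2

/-- The pointwise statement with `w` in place of `W(c)`. -/
def Pt (w c t p r : ℝ) : Prop := ∃ D, DOK c r D ∧ 0 ≤ LL c t p r D - w * t * BB c t p r

lemma FP_eq (y : ℝ) : FP (3 / 10) (-6 / 25) (43 / 100) y = y * f1 y / 100 := by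
  unfold FP f1; ring

lemma Corr_eq (c p r : ℝ) : Corr (3 / 10) (-6 / 25) (43 / 100) (c ^ 2) p (r * p) =
    c ^ 2 * p ^ 4 * (1 - r ^ 2) ^ 2 * E8 c p r / 800 := by
  unfold Corr E8; ring

lemma kd_pos {c t : ℝ} (hc : 0 < c) (ht : 0 ≤ t) : 0 < kd c t := by
  unfold kd; positivity

lemma kap_eq {c t : ℝ} (hc : 0 < c) (ht : 0 ≤ t) :
    kapR (13 / 50) (41 / 100) (6 / 5) (11 / 5) c t * kd c t = kn c t := by
  unfold kapR kd kn
  have : 0 < c ^ 2 + 6 / 5 * (c * t) + 11 / 5 * t ^ 2 := by positivity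
  field_simp
  ring

/-- key algebra -/
lemma key_alg {c t p r D S W : ℝ} (hc : 0 < c) (ht : 0 ≤ t) (hp : 0 < p) (hS : p * D ≤ S)
    (h : 0 ≤ LL c t p r D - W * t * BB c t p r) :
    (1 + Kf (13 / 50) (41 / 100) (6 / 5) (11 / 5) W c t) * (p * f1 p / 100) +
      (Cf t - Kf (13 / 50) (41 / 100) (6 / 5) (11 / 5) W c t) * (r * p * f1 (r * p) / 100) +
      (W * btf (1 / 100) t) * p ^ 2 + (-(W * btf (1 / 100) t)) * (r * p) ^ 2 ≤
    p * f1 p / 100 + r * p * f1 (r * p) / 100 + 2 * S +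
      c ^ 2 * p ^ 4 * (1 - r ^ 2) ^ 2 * E8 c p r / 800 := by
  have hkd := kd_pos hc ht
  have hk := kap_eq hc ht
  have h1 : (1 + t ^ 2) ≠ 0 := by positivity
  have hpos : 0 < (1 + t ^ 2) * kd c t := by positivity
  have hSf : (1 + t ^ 2) * Sf t = 2 * t := by unfold Sf; field_simp
  have hCf : (1 + t ^ 2) * Cf t = 1 - t ^ 2 := by unfold Cf; field_simp
  set κ := kapR (13 / 50) (41 / 100) (6 / 5) (11 / 5) c t with hκ
  set d := kd c t with hd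
  set n := kn c t with hn
  set F := f1 p with hF
  set G := f1 (r * p) with hG
  set E := E8 c p r with hE
  have hmain : 0 ≤ ((1 + t ^ 2) * d) * ((p * F / 100 + r * p * G / 100 + 2 * (p * D) +
      c ^ 2 * p ^ 4 * (1 - r ^ 2) ^ 2 * E / 800) -
      ((1 + W * Sf t * (1 - t ^ 2) * κ) * (p * F / 100) +
      (Cf t - W * Sf t * (1 - t ^ 2) * κ) * (r * p * G / 100) +
      (W * (Sf t * (1 - 1 / 100 * (1 - t) ^ 2))) * p ^ 2 +
      (-(W * (Sf t * (1 - 1 / 100 * (1 - t) ^ 2)))) * (r * p) ^ 2)) := by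
    have e : ((1 + t ^ 2) * d) * ((p * F / 100 + r * p * G / 100 + 2 * (p * D) +
      c ^ 2 * p ^ 4 * (1 - r ^ 2) ^ 2 * E / 800) -
      ((1 + W * Sf t * (1 - t ^ 2) * κ) * (p * F / 100) +
      (Cf t - W * Sf t * (1 - t ^ 2) * κ) * (r * p * G / 100) +
      (W * (Sf t * (1 - 1 / 100 * (1 - t) ^ 2))) * p ^ 2 +
      (-(W * (Sf t * (1 - 1 / 100 * (1 - t) ^ 2)))) * (r * p) ^ 2)) =
      2 * p * (LL c t p r D - W * t * BB c t p r) := by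
      unfold LL BB
      rw [← hd, ← hn, ← hF, ← hG, ← hE]
      linear_combination (-(d * W * (1 - t ^ 2) * κ * (p * F / 100 - r * p * G / 100)) -
        d * W * (1 - 1 / 100 * (1 - t) ^ 2) * (p ^ 2 - (r * p) ^ 2)) * hSf
        - d * (r * p * G / 100) * hCf
        - 2 * t * W * (1 - t ^ 2) * (p * F / 100 - r * p * G / 100) * hk
    rw [e]
    positivity
  have h2 := nonneg_of_mul_nonneg_right hmain hpos
  unfold Kf btf
  rw [← hκ]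
  linarith

/-- **Reduction**: `PIS` from the pointwise statement. -/
theorem pis_of_point (h : ∀ c t p r : ℝ, 0 < c → c ≤ 2 / 5 → 0 ≤ t → t ≤ 1 → 0 < p → p ≤ 1 →
    0 ≤ r → r ≤ 1 → Pt (WS c) c t p r) :
    PIS (13 / 50) (41 / 100) (6 / 5) (11 / 5) (1 / 100) (2 / 5) := by
  intro c hc0 hc1 t ht0 ht1
  refine ⟨le_rfl, le_rfl, ?_⟩
  intro P Q hQ hQP hP
  have hc2 : 0 ≤ 1 - c ^ 2 := by nlinarith
  have hρ : |Real.sqrt (1 - c ^ 2)| ≤ 1 := by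
    rw [abs_of_nonneg (Real.sqrt_nonneg _)]
    exact Real.sqrt_le_iff.mpr ⟨by norm_num, by nlinarith [sq_nonneg c]⟩
  have hρ2 : 1 - (Real.sqrt (1 - c ^ 2)) ^ 2 = c ^ 2 := by rw [Real.sq_sqrt hc2]; ring
  set ρ := Real.sqrt (1 - c ^ 2) with hρd
  have eFA : FA (3 / 10) (-6 / 25) (43 / 100) = FG (3 / 10) (-6 / 25) (43 / 100) := rfl
  rw [eFA]
  rcases (hQ.trans hQP).eq_or_lt with hP0 | hP0
  · have hQ0 : Q = 0 := le_antisymm (by rw [hP0]; exact hQP) hQ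
    rw [hQ0, ← hP0]
    simp [FG_zero]
  · set y0 := Real.sqrt P with hy0
    have hy0p : 0 < y0 := Real.sqrt_pos.mpr hP0
    have hy01 : y0 ≤ 1 := Real.sqrt_le_iff.mpr ⟨by norm_num, by simpa using hP⟩
    have e0 : y0 ^ 2 = P := Real.sq_sqrt hP0.le
    set r := Real.sqrt Q / y0 with hr
    have hr0 : 0 ≤ r := div_nonneg (Real.sqrt_nonneg _) hy0p.le
    have hr1 : r ≤ 1 := (div_le_one hy0p).mpr (Real.sqrt_le_sqrt hQP)
    have er : r * y0 = Real.sqrt Q := by rw [hr]; field_simp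
    have e1 : (r * y0) ^ 2 = Q := by rw [er]; exact Real.sq_sqrt hQ
    have hry : 0 ≤ r * y0 := mul_nonneg hr0 hy0p.le
    obtain ⟨D, ⟨hD0, hD⟩, hPt⟩ := h c t y0 r hc0 hc1 ht0 ht1 hy0p hy01 hr0 hr1
    have hlow := Conic.D_le (c2 := 1 - ρ ^ 2) rfl hρ hy0p.le hr0 hD0 (by rw [hρ2]; exact hD)
    have hadd := FG_add (3 / 10) (-6 / 25) (43 / 100) ρ y0 (r * y0)
    have f0 := FG_sq (3 / 10) (-6 / 25) (43 / 100) hy0p.le
    have f1' := FG_sq (3 / 10) (-6 / 25) (43 / 100) hry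
    have hk := key_alg (W := WS c) hc0 ht0 hy0p hlow hPt
    rw [hρ2] at hadd
    rw [Corr_eq, FP_eq, FP_eq] at hadd
    rw [FP_eq] at f0 f1'
    rw [e0] at f0 hadd hk
    rw [e1] at f1' hadd hk
    rw [hadd, f0, f1']
    unfold WS at hk
    linarith

/-! ### Lower bounds for `D` -/

lemma dok_of_h {c r h D : ℝ} (hr : 0 ≤ r) (hD : 0 ≤ D) (h1 : D * (D + 2 * (1 + r)) ≤ h)
    (h2 : h * (h + 4 * r) ≤ c ^ 2 * (1 - r ^ 2) ^ 2) : DOK c r D := by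
  refine ⟨hD, ?_⟩
  have hx : 0 ≤ D * (D + 2 * (1 + r)) := by positivity
  have e : D * (D + 2) * (D + 2 * r) * (D + 2 + 2 * r) =
      (D * (D + 2 * (1 + r))) * (D * (D + 2 * (1 + r)) + 4 * r) := by ring
  rw [e]
  refine le_trans ?_ h2
  exact mul_le_mul h1 (by linarith) (by positivity) (hx.trans h1)

/-- first bound: `D = 2uh/(4u²+h)`, `h = a² n2/M`. -/
lemma dok_A {c r : ℝ} (hc : 0 < c) (hr : 0 ≤ r) (hr1 : r ≤ 1) :
    DOK c r (2 * (1 + r) * (c ^ 2 * (1 - r) ^ 2) *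
      (800 * r ^ 2 + 460 * ((c * (1 - r) * (1 + r)) * r) + 135 * (c * (1 - r) * (1 + r)) ^ 2) /
      (4 * (3200 * r ^ 3 + 1840 * ((c * (1 - r) * (1 + r)) * r ^ 2) +
        742 * ((c * (1 - r) * (1 + r)) ^ 2 * r) + 135 * (c * (1 - r) * (1 + r)) ^ 3) +
        c ^ 2 * (1 - r) ^ 2 *
        (800 * r ^ 2 + 460 * ((c * (1 - r) * (1 + r)) * r) + 135 * (c * (1 - r) * (1 + r)) ^ 2))) := by
  set a := c * (1 - r) * (1 + r) with ha
  have ha0 : 0 ≤ a := mul_nonneg (mul_nonneg hc.le (by linarith)) (by linarith)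
  set n2 := 800 * r ^ 2 + 460 * (a * r) + 135 * a ^ 2 with hn2
  set M := 3200 * r ^ 3 + 1840 * (a * r ^ 2) + 742 * (a ^ 2 * r) + 135 * a ^ 3 with hM
  have hn0 : 0 ≤ n2 := by positivity
  have hMpos : 0 < M := by
    rcases hr.eq_or_lt with h | h
    · have : 0 < a := by rw [ha, ← h]; simpa using hc
      positivity
    · positivity
  set u := 1 + r with hu
  have hu0 : 0 < u := by positivity
  have hh0 : 0 ≤ a ^ 2 * n2 / M := by positivity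
  have hden : 0 < 4 * M + c ^ 2 * (1 - r) ^ 2 * n2 := by positivity
  have eD : 2 * u * (c ^ 2 * (1 - r) ^ 2) * n2 / (4 * M + c ^ 2 * (1 - r) ^ 2 * n2) =
      2 * u * (a ^ 2 * n2 / M) / (4 * u ^ 2 + a ^ 2 * n2 / M) := by
    have e1 : a ^ 2 = c ^ 2 * (1 - r) ^ 2 * u ^ 2 := by rw [ha]; ring
    have h4 : 0 < 4 * u ^ 2 + a ^ 2 * n2 / M := by positivity
    rw [div_eq_div_iff hden.ne' h4.ne']
    rw [e1]
    field_simp
  refine dok_of_h (h := a ^ 2 * n2 / M) hr (by positivity) ?_ ?_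
  · rw [eD]
    set h := a ^ 2 * n2 / M with hh
    have h4 : 0 < 4 * u ^ 2 + h := by positivity
    have e : 2 * u * h / (4 * u ^ 2 + h) * (2 * u * h / (4 * u ^ 2 + h) + 2 * u) =
        h * (16 * u ^ 4 + 8 * u ^ 2 * h) / (4 * u ^ 2 + h) ^ 2 := by
      field_simp
      ring
    rw [e, div_le_iff₀ (by positivity)]
    have : 0 ≤ h * h ^ 2 := by positivity
    nlinarith
  · have e : a ^ 2 * n2 / M * (a ^ 2 * n2 / M + 4 * r) =
        a ^ 2 * (n2 * (a ^ 2 * n2 + 4 * r * M)) / M ^ 2 := by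
      field_simp
    have e2 : c ^ 2 * (1 - r ^ 2) ^ 2 = a ^ 2 := by rw [ha, hu]; ring
    rw [e, e2, div_le_iff₀ (by positivity)]
    have key : n2 * (a ^ 2 * n2 + 4 * r * M) ≤ M ^ 2 := by
      have e3 : M ^ 2 - n2 * (a ^ 2 * n2 + 4 * r * M) =
          a ^ 2 * r * (6400 * r ^ 3 + a * (67680 * r ^ 2 - 29316 * a * r + 3240 * a ^ 2)) := by
        rw [hM, hn2]; ring
      have h5 : 0 ≤ 67680 * r ^ 2 - 29316 * a * r + 3240 * a ^ 2 := by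
        nlinarith [sq_nonneg (3240 * a - 14658 * r), sq_nonneg r]
      have h6 : 0 ≤ a ^ 2 * r * (6400 * r ^ 3 + a * (67680 * r ^ 2 - 29316 * a * r + 3240 * a ^ 2)) := by
        positivity
      linarith
    nlinarith [sq_nonneg a]

end Crest.Agent.R307.PIS1
end

-- ▼ part R307/PISw

/-!
Row 307, S0471, regime S: elementary bounds for the chart glue.
-/

set_option autoImplicit false

namespace Crest.Agent.R307.PIS1

open Crest.Agent.R307 Crest.Agent.R307.GenInd Crest.Agent.R307.GenPI Crest.Agent.R307.GenFin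
  Crest.Agent.R307.GenS

/-- `800 w`, `W(c) ≤ c w(c)` -/
noncomputable def w8 (c : ℝ) : ℝ := 800 - 42 * c + 100 * c ^ 2 - 91 * c ^ 3

lemma WS_le {c : ℝ} (h0 : 0 ≤ c) (h1 : c ≤ 2 / 5) : WS c ≤ c * w8 c / 800 := by
  have hz : 0 ≤ 1 + c / 2 - c ^ 2 / 8 + c ^ 3 / 16 - 3 / 100 * c ^ 4 := by
    have : c ^ 2 ≤ 1 := by nlinarith
    have : c ^ 4 ≤ 1 := by nlinarith [sq_nonneg (c ^ 2)]
    have : 0 ≤ c ^ 3 := by positivity
    linarith
  have h2 : 1 + c ≤ (1 + c / 2 - c ^ 2 / 8 + c ^ 3 / 16 - 3 / 100 * c ^ 4) ^ 2 := by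
    have e : (1 + c / 2 - c ^ 2 / 8 + c ^ 3 / 16 - 3 / 100 * c ^ 4) ^ 2 - (1 + c) =
        c ^ 4 * (29 / 1600 - 73 / 1600 * c + (9 / 800 + 1 / 6400) * c ^ 2 + c ^ 3 * (9 / 10000 * c - 3 / 800)) := by
      ring
    have h3 : 0 ≤ 29 / 1600 - 73 / 1600 * c + (9 / 800 + 1 / 6400) * c ^ 2 + c ^ 3 * (9 / 10000 * c - 3 / 800) := by
      have h4 : c ^ 3 ≤ 2 / 5 * c ^ 2 := by
        have := mul_le_mul_of_nonneg_right h1 (sq_nonneg c)
        nlinarith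
      have h5 : 0 ≤ c ^ 4 := by positivity
      nlinarith [sq_nonneg (c - 2 / 5)]
    have := mul_nonneg (pow_nonneg h0 4) h3
    linarith
  have := WA_le_of (A0 := 3 / 10) (A1 := -6 / 25) (A2 := 43 / 100) hz h2
  unfold WS w8
  linarith

lemma WS_nonneg {c : ℝ} (h0 : 0 ≤ c) (h1 : c ≤ 1) : 0 ≤ WS c :=
  WA_nonneg (by norm_num) (by norm_num) h0 h1

lemma f1_nonneg {y : ℝ} (h0 : 0 ≤ y) (h1 : y ≤ 1) : 0 ≤ f1 y := by
  have e : f1 y = (1 - y) * (200 + 30 * y + 30 * y ^ 2 - 24 * y ^ 3 - 24 * y ^ 4 + 43 * y ^ 5 + 43 * y ^ 6) := by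
    unfold f1; ring
  rw [e]
  have h2 : y ^ 2 ≤ y := by nlinarith
  have h3 : y ^ 3 ≤ y ^ 2 := by nlinarith [sq_nonneg y]
  have h4 : y ^ 4 ≤ y ^ 2 := by nlinarith [sq_nonneg y, sq_nonneg (y ^ 2)]
  have h5 : 0 ≤ y ^ 5 := by positivity
  have h6 : 0 ≤ y ^ 6 := by positivity
  apply mul_nonneg (by linarith)
  nlinarith

lemma E8_nonneg {c p r : ℝ} (hc0 : 0 ≤ c) (hc1 : c ≤ 2 / 5) (hp0 : 0 ≤ p) (hp1 : p ≤ 1)
    (hr0 : 0 ≤ r) (hr1 : r ≤ 1) : 0 ≤ E8 c p r := by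
  have hx0 : 0 ≤ p ^ 2 := sq_nonneg p
  have hx1 : p ^ 2 ≤ 1 := by nlinarith
  have hy0 : 0 ≤ r ^ 2 := sq_nonneg r
  have hy1 : r ^ 2 ≤ 1 := by nlinarith
  have hc2 : c ^ 2 ≤ 4 / 25 := by nlinarith
  have e : E8 c p r = 216 - 402 * (p ^ 2 * (1 + r ^ 2)) + 344 * ((p ^ 2) ^ 2 * (1 + r ^ 2 + (r ^ 2) ^ 2))
      - 43 * (c ^ 2 * ((p ^ 2) ^ 2 * (1 - r ^ 2) ^ 2)) := by unfold E8; ring
  rw [e]
  set x := p ^ 2
  set y := r ^ 2
  have h1 : c ^ 2 * (x ^ 2 * (1 - y) ^ 2) ≤ 4 / 25 * x ^ 2 := by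
    have a1 : x ^ 2 * (1 - y) ^ 2 ≤ x ^ 2 := by
      have : (1 - y) ^ 2 ≤ 1 := by nlinarith
      nlinarith [sq_nonneg x]
    have a2 : 0 ≤ x ^ 2 * (1 - y) ^ 2 := by positivity
    nlinarith [sq_nonneg c]
  have h2 : 0 ≤ 216 - 402 * (x * (1 + y)) + 344 * (x ^ 2 * (1 + y + y ^ 2)) - 43 * (4 / 25 * x ^ 2) := by
    -- 1 + y + y² ≥ 3/4 (1+y)²
    have h3 : 3 / 4 * (1 + y) ^ 2 ≤ 1 + y + y ^ 2 := by nlinarith [sq_nonneg (1 - y)]
    have h4 : x ^ 2 * (3 / 4 * (1 + y) ^ 2) ≤ x ^ 2 * (1 + y + y ^ 2) :=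
      mul_le_mul_of_nonneg_left h3 (sq_nonneg x)
    have h5 : x ^ 2 ≤ (x * (1 + y)) ^ 2 := by
      have : x ≤ x * (1 + y) := by nlinarith
      exact pow_le_pow_left₀ hx0 this 2
    nlinarith [sq_nonneg (x * (1 + y) - 4 / 5)]
  linarith

lemma LL_nonneg {c t p r D : ℝ} (hc0 : 0 < c) (hc1 : c ≤ 2 / 5) (ht : 0 ≤ t) (hp0 : 0 ≤ p)
    (hp1 : p ≤ 1) (hr0 : 0 ≤ r) (hr1 : r ≤ 1) (hD : 0 ≤ D) : 0 ≤ LL c t p r D := by
  have h1 := kd_pos hc0 ht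
  have h2 := E8_nonneg hc0.le hc1 hp0 hp1 hr0 hr1
  have h3 := f1_nonneg (mul_nonneg hr0 hp0) (mul_le_one₀ hr1 hp0 hp1)
  unfold LL
  positivity

/-- it suffices to have an upper bound of `W` -/
lemma pt_of_upper {w W c t p r D : ℝ} (hc0 : 0 < c) (hc1 : c ≤ 2 / 5) (ht : 0 ≤ t) (hp0 : 0 ≤ p)
    (hp1 : p ≤ 1) (hr0 : 0 ≤ r) (hr1 : r ≤ 1) (hD : DOK c r D) (hW : 0 ≤ W) (hw : W ≤ w)
    (h : 0 ≤ LL c t p r D - w * t * BB c t p r) : Pt W c t p r := by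
  refine ⟨D, hD, ?_⟩
  have hL := LL_nonneg hc0 hc1 ht hp0 hp1 hr0 hr1 hD.1
  rcases le_total 0 (BB c t p r) with hB | hB
  · have : W * (t * BB c t p r) ≤ w * (t * BB c t p r) :=
      mul_le_mul_of_nonneg_right hw (mul_nonneg ht hB)
    linarith
  · have : W * t * BB c t p r ≤ 0 := mul_nonpos_of_nonneg_of_nonpos (mul_nonneg hW ht) hB
    linarith

/-- `n2` -/
noncomputable def n2f (r a : ℝ) : ℝ := 800 * r ^ 2 + 460 * (a * r) + 135 * a ^ 2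

/-- `M` -/
noncomputable def Mf (r a : ℝ) : ℝ :=
  3200 * r ^ 3 + 1840 * (a * r ^ 2) + 742 * (a ^ 2 * r) + 135 * a ^ 3

/-- denominator of `D` -/
noncomputable def denA (c r : ℝ) : ℝ :=
  4 * Mf r (c * (1 - r) * (1 + r)) + c ^ 2 * (1 - r) ^ 2 * n2f r (c * (1 - r) * (1 + r))

/-- numerator of `D` -/
noncomputable def numA (c r : ℝ) : ℝ :=
  2 * (1 + r) * (c ^ 2 * (1 - r) ^ 2) * n2f r (c * (1 - r) * (1 + r))

lemma dok_A' {c r : ℝ} (hc : 0 < c) (hr : 0 ≤ r) (hr1 : r ≤ 1) :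
    DOK c r (numA c r / denA c r) := dok_A hc hr hr1

lemma denA_pos {c r : ℝ} (hc : 0 < c) (hr : 0 ≤ r) (hr1 : r ≤ 1) : 0 < denA c r := by
  unfold denA Mf n2f
  set a := c * (1 - r) * (1 + r) with ha
  have ha0 : 0 ≤ a := mul_nonneg (mul_nonneg hc.le (by linarith)) (by linarith)
  rcases hr.eq_or_lt with h | h
  · have : 0 < a := by rw [ha, ← h]; simpa using hc
    positivity
  · positivity

/-- interface of the charts a-d -/
lemma pt_of_chart {c t p r G N : ℝ} (hc0 : 0 < c) (hc1 : c ≤ 2 / 5) (ht : 0 ≤ t) (hp0 : 0 ≤ p)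
    (hp1 : p ≤ 1) (hr0 : 0 ≤ r) (hr1 : r ≤ 1) (hN : 0 < N) (hG : 0 ≤ G)
    (h : ∀ D : ℝ, D * denA c r = numA c r →
      (LL c t p r D - (c * w8 c / 800) * t * BB c t p r) * (N * denA c r) = G) :
    Pt (WS c) c t p r := by
  have hd := denA_pos hc0 hr0 hr1
  refine pt_of_upper (w := c * w8 c / 800) hc0 hc1 ht hp0 hp1 hr0 hr1 (dok_A' hc0 hr0 hr1)
    (WS_nonneg hc0.le (by linarith)) (WS_le hc0.le hc1) ?_
  have e := h (numA c r / denA c r) (by field_simp)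
  have : 0 ≤ (LL c t p r (numA c r / denA c r) - (c * w8 c / 800) * t * BB c t p r) *
      (N * denA c r) := by rw [e]; exact hG
  exact nonneg_of_mul_nonneg_left this (mul_pos hN hd)

end Crest.Agent.R307.PIS1
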