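import Crest.Agent.R307.PISax
import Crest.Agent.R307.PISw
import Crest.Agent.R307.PISbx
import Crest.Agent.R307.PIScx
import Crest.Agent.Tools.KB

-- ▼ part R307/PISa
section

set_option autoImplicit false
set_option linter.unusedSimpArgs false
set_option linter.unusedTactic false
set_option linter.unusedVariables false

namespace Crest.Agent.R307.PISa

open Crest.Agent.KB

/-- the point -/
def xv (x0 x1 x2 x3 : ℝ) : ℕ → ℝ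
  | 0 => x0
  | 1 => x1
  | 2 => x2
  | _ => x3

theorem core (x0 x1 x2 x3 : ℝ) (hx0 : (0 : ℝ) / 512 ≤ x0) (hx0' : x0 ≤ (205 : ℝ) / 512) (hx1 : (0 : ℝ) / 512 ≤ x1) (hx1' : x1 ≤ (512 : ℝ) / 512) (hx2 : (0 : ℝ) / 512 ≤ x2) (hx2' : x2 ≤ (512 : ℝ) / 512) (hx3 : (0 : ℝ) / 512 ≤ x3) (hx3' : x3 ≤ (512 : ℝ) / 512) :
    (0 ≤ ON.val (xv x0 x1 x2 x3) (fun _ => 1)) := by
  obtain ⟨cl, hcl, h⟩ := run_sound _ _ _ _ _ _ _ _ run_ok (xv x0 x1 x2 x3) (by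
    intro i hi
    interval_cases i <;> norm_num [ba, bb, xv] <;> constructor <;> linarith)
  simp only [List.mem_cons, List.not_mem_nil, or_false] at hcl
  subst hcl
  exact h ON (by simp)

theorem vals (x0 x1 x2 x3 c p d Y Xq t r u a a2 r2 ar n2 M c2 k2 den p2 p3 p4 p5 p7 r4 u2 E8 rp q2 q3 q4 fr W8 t2 th g4 g6 g8 ph X2 KN KD A1 B L R O : ℝ)
    (hc : x0 = 1 * c)
    (hp : x3 = 1 * p)
    (hd : x1 = 1 * d)
    (hY : x2 = 1 * Y)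
    (hXq : Xq = (d * Y))
    (ht : t = (c * Xq))
    (hr : r = ((1 : ℝ) - d))
    (hu : u = ((2 : ℝ) - d))
    (ha : a = ((c * d) * u))
    (ha2 : a2 = (a * a))
    (hr2 : r2 = (r * r))
    (har : ar = (a * r))
    (hn2 : n2 = ((((800 : ℝ) * r2) + ((460 : ℝ) * ar)) + ((135 : ℝ) * a2)))
    (hM : M = (((((3200 : ℝ) * (r2 * r)) + ((1840 : ℝ) * (ar * r))) + ((742 : ℝ) * (ar * a))) + ((135 : ℝ) * (a2 * a))))
    (hc2 : c2 = (c * c))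
    (hk2 : k2 = (c2 * (d * d)))
    (hden : den = (((4 : ℝ) * M) + (k2 * n2)))
    (hp2 : p2 = (p * p))
    (hp3 : p3 = (p2 * p))
    (hp4 : p4 = (p2 * p2))
    (hp5 : p5 = (p3 * p2))
    (hp7 : p7 = (p4 * p3))
    (hr4 : r4 = (r2 * r2))
    (hu2 : u2 = (u * u))
    (hE8 : E8 = ((((216 : ℝ) - ((402 : ℝ) * (p2 * ((1 : ℝ) + r2)))) + ((344 : ℝ) * (p4 * (((1 : ℝ) + r2) + r4)))) - ((43 : ℝ) * (p4 * (k2 * u2)))))
    (hrp : rp = (r * p))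
    (hq2 : q2 = (rp * rp))
    (hq3 : q3 = (q2 * rp))
    (hq4 : q4 = (q2 * q2))
    (hfr : fr = (((((200 : ℝ) - ((170 : ℝ) * rp)) - ((54 : ℝ) * q3)) + ((67 : ℝ) * (q3 * q2))) - ((43 : ℝ) * (q4 * q3))))
    (hW8 : W8 = ((((800 : ℝ) - ((42 : ℝ) * c)) + ((100 : ℝ) * c2)) - ((91 : ℝ) * (c2 * c))))
    (ht2 : t2 = (t * t))
    (hth : th = ((100 : ℝ) - (((1 : ℝ) - t) * ((1 : ℝ) - t))))
    (hg4 : g4 = (((1 : ℝ) + r) * ((1 : ℝ) + r2)))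
    (hg6 : g6 = (((1 : ℝ) + r) * (((1 : ℝ) + r2) + r4)))
    (hg8 : g8 = (g4 * ((1 : ℝ) + r4)))
    (hph : ph = (((((200 : ℝ) - ((170 : ℝ) * (p * ((1 : ℝ) + r)))) - ((54 : ℝ) * (p3 * g4))) + ((67 : ℝ) * (p5 * g6))) - ((43 : ℝ) * (p7 * g8))))
    (hX2 : X2 = (Xq * Xq))
    (hKN : KN = (((335 : ℝ) + ((156 : ℝ) * Xq)) + ((286 : ℝ) * X2)))
    (hKD : KD = (((500 : ℝ) + ((600 : ℝ) * Xq)) + ((1100 : ℝ) * X2)))
    (hA1 : A1 = (((3200 : ℝ) * (u * n2)) + (den * (p3 * (u2 * E8)))))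
    (hB : B = ((((1 : ℝ) - t2) * (KN * ph)) + (KD * (th * (p * u)))))
    (hL : L = (((50 : ℝ) * KD) * ((((1 : ℝ) + t2) * A1) + ((16 : ℝ) * (den * ((Y * Y) * (r * fr)))))))
    (hR : R = (W8 * (Y * (den * B))))
    (hO : O = (L - R))
    :
    ON.val (xv x0 x1 x2 x3) (fun _ => 1) = 1 * O := by
  set X := (xv x0 x1 x2 x3) with hX
  have e0 : X 0 = x0 := rfl
  have e1 : X 1 = x1 := rfl
  have e2 : X 2 = x2 := rfl
  have e3 : X 3 = x3 := rfl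
  have vcN : cN.val X (fun _ => 1) = 1 * c := by
    simp only [cN, Ex.val, e0, e1, e2, e3]; rw [← hc]; push_cast; ring
  have vpN : pN.val X (fun _ => 1) = 1 * p := by
    simp only [pN, Ex.val, e0, e1, e2, e3]; rw [← hp]; push_cast; ring
  have vdN : dN.val X (fun _ => 1) = 1 * d := by
    simp only [dN, Ex.val, e0, e1, e2, e3]; rw [← hd]; push_cast; ring
  have vYN : YN.val X (fun _ => 1) = 1 * Y := by
    simp only [YN, Ex.val, e0, e1, e2, e3]; rw [← hY]; push_cast; ring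
  clear_value X
  have vXqN : XqN.val X (fun _ => 1) = 1 * Xq := by
    simp only [XqN, Ex.val, vdN, vYN]; rw [hXq]; push_cast; ring
  have vtN : tN.val X (fun _ => 1) = 1 * t := by
    simp only [tN, Ex.val, vcN, vXqN]; rw [ht]; push_cast; ring
  have vrN : rN.val X (fun _ => 1) = 1 * r := by
    simp only [rN, Ex.val, vdN]; rw [hr]; push_cast; ring
  have vuN : uN.val X (fun _ => 1) = 1 * u := by
    simp only [uN, Ex.val, vdN]; rw [hu]; push_cast; ring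
  have vaN : aN.val X (fun _ => 1) = 1 * a := by
    simp only [aN, Ex.val, vcN, vdN, vuN]; rw [ha]; push_cast; ring
  have va2N : a2N.val X (fun _ => 1) = 1 * a2 := by
    simp only [a2N, Ex.val, vaN]; rw [ha2]; push_cast; ring
  have vr2N : r2N.val X (fun _ => 1) = 1 * r2 := by
    simp only [r2N, Ex.val, vrN]; rw [hr2]; push_cast; ring
  have varN : arN.val X (fun _ => 1) = 1 * ar := by
    simp only [arN, Ex.val, vaN, vrN]; rw [har]; push_cast; ring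
  have vn2N : n2N.val X (fun _ => 1) = 1 * n2 := by
    simp only [n2N, Ex.val, vr2N, varN, va2N]; rw [hn2]; push_cast; ring
  have vMN : MN.val X (fun _ => 1) = 1 * M := by
    simp only [MN, Ex.val, vr2N, vrN, varN, vaN, va2N]; rw [hM]; push_cast; ring
  have vc2N : c2N.val X (fun _ => 1) = 1 * c2 := by
    simp only [c2N, Ex.val, vcN]; rw [hc2]; push_cast; ring
  have vk2N : k2N.val X (fun _ => 1) = 1 * k2 := by
    simp only [k2N, Ex.val, vc2N, vdN]; rw [hk2]; push_cast; ring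
  have vdenN : denN.val X (fun _ => 1) = 1 * den := by
    simp only [denN, Ex.val, vMN, vk2N, vn2N]; rw [hden]; push_cast; ring
  have vp2N : p2N.val X (fun _ => 1) = 1 * p2 := by
    simp only [p2N, Ex.val, vpN]; rw [hp2]; push_cast; ring
  have vp3N : p3N.val X (fun _ => 1) = 1 * p3 := by
    simp only [p3N, Ex.val, vp2N, vpN]; rw [hp3]; push_cast; ring
  have vp4N : p4N.val X (fun _ => 1) = 1 * p4 := by
    simp only [p4N, Ex.val, vp2N]; rw [hp4]; push_cast; ring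
  have vp5N : p5N.val X (fun _ => 1) = 1 * p5 := by
    simp only [p5N, Ex.val, vp3N, vp2N]; rw [hp5]; push_cast; ring
  have vp7N : p7N.val X (fun _ => 1) = 1 * p7 := by
    simp only [p7N, Ex.val, vp4N, vp3N]; rw [hp7]; push_cast; ring
  have vr4N : r4N.val X (fun _ => 1) = 1 * r4 := by
    simp only [r4N, Ex.val, vr2N]; rw [hr4]; push_cast; ring
  have vu2N : u2N.val X (fun _ => 1) = 1 * u2 := by
    simp only [u2N, Ex.val, vuN]; rw [hu2]; push_cast; ring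
  have vE8N : E8N.val X (fun _ => 1) = 1 * E8 := by
    simp only [E8N, Ex.val, vp2N, vr2N, vp4N, vr4N, vk2N, vu2N]; rw [hE8]; push_cast; ring
  have vrpN : rpN.val X (fun _ => 1) = 1 * rp := by
    simp only [rpN, Ex.val, vrN, vpN]; rw [hrp]; push_cast; ring
  have vq2N : q2N.val X (fun _ => 1) = 1 * q2 := by
    simp only [q2N, Ex.val, vrpN]; rw [hq2]; push_cast; ring
  have vq3N : q3N.val X (fun _ => 1) = 1 * q3 := by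
    simp only [q3N, Ex.val, vq2N, vrpN]; rw [hq3]; push_cast; ring
  have vq4N : q4N.val X (fun _ => 1) = 1 * q4 := by
    simp only [q4N, Ex.val, vq2N]; rw [hq4]; push_cast; ring
  have vfrN : frN.val X (fun _ => 1) = 1 * fr := by
    simp only [frN, Ex.val, vrpN, vq3N, vq2N, vq4N]; rw [hfr]; push_cast; ring
  have vW8N : W8N.val X (fun _ => 1) = 1 * W8 := by
    simp only [W8N, Ex.val, vcN, vc2N]; rw [hW8]; push_cast; ring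
  have vt2N : t2N.val X (fun _ => 1) = 1 * t2 := by
    simp only [t2N, Ex.val, vtN]; rw [ht2]; push_cast; ring
  have vthN : thN.val X (fun _ => 1) = 1 * th := by
    simp only [thN, Ex.val, vtN]; rw [hth]; push_cast; ring
  have vg4N : g4N.val X (fun _ => 1) = 1 * g4 := by
    simp only [g4N, Ex.val, vrN, vr2N]; rw [hg4]; push_cast; ring
  have vg6N : g6N.val X (fun _ => 1) = 1 * g6 := by
    simp only [g6N, Ex.val, vrN, vr2N, vr4N]; rw [hg6]; push_cast; ring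
  have vg8N : g8N.val X (fun _ => 1) = 1 * g8 := by
    simp only [g8N, Ex.val, vg4N, vr4N]; rw [hg8]; push_cast; ring
  have vphN : phN.val X (fun _ => 1) = 1 * ph := by
    simp only [phN, Ex.val, vpN, vrN, vp3N, vg4N, vp5N, vg6N, vp7N, vg8N]; rw [hph]; push_cast; ring
  have vX2N : X2N.val X (fun _ => 1) = 1 * X2 := by
    simp only [X2N, Ex.val, vXqN]; rw [hX2]; push_cast; ring
  have vKNN : KNN.val X (fun _ => 1) = 1 * KN := by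
    simp only [KNN, Ex.val, vXqN, vX2N]; rw [hKN]; push_cast; ring
  have vKDN : KDN.val X (fun _ => 1) = 1 * KD := by
    simp only [KDN, Ex.val, vXqN, vX2N]; rw [hKD]; push_cast; ring
  have vA1N : A1N.val X (fun _ => 1) = 1 * A1 := by
    simp only [A1N, Ex.val, vuN, vn2N, vdenN, vp3N, vu2N, vE8N]; rw [hA1]; push_cast; ring
  have vBN : BN.val X (fun _ => 1) = 1 * B := by
    simp only [BN, Ex.val, vt2N, vKNN, vphN, vKDN, vthN, vpN, vuN]; rw [hB]; push_cast; ring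
  have vLN : LN.val X (fun _ => 1) = 1 * L := by
    simp only [LN, Ex.val, vKDN, vt2N, vA1N, vdenN, vYN, vrN, vfrN]; rw [hL]; push_cast; ring
  have vRN : RN.val X (fun _ => 1) = 1 * R := by
    simp only [RN, Ex.val, vW8N, vYN, vdenN, vBN]; rw [hR]; push_cast; ring
  have vON : ON.val X (fun _ => 1) = 1 * O := by
    simp only [ON, Ex.val, vLN, vRN]; rw [hO]; push_cast; ring
  exact vON

theorem main (x0 x1 x2 x3 c p d Y Xq t r u a a2 r2 ar n2 M c2 k2 den p2 p3 p4 p5 p7 r4 u2 E8 rp q2 q3 q4 fr W8 t2 th g4 g6 g8 ph X2 KN KD A1 B L R O : ℝ) (hx0 : (0 : ℝ) / 512 ≤ x0) (hx0' : x0 ≤ (205 : ℝ) / 512) (hx1 : (0 : ℝ) / 512 ≤ x1) (hx1' : x1 ≤ (512 : ℝ) / 512) (hx2 : (0 : ℝ) / 512 ≤ x2) (hx2' : x2 ≤ (512 : ℝ) / 512) (hx3 : (0 : ℝ) / 512 ≤ x3) (hx3' : x3 ≤ (512 : ℝ) / 512)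
    (hc : x0 = 1 * c)
    (hp : x3 = 1 * p)
    (hd : x1 = 1 * d)
    (hY : x2 = 1 * Y)
    (hXq : Xq = (d * Y))
    (ht : t = (c * Xq))
    (hr : r = ((1 : ℝ) - d))
    (hu : u = ((2 : ℝ) - d))
    (ha : a = ((c * d) * u))
    (ha2 : a2 = (a * a))
    (hr2 : r2 = (r * r))
    (har : ar = (a * r))
    (hn2 : n2 = ((((800 : ℝ) * r2) + ((460 : ℝ) * ar)) + ((135 : ℝ) * a2)))
    (hM : M = (((((3200 : ℝ) * (r2 * r)) + ((1840 : ℝ) * (ar * r))) + ((742 : ℝ) * (ar * a))) + ((135 : ℝ) * (a2 * a))))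
    (hc2 : c2 = (c * c))
    (hk2 : k2 = (c2 * (d * d)))
    (hden : den = (((4 : ℝ) * M) + (k2 * n2)))
    (hp2 : p2 = (p * p))
    (hp3 : p3 = (p2 * p))
    (hp4 : p4 = (p2 * p2))
    (hp5 : p5 = (p3 * p2))
    (hp7 : p7 = (p4 * p3))
    (hr4 : r4 = (r2 * r2))
    (hu2 : u2 = (u * u))
    (hE8 : E8 = ((((216 : ℝ) - ((402 : ℝ) * (p2 * ((1 : ℝ) + r2)))) + ((344 : ℝ) * (p4 * (((1 : ℝ) + r2) + r4)))) - ((43 : ℝ) * (p4 * (k2 * u2)))))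
    (hrp : rp = (r * p))
    (hq2 : q2 = (rp * rp))
    (hq3 : q3 = (q2 * rp))
    (hq4 : q4 = (q2 * q2))
    (hfr : fr = (((((200 : ℝ) - ((170 : ℝ) * rp)) - ((54 : ℝ) * q3)) + ((67 : ℝ) * (q3 * q2))) - ((43 : ℝ) * (q4 * q3))))
    (hW8 : W8 = ((((800 : ℝ) - ((42 : ℝ) * c)) + ((100 : ℝ) * c2)) - ((91 : ℝ) * (c2 * c))))
    (ht2 : t2 = (t * t))
    (hth : th = ((100 : ℝ) - (((1 : ℝ) - t) * ((1 : ℝ) - t))))
    (hg4 : g4 = (((1 : ℝ) + r) * ((1 : ℝ) + r2)))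
    (hg6 : g6 = (((1 : ℝ) + r) * (((1 : ℝ) + r2) + r4)))
    (hg8 : g8 = (g4 * ((1 : ℝ) + r4)))
    (hph : ph = (((((200 : ℝ) - ((170 : ℝ) * (p * ((1 : ℝ) + r)))) - ((54 : ℝ) * (p3 * g4))) + ((67 : ℝ) * (p5 * g6))) - ((43 : ℝ) * (p7 * g8))))
    (hX2 : X2 = (Xq * Xq))
    (hKN : KN = (((335 : ℝ) + ((156 : ℝ) * Xq)) + ((286 : ℝ) * X2)))
    (hKD : KD = (((500 : ℝ) + ((600 : ℝ) * Xq)) + ((1100 : ℝ) * X2)))
    (hA1 : A1 = (((3200 : ℝ) * (u * n2)) + (den * (p3 * (u2 * E8)))))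
    (hB : B = ((((1 : ℝ) - t2) * (KN * ph)) + (KD * (th * (p * u)))))
    (hL : L = (((50 : ℝ) * KD) * ((((1 : ℝ) + t2) * A1) + ((16 : ℝ) * (den * ((Y * Y) * (r * fr)))))))
    (hR : R = (W8 * (Y * (den * B))))
    (hO : O = (L - R))
    :
    (0 ≤ O) := by
  have hv := vals x0 x1 x2 x3 c p d Y Xq t r u a a2 r2 ar n2 M c2 k2 den p2 p3 p4 p5 p7 r4 u2 E8 rp q2 q3 q4 fr W8 t2 th g4 g6 g8 ph X2 KN KD A1 B L R O hc hp hd hY hXq ht hr hu ha ha2 hr2 har hn2 hM hc2 hk2 hden hp2 hp3 hp4 hp5 hp7 hr4 hu2 hE8 hrp hq2 hq3 hq4 hfr hW8 ht2 hth hg4 hg6 hg8 hph hX2 hKN hKD hA1 hB hL hR hO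
  have hc := core x0 x1 x2 x3 hx0 hx0' hx1 hx1' hx2 hx2' hx3 hx3'
  have w0 := hv
  simp only [w0] at hc
  have a0 := hc
  exact nonneg_of_mul_nonneg_right a0 (by positivity)

end Crest.Agent.R307.PISa
private theorem rz_73f75e6aee : type_of% @_root_.Crest.Agent.R307.PISa.xv.eq_1 := @_root_.Crest.Agent.R307.PISa.xv.eq_1 -- L13
end

-- ▼ part R307/PISga
section

set_option autoImplicit false

namespace Crest.Agent.R307.PIS1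

open Crest.Agent.R307 Crest.Agent.R307.GenInd Crest.Agent.R307.GenPI Crest.Agent.R307.GenFin
  Crest.Agent.R307.GenS

/-- chart a: `t = c d Y`, `d = 1 - r`. -/
theorem chartA {c p r Y : ℝ} (hc0 : 0 < c) (hc1 : c ≤ 2 / 5) (hp0 : 0 ≤ p) (hp1 : p ≤ 1)
    (hr0 : 0 ≤ r) (hr1 : r < 1) (hY0 : 0 ≤ Y) (hY1 : Y ≤ 1) :
    Pt (WS c) c (c * ((1 - r) * Y)) p r := by
  obtain ⟨d, hd⟩ : ∃ z : ℝ, z = 1 - r := ⟨_, rfl⟩
  obtain ⟨u, hu⟩ : ∃ z : ℝ, z = 1 + r := ⟨_, rfl⟩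
  obtain ⟨Xq, hXq⟩ : ∃ z : ℝ, z = d * Y := ⟨_, rfl⟩
  obtain ⟨t, ht⟩ : ∃ z : ℝ, z = c * Xq := ⟨_, rfl⟩
  have hd0 : 0 < d := by linarith
  obtain ⟨a, ha⟩ : ∃ z : ℝ, z = ((c * d) * u) := ⟨_, rfl⟩
  obtain ⟨a2, ha2⟩ : ∃ z : ℝ, z = (a * a) := ⟨_, rfl⟩
  obtain ⟨r2, hr2⟩ : ∃ z : ℝ, z = (r * r) := ⟨_, rfl⟩
  obtain ⟨ar, har⟩ : ∃ z : ℝ, z = (a * r) := ⟨_, rfl⟩
  obtain ⟨n2, hn2⟩ : ∃ z : ℝ, z = ((((800 : ℝ) * r2) + ((460 : ℝ) * ar)) + ((135 : ℝ) * a2)) := ⟨_, rfl⟩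
  obtain ⟨M, hM⟩ : ∃ z : ℝ, z = (((((3200 : ℝ) * (r2 * r)) + ((1840 : ℝ) * (ar * r))) + ((742 : ℝ) * (ar * a))) + ((135 : ℝ) * (a2 * a))) := ⟨_, rfl⟩
  obtain ⟨c2, hc2⟩ : ∃ z : ℝ, z = (c * c) := ⟨_, rfl⟩
  obtain ⟨k2, hk2⟩ : ∃ z : ℝ, z = (c2 * (d * d)) := ⟨_, rfl⟩
  obtain ⟨den, hden⟩ : ∃ z : ℝ, z = (((4 : ℝ) * M) + (k2 * n2)) := ⟨_, rfl⟩
  obtain ⟨p2, hp2⟩ : ∃ z : ℝ, z = (p * p) := ⟨_, rfl⟩
  obtain ⟨p3, hp3⟩ : ∃ z : ℝ, z = (p2 * p) := ⟨_, rfl⟩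
  obtain ⟨p4, hp4⟩ : ∃ z : ℝ, z = (p2 * p2) := ⟨_, rfl⟩
  obtain ⟨p5, hp5⟩ : ∃ z : ℝ, z = (p3 * p2) := ⟨_, rfl⟩
  obtain ⟨p7, hp7⟩ : ∃ z : ℝ, z = (p4 * p3) := ⟨_, rfl⟩
  obtain ⟨r4, hr4⟩ : ∃ z : ℝ, z = (r2 * r2) := ⟨_, rfl⟩
  obtain ⟨u2, hu2⟩ : ∃ z : ℝ, z = (u * u) := ⟨_, rfl⟩
  obtain ⟨E8v, hE8⟩ : ∃ z : ℝ, z = ((((216 : ℝ) - ((402 : ℝ) * (p2 * ((1 : ℝ) + r2)))) + ((344 : ℝ) * (p4 * (((1 : ℝ) + r2) + r4)))) - ((43 : ℝ) * (p4 * (k2 * u2)))) := ⟨_, rfl⟩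
  obtain ⟨rp, hrp⟩ : ∃ z : ℝ, z = (r * p) := ⟨_, rfl⟩
  obtain ⟨q2, hq2⟩ : ∃ z : ℝ, z = (rp * rp) := ⟨_, rfl⟩
  obtain ⟨q3, hq3⟩ : ∃ z : ℝ, z = (q2 * rp) := ⟨_, rfl⟩
  obtain ⟨q4, hq4⟩ : ∃ z : ℝ, z = (q2 * q2) := ⟨_, rfl⟩
  obtain ⟨fr, hfr⟩ : ∃ z : ℝ, z = (((((200 : ℝ) - ((170 : ℝ) * rp)) - ((54 : ℝ) * q3)) + ((67 : ℝ) * (q3 * q2))) - ((43 : ℝ) * (q4 * q3))) := ⟨_, rfl⟩
  obtain ⟨W8, hW8⟩ : ∃ z : ℝ, z = ((((800 : ℝ) - ((42 : ℝ) * c)) + ((100 : ℝ) * c2)) - ((91 : ℝ) * (c2 * c))) := ⟨_, rfl⟩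
  obtain ⟨t2, ht2⟩ : ∃ z : ℝ, z = (t * t) := ⟨_, rfl⟩
  obtain ⟨th, hth⟩ : ∃ z : ℝ, z = ((100 : ℝ) - (((1 : ℝ) - t) * ((1 : ℝ) - t))) := ⟨_, rfl⟩
  obtain ⟨g4, hg4⟩ : ∃ z : ℝ, z = (((1 : ℝ) + r) * ((1 : ℝ) + r2)) := ⟨_, rfl⟩
  obtain ⟨g6, hg6⟩ : ∃ z : ℝ, z = (((1 : ℝ) + r) * (((1 : ℝ) + r2) + r4)) := ⟨_, rfl⟩
  obtain ⟨g8, hg8⟩ : ∃ z : ℝ, z = (g4 * ((1 : ℝ) + r4)) := ⟨_, rfl⟩
  obtain ⟨ph, hph⟩ : ∃ z : ℝ, z = (((((200 : ℝ) - ((170 : ℝ) * (p * ((1 : ℝ) + r)))) - ((54 : ℝ) * (p3 * g4))) + ((67 : ℝ) * (p5 * g6))) - ((43 : ℝ) * (p7 * g8))) := ⟨_, rfl⟩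
  obtain ⟨X2, hX2⟩ : ∃ z : ℝ, z = (Xq * Xq) := ⟨_, rfl⟩
  obtain ⟨KN, hKN⟩ : ∃ z : ℝ, z = (((335 : ℝ) + ((156 : ℝ) * Xq)) + ((286 : ℝ) * X2)) := ⟨_, rfl⟩
  obtain ⟨KD, hKD⟩ : ∃ z : ℝ, z = (((500 : ℝ) + ((600 : ℝ) * Xq)) + ((1100 : ℝ) * X2)) := ⟨_, rfl⟩
  obtain ⟨A1, hA1⟩ : ∃ z : ℝ, z = (((3200 : ℝ) * (u * n2)) + (den * (p3 * (u2 * E8v)))) := ⟨_, rfl⟩
  obtain ⟨B, hB⟩ : ∃ z : ℝ, z = ((((1 : ℝ) - t2) * (KN * ph)) + (KD * (th * (p * u)))) := ⟨_, rfl⟩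
  obtain ⟨L, hL⟩ : ∃ z : ℝ, z = (((50 : ℝ) * KD) * ((((1 : ℝ) + t2) * A1) + ((16 : ℝ) * (den * ((Y * Y) * (r * fr)))))) := ⟨_, rfl⟩
  obtain ⟨R, hR⟩ : ∃ z : ℝ, z = (W8 * (Y * (den * B))) := ⟨_, rfl⟩
  obtain ⟨O, hO⟩ : ∃ z : ℝ, z = (L - R) := ⟨_, rfl⟩
  have hmain := PISa.main c d Y p c p d Y Xq t r u a a2 r2 ar n2 M c2 k2 den p2 p3 p4 p5 p7 r4 u2 E8v rp q2 q3 q4 fr W8 t2 th g4 g6 g8 ph X2 KN KD A1 B L R O
    (by linarith) (by linarith) (by linarith) (by linarith) (by linarith) (by linarith) (by linarith) (by linarith)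
    (one_mul _).symm (one_mul _).symm (one_mul _).symm (one_mul _).symm hXq ht (by rw [hd]; ring) (by rw [hu, hd]; ring) ha ha2 hr2 har hn2 hM hc2 hk2 hden hp2 hp3 hp4 hp5 hp7 hr4 hu2 hE8 hrp hq2 hq3 hq4 hfr hW8 ht2 hth hg4 hg6 hg8 hph hX2 hKN hKD hA1 hB hL hR hO
  have et : c * ((1 - r) * Y) = t := by rw [ht, hXq, hd]
  rw [et]
  have ht0 : 0 ≤ t := by rw [ht, hXq]; positivity
  have hN : 0 < 80000 := by norm_num
  refine pt_of_chart (N := 80000) (G := c ^ 4 * d ^ 2 * O) hc0 hc1 ht0 hp0 hp1 hr0 hr1.le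
    (by norm_num) (by positivity) ?_
  intro D hD
  have ea : c * (1 - r) * (1 + r) = a := by rw [ha, hd, hu]
  have en : n2f r a = n2 := by
    rw [hn2, hr2, har, ha2]; unfold n2f; ring
  have eM : Mf r a = M := by
    rw [hM, hr2, har, ha2]; unfold Mf; ring
  have eden : denA c r = den := by
    unfold denA; rw [ea, en, eM, hden, hk2, hc2, hd]; ring
  have enum : numA c r = 2 * u * (c ^ 2 * d ^ 2) * n2 := by
    unfold numA; rw [ea, en, hu, hd]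
  have eE : E8 c p r = E8v := by
    rw [hE8, hp2, hp4, hp2, hr4, hr2, hk2, hu2, hc2, hu, hd]; unfold PIS1.E8; ring
  have efr : f1 (r * p) = fr := by
    rw [hfr, hq4, hq3, hq2, hrp]; unfold f1; ring
  have efp : f1 p = d * ph + r * fr := by
    rw [hfr, hq4, hq3, hq2, hrp, hph, hg8, hg6, hg4, hp7, hp5, hp4, hp3, hp2, hr4, hr2, hd]
    unfold f1; ring
  have ekn : kn c t = c ^ 2 * KN := by
    rw [hKN, hX2, ht]; unfold kn; ring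
  have ekd : kd c t = c ^ 2 * KD := by
    rw [hKD, hX2, ht]; unfold kd; ring
  have ew : w8 c = W8 := by
    rw [hW8, hc2]; unfold w8; ring
  have eth : 1 - (1 - t) ^ 2 / 100 = th / 100 := by rw [hth]; ring
  have e1r : 1 - r ^ 2 = d * u := by rw [hd, hu]; ring
  rw [eden, enum] at hD
  unfold LL BB
  rw [ekn, ekd, ew, eth, efp, efr, eE, e1r, eden]
  rw [hO, hL, hR, hA1, hB, ht2, hp3, hp2, hu2]
  have htc : t = c * d * Y := by rw [ht, hXq]; ring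
  rw [htc]
  linear_combination (80000 * c ^ 2 * KD * (1 + (c * d * Y) ^ 2)) * hD

end Crest.Agent.R307.PIS1
end

-- ▼ part R307/PISb
section

set_option autoImplicit false
set_option linter.unusedSimpArgs false
set_option linter.unusedTactic false
set_option linter.unusedVariables false

namespace Crest.Agent.R307.PISb

open Crest.Agent.KB

/-- the point -/
def xv (x0 x1 x2 x3 : ℝ) : ℕ → ℝ
  | 0 => x0
  | 1 => x1
  | 2 => x2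
  | _ => x3

theorem core (x0 x1 x2 x3 : ℝ) (hx0 : (0 : ℝ) / 512 ≤ x0) (hx0' : x0 ≤ (205 : ℝ) / 512) (hx1 : (0 : ℝ) / 512 ≤ x1) (hx1' : x1 ≤ (512 : ℝ) / 512) (hx2 : (0 : ℝ) / 512 ≤ x2) (hx2' : x2 ≤ (512 : ℝ) / 512) (hx3 : (0 : ℝ) / 512 ≤ x3) (hx3' : x3 ≤ (512 : ℝ) / 512) :
    (0 ≤ ON.val (xv x0 x1 x2 x3) (fun _ => 1)) := by
  obtain ⟨cl, hcl, h⟩ := run_sound _ _ _ _ _ _ _ _ run_ok (xv x0 x1 x2 x3) (by
    intro i hi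
    interval_cases i <;> norm_num [ba, bb, xv] <;> constructor <;> linarith)
  simp only [List.mem_cons, List.not_mem_nil, or_false] at hcl
  subst hcl
  exact h ON (by simp)

theorem vals (x0 x1 x2 x3 c p V Xq d t r u a a2 r2 ar n2 M c2 k2 den p2 p3 p4 p5 p7 r4 u2 E8 rp q2 q3 q4 fr W8 t2 th g4 g6 g8 ph X2 KN KD A1 B L R O : ℝ)
    (hc : x0 = 1 * c)
    (hp : x3 = 1 * p)
    (hV : x1 = 1 * V)
    (hXq : x2 = 1 * Xq)
    (hd : d = (Xq * V))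
    (ht : t = (c * Xq))
    (hr : r = ((1 : ℝ) - d))
    (hu : u = ((2 : ℝ) - d))
    (ha : a = ((c * d) * u))
    (ha2 : a2 = (a * a))
    (hr2 : r2 = (r * r))
    (har : ar = (a * r))
    (hn2 : n2 = ((((800 : ℝ) * r2) + ((460 : ℝ) * ar)) + ((135 : ℝ) * a2)))
    (hM : M = (((((3200 : ℝ) * (r2 * r)) + ((1840 : ℝ) * (ar * r))) + ((742 : ℝ) * (ar * a))) + ((135 : ℝ) * (a2 * a))))
    (hc2 : c2 = (c * c))
    (hk2 : k2 = (c2 * (d * d)))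
    (hden : den = (((4 : ℝ) * M) + (k2 * n2)))
    (hp2 : p2 = (p * p))
    (hp3 : p3 = (p2 * p))
    (hp4 : p4 = (p2 * p2))
    (hp5 : p5 = (p3 * p2))
    (hp7 : p7 = (p4 * p3))
    (hr4 : r4 = (r2 * r2))
    (hu2 : u2 = (u * u))
    (hE8 : E8 = ((((216 : ℝ) - ((402 : ℝ) * (p2 * ((1 : ℝ) + r2)))) + ((344 : ℝ) * (p4 * (((1 : ℝ) + r2) + r4)))) - ((43 : ℝ) * (p4 * (k2 * u2)))))
    (hrp : rp = (r * p))
    (hq2 : q2 = (rp * rp))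
    (hq3 : q3 = (q2 * rp))
    (hq4 : q4 = (q2 * q2))
    (hfr : fr = (((((200 : ℝ) - ((170 : ℝ) * rp)) - ((54 : ℝ) * q3)) + ((67 : ℝ) * (q3 * q2))) - ((43 : ℝ) * (q4 * q3))))
    (hW8 : W8 = ((((800 : ℝ) - ((42 : ℝ) * c)) + ((100 : ℝ) * c2)) - ((91 : ℝ) * (c2 * c))))
    (ht2 : t2 = (t * t))
    (hth : th = ((100 : ℝ) - (((1 : ℝ) - t) * ((1 : ℝ) - t))))
    (hg4 : g4 = (((1 : ℝ) + r) * ((1 : ℝ) + r2)))
    (hg6 : g6 = (((1 : ℝ) + r) * (((1 : ℝ) + r2) + r4)))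
    (hg8 : g8 = (g4 * ((1 : ℝ) + r4)))
    (hph : ph = (((((200 : ℝ) - ((170 : ℝ) * (p * ((1 : ℝ) + r)))) - ((54 : ℝ) * (p3 * g4))) + ((67 : ℝ) * (p5 * g6))) - ((43 : ℝ) * (p7 * g8))))
    (hX2 : X2 = (Xq * Xq))
    (hKN : KN = (((335 : ℝ) + ((156 : ℝ) * Xq)) + ((286 : ℝ) * X2)))
    (hKD : KD = (((500 : ℝ) + ((600 : ℝ) * Xq)) + ((1100 : ℝ) * X2)))
    (hA1 : A1 = (((3200 : ℝ) * (u * n2)) + (den * (p3 * (u2 * E8)))))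
    (hB : B = ((((1 : ℝ) - t2) * (KN * ph)) + (KD * (th * (p * u)))))
    (hL : L = (((50 : ℝ) * KD) * (((V * V) * (((1 : ℝ) + t2) * A1)) + ((16 : ℝ) * (den * (r * fr))))))
    (hR : R = (W8 * (V * (den * B))))
    (hO : O = (L - R))
    :
    ON.val (xv x0 x1 x2 x3) (fun _ => 1) = 1 * O := by
  set X := (xv x0 x1 x2 x3) with hX
  have e0 : X 0 = x0 := rfl
  have e1 : X 1 = x1 := rfl
  have e2 : X 2 = x2 := rfl
  have e3 : X 3 = x3 := rfl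
  have vcN : cN.val X (fun _ => 1) = 1 * c := by
    simp only [cN, Ex.val, e0, e1, e2, e3]; rw [← hc]; push_cast; ring
  have vpN : pN.val X (fun _ => 1) = 1 * p := by
    simp only [pN, Ex.val, e0, e1, e2, e3]; rw [← hp]; push_cast; ring
  have vVN : VN.val X (fun _ => 1) = 1 * V := by
    simp only [VN, Ex.val, e0, e1, e2, e3]; rw [← hV]; push_cast; ring
  have vXqN : XqN.val X (fun _ => 1) = 1 * Xq := by
    simp only [XqN, Ex.val, e0, e1, e2, e3]; rw [← hXq]; push_cast; ring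
  clear_value X
  have vdN : dN.val X (fun _ => 1) = 1 * d := by
    simp only [dN, Ex.val, vXqN, vVN]; rw [hd]; push_cast; ring
  have vtN : tN.val X (fun _ => 1) = 1 * t := by
    simp only [tN, Ex.val, vcN, vXqN]; rw [ht]; push_cast; ring
  have vrN : rN.val X (fun _ => 1) = 1 * r := by
    simp only [rN, Ex.val, vdN]; rw [hr]; push_cast; ring
  have vuN : uN.val X (fun _ => 1) = 1 * u := by
    simp only [uN, Ex.val, vdN]; rw [hu]; push_cast; ring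
  have vaN : aN.val X (fun _ => 1) = 1 * a := by
    simp only [aN, Ex.val, vcN, vdN, vuN]; rw [ha]; push_cast; ring
  have va2N : a2N.val X (fun _ => 1) = 1 * a2 := by
    simp only [a2N, Ex.val, vaN]; rw [ha2]; push_cast; ring
  have vr2N : r2N.val X (fun _ => 1) = 1 * r2 := by
    simp only [r2N, Ex.val, vrN]; rw [hr2]; push_cast; ring
  have varN : arN.val X (fun _ => 1) = 1 * ar := by
    simp only [arN, Ex.val, vaN, vrN]; rw [har]; push_cast; ring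
  have vn2N : n2N.val X (fun _ => 1) = 1 * n2 := by
    simp only [n2N, Ex.val, vr2N, varN, va2N]; rw [hn2]; push_cast; ring
  have vMN : MN.val X (fun _ => 1) = 1 * M := by
    simp only [MN, Ex.val, vr2N, vrN, varN, vaN, va2N]; rw [hM]; push_cast; ring
  have vc2N : c2N.val X (fun _ => 1) = 1 * c2 := by
    simp only [c2N, Ex.val, vcN]; rw [hc2]; push_cast; ring
  have vk2N : k2N.val X (fun _ => 1) = 1 * k2 := by
    simp only [k2N, Ex.val, vc2N, vdN]; rw [hk2]; push_cast; ring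
  have vdenN : denN.val X (fun _ => 1) = 1 * den := by
    simp only [denN, Ex.val, vMN, vk2N, vn2N]; rw [hden]; push_cast; ring
  have vp2N : p2N.val X (fun _ => 1) = 1 * p2 := by
    simp only [p2N, Ex.val, vpN]; rw [hp2]; push_cast; ring
  have vp3N : p3N.val X (fun _ => 1) = 1 * p3 := by
    simp only [p3N, Ex.val, vp2N, vpN]; rw [hp3]; push_cast; ring
  have vp4N : p4N.val X (fun _ => 1) = 1 * p4 := by
    simp only [p4N, Ex.val, vp2N]; rw [hp4]; push_cast; ring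
  have vp5N : p5N.val X (fun _ => 1) = 1 * p5 := by
    simp only [p5N, Ex.val, vp3N, vp2N]; rw [hp5]; push_cast; ring
  have vp7N : p7N.val X (fun _ => 1) = 1 * p7 := by
    simp only [p7N, Ex.val, vp4N, vp3N]; rw [hp7]; push_cast; ring
  have vr4N : r4N.val X (fun _ => 1) = 1 * r4 := by
    simp only [r4N, Ex.val, vr2N]; rw [hr4]; push_cast; ring
  have vu2N : u2N.val X (fun _ => 1) = 1 * u2 := by
    simp only [u2N, Ex.val, vuN]; rw [hu2]; push_cast; ring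
  have vE8N : E8N.val X (fun _ => 1) = 1 * E8 := by
    simp only [E8N, Ex.val, vp2N, vr2N, vp4N, vr4N, vk2N, vu2N]; rw [hE8]; push_cast; ring
  have vrpN : rpN.val X (fun _ => 1) = 1 * rp := by
    simp only [rpN, Ex.val, vrN, vpN]; rw [hrp]; push_cast; ring
  have vq2N : q2N.val X (fun _ => 1) = 1 * q2 := by
    simp only [q2N, Ex.val, vrpN]; rw [hq2]; push_cast; ring
  have vq3N : q3N.val X (fun _ => 1) = 1 * q3 := by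
    simp only [q3N, Ex.val, vq2N, vrpN]; rw [hq3]; push_cast; ring
  have vq4N : q4N.val X (fun _ => 1) = 1 * q4 := by
    simp only [q4N, Ex.val, vq2N]; rw [hq4]; push_cast; ring
  have vfrN : frN.val X (fun _ => 1) = 1 * fr := by
    simp only [frN, Ex.val, vrpN, vq3N, vq2N, vq4N]; rw [hfr]; push_cast; ring
  have vW8N : W8N.val X (fun _ => 1) = 1 * W8 := by
    simp only [W8N, Ex.val, vcN, vc2N]; rw [hW8]; push_cast; ring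
  have vt2N : t2N.val X (fun _ => 1) = 1 * t2 := by
    simp only [t2N, Ex.val, vtN]; rw [ht2]; push_cast; ring
  have vthN : thN.val X (fun _ => 1) = 1 * th := by
    simp only [thN, Ex.val, vtN]; rw [hth]; push_cast; ring
  have vg4N : g4N.val X (fun _ => 1) = 1 * g4 := by
    simp only [g4N, Ex.val, vrN, vr2N]; rw [hg4]; push_cast; ring
  have vg6N : g6N.val X (fun _ => 1) = 1 * g6 := by
    simp only [g6N, Ex.val, vrN, vr2N, vr4N]; rw [hg6]; push_cast; ring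
  have vg8N : g8N.val X (fun _ => 1) = 1 * g8 := by
    simp only [g8N, Ex.val, vg4N, vr4N]; rw [hg8]; push_cast; ring
  have vphN : phN.val X (fun _ => 1) = 1 * ph := by
    simp only [phN, Ex.val, vpN, vrN, vp3N, vg4N, vp5N, vg6N, vp7N, vg8N]; rw [hph]; push_cast; ring
  have vX2N : X2N.val X (fun _ => 1) = 1 * X2 := by
    simp only [X2N, Ex.val, vXqN]; rw [hX2]; push_cast; ring
  have vKNN : KNN.val X (fun _ => 1) = 1 * KN := by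
    simp only [KNN, Ex.val, vXqN, vX2N]; rw [hKN]; push_cast; ring
  have vKDN : KDN.val X (fun _ => 1) = 1 * KD := by
    simp only [KDN, Ex.val, vXqN, vX2N]; rw [hKD]; push_cast; ring
  have vA1N : A1N.val X (fun _ => 1) = 1 * A1 := by
    simp only [A1N, Ex.val, vuN, vn2N, vdenN, vp3N, vu2N, vE8N]; rw [hA1]; push_cast; ring
  have vBN : BN.val X (fun _ => 1) = 1 * B := by
    simp only [BN, Ex.val, vt2N, vKNN, vphN, vKDN, vthN, vpN, vuN]; rw [hB]; push_cast; ring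
  have vLN : LN.val X (fun _ => 1) = 1 * L := by
    simp only [LN, Ex.val, vKDN, vVN, vt2N, vA1N, vdenN, vrN, vfrN]; rw [hL]; push_cast; ring
  have vRN : RN.val X (fun _ => 1) = 1 * R := by
    simp only [RN, Ex.val, vW8N, vVN, vdenN, vBN]; rw [hR]; push_cast; ring
  have vON : ON.val X (fun _ => 1) = 1 * O := by
    simp only [ON, Ex.val, vLN, vRN]; rw [hO]; push_cast; ring
  exact vON

theorem main (x0 x1 x2 x3 c p V Xq d t r u a a2 r2 ar n2 M c2 k2 den p2 p3 p4 p5 p7 r4 u2 E8 rp q2 q3 q4 fr W8 t2 th g4 g6 g8 ph X2 KN KD A1 B L R O : ℝ) (hx0 : (0 : ℝ) / 512 ≤ x0) (hx0' : x0 ≤ (205 : ℝ) / 512) (hx1 : (0 : ℝ) / 512 ≤ x1) (hx1' : x1 ≤ (512 : ℝ) / 512) (hx2 : (0 : ℝ) / 512 ≤ x2) (hx2' : x2 ≤ (512 : ℝ) / 512) (hx3 : (0 : ℝ) / 512 ≤ x3) (hx3' : x3 ≤ (512 : ℝ) / 512)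
    (hc : x0 = 1 * c)
    (hp : x3 = 1 * p)
    (hV : x1 = 1 * V)
    (hXq : x2 = 1 * Xq)
    (hd : d = (Xq * V))
    (ht : t = (c * Xq))
    (hr : r = ((1 : ℝ) - d))
    (hu : u = ((2 : ℝ) - d))
    (ha : a = ((c * d) * u))
    (ha2 : a2 = (a * a))
    (hr2 : r2 = (r * r))
    (har : ar = (a * r))
    (hn2 : n2 = ((((800 : ℝ) * r2) + ((460 : ℝ) * ar)) + ((135 : ℝ) * a2)))
    (hM : M = (((((3200 : ℝ) * (r2 * r)) + ((1840 : ℝ) * (ar * r))) + ((742 : ℝ) * (ar * a))) + ((135 : ℝ) * (a2 * a))))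
    (hc2 : c2 = (c * c))
    (hk2 : k2 = (c2 * (d * d)))
    (hden : den = (((4 : ℝ) * M) + (k2 * n2)))
    (hp2 : p2 = (p * p))
    (hp3 : p3 = (p2 * p))
    (hp4 : p4 = (p2 * p2))
    (hp5 : p5 = (p3 * p2))
    (hp7 : p7 = (p4 * p3))
    (hr4 : r4 = (r2 * r2))
    (hu2 : u2 = (u * u))
    (hE8 : E8 = ((((216 : ℝ) - ((402 : ℝ) * (p2 * ((1 : ℝ) + r2)))) + ((344 : ℝ) * (p4 * (((1 : ℝ) + r2) + r4)))) - ((43 : ℝ) * (p4 * (k2 * u2)))))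
    (hrp : rp = (r * p))
    (hq2 : q2 = (rp * rp))
    (hq3 : q3 = (q2 * rp))
    (hq4 : q4 = (q2 * q2))
    (hfr : fr = (((((200 : ℝ) - ((170 : ℝ) * rp)) - ((54 : ℝ) * q3)) + ((67 : ℝ) * (q3 * q2))) - ((43 : ℝ) * (q4 * q3))))
    (hW8 : W8 = ((((800 : ℝ) - ((42 : ℝ) * c)) + ((100 : ℝ) * c2)) - ((91 : ℝ) * (c2 * c))))
    (ht2 : t2 = (t * t))
    (hth : th = ((100 : ℝ) - (((1 : ℝ) - t) * ((1 : ℝ) - t))))
    (hg4 : g4 = (((1 : ℝ) + r) * ((1 : ℝ) + r2)))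
    (hg6 : g6 = (((1 : ℝ) + r) * (((1 : ℝ) + r2) + r4)))
    (hg8 : g8 = (g4 * ((1 : ℝ) + r4)))
    (hph : ph = (((((200 : ℝ) - ((170 : ℝ) * (p * ((1 : ℝ) + r)))) - ((54 : ℝ) * (p3 * g4))) + ((67 : ℝ) * (p5 * g6))) - ((43 : ℝ) * (p7 * g8))))
    (hX2 : X2 = (Xq * Xq))
    (hKN : KN = (((335 : ℝ) + ((156 : ℝ) * Xq)) + ((286 : ℝ) * X2)))
    (hKD : KD = (((500 : ℝ) + ((600 : ℝ) * Xq)) + ((1100 : ℝ) * X2)))
    (hA1 : A1 = (((3200 : ℝ) * (u * n2)) + (den * (p3 * (u2 * E8)))))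
    (hB : B = ((((1 : ℝ) - t2) * (KN * ph)) + (KD * (th * (p * u)))))
    (hL : L = (((50 : ℝ) * KD) * (((V * V) * (((1 : ℝ) + t2) * A1)) + ((16 : ℝ) * (den * (r * fr))))))
    (hR : R = (W8 * (V * (den * B))))
    (hO : O = (L - R))
    :
    (0 ≤ O) := by
  have hv := vals x0 x1 x2 x3 c p V Xq d t r u a a2 r2 ar n2 M c2 k2 den p2 p3 p4 p5 p7 r4 u2 E8 rp q2 q3 q4 fr W8 t2 th g4 g6 g8 ph X2 KN KD A1 B L R O hc hp hV hXq hd ht hr hu ha ha2 hr2 har hn2 hM hc2 hk2 hden hp2 hp3 hp4 hp5 hp7 hr4 hu2 hE8 hrp hq2 hq3 hq4 hfr hW8 ht2 hth hg4 hg6 hg8 hph hX2 hKN hKD hA1 hB hL hR hO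
  have hc := core x0 x1 x2 x3 hx0 hx0' hx1 hx1' hx2 hx2' hx3 hx3'
  have w0 := hv
  simp only [w0] at hc
  have a0 := hc
  exact nonneg_of_mul_nonneg_right a0 (by positivity)

end Crest.Agent.R307.PISb
private theorem rz_52340a6751 : type_of% @_root_.Crest.Agent.R307.PISb.xv.eq_1 := @_root_.Crest.Agent.R307.PISb.xv.eq_1 -- L13
end

-- ▼ part R307/PISgb
section

set_option autoImplicit false

namespace Crest.Agent.R307.PIS1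

open Crest.Agent.R307 Crest.Agent.R307.GenInd Crest.Agent.R307.GenPI Crest.Agent.R307.GenFin
  Crest.Agent.R307.GenS

/-- chart b: `t = c X`, `1 - r = X V`. -/
theorem chartB {c p r Xq V : ℝ} (hc0 : 0 < c) (hc1 : c ≤ 2 / 5) (hp0 : 0 ≤ p) (hp1 : p ≤ 1)
    (hr0 : 0 ≤ r) (hr1 : r ≤ 1) (hX0 : 0 ≤ Xq) (hX1 : Xq ≤ 1) (hV0 : 0 ≤ V) (hV1 : V ≤ 1)
    (hrV : 1 - r = Xq * V) :
    Pt (WS c) c (c * Xq) p r := by
  obtain ⟨d, hd⟩ : ∃ z : ℝ, z = 1 - r := ⟨_, rfl⟩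
  obtain ⟨u, hu⟩ : ∃ z : ℝ, z = 1 + r := ⟨_, rfl⟩
  obtain ⟨t, ht⟩ : ∃ z : ℝ, z = c * Xq := ⟨_, rfl⟩
  have hdd : d = Xq * V := by rw [hd, hrV]
  obtain ⟨a, ha⟩ : ∃ z : ℝ, z = ((c * d) * u) := ⟨_, rfl⟩
  obtain ⟨a2, ha2⟩ : ∃ z : ℝ, z = (a * a) := ⟨_, rfl⟩
  obtain ⟨r2, hr2⟩ : ∃ z : ℝ, z = (r * r) := ⟨_, rfl⟩
  obtain ⟨ar, har⟩ : ∃ z : ℝ, z = (a * r) := ⟨_, rfl⟩
  obtain ⟨n2, hn2⟩ : ∃ z : ℝ, z = ((((800 : ℝ) * r2) + ((460 : ℝ) * ar)) + ((135 : ℝ) * a2)) := ⟨_, rfl⟩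
  obtain ⟨M, hM⟩ : ∃ z : ℝ, z = (((((3200 : ℝ) * (r2 * r)) + ((1840 : ℝ) * (ar * r))) + ((742 : ℝ) * (ar * a))) + ((135 : ℝ) * (a2 * a))) := ⟨_, rfl⟩
  obtain ⟨c2, hc2⟩ : ∃ z : ℝ, z = (c * c) := ⟨_, rfl⟩
  obtain ⟨k2, hk2⟩ : ∃ z : ℝ, z = (c2 * (d * d)) := ⟨_, rfl⟩
  obtain ⟨den, hden⟩ : ∃ z : ℝ, z = (((4 : ℝ) * M) + (k2 * n2)) := ⟨_, rfl⟩
  obtain ⟨p2, hp2⟩ : ∃ z : ℝ, z = (p * p) := ⟨_, rfl⟩
  obtain ⟨p3, hp3⟩ : ∃ z : ℝ, z = (p2 * p) := ⟨_, rfl⟩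
  obtain ⟨p4, hp4⟩ : ∃ z : ℝ, z = (p2 * p2) := ⟨_, rfl⟩
  obtain ⟨p5, hp5⟩ : ∃ z : ℝ, z = (p3 * p2) := ⟨_, rfl⟩
  obtain ⟨p7, hp7⟩ : ∃ z : ℝ, z = (p4 * p3) := ⟨_, rfl⟩
  obtain ⟨r4, hr4⟩ : ∃ z : ℝ, z = (r2 * r2) := ⟨_, rfl⟩
  obtain ⟨u2, hu2⟩ : ∃ z : ℝ, z = (u * u) := ⟨_, rfl⟩
  obtain ⟨E8v, hE8⟩ : ∃ z : ℝ, z = ((((216 : ℝ) - ((402 : ℝ) * (p2 * ((1 : ℝ) + r2)))) + ((344 : ℝ) * (p4 * (((1 : ℝ) + r2) + r4)))) - ((43 : ℝ) * (p4 * (k2 * u2)))) := ⟨_, rfl⟩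
  obtain ⟨rp, hrp⟩ : ∃ z : ℝ, z = (r * p) := ⟨_, rfl⟩
  obtain ⟨q2, hq2⟩ : ∃ z : ℝ, z = (rp * rp) := ⟨_, rfl⟩
  obtain ⟨q3, hq3⟩ : ∃ z : ℝ, z = (q2 * rp) := ⟨_, rfl⟩
  obtain ⟨q4, hq4⟩ : ∃ z : ℝ, z = (q2 * q2) := ⟨_, rfl⟩
  obtain ⟨fr, hfr⟩ : ∃ z : ℝ, z = (((((200 : ℝ) - ((170 : ℝ) * rp)) - ((54 : ℝ) * q3)) + ((67 : ℝ) * (q3 * q2))) - ((43 : ℝ) * (q4 * q3))) := ⟨_, rfl⟩
  obtain ⟨W8, hW8⟩ : ∃ z : ℝ, z = ((((800 : ℝ) - ((42 : ℝ) * c)) + ((100 : ℝ) * c2)) - ((91 : ℝ) * (c2 * c))) := ⟨_, rfl⟩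
  obtain ⟨t2, ht2⟩ : ∃ z : ℝ, z = (t * t) := ⟨_, rfl⟩
  obtain ⟨th, hth⟩ : ∃ z : ℝ, z = ((100 : ℝ) - (((1 : ℝ) - t) * ((1 : ℝ) - t))) := ⟨_, rfl⟩
  obtain ⟨g4, hg4⟩ : ∃ z : ℝ, z = (((1 : ℝ) + r) * ((1 : ℝ) + r2)) := ⟨_, rfl⟩
  obtain ⟨g6, hg6⟩ : ∃ z : ℝ, z = (((1 : ℝ) + r) * (((1 : ℝ) + r2) + r4)) := ⟨_, rfl⟩
  obtain ⟨g8, hg8⟩ : ∃ z : ℝ, z = (g4 * ((1 : ℝ) + r4)) := ⟨_, rfl⟩
  obtain ⟨ph, hph⟩ : ∃ z : ℝ, z = (((((200 : ℝ) - ((170 : ℝ) * (p * ((1 : ℝ) + r)))) - ((54 : ℝ) * (p3 * g4))) + ((67 : ℝ) * (p5 * g6))) - ((43 : ℝ) * (p7 * g8))) := ⟨_, rfl⟩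
  obtain ⟨X2, hX2⟩ : ∃ z : ℝ, z = (Xq * Xq) := ⟨_, rfl⟩
  obtain ⟨KN, hKN⟩ : ∃ z : ℝ, z = (((335 : ℝ) + ((156 : ℝ) * Xq)) + ((286 : ℝ) * X2)) := ⟨_, rfl⟩
  obtain ⟨KD, hKD⟩ : ∃ z : ℝ, z = (((500 : ℝ) + ((600 : ℝ) * Xq)) + ((1100 : ℝ) * X2)) := ⟨_, rfl⟩
  obtain ⟨A1, hA1⟩ : ∃ z : ℝ, z = (((3200 : ℝ) * (u * n2)) + (den * (p3 * (u2 * E8v)))) := ⟨_, rfl⟩
  obtain ⟨B, hB⟩ : ∃ z : ℝ, z = ((((1 : ℝ) - t2) * (KN * ph)) + (KD * (th * (p * u)))) := ⟨_, rfl⟩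
  obtain ⟨L, hL⟩ : ∃ z : ℝ, z = (((50 : ℝ) * KD) * (((V * V) * (((1 : ℝ) + t2) * A1)) + ((16 : ℝ) * (den * (r * fr))))) := ⟨_, rfl⟩
  obtain ⟨R, hR⟩ : ∃ z : ℝ, z = (W8 * (V * (den * B))) := ⟨_, rfl⟩
  obtain ⟨O, hO⟩ : ∃ z : ℝ, z = (L - R) := ⟨_, rfl⟩
  have hmain := PISb.main c V Xq p c p V Xq d t r u a a2 r2 ar n2 M c2 k2 den p2 p3 p4 p5 p7 r4 u2 E8v rp q2 q3 q4 fr W8 t2 th g4 g6 g8 ph X2 KN KD A1 B L R O
    (by linarith) (by linarith) (by linarith) (by linarith) (by linarith) (by linarith) (by linarith) (by linarith)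
    (one_mul _).symm (one_mul _).symm (one_mul _).symm (one_mul _).symm hdd ht (by rw [hd]; ring) (by rw [hu, hd]; ring) ha ha2 hr2 har hn2 hM hc2 hk2 hden hp2 hp3 hp4 hp5 hp7 hr4 hu2 hE8 hrp hq2 hq3 hq4 hfr hW8 ht2 hth hg4 hg6 hg8 hph hX2 hKN hKD hA1 hB hL hR hO
  rw [← ht]
  have ht0 : 0 ≤ t := by rw [ht]; positivity
  refine pt_of_chart (N := 80000) (G := c ^ 4 * Xq ^ 2 * O) hc0 hc1 ht0 hp0 hp1 hr0 hr1
    (by norm_num) (by positivity) ?_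
  intro D hD
  have ea : c * (1 - r) * (1 + r) = a := by rw [ha, hd, hu]
  have en : n2f r a = n2 := by
    rw [hn2, hr2, har, ha2]; unfold n2f; ring
  have eM : Mf r a = M := by
    rw [hM, hr2, har, ha2]; unfold Mf; ring
  have eden : denA c r = den := by
    unfold denA; rw [ea, en, eM, hden, hk2, hc2, hd]; ring
  have enum : numA c r = 2 * u * (c ^ 2 * d ^ 2) * n2 := by
    unfold numA; rw [ea, en, hu, hd]
  have eE : E8 c p r = E8v := by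
    rw [hE8, hp2, hp4, hp2, hr4, hr2, hk2, hu2, hc2, hu, hd]; unfold PIS1.E8; ring
  have efr : f1 (r * p) = fr := by
    rw [hfr, hq4, hq3, hq2, hrp]; unfold f1; ring
  have efp : f1 p = d * ph + r * fr := by
    rw [hfr, hq4, hq3, hq2, hrp, hph, hg8, hg6, hg4, hp7, hp5, hp4, hp3, hp2, hr4, hr2, hd]
    unfold f1; ring
  have ekn : kn c t = c ^ 2 * KN := by
    rw [hKN, hX2, ht]; unfold kn; ring
  have ekd : kd c t = c ^ 2 * KD := by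
    rw [hKD, hX2, ht]; unfold kd; ring
  have ew : w8 c = W8 := by
    rw [hW8, hc2]; unfold w8; ring
  have eth : 1 - (1 - t) ^ 2 / 100 = th / 100 := by rw [hth]; ring
  have e1r : 1 - r ^ 2 = d * u := by rw [hd, hu]; ring
  rw [eden, enum] at hD
  unfold LL BB
  rw [ekn, ekd, ew, eth, efp, efr, eE, e1r, eden]
  rw [hO, hL, hR, hA1, hB, ht2, hp3, hp2, hu2]
  rw [ht, hdd]
  rw [hdd] at hD
  linear_combination (80000 * c ^ 2 * KD * (1 + (c * Xq) ^ 2)) * hD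

end Crest.Agent.R307.PIS1
end

-- ▼ part R307/PISc
section

set_option autoImplicit false
set_option linter.unusedSimpArgs false
set_option linter.unusedTactic false
set_option linter.unusedVariables false

namespace Crest.Agent.R307.PISc

open Crest.Agent.KB

/-- the point -/
def xv (x0 x1 x2 x3 : ℝ) : ℕ → ℝ
  | 0 => x0
  | 1 => x1
  | 2 => x2
  | _ => x3

theorem core (x0 x1 x2 x3 : ℝ) (hx0 : (0 : ℝ) / 16 ≤ x0) (hx0' : x0 ≤ (16 : ℝ) / 16) (hx1 : (0 : ℝ) / 16 ≤ x1) (hx1' : x1 ≤ (8 : ℝ) / 16) (hx2 : (0 : ℝ) / 16 ≤ x2) (hx2' : x2 ≤ (16 : ℝ) / 16) (hx3 : (0 : ℝ) / 16 ≤ x3) (hx3' : x3 ≤ (16 : ℝ) / 16) :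
    (0 ≤ ON.val (xv x0 x1 x2 x3) (fun _ => 1)) ∨ (0 ≤ ccN.val (xv x0 x1 x2 x3) (fun _ => 1)) := by
  obtain ⟨cl, hcl, h⟩ := run_sound _ _ _ _ _ _ _ _ run_ok (xv x0 x1 x2 x3) (by
    intro i hi
    interval_cases i <;> norm_num [ba, bb, xv] <;> constructor <;> linarith)
  simp only [List.mem_cons, List.not_mem_nil, or_false] at hcl
  rcases hcl with rfl | rfl
  · exact Or.inl (h ON (by simp))
  · exact Or.inr (h ccN (by simp))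

theorem vals (x0 x1 x2 x3 xi t s p c r u d a a2 r2 as s2 n2 M t2 d2 k1 c2 k2 den p2 p3 p4 p5 p7 r4 u2 E8 rp q2 q3 q4 fr W8 fp dF th xi2 KN KD B A1 L R O cc : ℝ)
    (hxi : x0 = 1 * xi)
    (ht : x1 = 1 * t)
    (hs : x2 = 1 * s)
    (hp : x3 = 1 * p)
    (hc : c = (xi * t))
    (hr : r = (xi * s))
    (hu : u = ((1 : ℝ) + r))
    (hd : d = ((1 : ℝ) - r))
    (ha : a = (t * (d * u)))
    (ha2 : a2 = (a * a))
    (hr2 : r2 = (r * r))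
    (has : as = (a * s))
    (hs2 : s2 = (s * s))
    (hn2 : n2 = ((((800 : ℝ) * s2) + ((460 : ℝ) * as)) + ((135 : ℝ) * a2)))
    (hM : M = (((((3200 : ℝ) * (s2 * s)) + ((1840 : ℝ) * (as * s))) + ((742 : ℝ) * (as * a))) + ((135 : ℝ) * (a2 * a))))
    (ht2 : t2 = (t * t))
    (hd2 : d2 = (d * d))
    (hk1 : k1 = (t2 * d2))
    (hc2 : c2 = (c * c))
    (hk2 : k2 = (c2 * d2))
    (hden : den = (((4 : ℝ) * M) + (xi * (k1 * n2))))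
    (hp2 : p2 = (p * p))
    (hp3 : p3 = (p2 * p))
    (hp4 : p4 = (p2 * p2))
    (hp5 : p5 = (p3 * p2))
    (hp7 : p7 = (p4 * p3))
    (hr4 : r4 = (r2 * r2))
    (hu2 : u2 = (u * u))
    (hE8 : E8 = ((((216 : ℝ) - ((402 : ℝ) * (p2 * ((1 : ℝ) + r2)))) + ((344 : ℝ) * (p4 * (((1 : ℝ) + r2) + r4)))) - ((43 : ℝ) * (p4 * (k2 * u2)))))
    (hrp : rp = (r * p))
    (hq2 : q2 = (rp * rp))
    (hq3 : q3 = (q2 * rp))
    (hq4 : q4 = (q2 * q2))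
    (hfr : fr = (((((200 : ℝ) - ((170 : ℝ) * rp)) - ((54 : ℝ) * q3)) + ((67 : ℝ) * (q3 * q2))) - ((43 : ℝ) * (q4 * q3))))
    (hW8 : W8 = ((((800 : ℝ) - ((42 : ℝ) * c)) + ((100 : ℝ) * c2)) - ((91 : ℝ) * (c2 * c))))
    (hfp : fp = (((((200 : ℝ) - ((170 : ℝ) * p)) - ((54 : ℝ) * p3)) + ((67 : ℝ) * p5)) - ((43 : ℝ) * p7)))
    (hdF : dF = (fp - (r * fr)))
    (hth : th = ((100 : ℝ) - (((1 : ℝ) - t) * ((1 : ℝ) - t))))
    (hxi2 : xi2 = (xi * xi))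
    (hKN : KN = (((286 : ℝ) + ((156 : ℝ) * xi)) + ((335 : ℝ) * xi2)))
    (hKD : KD = (((1100 : ℝ) + ((600 : ℝ) * xi)) + ((500 : ℝ) * xi2)))
    (hB : B = ((((1 : ℝ) - t2) * (KN * dF)) + (KD * (th * (p * (d * u))))))
    (hA1 : A1 = (((3200 : ℝ) * (u * (d2 * n2))) + (den * (p3 * (xi * (d2 * (u2 * E8)))))))
    (hL : L = (((50 : ℝ) * KD) * ((((1 : ℝ) + t2) * A1) + ((16 : ℝ) * (den * (s * fr))))))
    (hR : R = (W8 * (den * B)))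
    (hO : O = (L - R))
    (hcc : cc = (((32 : ℝ) * c) - (13 : ℝ)))
    :
    ON.val (xv x0 x1 x2 x3) (fun _ => 1) = 1 * O ∧
    ccN.val (xv x0 x1 x2 x3) (fun _ => 1) = 1 * cc := by
  set X := (xv x0 x1 x2 x3) with hX
  have e0 : X 0 = x0 := rfl
  have e1 : X 1 = x1 := rfl
  have e2 : X 2 = x2 := rfl
  have e3 : X 3 = x3 := rfl
  have vxiN : xiN.val X (fun _ => 1) = 1 * xi := by
    simp only [xiN, Ex.val, e0, e1, e2, e3]; rw [← hxi]; push_cast; ring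
  have vtN : tN.val X (fun _ => 1) = 1 * t := by
    simp only [tN, Ex.val, e0, e1, e2, e3]; rw [← ht]; push_cast; ring
  have vsN : sN.val X (fun _ => 1) = 1 * s := by
    simp only [sN, Ex.val, e0, e1, e2, e3]; rw [← hs]; push_cast; ring
  have vpN : pN.val X (fun _ => 1) = 1 * p := by
    simp only [pN, Ex.val, e0, e1, e2, e3]; rw [← hp]; push_cast; ring
  clear_value X
  have vcN : cN.val X (fun _ => 1) = 1 * c := by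
    simp only [cN, Ex.val, vxiN, vtN]; rw [hc]; push_cast; ring
  have vrN : rN.val X (fun _ => 1) = 1 * r := by
    simp only [rN, Ex.val, vxiN, vsN]; rw [hr]; push_cast; ring
  have vuN : uN.val X (fun _ => 1) = 1 * u := by
    simp only [uN, Ex.val, vrN]; rw [hu]; push_cast; ring
  have vdN : dN.val X (fun _ => 1) = 1 * d := by
    simp only [dN, Ex.val, vrN]; rw [hd]; push_cast; ring
  have vaN : aN.val X (fun _ => 1) = 1 * a := by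
    simp only [aN, Ex.val, vtN, vdN, vuN]; rw [ha]; push_cast; ring
  have va2N : a2N.val X (fun _ => 1) = 1 * a2 := by
    simp only [a2N, Ex.val, vaN]; rw [ha2]; push_cast; ring
  have vr2N : r2N.val X (fun _ => 1) = 1 * r2 := by
    simp only [r2N, Ex.val, vrN]; rw [hr2]; push_cast; ring
  have vasN : asN.val X (fun _ => 1) = 1 * as := by
    simp only [asN, Ex.val, vaN, vsN]; rw [has]; push_cast; ring
  have vs2N : s2N.val X (fun _ => 1) = 1 * s2 := by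
    simp only [s2N, Ex.val, vsN]; rw [hs2]; push_cast; ring
  have vn2N : n2N.val X (fun _ => 1) = 1 * n2 := by
    simp only [n2N, Ex.val, vs2N, vasN, va2N]; rw [hn2]; push_cast; ring
  have vMN : MN.val X (fun _ => 1) = 1 * M := by
    simp only [MN, Ex.val, vs2N, vsN, vasN, vaN, va2N]; rw [hM]; push_cast; ring
  have vt2N : t2N.val X (fun _ => 1) = 1 * t2 := by
    simp only [t2N, Ex.val, vtN]; rw [ht2]; push_cast; ring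
  have vd2N : d2N.val X (fun _ => 1) = 1 * d2 := by
    simp only [d2N, Ex.val, vdN]; rw [hd2]; push_cast; ring
  have vk1N : k1N.val X (fun _ => 1) = 1 * k1 := by
    simp only [k1N, Ex.val, vt2N, vd2N]; rw [hk1]; push_cast; ring
  have vc2N : c2N.val X (fun _ => 1) = 1 * c2 := by
    simp only [c2N, Ex.val, vcN]; rw [hc2]; push_cast; ring
  have vk2N : k2N.val X (fun _ => 1) = 1 * k2 := by
    simp only [k2N, Ex.val, vc2N, vd2N]; rw [hk2]; push_cast; ring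
  have vdenN : denN.val X (fun _ => 1) = 1 * den := by
    simp only [denN, Ex.val, vMN, vxiN, vk1N, vn2N]; rw [hden]; push_cast; ring
  have vp2N : p2N.val X (fun _ => 1) = 1 * p2 := by
    simp only [p2N, Ex.val, vpN]; rw [hp2]; push_cast; ring
  have vp3N : p3N.val X (fun _ => 1) = 1 * p3 := by
    simp only [p3N, Ex.val, vp2N, vpN]; rw [hp3]; push_cast; ring
  have vp4N : p4N.val X (fun _ => 1) = 1 * p4 := by
    simp only [p4N, Ex.val, vp2N]; rw [hp4]; push_cast; ring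
  have vp5N : p5N.val X (fun _ => 1) = 1 * p5 := by
    simp only [p5N, Ex.val, vp3N, vp2N]; rw [hp5]; push_cast; ring
  have vp7N : p7N.val X (fun _ => 1) = 1 * p7 := by
    simp only [p7N, Ex.val, vp4N, vp3N]; rw [hp7]; push_cast; ring
  have vr4N : r4N.val X (fun _ => 1) = 1 * r4 := by
    simp only [r4N, Ex.val, vr2N]; rw [hr4]; push_cast; ring
  have vu2N : u2N.val X (fun _ => 1) = 1 * u2 := by
    simp only [u2N, Ex.val, vuN]; rw [hu2]; push_cast; ring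
  have vE8N : E8N.val X (fun _ => 1) = 1 * E8 := by
    simp only [E8N, Ex.val, vp2N, vr2N, vp4N, vr4N, vk2N, vu2N]; rw [hE8]; push_cast; ring
  have vrpN : rpN.val X (fun _ => 1) = 1 * rp := by
    simp only [rpN, Ex.val, vrN, vpN]; rw [hrp]; push_cast; ring
  have vq2N : q2N.val X (fun _ => 1) = 1 * q2 := by
    simp only [q2N, Ex.val, vrpN]; rw [hq2]; push_cast; ring
  have vq3N : q3N.val X (fun _ => 1) = 1 * q3 := by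
    simp only [q3N, Ex.val, vq2N, vrpN]; rw [hq3]; push_cast; ring
  have vq4N : q4N.val X (fun _ => 1) = 1 * q4 := by
    simp only [q4N, Ex.val, vq2N]; rw [hq4]; push_cast; ring
  have vfrN : frN.val X (fun _ => 1) = 1 * fr := by
    simp only [frN, Ex.val, vrpN, vq3N, vq2N, vq4N]; rw [hfr]; push_cast; ring
  have vW8N : W8N.val X (fun _ => 1) = 1 * W8 := by
    simp only [W8N, Ex.val, vcN, vc2N]; rw [hW8]; push_cast; ring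
  have vfpN : fpN.val X (fun _ => 1) = 1 * fp := by
    simp only [fpN, Ex.val, vpN, vp3N, vp5N, vp7N]; rw [hfp]; push_cast; ring
  have vdFN : dFN.val X (fun _ => 1) = 1 * dF := by
    simp only [dFN, Ex.val, vfpN, vrN, vfrN]; rw [hdF]; push_cast; ring
  have vthN : thN.val X (fun _ => 1) = 1 * th := by
    simp only [thN, Ex.val, vtN]; rw [hth]; push_cast; ring
  have vxi2N : xi2N.val X (fun _ => 1) = 1 * xi2 := by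
    simp only [xi2N, Ex.val, vxiN]; rw [hxi2]; push_cast; ring
  have vKNN : KNN.val X (fun _ => 1) = 1 * KN := by
    simp only [KNN, Ex.val, vxiN, vxi2N]; rw [hKN]; push_cast; ring
  have vKDN : KDN.val X (fun _ => 1) = 1 * KD := by
    simp only [KDN, Ex.val, vxiN, vxi2N]; rw [hKD]; push_cast; ring
  have vBN : BN.val X (fun _ => 1) = 1 * B := by
    simp only [BN, Ex.val, vt2N, vKNN, vdFN, vKDN, vthN, vpN, vdN, vuN]; rw [hB]; push_cast; ring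
  have vA1N : A1N.val X (fun _ => 1) = 1 * A1 := by
    simp only [A1N, Ex.val, vuN, vd2N, vn2N, vdenN, vp3N, vxiN, vu2N, vE8N]; rw [hA1]; push_cast; ring
  have vLN : LN.val X (fun _ => 1) = 1 * L := by
    simp only [LN, Ex.val, vKDN, vt2N, vA1N, vdenN, vsN, vfrN]; rw [hL]; push_cast; ring
  have vRN : RN.val X (fun _ => 1) = 1 * R := by
    simp only [RN, Ex.val, vW8N, vdenN, vBN]; rw [hR]; push_cast; ring
  have vON : ON.val X (fun _ => 1) = 1 * O := by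
    simp only [ON, Ex.val, vLN, vRN]; rw [hO]; push_cast; ring
  have vccN : ccN.val X (fun _ => 1) = 1 * cc := by
    simp only [ccN, Ex.val, vcN]; rw [hcc]; push_cast; ring
  exact ⟨vON, vccN⟩

theorem main (x0 x1 x2 x3 xi t s p c r u d a a2 r2 as s2 n2 M t2 d2 k1 c2 k2 den p2 p3 p4 p5 p7 r4 u2 E8 rp q2 q3 q4 fr W8 fp dF th xi2 KN KD B A1 L R O cc : ℝ) (hx0 : (0 : ℝ) / 16 ≤ x0) (hx0' : x0 ≤ (16 : ℝ) / 16) (hx1 : (0 : ℝ) / 16 ≤ x1) (hx1' : x1 ≤ (8 : ℝ) / 16) (hx2 : (0 : ℝ) / 16 ≤ x2) (hx2' : x2 ≤ (16 : ℝ) / 16) (hx3 : (0 : ℝ) / 16 ≤ x3) (hx3' : x3 ≤ (16 : ℝ) / 16)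
    (hxi : x0 = 1 * xi)
    (ht : x1 = 1 * t)
    (hs : x2 = 1 * s)
    (hp : x3 = 1 * p)
    (hc : c = (xi * t))
    (hr : r = (xi * s))
    (hu : u = ((1 : ℝ) + r))
    (hd : d = ((1 : ℝ) - r))
    (ha : a = (t * (d * u)))
    (ha2 : a2 = (a * a))
    (hr2 : r2 = (r * r))
    (has : as = (a * s))
    (hs2 : s2 = (s * s))
    (hn2 : n2 = ((((800 : ℝ) * s2) + ((460 : ℝ) * as)) + ((135 : ℝ) * a2)))
    (hM : M = (((((3200 : ℝ) * (s2 * s)) + ((1840 : ℝ) * (as * s))) + ((742 : ℝ) * (as * a))) + ((135 : ℝ) * (a2 * a))))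
    (ht2 : t2 = (t * t))
    (hd2 : d2 = (d * d))
    (hk1 : k1 = (t2 * d2))
    (hc2 : c2 = (c * c))
    (hk2 : k2 = (c2 * d2))
    (hden : den = (((4 : ℝ) * M) + (xi * (k1 * n2))))
    (hp2 : p2 = (p * p))
    (hp3 : p3 = (p2 * p))
    (hp4 : p4 = (p2 * p2))
    (hp5 : p5 = (p3 * p2))
    (hp7 : p7 = (p4 * p3))
    (hr4 : r4 = (r2 * r2))
    (hu2 : u2 = (u * u))
    (hE8 : E8 = ((((216 : ℝ) - ((402 : ℝ) * (p2 * ((1 : ℝ) + r2)))) + ((344 : ℝ) * (p4 * (((1 : ℝ) + r2) + r4)))) - ((43 : ℝ) * (p4 * (k2 * u2)))))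
    (hrp : rp = (r * p))
    (hq2 : q2 = (rp * rp))
    (hq3 : q3 = (q2 * rp))
    (hq4 : q4 = (q2 * q2))
    (hfr : fr = (((((200 : ℝ) - ((170 : ℝ) * rp)) - ((54 : ℝ) * q3)) + ((67 : ℝ) * (q3 * q2))) - ((43 : ℝ) * (q4 * q3))))
    (hW8 : W8 = ((((800 : ℝ) - ((42 : ℝ) * c)) + ((100 : ℝ) * c2)) - ((91 : ℝ) * (c2 * c))))
    (hfp : fp = (((((200 : ℝ) - ((170 : ℝ) * p)) - ((54 : ℝ) * p3)) + ((67 : ℝ) * p5)) - ((43 : ℝ) * p7)))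
    (hdF : dF = (fp - (r * fr)))
    (hth : th = ((100 : ℝ) - (((1 : ℝ) - t) * ((1 : ℝ) - t))))
    (hxi2 : xi2 = (xi * xi))
    (hKN : KN = (((286 : ℝ) + ((156 : ℝ) * xi)) + ((335 : ℝ) * xi2)))
    (hKD : KD = (((1100 : ℝ) + ((600 : ℝ) * xi)) + ((500 : ℝ) * xi2)))
    (hB : B = ((((1 : ℝ) - t2) * (KN * dF)) + (KD * (th * (p * (d * u))))))
    (hA1 : A1 = (((3200 : ℝ) * (u * (d2 * n2))) + (den * (p3 * (xi * (d2 * (u2 * E8)))))))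
    (hL : L = (((50 : ℝ) * KD) * ((((1 : ℝ) + t2) * A1) + ((16 : ℝ) * (den * (s * fr))))))
    (hR : R = (W8 * (den * B)))
    (hO : O = (L - R))
    (hcc : cc = (((32 : ℝ) * c) - (13 : ℝ)))
    :
    (0 ≤ O) ∨ (0 ≤ cc) := by
  have hv := vals x0 x1 x2 x3 xi t s p c r u d a a2 r2 as s2 n2 M t2 d2 k1 c2 k2 den p2 p3 p4 p5 p7 r4 u2 E8 rp q2 q3 q4 fr W8 fp dF th xi2 KN KD B A1 L R O cc hxi ht hs hp hc hr hu hd ha ha2 hr2 has hs2 hn2 hM ht2 hd2 hk1 hc2 hk2 hden hp2 hp3 hp4 hp5 hp7 hr4 hu2 hE8 hrp hq2 hq3 hq4 hfr hW8 hfp hdF hth hxi2 hKN hKD hB hA1 hL hR hO hcc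
  have hc := core x0 x1 x2 x3 hx0 hx0' hx1 hx1' hx2 hx2' hx3 hx3'
  obtain ⟨w0, w1⟩ := hv
  simp only [w0, w1] at hc
  rcases hc with a0 | a0
  · exact Or.inl (nonneg_of_mul_nonneg_right a0 (by positivity))
  · exact Or.inr (nonneg_of_mul_nonneg_right a0 (by positivity))

end Crest.Agent.R307.PISc
private theorem rz_47ee79daf8 : type_of% @_root_.Crest.Agent.R307.PISc.xv.eq_1 := @_root_.Crest.Agent.R307.PISc.xv.eq_1 -- L13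
end

-- ▼ part R307/PISgc
section

set_option autoImplicit false

namespace Crest.Agent.R307.PIS1

open Crest.Agent.R307 Crest.Agent.R307.GenInd Crest.Agent.R307.GenPI Crest.Agent.R307.GenFin
  Crest.Agent.R307.GenS

/-- chart c: `c = ξ t`, `r = ξ s`. -/
theorem chartC {c p r t xi s : ℝ} (hc0 : 0 < c) (hc1 : c ≤ 2 / 5) (hp0 : 0 ≤ p) (hp1 : p ≤ 1)
    (hr0 : 0 ≤ r) (hr1 : r ≤ 1) (ht0 : 0 < t) (ht1 : t ≤ 1 / 2) (hxi0 : 0 < xi) (hxi1 : xi ≤ 1)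
    (hs0 : 0 ≤ s) (hs1 : s ≤ 1) (hc : c = xi * t) (hr : r = xi * s) :
    Pt (WS c) c t p r := by
  obtain ⟨d, hd⟩ : ∃ z : ℝ, z = 1 - r := ⟨_, rfl⟩
  obtain ⟨u, hu⟩ : ∃ z : ℝ, z = 1 + r := ⟨_, rfl⟩
  obtain ⟨a, ha⟩ : ∃ zz : ℝ, zz = (t * (d * u)) := ⟨_, rfl⟩
  obtain ⟨a2, ha2⟩ : ∃ zz : ℝ, zz = (a * a) := ⟨_, rfl⟩
  obtain ⟨r2, hr2⟩ : ∃ zz : ℝ, zz = (r * r) := ⟨_, rfl⟩
  obtain ⟨as_, has⟩ : ∃ zz : ℝ, zz = (a * s) := ⟨_, rfl⟩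
  obtain ⟨s2, hs2⟩ : ∃ zz : ℝ, zz = (s * s) := ⟨_, rfl⟩
  obtain ⟨n2, hn2⟩ : ∃ zz : ℝ, zz = ((((800 : ℝ) * s2) + ((460 : ℝ) * as_)) + ((135 : ℝ) * a2)) := ⟨_, rfl⟩
  obtain ⟨M, hM⟩ : ∃ zz : ℝ, zz = (((((3200 : ℝ) * (s2 * s)) + ((1840 : ℝ) * (as_ * s))) + ((742 : ℝ) * (as_ * a))) + ((135 : ℝ) * (a2 * a))) := ⟨_, rfl⟩
  obtain ⟨t2, ht2⟩ : ∃ zz : ℝ, zz = (t * t) := ⟨_, rfl⟩
  obtain ⟨d2, hd2⟩ : ∃ zz : ℝ, zz = (d * d) := ⟨_, rfl⟩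
  obtain ⟨k1, hk1⟩ : ∃ zz : ℝ, zz = (t2 * d2) := ⟨_, rfl⟩
  obtain ⟨c2, hc2⟩ : ∃ zz : ℝ, zz = (c * c) := ⟨_, rfl⟩
  obtain ⟨k2, hk2⟩ : ∃ zz : ℝ, zz = (c2 * d2) := ⟨_, rfl⟩
  obtain ⟨den, hden⟩ : ∃ zz : ℝ, zz = (((4 : ℝ) * M) + (xi * (k1 * n2))) := ⟨_, rfl⟩
  obtain ⟨p2, hp2⟩ : ∃ zz : ℝ, zz = (p * p) := ⟨_, rfl⟩
  obtain ⟨p3, hp3⟩ : ∃ zz : ℝ, zz = (p2 * p) := ⟨_, rfl⟩
  obtain ⟨p4, hp4⟩ : ∃ zz : ℝ, zz = (p2 * p2) := ⟨_, rfl⟩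
  obtain ⟨p5, hp5⟩ : ∃ zz : ℝ, zz = (p3 * p2) := ⟨_, rfl⟩
  obtain ⟨p7, hp7⟩ : ∃ zz : ℝ, zz = (p4 * p3) := ⟨_, rfl⟩
  obtain ⟨r4, hr4⟩ : ∃ zz : ℝ, zz = (r2 * r2) := ⟨_, rfl⟩
  obtain ⟨u2, hu2⟩ : ∃ zz : ℝ, zz = (u * u) := ⟨_, rfl⟩
  obtain ⟨E8v, hE8⟩ : ∃ zz : ℝ, zz = ((((216 : ℝ) - ((402 : ℝ) * (p2 * ((1 : ℝ) + r2)))) + ((344 : ℝ) * (p4 * (((1 : ℝ) + r2) + r4)))) - ((43 : ℝ) * (p4 * (k2 * u2)))) := ⟨_, rfl⟩
  obtain ⟨rp, hrp⟩ : ∃ zz : ℝ, zz = (r * p) := ⟨_, rfl⟩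
  obtain ⟨q2, hq2⟩ : ∃ zz : ℝ, zz = (rp * rp) := ⟨_, rfl⟩
  obtain ⟨q3, hq3⟩ : ∃ zz : ℝ, zz = (q2 * rp) := ⟨_, rfl⟩
  obtain ⟨q4, hq4⟩ : ∃ zz : ℝ, zz = (q2 * q2) := ⟨_, rfl⟩
  obtain ⟨fr, hfr⟩ : ∃ zz : ℝ, zz = (((((200 : ℝ) - ((170 : ℝ) * rp)) - ((54 : ℝ) * q3)) + ((67 : ℝ) * (q3 * q2))) - ((43 : ℝ) * (q4 * q3))) := ⟨_, rfl⟩
  obtain ⟨W8, hW8⟩ : ∃ zz : ℝ, zz = ((((800 : ℝ) - ((42 : ℝ) * c)) + ((100 : ℝ) * c2)) - ((91 : ℝ) * (c2 * c))) := ⟨_, rfl⟩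
  obtain ⟨fp, hfp⟩ : ∃ zz : ℝ, zz = (((((200 : ℝ) - ((170 : ℝ) * p)) - ((54 : ℝ) * p3)) + ((67 : ℝ) * p5)) - ((43 : ℝ) * p7)) := ⟨_, rfl⟩
  obtain ⟨dF, hdF⟩ : ∃ zz : ℝ, zz = (fp - (r * fr)) := ⟨_, rfl⟩
  obtain ⟨th, hth⟩ : ∃ zz : ℝ, zz = ((100 : ℝ) - (((1 : ℝ) - t) * ((1 : ℝ) - t))) := ⟨_, rfl⟩
  obtain ⟨xi2, hxi2⟩ : ∃ zz : ℝ, zz = (xi * xi) := ⟨_, rfl⟩
  obtain ⟨KN, hKN⟩ : ∃ zz : ℝ, zz = (((286 : ℝ) + ((156 : ℝ) * xi)) + ((335 : ℝ) * xi2)) := ⟨_, rfl⟩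
  obtain ⟨KD, hKD⟩ : ∃ zz : ℝ, zz = (((1100 : ℝ) + ((600 : ℝ) * xi)) + ((500 : ℝ) * xi2)) := ⟨_, rfl⟩
  obtain ⟨B, hB⟩ : ∃ zz : ℝ, zz = ((((1 : ℝ) - t2) * (KN * dF)) + (KD * (th * (p * (d * u))))) := ⟨_, rfl⟩
  obtain ⟨A1, hA1⟩ : ∃ zz : ℝ, zz = (((3200 : ℝ) * (u * (d2 * n2))) + (den * (p3 * (xi * (d2 * (u2 * E8v)))))) := ⟨_, rfl⟩
  obtain ⟨L, hL⟩ : ∃ zz : ℝ, zz = (((50 : ℝ) * KD) * ((((1 : ℝ) + t2) * A1) + ((16 : ℝ) * (den * (s * fr))))) := ⟨_, rfl⟩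
  obtain ⟨R, hR⟩ : ∃ zz : ℝ, zz = (W8 * (den * B)) := ⟨_, rfl⟩
  obtain ⟨O, hO⟩ : ∃ zz : ℝ, zz = (L - R) := ⟨_, rfl⟩
  obtain ⟨cc, hcc⟩ : ∃ zz : ℝ, zz = (((32 : ℝ) * c) - (13 : ℝ)) := ⟨_, rfl⟩
  have hmain := PISc.main xi t s p xi t s p c r u d a a2 r2 as_ s2 n2 M t2 d2 k1 c2 k2 den p2 p3 p4 p5 p7 r4 u2 E8v rp q2 q3 q4 fr W8 fp dF th xi2 KN KD B A1 L R O cc
    (by linarith) (by linarith) (by linarith) (by linarith) (by linarith) (by linarith) (by linarith) (by linarith)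
    (one_mul _).symm (one_mul _).symm (one_mul _).symm (one_mul _).symm hc hr hu hd ha ha2 hr2 has hs2 hn2 hM ht2 hd2 hk1 hc2 hk2 hden hp2 hp3 hp4 hp5 hp7 hr4 hu2 hE8 hrp hq2 hq3 hq4 hfr hW8 hfp hdF hth hxi2 hKN hKD hB hA1 hL hR hO hcc
  have hO0 : 0 ≤ O := by
    rcases hmain with h | h
    · exact h
    · exfalso
      rw [hcc] at h
      linarith
  refine pt_of_chart (N := 80000) (G := xi ^ 4 * t ^ 4 * O) hc0 hc1 ht0.le hp0 hp1 hr0 hr1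
    (by norm_num) (by positivity) ?_
  intro D hD
  have ea : c * (1 - r) * (1 + r) = xi * a := by rw [ha, hd, hu, hc]; ring
  have en : n2f r (xi * a) = xi ^ 2 * n2 := by
    rw [hn2, hs2, has, ha2, hr]; unfold n2f; ring
  have eM : Mf r (xi * a) = xi ^ 3 * M := by
    rw [hM, hs2, has, ha2, hr]; unfold Mf; ring
  have eden : denA c r = xi ^ 3 * den := by
    unfold denA; rw [ea, en, eM, hden, hk1, hd2, ht2, hd, hc]; ring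
  have enum : numA c r = 2 * u * (xi ^ 4 * (t ^ 2 * d ^ 2)) * n2 := by
    unfold numA; rw [ea, en, hu, hd, hc]; ring
  have eE : E8 c p r = E8v := by
    rw [hE8, hp2, hp4, hp2, hr4, hr2, hk2, hd2, hu2, hc2, hu, hd]; unfold PIS1.E8; ring
  have efr : f1 (r * p) = fr := by
    rw [hfr, hq4, hq3, hq2, hrp]; unfold f1; ring
  have efp : f1 p = fp := by
    rw [hfp, hp7, hp5, hp4, hp3, hp2]; unfold f1; ring
  have ekn : kn c t = t ^ 2 * KN := by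
    rw [hKN, hxi2, hc]; unfold kn; ring
  have ekd : kd c t = t ^ 2 * KD := by
    rw [hKD, hxi2, hc]; unfold kd; ring
  have ew : w8 c = W8 := by
    rw [hW8, hc2]; unfold w8; ring
  have eth : 1 - (1 - t) ^ 2 / 100 = th / 100 := by rw [hth]; ring
  have e1r : 1 - r ^ 2 = d * u := by rw [hd, hu]; ring
  rw [eden, enum] at hD
  unfold LL BB
  rw [ekn, ekd, ew, eth, efp, efr, eE, e1r, eden]
  rw [hO, hL, hR, hA1, hB, hdF, ht2, hd2, hp3, hp2, hu2]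
  clear hW8 hc2 hE8 hk2 hmain hcc
  rw [hc]
  rw [hr]
  linear_combination (80000 * t ^ 2 * KD * (1 + t ^ 2)) * hD

end Crest.Agent.R307.PIS1
end

-- ▼ part R307/PISdx
section

set_option autoImplicit false

namespace Crest.Agent.R307.PISd

open Crest.Agent.KB

def rN : Ex := (.X 0 1)
def zN : Ex := (.X 1 1)
def tN : Ex := (.X 2 1)
def pN : Ex := (.X 3 1)
def xiN : Ex := (.mul rN zN)
def cN : Ex := (.mul xiN tN)
def uN : Ex := (.add (.mul (.W 0 1) (.c (1))) rN)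
def dN : Ex := (.sub (.mul (.W 0 1) (.c (1))) rN)
def aN : Ex := (.mul zN (.mul tN (.mul dN uN)))
def a2N : Ex := (.mul aN aN)
def r2N : Ex := (.mul rN rN)
def n2N : Ex := (.add (.mul (.W 2 1) (.mul (.W 1 1) (.mul (.W 0 2) (.add (.mul (.W 2 1) (.mul (.W 1 1) (.mul (.W 0 2) (.c (800))))) (.mul (.c (460)) aN))))) (.mul (.c (135)) a2N))
def MN : Ex := (.add (.mul (.W 2 1) (.mul (.W 1 1) (.mul (.W 0 2) (.add (.mul (.W 2 1) (.mul (.W 1 1) (.mul (.W 0 2) (.add (.mul (.W 2 1) (.mul (.W 1 1) (.mul (.W 0 2) (.c (3200))))) (.mul (.c (1840)) aN))))) (.mul (.c (742)) a2N))))) (.mul (.c (135)) (.mul a2N aN)))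
def t2N : Ex := (.mul tN tN)
def d2N : Ex := (.mul dN dN)
def z2N : Ex := (.mul zN zN)
def k1N : Ex := (.mul z2N (.mul t2N d2N))
def c2N : Ex := (.mul cN cN)
def k2N : Ex := (.mul c2N d2N)
def denN : Ex := (.add (.mul (.W 2 1) (.mul (.W 1 1) (.mul (.W 0 1) (.mul (.c (4)) MN)))) (.mul rN (.mul k1N n2N)))
def p2N : Ex := (.mul pN pN)
def p3N : Ex := (.mul p2N pN)
def p4N : Ex := (.mul p2N p2N)
def p5N : Ex := (.mul p3N p2N)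
def p7N : Ex := (.mul p4N p3N)
def r4N : Ex := (.mul r2N r2N)
def u2N : Ex := (.mul uN uN)
def E8N : Ex := (.sub (.mul (.W 2 2) (.mul (.W 1 2) (.mul (.W 0 2) (.add (.mul (.W 3 2) (.mul (.W 0 2) (.sub (.mul (.W 3 2) (.mul (.W 0 2) (.c (216)))) (.mul (.c (402)) (.mul p2N (.add (.mul (.W 0 2) (.c (1))) r2N)))))) (.mul (.c (344)) (.mul p4N (.add (.mul (.W 0 2) (.add (.mul (.W 0 2) (.c (1))) r2N)) r4N))))))) (.mul (.c (43)) (.mul p4N (.mul k2N u2N))))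
def rpN : Ex := (.mul rN pN)
def q2N : Ex := (.mul rpN rpN)
def q3N : Ex := (.mul q2N rpN)
def q4N : Ex := (.mul q2N q2N)
def frN : Ex := (.sub (.mul (.W 3 2) (.mul (.W 0 2) (.add (.mul (.W 3 2) (.mul (.W 0 2) (.sub (.mul (.W 3 2) (.mul (.W 0 2) (.sub (.mul (.W 3 1) (.mul (.W 0 1) (.c (200)))) (.mul (.c (170)) rpN)))) (.mul (.c (54)) q3N)))) (.mul (.c (67)) (.mul q3N q2N))))) (.mul (.c (43)) (.mul q4N q3N)))
def W8N : Ex := (.sub (.mul (.W 2 1) (.mul (.W 1 1) (.mul (.W 0 1) (.add (.mul (.W 2 1) (.mul (.W 1 1) (.mul (.W 0 1) (.sub (.mul (.W 2 1) (.mul (.W 1 1) (.mul (.W 0 1) (.c (800))))) (.mul (.c (42)) cN))))) (.mul (.c (100)) c2N))))) (.mul (.c (91)) (.mul c2N cN)))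
def fpN : Ex := (.sub (.mul (.W 3 2) (.add (.mul (.W 3 2) (.sub (.mul (.W 3 2) (.sub (.mul (.W 3 1) (.c (200))) (.mul (.c (170)) pN))) (.mul (.c (54)) p3N))) (.mul (.c (67)) p5N))) (.mul (.c (43)) p7N))
def dFN : Ex := (.sub (.mul (.W 0 8) fpN) (.mul rN frN))
def thN : Ex := (.sub (.mul (.W 2 2) (.c (100))) (.mul (.sub (.mul (.W 2 1) (.c (1))) tN) (.sub (.mul (.W 2 1) (.c (1))) tN)))
def xi2N : Ex := (.mul xiN xiN)
def KNN : Ex := (.add (.mul (.W 1 1) (.mul (.W 0 1) (.add (.mul (.W 1 1) (.mul (.W 0 1) (.c (286)))) (.mul (.c (156)) xiN)))) (.mul (.c (335)) xi2N))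
def KDN : Ex := (.add (.mul (.W 1 1) (.mul (.W 0 1) (.add (.mul (.W 1 1) (.mul (.W 0 1) (.c (1100)))) (.mul (.c (600)) xiN)))) (.mul (.c (500)) xi2N))
def BN : Ex := (.add (.mul (.sub (.mul (.W 2 2) (.c (1))) t2N) (.mul KNN dFN)) (.mul (.W 3 6) (.mul (.W 0 6) (.mul KDN (.mul thN (.mul pN (.mul dN uN)))))))
def A1N : Ex := (.add (.mul (.W 3 7) (.mul (.W 2 4) (.mul (.W 1 4) (.mul (.W 0 11) (.mul (.c (3200)) (.mul uN (.mul d2N n2N))))))) (.mul denN (.mul p3N (.mul rN (.mul d2N (.mul u2N E8N))))))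
def LN : Ex := (.mul (.mul (.c (50)) KDN) (.add (.mul z2N (.mul (.add (.mul (.W 2 2) (.c (1))) t2N) A1N)) (.mul (.W 2 4) (.mul (.W 1 4) (.mul (.W 0 4) (.mul (.c (16)) (.mul denN frN)))))))
def RN : Ex := (.mul W8N (.mul zN (.mul denN BN)))
def ON : Ex := (.sub (.mul (.W 2 1) LN) RN)

set_option maxRecDepth 100000 in
theorem run_ok : run 4 150 1 [21, 11, 10, 8] [4, 8, 4, 4] [[ON]]
    (.leaf 0) [(0, 2), (0, 4), (0, 2), (0, 2)] = true := by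
  decide +kernel

end Crest.Agent.R307.PISd
end

-- ▼ part R307/PISd
section

set_option autoImplicit false
set_option linter.unusedSimpArgs false
set_option linter.unusedTactic false
set_option linter.unusedVariables false

namespace Crest.Agent.R307.PISd

open Crest.Agent.KB

/-- the point -/
def xv (x0 x1 x2 x3 : ℝ) : ℕ → ℝ
  | 0 => x0
  | 1 => x1
  | 2 => x2
  | _ => x3

theorem core (x0 x1 x2 x3 : ℝ) (hx0 : (0 : ℝ) / 2 ≤ x0) (hx0' : x0 ≤ (2 : ℝ) / 2) (hx1 : (0 : ℝ) / 2 ≤ x1) (hx1' : x1 ≤ (4 : ℝ) / 2) (hx2 : (0 : ℝ) / 2 ≤ x2) (hx2' : x2 ≤ (2 : ℝ) / 2) (hx3 : (0 : ℝ) / 2 ≤ x3) (hx3' : x3 ≤ (2 : ℝ) / 2) :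
    (0 ≤ ON.val (xv x0 x1 x2 x3) (fun _ => 1)) := by
  obtain ⟨cl, hcl, h⟩ := run_sound _ _ _ _ _ _ _ _ run_ok (xv x0 x1 x2 x3) (by
    intro i hi
    interval_cases i <;> norm_num [ba, bb, xv] <;> constructor <;> linarith)
  simp only [List.mem_cons, List.not_mem_nil, or_false] at hcl
  subst hcl
  exact h ON (by simp)

theorem vals (x0 x1 x2 x3 r z t p xi c u d a a2 r2 n2 M t2 d2 z2 k1 c2 k2 den p2 p3 p4 p5 p7 r4 u2 E8 rp q2 q3 q4 fr W8 fp dF th xi2 KN KD B A1 L R O : ℝ)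
    (hr : x0 = 1 * r)
    (hz : x1 = 1 * z)
    (ht : x2 = 1 * t)
    (hp : x3 = 1 * p)
    (hxi : xi = (r * z))
    (hc : c = (xi * t))
    (hu : u = ((1 : ℝ) + r))
    (hd : d = ((1 : ℝ) - r))
    (ha : a = (z * (t * (d * u))))
    (ha2 : a2 = (a * a))
    (hr2 : r2 = (r * r))
    (hn2 : n2 = (((800 : ℝ) + ((460 : ℝ) * a)) + ((135 : ℝ) * a2)))
    (hM : M = ((((3200 : ℝ) + ((1840 : ℝ) * a)) + ((742 : ℝ) * a2)) + ((135 : ℝ) * (a2 * a))))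
    (ht2 : t2 = (t * t))
    (hd2 : d2 = (d * d))
    (hz2 : z2 = (z * z))
    (hk1 : k1 = (z2 * (t2 * d2)))
    (hc2 : c2 = (c * c))
    (hk2 : k2 = (c2 * d2))
    (hden : den = (((4 : ℝ) * M) + (r * (k1 * n2))))
    (hp2 : p2 = (p * p))
    (hp3 : p3 = (p2 * p))
    (hp4 : p4 = (p2 * p2))
    (hp5 : p5 = (p3 * p2))
    (hp7 : p7 = (p4 * p3))
    (hr4 : r4 = (r2 * r2))
    (hu2 : u2 = (u * u))
    (hE8 : E8 = ((((216 : ℝ) - ((402 : ℝ) * (p2 * ((1 : ℝ) + r2)))) + ((344 : ℝ) * (p4 * (((1 : ℝ) + r2) + r4)))) - ((43 : ℝ) * (p4 * (k2 * u2)))))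
    (hrp : rp = (r * p))
    (hq2 : q2 = (rp * rp))
    (hq3 : q3 = (q2 * rp))
    (hq4 : q4 = (q2 * q2))
    (hfr : fr = (((((200 : ℝ) - ((170 : ℝ) * rp)) - ((54 : ℝ) * q3)) + ((67 : ℝ) * (q3 * q2))) - ((43 : ℝ) * (q4 * q3))))
    (hW8 : W8 = ((((800 : ℝ) - ((42 : ℝ) * c)) + ((100 : ℝ) * c2)) - ((91 : ℝ) * (c2 * c))))
    (hfp : fp = (((((200 : ℝ) - ((170 : ℝ) * p)) - ((54 : ℝ) * p3)) + ((67 : ℝ) * p5)) - ((43 : ℝ) * p7)))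
    (hdF : dF = (fp - (r * fr)))
    (hth : th = ((100 : ℝ) - (((1 : ℝ) - t) * ((1 : ℝ) - t))))
    (hxi2 : xi2 = (xi * xi))
    (hKN : KN = (((286 : ℝ) + ((156 : ℝ) * xi)) + ((335 : ℝ) * xi2)))
    (hKD : KD = (((1100 : ℝ) + ((600 : ℝ) * xi)) + ((500 : ℝ) * xi2)))
    (hB : B = ((((1 : ℝ) - t2) * (KN * dF)) + (KD * (th * (p * (d * u))))))
    (hA1 : A1 = (((3200 : ℝ) * (u * (d2 * n2))) + (den * (p3 * (r * (d2 * (u2 * E8)))))))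
    (hL : L = (((50 : ℝ) * KD) * ((z2 * (((1 : ℝ) + t2) * A1)) + ((16 : ℝ) * (den * fr)))))
    (hR : R = (W8 * (z * (den * B))))
    (hO : O = (L - R))
    :
    ON.val (xv x0 x1 x2 x3) (fun _ => 1) = 1 * O := by
  set X := (xv x0 x1 x2 x3) with hX
  have e0 : X 0 = x0 := rfl
  have e1 : X 1 = x1 := rfl
  have e2 : X 2 = x2 := rfl
  have e3 : X 3 = x3 := rfl
  have vrN : rN.val X (fun _ => 1) = 1 * r := by
    simp only [rN, Ex.val, e0, e1, e2, e3]; rw [← hr]; push_cast; ring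
  have vzN : zN.val X (fun _ => 1) = 1 * z := by
    simp only [zN, Ex.val, e0, e1, e2, e3]; rw [← hz]; push_cast; ring
  have vtN : tN.val X (fun _ => 1) = 1 * t := by
    simp only [tN, Ex.val, e0, e1, e2, e3]; rw [← ht]; push_cast; ring
  have vpN : pN.val X (fun _ => 1) = 1 * p := by
    simp only [pN, Ex.val, e0, e1, e2, e3]; rw [← hp]; push_cast; ring
  clear_value X
  have vxiN : xiN.val X (fun _ => 1) = 1 * xi := by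
    simp only [xiN, Ex.val, vrN, vzN]; rw [hxi]; push_cast; ring
  have vcN : cN.val X (fun _ => 1) = 1 * c := by
    simp only [cN, Ex.val, vxiN, vtN]; rw [hc]; push_cast; ring
  have vuN : uN.val X (fun _ => 1) = 1 * u := by
    simp only [uN, Ex.val, vrN]; rw [hu]; push_cast; ring
  have vdN : dN.val X (fun _ => 1) = 1 * d := by
    simp only [dN, Ex.val, vrN]; rw [hd]; push_cast; ring
  have vaN : aN.val X (fun _ => 1) = 1 * a := by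
    simp only [aN, Ex.val, vzN, vtN, vdN, vuN]; rw [ha]; push_cast; ring
  have va2N : a2N.val X (fun _ => 1) = 1 * a2 := by
    simp only [a2N, Ex.val, vaN]; rw [ha2]; push_cast; ring
  have vr2N : r2N.val X (fun _ => 1) = 1 * r2 := by
    simp only [r2N, Ex.val, vrN]; rw [hr2]; push_cast; ring
  have vn2N : n2N.val X (fun _ => 1) = 1 * n2 := by
    simp only [n2N, Ex.val, vaN, va2N]; rw [hn2]; push_cast; ring
  have vMN : MN.val X (fun _ => 1) = 1 * M := by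
    simp only [MN, Ex.val, vaN, va2N]; rw [hM]; push_cast; ring
  have vt2N : t2N.val X (fun _ => 1) = 1 * t2 := by
    simp only [t2N, Ex.val, vtN]; rw [ht2]; push_cast; ring
  have vd2N : d2N.val X (fun _ => 1) = 1 * d2 := by
    simp only [d2N, Ex.val, vdN]; rw [hd2]; push_cast; ring
  have vz2N : z2N.val X (fun _ => 1) = 1 * z2 := by
    simp only [z2N, Ex.val, vzN]; rw [hz2]; push_cast; ring
  have vk1N : k1N.val X (fun _ => 1) = 1 * k1 := by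
    simp only [k1N, Ex.val, vz2N, vt2N, vd2N]; rw [hk1]; push_cast; ring
  have vc2N : c2N.val X (fun _ => 1) = 1 * c2 := by
    simp only [c2N, Ex.val, vcN]; rw [hc2]; push_cast; ring
  have vk2N : k2N.val X (fun _ => 1) = 1 * k2 := by
    simp only [k2N, Ex.val, vc2N, vd2N]; rw [hk2]; push_cast; ring
  have vdenN : denN.val X (fun _ => 1) = 1 * den := by
    simp only [denN, Ex.val, vMN, vrN, vk1N, vn2N]; rw [hden]; push_cast; ring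
  have vp2N : p2N.val X (fun _ => 1) = 1 * p2 := by
    simp only [p2N, Ex.val, vpN]; rw [hp2]; push_cast; ring
  have vp3N : p3N.val X (fun _ => 1) = 1 * p3 := by
    simp only [p3N, Ex.val, vp2N, vpN]; rw [hp3]; push_cast; ring
  have vp4N : p4N.val X (fun _ => 1) = 1 * p4 := by
    simp only [p4N, Ex.val, vp2N]; rw [hp4]; push_cast; ring
  have vp5N : p5N.val X (fun _ => 1) = 1 * p5 := by
    simp only [p5N, Ex.val, vp3N, vp2N]; rw [hp5]; push_cast; ring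
  have vp7N : p7N.val X (fun _ => 1) = 1 * p7 := by
    simp only [p7N, Ex.val, vp4N, vp3N]; rw [hp7]; push_cast; ring
  have vr4N : r4N.val X (fun _ => 1) = 1 * r4 := by
    simp only [r4N, Ex.val, vr2N]; rw [hr4]; push_cast; ring
  have vu2N : u2N.val X (fun _ => 1) = 1 * u2 := by
    simp only [u2N, Ex.val, vuN]; rw [hu2]; push_cast; ring
  have vE8N : E8N.val X (fun _ => 1) = 1 * E8 := by
    simp only [E8N, Ex.val, vp2N, vr2N, vp4N, vr4N, vk2N, vu2N]; rw [hE8]; push_cast; ring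
  have vrpN : rpN.val X (fun _ => 1) = 1 * rp := by
    simp only [rpN, Ex.val, vrN, vpN]; rw [hrp]; push_cast; ring
  have vq2N : q2N.val X (fun _ => 1) = 1 * q2 := by
    simp only [q2N, Ex.val, vrpN]; rw [hq2]; push_cast; ring
  have vq3N : q3N.val X (fun _ => 1) = 1 * q3 := by
    simp only [q3N, Ex.val, vq2N, vrpN]; rw [hq3]; push_cast; ring
  have vq4N : q4N.val X (fun _ => 1) = 1 * q4 := by
    simp only [q4N, Ex.val, vq2N]; rw [hq4]; push_cast; ring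
  have vfrN : frN.val X (fun _ => 1) = 1 * fr := by
    simp only [frN, Ex.val, vrpN, vq3N, vq2N, vq4N]; rw [hfr]; push_cast; ring
  have vW8N : W8N.val X (fun _ => 1) = 1 * W8 := by
    simp only [W8N, Ex.val, vcN, vc2N]; rw [hW8]; push_cast; ring
  have vfpN : fpN.val X (fun _ => 1) = 1 * fp := by
    simp only [fpN, Ex.val, vpN, vp3N, vp5N, vp7N]; rw [hfp]; push_cast; ring
  have vdFN : dFN.val X (fun _ => 1) = 1 * dF := by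
    simp only [dFN, Ex.val, vfpN, vrN, vfrN]; rw [hdF]; push_cast; ring
  have vthN : thN.val X (fun _ => 1) = 1 * th := by
    simp only [thN, Ex.val, vtN]; rw [hth]; push_cast; ring
  have vxi2N : xi2N.val X (fun _ => 1) = 1 * xi2 := by
    simp only [xi2N, Ex.val, vxiN]; rw [hxi2]; push_cast; ring
  have vKNN : KNN.val X (fun _ => 1) = 1 * KN := by
    simp only [KNN, Ex.val, vxiN, vxi2N]; rw [hKN]; push_cast; ring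
  have vKDN : KDN.val X (fun _ => 1) = 1 * KD := by
    simp only [KDN, Ex.val, vxiN, vxi2N]; rw [hKD]; push_cast; ring
  have vBN : BN.val X (fun _ => 1) = 1 * B := by
    simp only [BN, Ex.val, vt2N, vKNN, vdFN, vKDN, vthN, vpN, vdN, vuN]; rw [hB]; push_cast; ring
  have vA1N : A1N.val X (fun _ => 1) = 1 * A1 := by
    simp only [A1N, Ex.val, vuN, vd2N, vn2N, vdenN, vp3N, vrN, vu2N, vE8N]; rw [hA1]; push_cast; ring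
  have vLN : LN.val X (fun _ => 1) = 1 * L := by
    simp only [LN, Ex.val, vKDN, vz2N, vt2N, vA1N, vdenN, vfrN]; rw [hL]; push_cast; ring
  have vRN : RN.val X (fun _ => 1) = 1 * R := by
    simp only [RN, Ex.val, vW8N, vzN, vdenN, vBN]; rw [hR]; push_cast; ring
  have vON : ON.val X (fun _ => 1) = 1 * O := by
    simp only [ON, Ex.val, vLN, vRN]; rw [hO]; push_cast; ring
  exact vON

theorem main (x0 x1 x2 x3 r z t p xi c u d a a2 r2 n2 M t2 d2 z2 k1 c2 k2 den p2 p3 p4 p5 p7 r4 u2 E8 rp q2 q3 q4 fr W8 fp dF th xi2 KN KD B A1 L R O : ℝ) (hx0 : (0 : ℝ) / 2 ≤ x0) (hx0' : x0 ≤ (2 : ℝ) / 2) (hx1 : (0 : ℝ) / 2 ≤ x1) (hx1' : x1 ≤ (4 : ℝ) / 2) (hx2 : (0 : ℝ) / 2 ≤ x2) (hx2' : x2 ≤ (2 : ℝ) / 2) (hx3 : (0 : ℝ) / 2 ≤ x3) (hx3' : x3 ≤ (2 : ℝ) / 2)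
    (hr : x0 = 1 * r)
    (hz : x1 = 1 * z)
    (ht : x2 = 1 * t)
    (hp : x3 = 1 * p)
    (hxi : xi = (r * z))
    (hc : c = (xi * t))
    (hu : u = ((1 : ℝ) + r))
    (hd : d = ((1 : ℝ) - r))
    (ha : a = (z * (t * (d * u))))
    (ha2 : a2 = (a * a))
    (hr2 : r2 = (r * r))
    (hn2 : n2 = (((800 : ℝ) + ((460 : ℝ) * a)) + ((135 : ℝ) * a2)))
    (hM : M = ((((3200 : ℝ) + ((1840 : ℝ) * a)) + ((742 : ℝ) * a2)) + ((135 : ℝ) * (a2 * a))))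
    (ht2 : t2 = (t * t))
    (hd2 : d2 = (d * d))
    (hz2 : z2 = (z * z))
    (hk1 : k1 = (z2 * (t2 * d2)))
    (hc2 : c2 = (c * c))
    (hk2 : k2 = (c2 * d2))
    (hden : den = (((4 : ℝ) * M) + (r * (k1 * n2))))
    (hp2 : p2 = (p * p))
    (hp3 : p3 = (p2 * p))
    (hp4 : p4 = (p2 * p2))
    (hp5 : p5 = (p3 * p2))
    (hp7 : p7 = (p4 * p3))
    (hr4 : r4 = (r2 * r2))
    (hu2 : u2 = (u * u))
    (hE8 : E8 = ((((216 : ℝ) - ((402 : ℝ) * (p2 * ((1 : ℝ) + r2)))) + ((344 : ℝ) * (p4 * (((1 : ℝ) + r2) + r4)))) - ((43 : ℝ) * (p4 * (k2 * u2)))))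
    (hrp : rp = (r * p))
    (hq2 : q2 = (rp * rp))
    (hq3 : q3 = (q2 * rp))
    (hq4 : q4 = (q2 * q2))
    (hfr : fr = (((((200 : ℝ) - ((170 : ℝ) * rp)) - ((54 : ℝ) * q3)) + ((67 : ℝ) * (q3 * q2))) - ((43 : ℝ) * (q4 * q3))))
    (hW8 : W8 = ((((800 : ℝ) - ((42 : ℝ) * c)) + ((100 : ℝ) * c2)) - ((91 : ℝ) * (c2 * c))))
    (hfp : fp = (((((200 : ℝ) - ((170 : ℝ) * p)) - ((54 : ℝ) * p3)) + ((67 : ℝ) * p5)) - ((43 : ℝ) * p7)))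
    (hdF : dF = (fp - (r * fr)))
    (hth : th = ((100 : ℝ) - (((1 : ℝ) - t) * ((1 : ℝ) - t))))
    (hxi2 : xi2 = (xi * xi))
    (hKN : KN = (((286 : ℝ) + ((156 : ℝ) * xi)) + ((335 : ℝ) * xi2)))
    (hKD : KD = (((1100 : ℝ) + ((600 : ℝ) * xi)) + ((500 : ℝ) * xi2)))
    (hB : B = ((((1 : ℝ) - t2) * (KN * dF)) + (KD * (th * (p * (d * u))))))
    (hA1 : A1 = (((3200 : ℝ) * (u * (d2 * n2))) + (den * (p3 * (r * (d2 * (u2 * E8)))))))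
    (hL : L = (((50 : ℝ) * KD) * ((z2 * (((1 : ℝ) + t2) * A1)) + ((16 : ℝ) * (den * fr)))))
    (hR : R = (W8 * (z * (den * B))))
    (hO : O = (L - R))
    :
    (0 ≤ O) := by
  have hv := vals x0 x1 x2 x3 r z t p xi c u d a a2 r2 n2 M t2 d2 z2 k1 c2 k2 den p2 p3 p4 p5 p7 r4 u2 E8 rp q2 q3 q4 fr W8 fp dF th xi2 KN KD B A1 L R O hr hz ht hp hxi hc hu hd ha ha2 hr2 hn2 hM ht2 hd2 hz2 hk1 hc2 hk2 hden hp2 hp3 hp4 hp5 hp7 hr4 hu2 hE8 hrp hq2 hq3 hq4 hfr hW8 hfp hdF hth hxi2 hKN hKD hB hA1 hL hR hO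
  have hc := core x0 x1 x2 x3 hx0 hx0' hx1 hx1' hx2 hx2' hx3 hx3'
  have w0 := hv
  simp only [w0] at hc
  have a0 := hc
  exact nonneg_of_mul_nonneg_right a0 (by positivity)

end Crest.Agent.R307.PISd
private theorem rz_439d2e6b18 : type_of% @_root_.Crest.Agent.R307.PISd.xv.eq_1 := @_root_.Crest.Agent.R307.PISd.xv.eq_1 -- L13
end

-- ▼ part R307/PISgd

set_option autoImplicit false

namespace Crest.Agent.R307.PIS1

open Crest.Agent.R307 Crest.Agent.R307.GenInd Crest.Agent.R307.GenPI Crest.Agent.R307.GenFin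
  Crest.Agent.R307.GenS

/-- chart d: `c = r z t`. -/
theorem chartD {c p r t z : ℝ} (hc0 : 0 < c) (hc1 : c ≤ 2 / 5) (hp0 : 0 ≤ p) (hp1 : p ≤ 1)
    (hr0 : 0 < r) (hr1 : r ≤ 1) (ht0 : 0 < t) (ht1 : t ≤ 1) (hz0 : 0 ≤ z) (hz1 : z ≤ 2)
    (hcz : c = r * z * t) :
    Pt (WS c) c t p r := by
  obtain ⟨xi, hxi⟩ : ∃ x : ℝ, x = r * z := ⟨_, rfl⟩
  obtain ⟨d, hd⟩ : ∃ z : ℝ, z = 1 - r := ⟨_, rfl⟩
  obtain ⟨u, hu⟩ : ∃ z : ℝ, z = 1 + r := ⟨_, rfl⟩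
  have hc : c = xi * t := by rw [hcz, hxi]
  obtain ⟨a, ha⟩ : ∃ zz : ℝ, zz = (z * (t * (d * u))) := ⟨_, rfl⟩
  obtain ⟨a2, ha2⟩ : ∃ zz : ℝ, zz = (a * a) := ⟨_, rfl⟩
  obtain ⟨r2, hr2⟩ : ∃ zz : ℝ, zz = (r * r) := ⟨_, rfl⟩
  obtain ⟨n2, hn2⟩ : ∃ zz : ℝ, zz = (((800 : ℝ) + ((460 : ℝ) * a)) + ((135 : ℝ) * a2)) := ⟨_, rfl⟩
  obtain ⟨M, hM⟩ : ∃ zz : ℝ, zz = ((((3200 : ℝ) + ((1840 : ℝ) * a)) + ((742 : ℝ) * a2)) + ((135 : ℝ) * (a2 * a))) := ⟨_, rfl⟩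
  obtain ⟨t2, ht2⟩ : ∃ zz : ℝ, zz = (t * t) := ⟨_, rfl⟩
  obtain ⟨d2, hd2⟩ : ∃ zz : ℝ, zz = (d * d) := ⟨_, rfl⟩
  obtain ⟨z2, hz2⟩ : ∃ zz : ℝ, zz = (z * z) := ⟨_, rfl⟩
  obtain ⟨k1, hk1⟩ : ∃ zz : ℝ, zz = (z2 * (t2 * d2)) := ⟨_, rfl⟩
  obtain ⟨c2, hc2⟩ : ∃ zz : ℝ, zz = (c * c) := ⟨_, rfl⟩
  obtain ⟨k2, hk2⟩ : ∃ zz : ℝ, zz = (c2 * d2) := ⟨_, rfl⟩
  obtain ⟨den, hden⟩ : ∃ zz : ℝ, zz = (((4 : ℝ) * M) + (r * (k1 * n2))) := ⟨_, rfl⟩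
  obtain ⟨p2, hp2⟩ : ∃ zz : ℝ, zz = (p * p) := ⟨_, rfl⟩
  obtain ⟨p3, hp3⟩ : ∃ zz : ℝ, zz = (p2 * p) := ⟨_, rfl⟩
  obtain ⟨p4, hp4⟩ : ∃ zz : ℝ, zz = (p2 * p2) := ⟨_, rfl⟩
  obtain ⟨p5, hp5⟩ : ∃ zz : ℝ, zz = (p3 * p2) := ⟨_, rfl⟩
  obtain ⟨p7, hp7⟩ : ∃ zz : ℝ, zz = (p4 * p3) := ⟨_, rfl⟩
  obtain ⟨r4, hr4⟩ : ∃ zz : ℝ, zz = (r2 * r2) := ⟨_, rfl⟩
  obtain ⟨u2, hu2⟩ : ∃ zz : ℝ, zz = (u * u) := ⟨_, rfl⟩
  obtain ⟨E8v, hE8⟩ : ∃ zz : ℝ, zz = ((((216 : ℝ) - ((402 : ℝ) * (p2 * ((1 : ℝ) + r2)))) + ((344 : ℝ) * (p4 * (((1 : ℝ) + r2) + r4)))) - ((43 : ℝ) * (p4 * (k2 * u2)))) := ⟨_, rfl⟩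
  obtain ⟨rp, hrp⟩ : ∃ zz : ℝ, zz = (r * p) := ⟨_, rfl⟩
  obtain ⟨q2, hq2⟩ : ∃ zz : ℝ, zz = (rp * rp) := ⟨_, rfl⟩
  obtain ⟨q3, hq3⟩ : ∃ zz : ℝ, zz = (q2 * rp) := ⟨_, rfl⟩
  obtain ⟨q4, hq4⟩ : ∃ zz : ℝ, zz = (q2 * q2) := ⟨_, rfl⟩
  obtain ⟨fr, hfr⟩ : ∃ zz : ℝ, zz = (((((200 : ℝ) - ((170 : ℝ) * rp)) - ((54 : ℝ) * q3)) + ((67 : ℝ) * (q3 * q2))) - ((43 : ℝ) * (q4 * q3))) := ⟨_, rfl⟩
  obtain ⟨W8, hW8⟩ : ∃ zz : ℝ, zz = ((((800 : ℝ) - ((42 : ℝ) * c)) + ((100 : ℝ) * c2)) - ((91 : ℝ) * (c2 * c))) := ⟨_, rfl⟩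
  obtain ⟨fp, hfp⟩ : ∃ zz : ℝ, zz = (((((200 : ℝ) - ((170 : ℝ) * p)) - ((54 : ℝ) * p3)) + ((67 : ℝ) * p5)) - ((43 : ℝ) * p7)) := ⟨_, rfl⟩
  obtain ⟨dF, hdF⟩ : ∃ zz : ℝ, zz = (fp - (r * fr)) := ⟨_, rfl⟩
  obtain ⟨th, hth⟩ : ∃ zz : ℝ, zz = ((100 : ℝ) - (((1 : ℝ) - t) * ((1 : ℝ) - t))) := ⟨_, rfl⟩
  obtain ⟨xi2, hxi2⟩ : ∃ zz : ℝ, zz = (xi * xi) := ⟨_, rfl⟩
  obtain ⟨KN, hKN⟩ : ∃ zz : ℝ, zz = (((286 : ℝ) + ((156 : ℝ) * xi)) + ((335 : ℝ) * xi2)) := ⟨_, rfl⟩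
  obtain ⟨KD, hKD⟩ : ∃ zz : ℝ, zz = (((1100 : ℝ) + ((600 : ℝ) * xi)) + ((500 : ℝ) * xi2)) := ⟨_, rfl⟩
  obtain ⟨B, hB⟩ : ∃ zz : ℝ, zz = ((((1 : ℝ) - t2) * (KN * dF)) + (KD * (th * (p * (d * u))))) := ⟨_, rfl⟩
  obtain ⟨A1, hA1⟩ : ∃ zz : ℝ, zz = (((3200 : ℝ) * (u * (d2 * n2))) + (den * (p3 * (r * (d2 * (u2 * E8v)))))) := ⟨_, rfl⟩
  obtain ⟨L, hL⟩ : ∃ zz : ℝ, zz = (((50 : ℝ) * KD) * ((z2 * (((1 : ℝ) + t2) * A1)) + ((16 : ℝ) * (den * fr)))) := ⟨_, rfl⟩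
  obtain ⟨R, hR⟩ : ∃ zz : ℝ, zz = (W8 * (z * (den * B))) := ⟨_, rfl⟩
  obtain ⟨O, hO⟩ : ∃ zz : ℝ, zz = (L - R) := ⟨_, rfl⟩
  have hmain := PISd.main r z t p r z t p xi c u d a a2 r2 n2 M t2 d2 z2 k1 c2 k2 den p2 p3 p4 p5 p7 r4 u2 E8v rp q2 q3 q4 fr W8 fp dF th xi2 KN KD B A1 L R O
    (by linarith) (by linarith) (by linarith) (by linarith) (by linarith) (by linarith) (by linarith) (by linarith)
    (one_mul _).symm (one_mul _).symm (one_mul _).symm (one_mul _).symm hxi hc hu hd ha ha2 hr2 hn2 hM ht2 hd2 hz2 hk1 hc2 hk2 hden hp2 hp3 hp4 hp5 hp7 hr4 hu2 hE8 hrp hq2 hq3 hq4 hfr hW8 hfp hdF hth hxi2 hKN hKD hB hA1 hL hR hO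
  refine pt_of_chart (N := 80000) (G := r ^ 4 * t ^ 4 * O) hc0 hc1 ht0.le hp0 hp1 hr0.le hr1
    (by norm_num) (by positivity) ?_
  intro D hD
  have ea : c * (1 - r) * (1 + r) = r * a := by rw [ha, hd, hu, hcz]; ring
  have en : n2f r (r * a) = r ^ 2 * n2 := by
    rw [hn2, ha2]; unfold n2f; ring
  have eM : Mf r (r * a) = r ^ 3 * M := by
    rw [hM, ha2]; unfold Mf; ring
  have eden : denA c r = r ^ 3 * den := by
    unfold denA; rw [ea, en, eM, hden, hk1, hd2, ht2, hz2, hd, hcz]; ring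
  have enum : numA c r = 2 * u * (r ^ 4 * (z ^ 2 * t ^ 2 * d ^ 2)) * n2 := by
    unfold numA; rw [ea, en, hu, hd, hcz]; ring
  have eE : E8 c p r = E8v := by
    rw [hE8, hp2, hp4, hp2, hr4, hr2, hk2, hd2, hu2, hc2, hu, hd]; unfold PIS1.E8; ring
  have efr : f1 (r * p) = fr := by
    rw [hfr, hq4, hq3, hq2, hrp]; unfold f1; ring
  have efp : f1 p = fp := by
    rw [hfp, hp7, hp5, hp4, hp3, hp2]; unfold f1; ring
  have ekn : kn c t = t ^ 2 * KN := by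
    rw [hKN, hxi2, hc]; unfold kn; ring
  have ekd : kd c t = t ^ 2 * KD := by
    rw [hKD, hxi2, hc]; unfold kd; ring
  have ew : w8 c = W8 := by
    rw [hW8, hc2]; unfold w8; ring
  have eth : 1 - (1 - t) ^ 2 / 100 = th / 100 := by rw [hth]; ring
  have e1r : 1 - r ^ 2 = d * u := by rw [hd, hu]; ring
  rw [eden, enum] at hD
  unfold LL BB
  rw [ekn, ekd, ew, eth, efp, efr, eE, e1r, eden]
  rw [hO, hL, hR, hA1, hB, hdF, ht2, hz2, hd2, hp3, hp2, hu2]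
  clear hW8 hc2 hE8 hk2 hmain
  rw [hcz]
  linear_combination (80000 * t ^ 2 * KD * (1 + t ^ 2)) * hD

end Crest.Agent.R307.PIS1
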