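import Crest.Agent.R307.SIS1x

set_option autoImplicit false
set_option linter.unusedSimpArgs false
set_option linter.unusedTactic false
set_option linter.unusedVariables false
set_option maxHeartbeats 4000000

namespace Crest.Agent.R307.SIS1

open Crest.Agent.KB

/-- the point -/
def xv (x0 x1 : ℝ) : ℕ → ℝ
  | 0 => x0
  | _ => x1

theorem core (x0 x1 : ℝ) (hx0 : (0 : ℝ) / 32768 ≤ x0) (hx0' : x0 ≤ (16384 : ℝ) / 32768) (hx1 : (0 : ℝ) / 32768 ≤ x1) (hx1' : x1 ≤ (32768 : ℝ) / 32768) :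
    ∃ p ∈ plist, 0 ≤ (TaN p).val (xv x0 x1) (fun _ => 1) ∧ 0 ≤ (oUaN p).val (xv x0 x1) (fun _ => 1) ∧ 0 ≤ (oCaN p).val (xv x0 x1) (fun _ => 1) ∧ 0 ≤ (oBaN p).val (xv x0 x1) (fun _ => 1) ∧ 0 ≤ (oKhaN p).val (xv x0 x1) (fun _ => 1) ∧ 0 ≤ (A1haN p).val (xv x0 x1) (fun _ => 1) ∧ 0 ≤ (TbN p).val (xv x0 x1) (fun _ => 1) ∧ 0 ≤ (oUbN p).val (xv x0 x1) (fun _ => 1) ∧ 0 ≤ (oCbN p).val (xv x0 x1) (fun _ => 1) ∧ 0 ≤ (oBbN p).val (xv x0 x1) (fun _ => 1) ∧ 0 ≤ (oKhbN p).val (xv x0 x1) (fun _ => 1) ∧ 0 ≤ (A1hbN p).val (xv x0 x1) (fun _ => 1) ∧ 0 ≤ (oL0N p).val (xv x0 x1) (fun _ => 1) ∧ 0 ≤ (oR0N p).val (xv x0 x1) (fun _ => 1) ∧ 0 ≤ (oL1N p).val (xv x0 x1) (fun _ => 1) ∧ 0 ≤ (oR1N p).val (xv x0 x1) (fun _ => 1) ∧ 0 ≤ (olaN p).val (xv x0 x1) (fun _ => 1) ∧ 0 ≤ (olabN p).val (xv x0 x1) (fun _ => 1) ∧ 0 ≤ h1N.val (xv x0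 x1) (fun _ => 1) ∧ 0 ≤ c0N.val (xv x0 x1) (fun _ => 1) ∧ 0 ≤ (oS0_00N p).val (xv x0 x1) (fun _ => 1) ∧ 0 ≤ (oS1_00N p).val (xv x0 x1) (fun _ => 1) ∧ 0 ≤ (s0_00N p).val (xv x0 x1) (fun _ => 1) ∧ 0 ≤ (s1_00N p).val (xv x0 x1) (fun _ => 1) ∧ 0 ≤ (M_00N p).val (xv x0 x1) (fun _ => 1) ∧ 0 ≤ (oS0_01N p).val (xv x0 x1) (fun _ => 1) ∧ 0 ≤ (oS1_01N p).val (xv x0 x1) (fun _ => 1) ∧ 0 ≤ (s0_01N p).val (xv x0 x1) (fun _ => 1) ∧ 0 ≤ (s1_01N p).val (xv x0 x1) (fun _ => 1) ∧ 0 ≤ (M_01N p).val (xv x0 x1) (fun _ => 1) ∧ 0 ≤ (oS0_10N p).val (xv x0 x1) (fun _ => 1) ∧ 0 ≤ (oS1_10N p).val (xv x0 x1) (fun _ => 1) ∧ 0 ≤ (s0_10N p).val (xv x0 x1) (fun _ => 1) ∧ 0 ≤ (s1_10N p).val (xv x0 x1) (fun _ => 1) ∧ 0 ≤ (M_10N p).val (xv x0 x1) (fun _ => 1) ∧ 0 ≤ (oS0_11N p).val (xv x0 x1) (fun _ => 1) ∧ 0 ≤ (oS1_11N p).val (xv x0 x1)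 (fun _ => 1) ∧ 0 ≤ (s0_11N p).val (xv x0 x1) (fun _ => 1) ∧ 0 ≤ (s1_11N p).val (xv x0 x1) (fun _ => 1) ∧ 0 ≤ (M_11N p).val (xv x0 x1) (fun _ => 1) := by
  obtain ⟨cl, hcl, h⟩ := run_sound _ _ _ _ _ _ _ _ run_ok (xv x0 x1) (by
    intro i hi
    interval_cases i <;> norm_num [ba, bb, xv] <;> constructor <;> linarith)
  obtain ⟨p, hp, rfl⟩ := List.mem_map.mp hcl
  exact ⟨p, hp, h _ (by simp [clause]), h _ (by simp [clause]), h _ (by simp [clause]), h _ (by simp [clause]), h _ (by simp [clause]), h _ (by simp [clause]), h _ (by simp [clause]), h _ (by simp [clause]), h _ (by simp [clause]), h _ (by simp [clause]), h _ (by simp [clause]), h _ (by simp [clause]), h _ (by simp [clause]), h _ (by simp [clause]), h _ (by simp [clause]), h _ (by simp [clause]), h _ (by simp [clause]), h _ (by simp [clause]), h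 _ (by simp [clause]), h _ (by simp [clause]), h _ (by simp [clause]), h _ (by simp [clause]), h _ (by simp [clause]), h _ (by simp [clause]), h _ (by simp [clause]), h _ (by simp [clause]), h _ (by simp [clause]), h _ (by simp [clause]), h _ (by simp [clause]), h _ (by simp [clause]), h _ (by simp [clause]), h _ (by simp [clause]), h _ (by simp [clause]), h _ (by simp [clause]), h _ (by simp [clause]), h _ (by simp [clause]), h _ (by simp [clause]), h _ (by simp [clause]), h _ (by simp [clause]), h _ (by simp [clause])⟩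

theorem vals (x0 x1 dc0_0 dc1_1 dcm_2 dn0_3 dn1_4 dnm_5 dv0_6 dv1_7 dvm_8 m r uc0_0 uc1_1 ucm_2 un0_3 un1_4 unm_5 uv0_6 uv1_7 uvm_8 t0a t1a kh0a kh1a c0a c1a c2a b0a b1a b2a t0b t1b kh0b kh1b c0b c1b c2b b0b b1b b2b la lb e0_00 e1_00 e2_00 f0_00 f1_00 f2_00 e0_01 e1_01 e2_01 f0_01 f1_01 f2_01 e0_10 e1_10 e2_10 f0_10 f1_10 f2_10 e0_11 e1_11 e2_11 f0_11 f1_11 f2_11 n0 n1 h0 h1 hm c0 c1 cm z20 q0 z21 q1 z2m qm Ta kla kha Ca Bea oUa TTa spa sma oCa oBa Eha Nna oKha A0la A0ha A1la A1ha Tb klb khb Cb Beb oUb TTb spb smb oCb oBb Ehb Nnb oKhb A0lb A0hb A1lb A1hb L0 oL0 R0 oR0 L1 oL1 R1 oR1 ola olab s0_00 s1_00 oS0_00 oS1_00 g_00 M_00 s0_01 s1_01 oS0_01 oS1_01 g_01 M_01 s0_10 s1_10 oS0_10 oS1_10 g_10 M_10 s0_11 s1_11 oS0_11 oS1_11 g_11 M_11 : ℝ) (p : ℕ)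
    (H_dc0_0 : dc0_0 = (((1 : ℝ) * ((1 : ℝ) * (51 : ℝ))) - ((50 : ℝ) * (x0 * (((1 : ℝ) * (1 : ℝ)) + x1)))))
    (H_dc1_1 : dc1_1 = (((1 : ℝ) * ((1 : ℝ) * (51 : ℝ))) - ((50 : ℝ) * (x0 * (((1 : ℝ) * (1 : ℝ)) - x1)))))
    (H_dcm_2 : dcm_2 = (((1 : ℝ) * (51 : ℝ)) - ((50 : ℝ) * x0)))
    (H_dn0_3 : dn0_3 = (((50 : ℝ) * (x0 * (((1 : ℝ) * (1 : ℝ)) + x1))) + ((1 : ℝ) * ((1 : ℝ) * (1 : ℝ)))))
    (H_dn1_4 : dn1_4 = (((50 : ℝ) * (x0 * (((1 : ℝ) * (1 : ℝ)) - x1))) + ((1 : ℝ) * ((1 : ℝ) * (1 : ℝ)))))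
    (H_dnm_5 : dnm_5 = (((50 : ℝ) * x0) + ((1 : ℝ) * (1 : ℝ))))
    (H_dv0_6 : dv0_6 = (((160 : ℝ) * ((x0 * (((1 : ℝ) * (1 : ℝ)) + x1)) * (((1 : ℝ) * ((1 : ℝ) * (1 : ℝ))) - (x0 * (((1 : ℝ) * (1 : ℝ)) + x1))))) + ((1 : ℝ) * ((1 : ℝ) * (1 : ℝ)))))
    (H_dv1_7 : dv1_7 = (((160 : ℝ) * ((x0 * (((1 : ℝ) * (1 : ℝ)) - x1)) * (((1 : ℝ) * ((1 : ℝ) * (1 : ℝ))) - (x0 * (((1 : ℝ) * (1 : ℝ)) - x1))))) + ((1 : ℝ) * ((1 : ℝ) * (1 : ℝ)))))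
    (H_dvm_8 : dvm_8 = (((160 : ℝ) * (x0 * (((1 : ℝ) * (1 : ℝ)) - x0))) + ((1 : ℝ) * (1 : ℝ))))
    (H_m : x0 = 1 * m)
    (H_r : x1 = 1 * r)
    (H_uc0_0 : (1 : ℝ) = dc0_0 ^ 1 * uc0_0)
    (H_uc1_1 : (1 : ℝ) = dc1_1 ^ 1 * uc1_1)
    (H_ucm_2 : (1 : ℝ) = dcm_2 ^ 1 * ucm_2)
    (H_un0_3 : (1 : ℝ) = dn0_3 ^ 1 * un0_3)
    (H_un1_4 : (1 : ℝ) = dn1_4 ^ 1 * un1_4)
    (H_unm_5 : (1 : ℝ) = dnm_5 ^ 1 * unm_5)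
    (H_uv0_6 : (1 : ℝ) = dv0_6 ^ 1 * uv0_6)
    (H_uv1_7 : (1 : ℝ) = dv1_7 ^ 1 * uv1_7)
    (H_uvm_8 : (1 : ℝ) = dvm_8 ^ 1 * uvm_8)
    (H_t0a : t0a = ((dg p 0 : ℤ) : ℝ))
    (H_t1a : t1a = ((dg p 1 : ℤ) : ℝ))
    (H_kh0a : kh0a = ((dg p 2 : ℤ) : ℝ))
    (H_kh1a : kh1a = ((dg p 3 : ℤ) : ℝ))
    (H_c0a : c0a = ((dg p 4 : ℤ) : ℝ))
    (H_c1a : c1a = ((dg p 5 : ℤ) : ℝ))
    (H_c2a : c2a = ((dg p 6 : ℤ) : ℝ))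
    (H_b0a : b0a = ((dg p 7 : ℤ) : ℝ))
    (H_b1a : b1a = ((dg p 8 : ℤ) : ℝ))
    (H_b2a : b2a = ((dg p 9 : ℤ) : ℝ))
    (H_t0b : t0b = ((dg p 10 : ℤ) : ℝ))
    (H_t1b : t1b = ((dg p 11 : ℤ) : ℝ))
    (H_kh0b : kh0b = ((dg p 12 : ℤ) : ℝ))
    (H_kh1b : kh1b = ((dg p 13 : ℤ) : ℝ))
    (H_c0b : c0b = ((dg p 14 : ℤ) : ℝ))
    (H_c1b : c1b = ((dg p 15 : ℤ) : ℝ))
    (H_c2b : c2b = ((dg p 16 : ℤ) : ℝ))
    (H_b0b : b0b = ((dg p 17 : ℤ) : ℝ))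
    (H_b1b : b1b = ((dg p 18 : ℤ) : ℝ))
    (H_b2b : b2b = ((dg p 19 : ℤ) : ℝ))
    (H_la : la = ((dg p 20 : ℤ) : ℝ))
    (H_lb : lb = ((dg p 21 : ℤ) : ℝ))
    (H_e0_00 : e0_00 = ((dg p 22 : ℤ) : ℝ))
    (H_e1_00 : e1_00 = ((dg p 23 : ℤ) : ℝ))
    (H_e2_00 : e2_00 = ((dg p 24 : ℤ) : ℝ))
    (H_f0_00 : f0_00 = ((dg p 25 : ℤ) : ℝ))
    (H_f1_00 : f1_00 = ((dg p 26 : ℤ) : ℝ))
    (H_f2_00 : f2_00 = ((dg p 27 : ℤ) : ℝ))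
    (H_e0_01 : e0_01 = ((dg p 28 : ℤ) : ℝ))
    (H_e1_01 : e1_01 = ((dg p 29 : ℤ) : ℝ))
    (H_e2_01 : e2_01 = ((dg p 30 : ℤ) : ℝ))
    (H_f0_01 : f0_01 = ((dg p 31 : ℤ) : ℝ))
    (H_f1_01 : f1_01 = ((dg p 32 : ℤ) : ℝ))
    (H_f2_01 : f2_01 = ((dg p 33 : ℤ) : ℝ))
    (H_e0_10 : e0_10 = ((dg p 34 : ℤ) : ℝ))
    (H_e1_10 : e1_10 = ((dg p 35 : ℤ) : ℝ))
    (H_e2_10 : e2_10 = ((dg p 36 : ℤ) : ℝ))
    (H_f0_10 : f0_10 = ((dg p 37 : ℤ) : ℝ))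
    (H_f1_10 : f1_10 = ((dg p 38 : ℤ) : ℝ))
    (H_f2_10 : f2_10 = ((dg p 39 : ℤ) : ℝ))
    (H_e0_11 : e0_11 = ((dg p 40 : ℤ) : ℝ))
    (H_e1_11 : e1_11 = ((dg p 41 : ℤ) : ℝ))
    (H_e2_11 : e2_11 = ((dg p 42 : ℤ) : ℝ))
    (H_f0_11 : f0_11 = ((dg p 43 : ℤ) : ℝ))
    (H_f1_11 : f1_11 = ((dg p 44 : ℤ) : ℝ))
    (H_f2_11 : f2_11 = ((dg p 45 : ℤ) : ℝ))
    (H_n0 : n0 = (m * ((1 : ℝ) + r)))
    (H_n1 : n1 = (m * ((1 : ℝ) - r)))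
    (H_h0 : h0 = (((1 : ℝ) + r) * (((1 : ℝ) - n0) * ((((((((((71422 : ℝ) * ((1 : ℝ) - ((2 : ℝ) * n0))) + (30914 : ℝ)) * ((1 : ℝ) - ((2 : ℝ) * n0))) + (149240 : ℝ)) * ((1 : ℝ) - ((2 : ℝ) * n0))) + (7462 : ℝ)) * ((1 : ℝ) - ((2 : ℝ) * n0))) + (249731 : ℝ)) + ((131118 : ℝ) * uc0_0)))))
    (H_h1 : h1 = (((1 : ℝ) - r) * (((1 : ℝ) - n1) * ((((((((((71422 : ℝ) * ((1 : ℝ) - ((2 : ℝ) * n1))) + (30914 : ℝ)) * ((1 : ℝ) - ((2 : ℝ) * n1))) + (149240 : ℝ)) * ((1 : ℝ) - ((2 : ℝ) * n1))) + (7462 : ℝ)) * ((1 : ℝ) - ((2 : ℝ) * n1))) + (249731 : ℝ)) + ((131118 : ℝ) * uc1_1)))))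
    (H_hm : hm = ((2 : ℝ) * (((1 : ℝ) - m) * ((((((((((71422 : ℝ) * ((1 : ℝ) - ((2 : ℝ) * m))) + (30914 : ℝ)) * ((1 : ℝ) - ((2 : ℝ) * m))) + (149240 : ℝ)) * ((1 : ℝ) - ((2 : ℝ) * m))) + (7462 : ℝ)) * ((1 : ℝ) - ((2 : ℝ) * m))) + (249731 : ℝ)) + ((131118 : ℝ) * ucm_2)))))
    (H_c0 : c0 = (((1 : ℝ) + r) * (((1 : ℝ) - n0) * ((((((((((71422 : ℝ) * (((2 : ℝ) * n0) - (1 : ℝ))) + (30914 : ℝ)) * (((2 : ℝ) * n0) - (1 : ℝ))) + (149240 : ℝ)) * (((2 : ℝ) * n0) - (1 : ℝ))) + (7462 : ℝ)) * (((2 : ℝ) * n0) - (1 : ℝ))) + (249731 : ℝ)) + ((131118 : ℝ) * un0_3)))))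
    (H_c1 : c1 = (((1 : ℝ) - r) * (((1 : ℝ) - n1) * ((((((((((71422 : ℝ) * (((2 : ℝ) * n1) - (1 : ℝ))) + (30914 : ℝ)) * (((2 : ℝ) * n1) - (1 : ℝ))) + (149240 : ℝ)) * (((2 : ℝ) * n1) - (1 : ℝ))) + (7462 : ℝ)) * (((2 : ℝ) * n1) - (1 : ℝ))) + (249731 : ℝ)) + ((131118 : ℝ) * un1_4)))))
    (H_cm : cm = ((2 : ℝ) * (((1 : ℝ) - m) * ((((((((((71422 : ℝ) * (((2 : ℝ) * m) - (1 : ℝ))) + (30914 : ℝ)) * (((2 : ℝ) * m) - (1 : ℝ))) + (149240 : ℝ)) * (((2 : ℝ) * m) - (1 : ℝ))) + (7462 : ℝ)) * (((2 : ℝ) * m) - (1 : ℝ))) + (249731 : ℝ)) + ((131118 : ℝ) * unm_5)))))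
    (H_z20 : z20 = (((1 : ℝ) - ((2 : ℝ) * n0)) * ((1 : ℝ) - ((2 : ℝ) * n0))))
    (H_q0 : q0 = (((1 : ℝ) + r) * (((1 : ℝ) - n0) * ((((((((((73554 : ℝ) * z20) + (-59696 : ℝ)) * z20) + (7462 : ℝ)) * z20) + (-104468 : ℝ)) * z20) + (275912 : ℝ)) + ((94874 : ℝ) * uv0_6)))))
    (H_z21 : z21 = (((1 : ℝ) - ((2 : ℝ) * n1)) * ((1 : ℝ) - ((2 : ℝ) * n1))))
    (H_q1 : q1 = (((1 : ℝ) - r) * (((1 : ℝ) - n1) * ((((((((((73554 : ℝ) * z21) + (-59696 : ℝ)) * z21) + (7462 : ℝ)) * z21) + (-104468 : ℝ)) * z21) + (275912 : ℝ)) + ((94874 : ℝ) * uv1_7)))))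
    (H_z2m : z2m = (((1 : ℝ) - ((2 : ℝ) * m)) * ((1 : ℝ) - ((2 : ℝ) * m))))
    (H_qm : qm = ((2 : ℝ) * (((1 : ℝ) - m) * ((((((((((73554 : ℝ) * z2m) + (-59696 : ℝ)) * z2m) + (7462 : ℝ)) * z2m) + (-104468 : ℝ)) * z2m) + (275912 : ℝ)) + ((94874 : ℝ) * uvm_8)))))
    (H_Ta : Ta = (t0a + (t1a * r)))
    (H_kla : kla = ((0 : ℝ) * r))
    (H_kha : kha = (kh0a + (kh1a * r)))
    (H_Ca : Ca = ((c0a + (c1a * r)) + (c2a * (r * r))))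
    (H_Bea : Bea = ((b0a + (b1a * r)) + (b2a * (r * r))))
    (H_oUa : oUa = ((65536 : ℝ) - Ta))
    (H_TTa : TTa = (Ta * Ta))
    (H_spa : spa = ((4294967296 : ℝ) + TTa))
    (H_sma : sma = ((4294967296 : ℝ) - TTa))
    (H_oCa : oCa = (((4194304 : ℝ) * sma) - (Ca * spa)))
    (H_oBa : oBa = ((((549755813888 : ℝ) * Ta) * ((429496729600 : ℝ) - ((1 : ℝ) * (((65536 : ℝ) - Ta) * ((65536 : ℝ) - Ta))))) - ((429496729600 : ℝ) * (Bea * spa))))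
    (H_Eha : Eha = (((21474836480 : ℝ) + ((1966080 : ℝ) * Ta)) + ((275 : ℝ) * TTa)))
    (H_Nna : Nna = (((26 : ℝ) * Eha) + (880468295680 : ℝ)))
    (H_oKha : oKha = (((16384000000 : ℝ) * ((kha * spa) * Eha)) - ((4169138176 : ℝ) * ((Ta * sma) * Nna))))
    (H_A0la : A0la = ((4194304 : ℝ) + kla))
    (H_A0ha : A0ha = ((4194304 : ℝ) + kha))
    (H_A1la : A1la = (Ca - kla))
    (H_A1ha : A1ha = (Ca - kha))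
    (H_Tb : Tb = (t0b + (t1b * r)))
    (H_klb : klb = ((0 : ℝ) * r))
    (H_khb : khb = (kh0b + (kh1b * r)))
    (H_Cb : Cb = ((c0b + (c1b * r)) + (c2b * (r * r))))
    (H_Beb : Beb = ((b0b + (b1b * r)) + (b2b * (r * r))))
    (H_oUb : oUb = ((65536 : ℝ) - Tb))
    (H_TTb : TTb = (Tb * Tb))
    (H_spb : spb = ((4294967296 : ℝ) + TTb))
    (H_smb : smb = ((4294967296 : ℝ) - TTb))
    (H_oCb : oCb = (((4194304 : ℝ) * smb) - (Cb * spb)))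
    (H_oBb : oBb = ((((549755813888 : ℝ) * Tb) * ((429496729600 : ℝ) - ((1 : ℝ) * (((65536 : ℝ) - Tb) * ((65536 : ℝ) - Tb))))) - ((429496729600 : ℝ) * (Beb * spb))))
    (H_Ehb : Ehb = (((21474836480 : ℝ) + ((1966080 : ℝ) * Tb)) + ((275 : ℝ) * TTb)))
    (H_Nnb : Nnb = (((26 : ℝ) * Ehb) + (880468295680 : ℝ)))
    (H_oKhb : oKhb = (((16384000000 : ℝ) * ((khb * spb) * Ehb)) - ((4169138176 : ℝ) * ((Tb * smb) * Nnb))))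
    (H_A0lb : A0lb = ((4194304 : ℝ) + klb))
    (H_A0hb : A0hb = ((4194304 : ℝ) + khb))
    (H_A1lb : A1lb = (Cb - klb))
    (H_A1hb : A1hb = (Cb - khb))
    (H_L0 : L0 = ((((A0la * h0) + (A1la * h1)) + ((533000 : ℝ) * (Bea * r))) - ((4194304 : ℝ) * hm)))
    (H_oL0 : oL0 = (L0 - (r * r)))
    (H_R0 : R0 = ((((A0lb * c1) + (A1lb * c0)) + ((533000 : ℝ) * (Beb * r))) - ((4194304 : ℝ) * cm)))
    (H_oR0 : oR0 = (R0 - (r * r)))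
    (H_L1 : L1 = ((((A0ha * h0) + (A1ha * h1)) + ((533000 : ℝ) * (Bea * r))) - ((4194304 : ℝ) * hm)))
    (H_oL1 : oL1 = (L1 - (r * r)))
    (H_R1 : R1 = ((((A0hb * c1) + (A1hb * c0)) + ((533000 : ℝ) * (Beb * r))) - ((4194304 : ℝ) * cm)))
    (H_oR1 : oR1 = (R1 - (r * r)))
    (H_ola : ola = ((1 : ℝ) * la))
    (H_olab : olab = ((la * lb) - (1099511627776 : ℝ)))
    (H_s0_00 : s0_00 = ((e0_00 + (e1_00 * r)) + (e2_00 * (r * r))))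
    (H_s1_00 : s1_00 = ((f0_00 + (f1_00 * r)) + (f2_00 * (r * r))))
    (H_oS0_00 : oS0_00 = ((A0la * A1lb) - (s0_00 * s0_00)))
    (H_oS1_00 : oS1_00 = ((A1la * A0lb) - (s1_00 * s1_00)))
    (H_g_00 : g_00 = (((s0_00 * q0) + (s1_00 * q1)) - ((4194304 : ℝ) * qm)))
    (H_M_00 : M_00 = ((g_00 * ((la * L0) + (lb * R0))) + ((2097152 : ℝ) * (L0 * R0))))
    (H_s0_01 : s0_01 = ((e0_01 + (e1_01 * r)) + (e2_01 * (r * r))))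
    (H_s1_01 : s1_01 = ((f0_01 + (f1_01 * r)) + (f2_01 * (r * r))))
    (H_oS0_01 : oS0_01 = ((A0la * A1hb) - (s0_01 * s0_01)))
    (H_oS1_01 : oS1_01 = ((A1la * A0hb) - (s1_01 * s1_01)))
    (H_g_01 : g_01 = (((s0_01 * q0) + (s1_01 * q1)) - ((4194304 : ℝ) * qm)))
    (H_M_01 : M_01 = ((g_01 * ((la * L0) + (lb * R1))) + ((2097152 : ℝ) * (L0 * R1))))
    (H_s0_10 : s0_10 = ((e0_10 + (e1_10 * r)) + (e2_10 * (r * r))))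
    (H_s1_10 : s1_10 = ((f0_10 + (f1_10 * r)) + (f2_10 * (r * r))))
    (H_oS0_10 : oS0_10 = ((A0ha * A1lb) - (s0_10 * s0_10)))
    (H_oS1_10 : oS1_10 = ((A1ha * A0lb) - (s1_10 * s1_10)))
    (H_g_10 : g_10 = (((s0_10 * q0) + (s1_10 * q1)) - ((4194304 : ℝ) * qm)))
    (H_M_10 : M_10 = ((g_10 * ((la * L1) + (lb * R0))) + ((2097152 : ℝ) * (L1 * R0))))
    (H_s0_11 : s0_11 = ((e0_11 + (e1_11 * r)) + (e2_11 * (r * r))))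
    (H_s1_11 : s1_11 = ((f0_11 + (f1_11 * r)) + (f2_11 * (r * r))))
    (H_oS0_11 : oS0_11 = ((A0ha * A1hb) - (s0_11 * s0_11)))
    (H_oS1_11 : oS1_11 = ((A1ha * A0hb) - (s1_11 * s1_11)))
    (H_g_11 : g_11 = (((s0_11 * q0) + (s1_11 * q1)) - ((4194304 : ℝ) * qm)))
    (H_M_11 : M_11 = ((g_11 * ((la * L1) + (lb * R1))) + ((2097152 : ℝ) * (L1 * R1))))
    :
    (TaN p).val (xv x0 x1) (fun _ => 1) = 1 * Ta ∧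
    (oUaN p).val (xv x0 x1) (fun _ => 1) = 1 * oUa ∧
    (oCaN p).val (xv x0 x1) (fun _ => 1) = 1 * oCa ∧
    (oBaN p).val (xv x0 x1) (fun _ => 1) = 1 * oBa ∧
    (oKhaN p).val (xv x0 x1) (fun _ => 1) = 1 * oKha ∧
    (A1haN p).val (xv x0 x1) (fun _ => 1) = 1 * A1ha ∧
    (TbN p).val (xv x0 x1) (fun _ => 1) = 1 * Tb ∧
    (oUbN p).val (xv x0 x1) (fun _ => 1) = 1 * oUb ∧
    (oCbN p).val (xv x0 x1) (fun _ => 1) = 1 * oCb ∧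
    (oBbN p).val (xv x0 x1) (fun _ => 1) = 1 * oBb ∧
    (oKhbN p).val (xv x0 x1) (fun _ => 1) = 1 * oKhb ∧
    (A1hbN p).val (xv x0 x1) (fun _ => 1) = 1 * A1hb ∧
    (oL0N p).val (xv x0 x1) (fun _ => 1) = dc0_0 ^ 1 * dc1_1 ^ 1 * dcm_2 ^ 1 * oL0 ∧
    (oR0N p).val (xv x0 x1) (fun _ => 1) = dn0_3 ^ 1 * dn1_4 ^ 1 * dnm_5 ^ 1 * oR0 ∧
    (oL1N p).val (xv x0 x1) (fun _ => 1) = dc0_0 ^ 1 * dc1_1 ^ 1 * dcm_2 ^ 1 * oL1 ∧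
    (oR1N p).val (xv x0 x1) (fun _ => 1) = dn0_3 ^ 1 * dn1_4 ^ 1 * dnm_5 ^ 1 * oR1 ∧
    (olaN p).val (xv x0 x1) (fun _ => 1) = 1 * ola ∧
    (olabN p).val (xv x0 x1) (fun _ => 1) = 1 * olab ∧
    h1N.val (xv x0 x1) (fun _ => 1) = dc1_1 ^ 1 * h1 ∧
    c0N.val (xv x0 x1) (fun _ => 1) = dn0_3 ^ 1 * c0 ∧
    (oS0_00N p).val (xv x0 x1) (fun _ => 1) = 1 * oS0_00 ∧
    (oS1_00N p).val (xv x0 x1) (fun _ => 1) = 1 * oS1_00 ∧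
    (s0_00N p).val (xv x0 x1) (fun _ => 1) = 1 * s0_00 ∧
    (s1_00N p).val (xv x0 x1) (fun _ => 1) = 1 * s1_00 ∧
    (M_00N p).val (xv x0 x1) (fun _ => 1) = dc0_0 ^ 1 * dc1_1 ^ 1 * dcm_2 ^ 1 * dn0_3 ^ 1 * dn1_4 ^ 1 * dnm_5 ^ 1 * dv0_6 ^ 1 * dv1_7 ^ 1 * dvm_8 ^ 1 * M_00 ∧
    (oS0_01N p).val (xv x0 x1) (fun _ => 1) = 1 * oS0_01 ∧
    (oS1_01N p).val (xv x0 x1) (fun _ => 1) = 1 * oS1_01 ∧
    (s0_01N p).val (xv x0 x1) (fun _ => 1) = 1 * s0_01 ∧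
    (s1_01N p).val (xv x0 x1) (fun _ => 1) = 1 * s1_01 ∧
    (M_01N p).val (xv x0 x1) (fun _ => 1) = dc0_0 ^ 1 * dc1_1 ^ 1 * dcm_2 ^ 1 * dn0_3 ^ 1 * dn1_4 ^ 1 * dnm_5 ^ 1 * dv0_6 ^ 1 * dv1_7 ^ 1 * dvm_8 ^ 1 * M_01 ∧
    (oS0_10N p).val (xv x0 x1) (fun _ => 1) = 1 * oS0_10 ∧
    (oS1_10N p).val (xv x0 x1) (fun _ => 1) = 1 * oS1_10 ∧
    (s0_10N p).val (xv x0 x1) (fun _ => 1) = 1 * s0_10 ∧
    (s1_10N p).val (xv x0 x1) (fun _ => 1) = 1 * s1_10 ∧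
    (M_10N p).val (xv x0 x1) (fun _ => 1) = dc0_0 ^ 1 * dc1_1 ^ 1 * dcm_2 ^ 1 * dn0_3 ^ 1 * dn1_4 ^ 1 * dnm_5 ^ 1 * dv0_6 ^ 1 * dv1_7 ^ 1 * dvm_8 ^ 1 * M_10 ∧
    (oS0_11N p).val (xv x0 x1) (fun _ => 1) = 1 * oS0_11 ∧
    (oS1_11N p).val (xv x0 x1) (fun _ => 1) = 1 * oS1_11 ∧
    (s0_11N p).val (xv x0 x1) (fun _ => 1) = 1 * s0_11 ∧
    (s1_11N p).val (xv x0 x1) (fun _ => 1) = 1 * s1_11 ∧
    (M_11N p).val (xv x0 x1) (fun _ => 1) = dc0_0 ^ 1 * dc1_1 ^ 1 * dcm_2 ^ 1 * dn0_3 ^ 1 * dn1_4 ^ 1 * dnm_5 ^ 1 * dv0_6 ^ 1 * dv1_7 ^ 1 * dvm_8 ^ 1 * M_11 := by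
  set X := (xv x0 x1) with hX
  have e0 : X 0 = x0 := rfl
  have e1 : X 1 = x1 := rfl
  have vdc0_0N : dc0_0N.val X (fun _ => 1) = dc0_0 := by
    simp only [dc0_0N, n0N, mN, rN, Ex.val, e0, e1]; rw [H_dc0_0]; push_cast; ring
  have vdc1_1N : dc1_1N.val X (fun _ => 1) = dc1_1 := by
    simp only [dc1_1N, n1N, mN, rN, Ex.val, e0, e1]; rw [H_dc1_1]; push_cast; ring
  have vdcm_2N : dcm_2N.val X (fun _ => 1) = dcm_2 := by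
    simp only [dcm_2N, mN, Ex.val, e0, e1]; rw [H_dcm_2]; push_cast; ring
  have vdn0_3N : dn0_3N.val X (fun _ => 1) = dn0_3 := by
    simp only [dn0_3N, n0N, mN, rN, Ex.val, e0, e1]; rw [H_dn0_3]; push_cast; ring
  have vdn1_4N : dn1_4N.val X (fun _ => 1) = dn1_4 := by
    simp only [dn1_4N, n1N, mN, rN, Ex.val, e0, e1]; rw [H_dn1_4]; push_cast; ring
  have vdnm_5N : dnm_5N.val X (fun _ => 1) = dnm_5 := by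
    simp only [dnm_5N, mN, Ex.val, e0, e1]; rw [H_dnm_5]; push_cast; ring
  have vdv0_6N : dv0_6N.val X (fun _ => 1) = dv0_6 := by
    simp only [dv0_6N, n0N, mN, rN, Ex.val, e0, e1]; rw [H_dv0_6]; push_cast; ring
  have vdv1_7N : dv1_7N.val X (fun _ => 1) = dv1_7 := by
    simp only [dv1_7N, n1N, mN, rN, Ex.val, e0, e1]; rw [H_dv1_7]; push_cast; ring
  have vdvm_8N : dvm_8N.val X (fun _ => 1) = dvm_8 := by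
    simp only [dvm_8N, mN, Ex.val, e0, e1]; rw [H_dvm_8]; push_cast; ring
  have vmN : mN.val X (fun _ => 1) = 1 * m := by
    simp only [mN, Ex.val, e0, e1]; rw [← H_m]; push_cast; ring
  have vrN : rN.val X (fun _ => 1) = 1 * r := by
    simp only [rN, Ex.val, e0, e1]; rw [← H_r]; push_cast; ring
  have vuc0_0N : uc0_0N.val X (fun _ => 1) = dc0_0 ^ 1 * uc0_0 := by
    simp only [uc0_0N, Ex.val, e0, e1]; rw [← H_uc0_0]; push_cast; ring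
  have vuc1_1N : uc1_1N.val X (fun _ => 1) = dc1_1 ^ 1 * uc1_1 := by
    simp only [uc1_1N, Ex.val, e0, e1]; rw [← H_uc1_1]; push_cast; ring
  have vucm_2N : ucm_2N.val X (fun _ => 1) = dcm_2 ^ 1 * ucm_2 := by
    simp only [ucm_2N, Ex.val, e0, e1]; rw [← H_ucm_2]; push_cast; ring
  have vun0_3N : un0_3N.val X (fun _ => 1) = dn0_3 ^ 1 * un0_3 := by
    simp only [un0_3N, Ex.val, e0, e1]; rw [← H_un0_3]; push_cast; ring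
  have vun1_4N : un1_4N.val X (fun _ => 1) = dn1_4 ^ 1 * un1_4 := by
    simp only [un1_4N, Ex.val, e0, e1]; rw [← H_un1_4]; push_cast; ring
  have vunm_5N : unm_5N.val X (fun _ => 1) = dnm_5 ^ 1 * unm_5 := by
    simp only [unm_5N, Ex.val, e0, e1]; rw [← H_unm_5]; push_cast; ring
  have vuv0_6N : uv0_6N.val X (fun _ => 1) = dv0_6 ^ 1 * uv0_6 := by
    simp only [uv0_6N, Ex.val, e0, e1]; rw [← H_uv0_6]; push_cast; ring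
  have vuv1_7N : uv1_7N.val X (fun _ => 1) = dv1_7 ^ 1 * uv1_7 := by
    simp only [uv1_7N, Ex.val, e0, e1]; rw [← H_uv1_7]; push_cast; ring
  have vuvm_8N : uvm_8N.val X (fun _ => 1) = dvm_8 ^ 1 * uvm_8 := by
    simp only [uvm_8N, Ex.val, e0, e1]; rw [← H_uvm_8]; push_cast; ring
  clear_value X
  have vn0N : n0N.val X (fun _ => 1) = 1 * n0 := by
    simp only [n0N, Ex.val, vmN, vrN]; rw [H_n0]; push_cast; ring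
  have vn1N : n1N.val X (fun _ => 1) = 1 * n1 := by
    simp only [n1N, Ex.val, vmN, vrN]; rw [H_n1]; push_cast; ring
  have vh0N : h0N.val X (fun _ => 1) = dc0_0 ^ 1 * h0 := by
    simp only [h0N, Ex.val, vrN, vn0N, vdc0_0N, vuc0_0N]; rw [H_h0]; push_cast; ring
  have vh1N : h1N.val X (fun _ => 1) = dc1_1 ^ 1 * h1 := by
    simp only [h1N, Ex.val, vrN, vn1N, vdc1_1N, vuc1_1N]; rw [H_h1]; push_cast; ring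
  have vhmN : hmN.val X (fun _ => 1) = dcm_2 ^ 1 * hm := by
    simp only [hmN, Ex.val, vmN, vdcm_2N, vucm_2N]; rw [H_hm]; push_cast; ring
  have vc0N : c0N.val X (fun _ => 1) = dn0_3 ^ 1 * c0 := by
    simp only [c0N, Ex.val, vrN, vn0N, vdn0_3N, vun0_3N]; rw [H_c0]; push_cast; ring
  have vc1N : c1N.val X (fun _ => 1) = dn1_4 ^ 1 * c1 := by
    simp only [c1N, Ex.val, vrN, vn1N, vdn1_4N, vun1_4N]; rw [H_c1]; push_cast; ring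
  have vcmN : cmN.val X (fun _ => 1) = dnm_5 ^ 1 * cm := by
    simp only [cmN, Ex.val, vmN, vdnm_5N, vunm_5N]; rw [H_cm]; push_cast; ring
  have vz20N : z20N.val X (fun _ => 1) = 1 * z20 := by
    simp only [z20N, Ex.val, vn0N]; rw [H_z20]; push_cast; ring
  have vq0N : q0N.val X (fun _ => 1) = dv0_6 ^ 1 * q0 := by
    simp only [q0N, Ex.val, vrN, vn0N, vdv0_6N, vz20N, vuv0_6N]; rw [H_q0]; push_cast; ring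
  have vz21N : z21N.val X (fun _ => 1) = 1 * z21 := by
    simp only [z21N, Ex.val, vn1N]; rw [H_z21]; push_cast; ring
  have vq1N : q1N.val X (fun _ => 1) = dv1_7 ^ 1 * q1 := by
    simp only [q1N, Ex.val, vrN, vn1N, vdv1_7N, vz21N, vuv1_7N]; rw [H_q1]; push_cast; ring
  have vz2mN : z2mN.val X (fun _ => 1) = 1 * z2m := by
    simp only [z2mN, Ex.val, vmN]; rw [H_z2m]; push_cast; ring
  have vqmN : qmN.val X (fun _ => 1) = dvm_8 ^ 1 * qm := by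
    simp only [qmN, Ex.val, vmN, vdvm_8N, vz2mN, vuvm_8N]; rw [H_qm]; push_cast; ring
  have vTaN : (TaN p).val X (fun _ => 1) = 1 * Ta := by
    simp only [TaN, Ex.val, vrN]; rw [H_Ta]; simp only [← H_t0a, ← H_t1a]; push_cast; ring
  have vklaN : klaN.val X (fun _ => 1) = 1 * kla := by
    simp only [klaN, Ex.val, vrN]; rw [H_kla]; push_cast; ring
  have vkhaN : (khaN p).val X (fun _ => 1) = 1 * kha := by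
    simp only [khaN, Ex.val, vrN]; rw [H_kha]; simp only [← H_kh0a, ← H_kh1a]; push_cast; ring
  have vCaN : (CaN p).val X (fun _ => 1) = 1 * Ca := by
    simp only [CaN, Ex.val, vrN]; rw [H_Ca]; simp only [← H_c0a, ← H_c1a, ← H_c2a]; push_cast; ring
  have vBeaN : (BeaN p).val X (fun _ => 1) = 1 * Bea := by
    simp only [BeaN, Ex.val, vrN]; rw [H_Bea]; simp only [← H_b0a, ← H_b1a, ← H_b2a]; push_cast; ring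
  have voUaN : (oUaN p).val X (fun _ => 1) = 1 * oUa := by
    simp only [oUaN, Ex.val, vTaN]; rw [H_oUa]; push_cast; ring
  have vTTaN : (TTaN p).val X (fun _ => 1) = 1 * TTa := by
    simp only [TTaN, Ex.val, vTaN]; rw [H_TTa]; push_cast; ring
  have vspaN : (spaN p).val X (fun _ => 1) = 1 * spa := by
    simp only [spaN, Ex.val, vTTaN]; rw [H_spa]; push_cast; ring
  have vsmaN : (smaN p).val X (fun _ => 1) = 1 * sma := by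
    simp only [smaN, Ex.val, vTTaN]; rw [H_sma]; push_cast; ring
  have voCaN : (oCaN p).val X (fun _ => 1) = 1 * oCa := by
    simp only [oCaN, Ex.val, vsmaN, vCaN, vspaN]; rw [H_oCa]; push_cast; ring
  have voBaN : (oBaN p).val X (fun _ => 1) = 1 * oBa := by
    simp only [oBaN, Ex.val, vTaN, vBeaN, vspaN]; rw [H_oBa]; push_cast; ring
  have vEhaN : (EhaN p).val X (fun _ => 1) = 1 * Eha := by
    simp only [EhaN, Ex.val, vTaN, vTTaN]; rw [H_Eha]; push_cast; ring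
  have vNnaN : (NnaN p).val X (fun _ => 1) = 1 * Nna := by
    simp only [NnaN, Ex.val, vEhaN]; rw [H_Nna]; push_cast; ring
  have voKhaN : (oKhaN p).val X (fun _ => 1) = 1 * oKha := by
    simp only [oKhaN, Ex.val, vkhaN, vspaN, vEhaN, vTaN, vsmaN, vNnaN]; rw [H_oKha]; push_cast; ring
  have vA0laN : A0laN.val X (fun _ => 1) = 1 * A0la := by
    simp only [A0laN, Ex.val, vklaN]; rw [H_A0la]; push_cast; ring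
  have vA0haN : (A0haN p).val X (fun _ => 1) = 1 * A0ha := by
    simp only [A0haN, Ex.val, vkhaN]; rw [H_A0ha]; push_cast; ring
  have vA1laN : (A1laN p).val X (fun _ => 1) = 1 * A1la := by
    simp only [A1laN, Ex.val, vCaN, vklaN]; rw [H_A1la]; push_cast; ring
  have vA1haN : (A1haN p).val X (fun _ => 1) = 1 * A1ha := by
    simp only [A1haN, Ex.val, vCaN, vkhaN]; rw [H_A1ha]; push_cast; ring
  have vTbN : (TbN p).val X (fun _ => 1) = 1 * Tb := by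
    simp only [TbN, Ex.val, vrN]; rw [H_Tb]; simp only [← H_t0b, ← H_t1b]; push_cast; ring
  have vklbN : klbN.val X (fun _ => 1) = 1 * klb := by
    simp only [klbN, Ex.val, vrN]; rw [H_klb]; push_cast; ring
  have vkhbN : (khbN p).val X (fun _ => 1) = 1 * khb := by
    simp only [khbN, Ex.val, vrN]; rw [H_khb]; simp only [← H_kh0b, ← H_kh1b]; push_cast; ring
  have vCbN : (CbN p).val X (fun _ => 1) = 1 * Cb := by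
    simp only [CbN, Ex.val, vrN]; rw [H_Cb]; simp only [← H_c0b, ← H_c1b, ← H_c2b]; push_cast; ring
  have vBebN : (BebN p).val X (fun _ => 1) = 1 * Beb := by
    simp only [BebN, Ex.val, vrN]; rw [H_Beb]; simp only [← H_b0b, ← H_b1b, ← H_b2b]; push_cast; ring
  have voUbN : (oUbN p).val X (fun _ => 1) = 1 * oUb := by
    simp only [oUbN, Ex.val, vTbN]; rw [H_oUb]; push_cast; ring
  have vTTbN : (TTbN p).val X (fun _ => 1) = 1 * TTb := by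
    simp only [TTbN, Ex.val, vTbN]; rw [H_TTb]; push_cast; ring
  have vspbN : (spbN p).val X (fun _ => 1) = 1 * spb := by
    simp only [spbN, Ex.val, vTTbN]; rw [H_spb]; push_cast; ring
  have vsmbN : (smbN p).val X (fun _ => 1) = 1 * smb := by
    simp only [smbN, Ex.val, vTTbN]; rw [H_smb]; push_cast; ring
  have voCbN : (oCbN p).val X (fun _ => 1) = 1 * oCb := by
    simp only [oCbN, Ex.val, vsmbN, vCbN, vspbN]; rw [H_oCb]; push_cast; ring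
  have voBbN : (oBbN p).val X (fun _ => 1) = 1 * oBb := by
    simp only [oBbN, Ex.val, vTbN, vBebN, vspbN]; rw [H_oBb]; push_cast; ring
  have vEhbN : (EhbN p).val X (fun _ => 1) = 1 * Ehb := by
    simp only [EhbN, Ex.val, vTbN, vTTbN]; rw [H_Ehb]; push_cast; ring
  have vNnbN : (NnbN p).val X (fun _ => 1) = 1 * Nnb := by
    simp only [NnbN, Ex.val, vEhbN]; rw [H_Nnb]; push_cast; ring
  have voKhbN : (oKhbN p).val X (fun _ => 1) = 1 * oKhb := by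
    simp only [oKhbN, Ex.val, vkhbN, vspbN, vEhbN, vTbN, vsmbN, vNnbN]; rw [H_oKhb]; push_cast; ring
  have vA0lbN : A0lbN.val X (fun _ => 1) = 1 * A0lb := by
    simp only [A0lbN, Ex.val, vklbN]; rw [H_A0lb]; push_cast; ring
  have vA0hbN : (A0hbN p).val X (fun _ => 1) = 1 * A0hb := by
    simp only [A0hbN, Ex.val, vkhbN]; rw [H_A0hb]; push_cast; ring
  have vA1lbN : (A1lbN p).val X (fun _ => 1) = 1 * A1lb := by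
    simp only [A1lbN, Ex.val, vCbN, vklbN]; rw [H_A1lb]; push_cast; ring
  have vA1hbN : (A1hbN p).val X (fun _ => 1) = 1 * A1hb := by
    simp only [A1hbN, Ex.val, vCbN, vkhbN]; rw [H_A1hb]; push_cast; ring
  have vL0N : (L0N p).val X (fun _ => 1) = dc0_0 ^ 1 * dc1_1 ^ 1 * dcm_2 ^ 1 * L0 := by
    simp only [L0N, Ex.val, vdcm_2N, vdc1_1N, vA0laN, vh0N, vdc0_0N, vA1laN, vh1N, vBeaN, vrN, vhmN]; rw [H_L0]; push_cast; ring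
  have voL0N : (oL0N p).val X (fun _ => 1) = dc0_0 ^ 1 * dc1_1 ^ 1 * dcm_2 ^ 1 * oL0 := by
    simp only [oL0N, Ex.val, vL0N, vdcm_2N, vdc1_1N, vdc0_0N, vrN]; rw [H_oL0]; push_cast; ring
  have vR0N : (R0N p).val X (fun _ => 1) = dn0_3 ^ 1 * dn1_4 ^ 1 * dnm_5 ^ 1 * R0 := by
    simp only [R0N, Ex.val, vdnm_5N, vdn0_3N, vA0lbN, vc1N, vdn1_4N, vA1lbN, vc0N, vBebN, vrN, vcmN]; rw [H_R0]; push_cast; ring
  have voR0N : (oR0N p).val X (fun _ => 1) = dn0_3 ^ 1 * dn1_4 ^ 1 * dnm_5 ^ 1 * oR0 := by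
    simp only [oR0N, Ex.val, vR0N, vdnm_5N, vdn1_4N, vdn0_3N, vrN]; rw [H_oR0]; push_cast; ring
  have vL1N : (L1N p).val X (fun _ => 1) = dc0_0 ^ 1 * dc1_1 ^ 1 * dcm_2 ^ 1 * L1 := by
    simp only [L1N, Ex.val, vdcm_2N, vdc1_1N, vA0haN, vh0N, vdc0_0N, vA1haN, vh1N, vBeaN, vrN, vhmN]; rw [H_L1]; push_cast; ring
  have voL1N : (oL1N p).val X (fun _ => 1) = dc0_0 ^ 1 * dc1_1 ^ 1 * dcm_2 ^ 1 * oL1 := by
    simp only [oL1N, Ex.val, vL1N, vdcm_2N, vdc1_1N, vdc0_0N, vrN]; rw [H_oL1]; push_cast; ring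
  have vR1N : (R1N p).val X (fun _ => 1) = dn0_3 ^ 1 * dn1_4 ^ 1 * dnm_5 ^ 1 * R1 := by
    simp only [R1N, Ex.val, vdnm_5N, vdn0_3N, vA0hbN, vc1N, vdn1_4N, vA1hbN, vc0N, vBebN, vrN, vcmN]; rw [H_R1]; push_cast; ring
  have voR1N : (oR1N p).val X (fun _ => 1) = dn0_3 ^ 1 * dn1_4 ^ 1 * dnm_5 ^ 1 * oR1 := by
    simp only [oR1N, Ex.val, vR1N, vdnm_5N, vdn1_4N, vdn0_3N, vrN]; rw [H_oR1]; push_cast; ring
  have volaN : (olaN p).val X (fun _ => 1) = 1 * ola := by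
    simp only [olaN, Ex.val]; rw [H_ola]; simp only [← H_la]; push_cast; ring
  have volabN : (olabN p).val X (fun _ => 1) = 1 * olab := by
    simp only [olabN, Ex.val]; rw [H_olab]; simp only [← H_la, ← H_lb]; push_cast; ring
  have vs0_00N : (s0_00N p).val X (fun _ => 1) = 1 * s0_00 := by
    simp only [s0_00N, Ex.val, vrN]; rw [H_s0_00]; simp only [← H_e0_00, ← H_e1_00, ← H_e2_00]; push_cast; ring
  have vs1_00N : (s1_00N p).val X (fun _ => 1) = 1 * s1_00 := by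
    simp only [s1_00N, Ex.val, vrN]; rw [H_s1_00]; simp only [← H_f0_00, ← H_f1_00, ← H_f2_00]; push_cast; ring
  have voS0_00N : (oS0_00N p).val X (fun _ => 1) = 1 * oS0_00 := by
    simp only [oS0_00N, Ex.val, vA0laN, vA1lbN, vs0_00N]; rw [H_oS0_00]; push_cast; ring
  have voS1_00N : (oS1_00N p).val X (fun _ => 1) = 1 * oS1_00 := by
    simp only [oS1_00N, Ex.val, vA1laN, vA0lbN, vs1_00N]; rw [H_oS1_00]; push_cast; ring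
  have vg_00N : (g_00N p).val X (fun _ => 1) = dv0_6 ^ 1 * dv1_7 ^ 1 * dvm_8 ^ 1 * g_00 := by
    simp only [g_00N, Ex.val, vdvm_8N, vdv1_7N, vs0_00N, vq0N, vdv0_6N, vs1_00N, vq1N, vqmN]; rw [H_g_00]; push_cast; ring
  have vM_00N : (M_00N p).val X (fun _ => 1) = dc0_0 ^ 1 * dc1_1 ^ 1 * dcm_2 ^ 1 * dn0_3 ^ 1 * dn1_4 ^ 1 * dnm_5 ^ 1 * dv0_6 ^ 1 * dv1_7 ^ 1 * dvm_8 ^ 1 * M_00 := by
    simp only [M_00N, Ex.val, vg_00N, vdnm_5N, vdn1_4N, vdn0_3N, vL0N, vdcm_2N, vdc1_1N, vdc0_0N, vR0N, vdvm_8N, vdv1_7N, vdv0_6N]; rw [H_M_00]; simp only [← H_la, ← H_lb]; push_cast; ring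
  have vs0_01N : (s0_01N p).val X (fun _ => 1) = 1 * s0_01 := by
    simp only [s0_01N, Ex.val, vrN]; rw [H_s0_01]; simp only [← H_e0_01, ← H_e1_01, ← H_e2_01]; push_cast; ring
  have vs1_01N : (s1_01N p).val X (fun _ => 1) = 1 * s1_01 := by
    simp only [s1_01N, Ex.val, vrN]; rw [H_s1_01]; simp only [← H_f0_01, ← H_f1_01, ← H_f2_01]; push_cast; ring
  have voS0_01N : (oS0_01N p).val X (fun _ => 1) = 1 * oS0_01 := by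
    simp only [oS0_01N, Ex.val, vA0laN, vA1hbN, vs0_01N]; rw [H_oS0_01]; push_cast; ring
  have voS1_01N : (oS1_01N p).val X (fun _ => 1) = 1 * oS1_01 := by
    simp only [oS1_01N, Ex.val, vA1laN, vA0hbN, vs1_01N]; rw [H_oS1_01]; push_cast; ring
  have vg_01N : (g_01N p).val X (fun _ => 1) = dv0_6 ^ 1 * dv1_7 ^ 1 * dvm_8 ^ 1 * g_01 := by
    simp only [g_01N, Ex.val, vdvm_8N, vdv1_7N, vs0_01N, vq0N, vdv0_6N, vs1_01N, vq1N, vqmN]; rw [H_g_01]; push_cast; ring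
  have vM_01N : (M_01N p).val X (fun _ => 1) = dc0_0 ^ 1 * dc1_1 ^ 1 * dcm_2 ^ 1 * dn0_3 ^ 1 * dn1_4 ^ 1 * dnm_5 ^ 1 * dv0_6 ^ 1 * dv1_7 ^ 1 * dvm_8 ^ 1 * M_01 := by
    simp only [M_01N, Ex.val, vg_01N, vdnm_5N, vdn1_4N, vdn0_3N, vL0N, vdcm_2N, vdc1_1N, vdc0_0N, vR1N, vdvm_8N, vdv1_7N, vdv0_6N]; rw [H_M_01]; simp only [← H_la, ← H_lb]; push_cast; ring
  have vs0_10N : (s0_10N p).val X (fun _ => 1) = 1 * s0_10 := by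
    simp only [s0_10N, Ex.val, vrN]; rw [H_s0_10]; simp only [← H_e0_10, ← H_e1_10, ← H_e2_10]; push_cast; ring
  have vs1_10N : (s1_10N p).val X (fun _ => 1) = 1 * s1_10 := by
    simp only [s1_10N, Ex.val, vrN]; rw [H_s1_10]; simp only [← H_f0_10, ← H_f1_10, ← H_f2_10]; push_cast; ring
  have voS0_10N : (oS0_10N p).val X (fun _ => 1) = 1 * oS0_10 := by
    simp only [oS0_10N, Ex.val, vA0haN, vA1lbN, vs0_10N]; rw [H_oS0_10]; push_cast; ring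
  have voS1_10N : (oS1_10N p).val X (fun _ => 1) = 1 * oS1_10 := by
    simp only [oS1_10N, Ex.val, vA1haN, vA0lbN, vs1_10N]; rw [H_oS1_10]; push_cast; ring
  have vg_10N : (g_10N p).val X (fun _ => 1) = dv0_6 ^ 1 * dv1_7 ^ 1 * dvm_8 ^ 1 * g_10 := by
    simp only [g_10N, Ex.val, vdvm_8N, vdv1_7N, vs0_10N, vq0N, vdv0_6N, vs1_10N, vq1N, vqmN]; rw [H_g_10]; push_cast; ring
  have vM_10N : (M_10N p).val X (fun _ => 1) = dc0_0 ^ 1 * dc1_1 ^ 1 * dcm_2 ^ 1 * dn0_3 ^ 1 * dn1_4 ^ 1 * dnm_5 ^ 1 * dv0_6 ^ 1 * dv1_7 ^ 1 * dvm_8 ^ 1 * M_10 := by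
    simp only [M_10N, Ex.val, vg_10N, vdnm_5N, vdn1_4N, vdn0_3N, vL1N, vdcm_2N, vdc1_1N, vdc0_0N, vR0N, vdvm_8N, vdv1_7N, vdv0_6N]; rw [H_M_10]; simp only [← H_la, ← H_lb]; push_cast; ring
  have vs0_11N : (s0_11N p).val X (fun _ => 1) = 1 * s0_11 := by
    simp only [s0_11N, Ex.val, vrN]; rw [H_s0_11]; simp only [← H_e0_11, ← H_e1_11, ← H_e2_11]; push_cast; ring
  have vs1_11N : (s1_11N p).val X (fun _ => 1) = 1 * s1_11 := by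
    simp only [s1_11N, Ex.val, vrN]; rw [H_s1_11]; simp only [← H_f0_11, ← H_f1_11, ← H_f2_11]; push_cast; ring
  have voS0_11N : (oS0_11N p).val X (fun _ => 1) = 1 * oS0_11 := by
    simp only [oS0_11N, Ex.val, vA0haN, vA1hbN, vs0_11N]; rw [H_oS0_11]; push_cast; ring
  have voS1_11N : (oS1_11N p).val X (fun _ => 1) = 1 * oS1_11 := by
    simp only [oS1_11N, Ex.val, vA1haN, vA0hbN, vs1_11N]; rw [H_oS1_11]; push_cast; ring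
  have vg_11N : (g_11N p).val X (fun _ => 1) = dv0_6 ^ 1 * dv1_7 ^ 1 * dvm_8 ^ 1 * g_11 := by
    simp only [g_11N, Ex.val, vdvm_8N, vdv1_7N, vs0_11N, vq0N, vdv0_6N, vs1_11N, vq1N, vqmN]; rw [H_g_11]; push_cast; ring
  have vM_11N : (M_11N p).val X (fun _ => 1) = dc0_0 ^ 1 * dc1_1 ^ 1 * dcm_2 ^ 1 * dn0_3 ^ 1 * dn1_4 ^ 1 * dnm_5 ^ 1 * dv0_6 ^ 1 * dv1_7 ^ 1 * dvm_8 ^ 1 * M_11 := by
    simp only [M_11N, Ex.val, vg_11N, vdnm_5N, vdn1_4N, vdn0_3N, vL1N, vdcm_2N, vdc1_1N, vdc0_0N, vR1N, vdvm_8N, vdv1_7N, vdv0_6N]; rw [H_M_11]; simp only [← H_la, ← H_lb]; push_cast; ring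
  exact ⟨vTaN, voUaN, voCaN, voBaN, voKhaN, vA1haN, vTbN, voUbN, voCbN, voBbN, voKhbN, vA1hbN, voL0N, voR0N, voL1N, voR1N, volaN, volabN, vh1N, vc0N, voS0_00N, voS1_00N, vs0_00N, vs1_00N, vM_00N, voS0_01N, voS1_01N, vs0_01N, vs1_01N, vM_01N, voS0_10N, voS1_10N, vs0_10N, vs1_10N, vM_10N, voS0_11N, voS1_11N, vs0_11N, vs1_11N, vM_11N⟩

theorem main (x0 x1 dc0_0 dc1_1 dcm_2 dn0_3 dn1_4 dnm_5 dv0_6 dv1_7 dvm_8 m r uc0_0 uc1_1 ucm_2 un0_3 un1_4 unm_5 uv0_6 uv1_7 uvm_8 : ℝ) (hx0 : (0 : ℝ) / 32768 ≤ x0) (hx0' : x0 ≤ (16384 : ℝ) / 32768) (hx1 : (0 : ℝ) / 32768 ≤ x1) (hx1' : x1 ≤ (32768 : ℝ) / 32768)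
    (P_dc0_0 : 0 < dc0_0)
    (P_dc1_1 : 0 < dc1_1)
    (P_dcm_2 : 0 < dcm_2)
    (P_dn0_3 : 0 < dn0_3)
    (P_dn1_4 : 0 < dn1_4)
    (P_dnm_5 : 0 < dnm_5)
    (P_dv0_6 : 0 < dv0_6)
    (P_dv1_7 : 0 < dv1_7)
    (P_dvm_8 : 0 < dvm_8)
    (H_dc0_0 : dc0_0 = (((1 : ℝ) * ((1 : ℝ) * (51 : ℝ))) - ((50 : ℝ) * (x0 * (((1 : ℝ) * (1 : ℝ)) + x1)))))
    (H_dc1_1 : dc1_1 = (((1 : ℝ) * ((1 : ℝ) * (51 : ℝ))) - ((50 : ℝ) * (x0 * (((1 : ℝ) * (1 : ℝ)) - x1)))))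
    (H_dcm_2 : dcm_2 = (((1 : ℝ) * (51 : ℝ)) - ((50 : ℝ) * x0)))
    (H_dn0_3 : dn0_3 = (((50 : ℝ) * (x0 * (((1 : ℝ) * (1 : ℝ)) + x1))) + ((1 : ℝ) * ((1 : ℝ) * (1 : ℝ)))))
    (H_dn1_4 : dn1_4 = (((50 : ℝ) * (x0 * (((1 : ℝ) * (1 : ℝ)) - x1))) + ((1 : ℝ) * ((1 : ℝ) * (1 : ℝ)))))
    (H_dnm_5 : dnm_5 = (((50 : ℝ) * x0) + ((1 : ℝ) * (1 : ℝ))))
    (H_dv0_6 : dv0_6 = (((160 : ℝ) * ((x0 * (((1 : ℝ) * (1 : ℝ)) + x1)) * (((1 : ℝ) * ((1 : ℝ) * (1 : ℝ))) - (x0 * (((1 : ℝ) * (1 : ℝ)) + x1))))) + ((1 : ℝ) * ((1 : ℝ) * (1 : ℝ)))))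
    (H_dv1_7 : dv1_7 = (((160 : ℝ) * ((x0 * (((1 : ℝ) * (1 : ℝ)) - x1)) * (((1 : ℝ) * ((1 : ℝ) * (1 : ℝ))) - (x0 * (((1 : ℝ) * (1 : ℝ)) - x1))))) + ((1 : ℝ) * ((1 : ℝ) * (1 : ℝ)))))
    (H_dvm_8 : dvm_8 = (((160 : ℝ) * (x0 * (((1 : ℝ) * (1 : ℝ)) - x0))) + ((1 : ℝ) * (1 : ℝ))))
    (H_m : x0 = 1 * m)
    (H_r : x1 = 1 * r)
    (H_uc0_0 : (1 : ℝ) = dc0_0 ^ 1 * uc0_0)
    (H_uc1_1 : (1 : ℝ) = dc1_1 ^ 1 * uc1_1)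
    (H_ucm_2 : (1 : ℝ) = dcm_2 ^ 1 * ucm_2)
    (H_un0_3 : (1 : ℝ) = dn0_3 ^ 1 * un0_3)
    (H_un1_4 : (1 : ℝ) = dn1_4 ^ 1 * un1_4)
    (H_unm_5 : (1 : ℝ) = dnm_5 ^ 1 * unm_5)
    (H_uv0_6 : (1 : ℝ) = dv0_6 ^ 1 * uv0_6)
    (H_uv1_7 : (1 : ℝ) = dv1_7 ^ 1 * uv1_7)
    (H_uvm_8 : (1 : ℝ) = dvm_8 ^ 1 * uvm_8)
    :
    ∃ p ∈ plist, ∀ (t0a t1a kh0a kh1a c0a c1a c2a b0a b1a b2a t0b t1b kh0b kh1b c0b c1b c2b b0b b1b b2b la lb e0_00 e1_00 e2_00 f0_00 f1_00 f2_00 e0_01 e1_01 e2_01 f0_01 f1_01 f2_01 e0_10 e1_10 e2_10 f0_10 f1_10 f2_10 e0_11 e1_11 e2_11 f0_11 f1_11 f2_11 n0 n1 h0 h1 hm c0 c1 cm z20 q0 z21 q1 z2m qm Ta kla kha Ca Bea oUa TTa spa sma oCa oBa Eha Nna oKha A0la A0ha A1la A1ha Tb klb khb Cb Beb oUb TTb spb smb oCb oBb Ehb Nnb oKhb A0lb A0hb A1lb A1hb L0 oL0 R0 oR0 L1 oL1 R1 oR1 ola olab s0_00 s1_00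 oS0_00 oS1_00 g_00 M_00 s0_01 s1_01 oS0_01 oS1_01 g_01 M_01 s0_10 s1_10 oS0_10 oS1_10 g_10 M_10 s0_11 s1_11 oS0_11 oS1_11 g_11 M_11 : ℝ)
      (H_t0a : t0a = ((dg p 0 : ℤ) : ℝ))
      (H_t1a : t1a = ((dg p 1 : ℤ) : ℝ))
      (H_kh0a : kh0a = ((dg p 2 : ℤ) : ℝ))
      (H_kh1a : kh1a = ((dg p 3 : ℤ) : ℝ))
      (H_c0a : c0a = ((dg p 4 : ℤ) : ℝ))
      (H_c1a : c1a = ((dg p 5 : ℤ) : ℝ))
      (H_c2a : c2a = ((dg p 6 : ℤ) : ℝ))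
      (H_b0a : b0a = ((dg p 7 : ℤ) : ℝ))
      (H_b1a : b1a = ((dg p 8 : ℤ) : ℝ))
      (H_b2a : b2a = ((dg p 9 : ℤ) : ℝ))
      (H_t0b : t0b = ((dg p 10 : ℤ) : ℝ))
      (H_t1b : t1b = ((dg p 11 : ℤ) : ℝ))
      (H_kh0b : kh0b = ((dg p 12 : ℤ) : ℝ))
      (H_kh1b : kh1b = ((dg p 13 : ℤ) : ℝ))
      (H_c0b : c0b = ((dg p 14 : ℤ) : ℝ))
      (H_c1b : c1b = ((dg p 15 : ℤ) : ℝ))
      (H_c2b : c2b = ((dg p 16 : ℤ) : ℝ))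
      (H_b0b : b0b = ((dg p 17 : ℤ) : ℝ))
      (H_b1b : b1b = ((dg p 18 : ℤ) : ℝ))
      (H_b2b : b2b = ((dg p 19 : ℤ) : ℝ))
      (H_la : la = ((dg p 20 : ℤ) : ℝ))
      (H_lb : lb = ((dg p 21 : ℤ) : ℝ))
      (H_e0_00 : e0_00 = ((dg p 22 : ℤ) : ℝ))
      (H_e1_00 : e1_00 = ((dg p 23 : ℤ) : ℝ))
      (H_e2_00 : e2_00 = ((dg p 24 : ℤ) : ℝ))
      (H_f0_00 : f0_00 = ((dg p 25 : ℤ) : ℝ))
      (H_f1_00 : f1_00 = ((dg p 26 : ℤ) : ℝ))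
      (H_f2_00 : f2_00 = ((dg p 27 : ℤ) : ℝ))
      (H_e0_01 : e0_01 = ((dg p 28 : ℤ) : ℝ))
      (H_e1_01 : e1_01 = ((dg p 29 : ℤ) : ℝ))
      (H_e2_01 : e2_01 = ((dg p 30 : ℤ) : ℝ))
      (H_f0_01 : f0_01 = ((dg p 31 : ℤ) : ℝ))
      (H_f1_01 : f1_01 = ((dg p 32 : ℤ) : ℝ))
      (H_f2_01 : f2_01 = ((dg p 33 : ℤ) : ℝ))
      (H_e0_10 : e0_10 = ((dg p 34 : ℤ) : ℝ))
      (H_e1_10 : e1_10 = ((dg p 35 : ℤ) : ℝ))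
      (H_e2_10 : e2_10 = ((dg p 36 : ℤ) : ℝ))
      (H_f0_10 : f0_10 = ((dg p 37 : ℤ) : ℝ))
      (H_f1_10 : f1_10 = ((dg p 38 : ℤ) : ℝ))
      (H_f2_10 : f2_10 = ((dg p 39 : ℤ) : ℝ))
      (H_e0_11 : e0_11 = ((dg p 40 : ℤ) : ℝ))
      (H_e1_11 : e1_11 = ((dg p 41 : ℤ) : ℝ))
      (H_e2_11 : e2_11 = ((dg p 42 : ℤ) : ℝ))
      (H_f0_11 : f0_11 = ((dg p 43 : ℤ) : ℝ))
      (H_f1_11 : f1_11 = ((dg p 44 : ℤ) : ℝ))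
      (H_f2_11 : f2_11 = ((dg p 45 : ℤ) : ℝ))
      (H_n0 : n0 = (m * ((1 : ℝ) + r)))
      (H_n1 : n1 = (m * ((1 : ℝ) - r)))
      (H_h0 : h0 = (((1 : ℝ) + r) * (((1 : ℝ) - n0) * ((((((((((71422 : ℝ) * ((1 : ℝ) - ((2 : ℝ) * n0))) + (30914 : ℝ)) * ((1 : ℝ) - ((2 : ℝ) * n0))) + (149240 : ℝ)) * ((1 : ℝ) - ((2 : ℝ) * n0))) + (7462 : ℝ)) * ((1 : ℝ) - ((2 : ℝ) * n0))) + (249731 : ℝ)) + ((131118 : ℝ) * uc0_0)))))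
      (H_h1 : h1 = (((1 : ℝ) - r) * (((1 : ℝ) - n1) * ((((((((((71422 : ℝ) * ((1 : ℝ) - ((2 : ℝ) * n1))) + (30914 : ℝ)) * ((1 : ℝ) - ((2 : ℝ) * n1))) + (149240 : ℝ)) * ((1 : ℝ) - ((2 : ℝ) * n1))) + (7462 : ℝ)) * ((1 : ℝ) - ((2 : ℝ) * n1))) + (249731 : ℝ)) + ((131118 : ℝ) * uc1_1)))))
      (H_hm : hm = ((2 : ℝ) * (((1 : ℝ) - m) * ((((((((((71422 : ℝ) * ((1 : ℝ) - ((2 : ℝ) * m))) + (30914 : ℝ)) * ((1 : ℝ) - ((2 : ℝ) * m))) + (149240 : ℝ)) * ((1 : ℝ) - ((2 : ℝ) * m))) + (7462 : ℝ)) * ((1 : ℝ) - ((2 : ℝ) * m))) + (249731 : ℝ)) + ((131118 : ℝ) * ucm_2)))))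
      (H_c0 : c0 = (((1 : ℝ) + r) * (((1 : ℝ) - n0) * ((((((((((71422 : ℝ) * (((2 : ℝ) * n0) - (1 : ℝ))) + (30914 : ℝ)) * (((2 : ℝ) * n0) - (1 : ℝ))) + (149240 : ℝ)) * (((2 : ℝ) * n0) - (1 : ℝ))) + (7462 : ℝ)) * (((2 : ℝ) * n0) - (1 : ℝ))) + (249731 : ℝ)) + ((131118 : ℝ) * un0_3)))))
      (H_c1 : c1 = (((1 : ℝ) - r) * (((1 : ℝ) - n1) * ((((((((((71422 : ℝ) * (((2 : ℝ) * n1) - (1 : ℝ))) + (30914 : ℝ)) * (((2 : ℝ) * n1) - (1 : ℝ))) + (149240 : ℝ)) * (((2 : ℝ) * n1) - (1 : ℝ))) + (7462 : ℝ)) * (((2 : ℝ) * n1) - (1 : ℝ))) + (249731 : ℝ)) + ((131118 : ℝ) * un1_4)))))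
      (H_cm : cm = ((2 : ℝ) * (((1 : ℝ) - m) * ((((((((((71422 : ℝ) * (((2 : ℝ) * m) - (1 : ℝ))) + (30914 : ℝ)) * (((2 : ℝ) * m) - (1 : ℝ))) + (149240 : ℝ)) * (((2 : ℝ) * m) - (1 : ℝ))) + (7462 : ℝ)) * (((2 : ℝ) * m) - (1 : ℝ))) + (249731 : ℝ)) + ((131118 : ℝ) * unm_5)))))
      (H_z20 : z20 = (((1 : ℝ) - ((2 : ℝ) * n0)) * ((1 : ℝ) - ((2 : ℝ) * n0))))
      (H_q0 : q0 = (((1 : ℝ) + r) * (((1 : ℝ) - n0) * ((((((((((73554 : ℝ) * z20) + (-59696 : ℝ)) * z20) + (7462 : ℝ)) * z20) + (-104468 : ℝ)) * z20) + (275912 : ℝ)) + ((94874 : ℝ) * uv0_6)))))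
      (H_z21 : z21 = (((1 : ℝ) - ((2 : ℝ) * n1)) * ((1 : ℝ) - ((2 : ℝ) * n1))))
      (H_q1 : q1 = (((1 : ℝ) - r) * (((1 : ℝ) - n1) * ((((((((((73554 : ℝ) * z21) + (-59696 : ℝ)) * z21) + (7462 : ℝ)) * z21) + (-104468 : ℝ)) * z21) + (275912 : ℝ)) + ((94874 : ℝ) * uv1_7)))))
      (H_z2m : z2m = (((1 : ℝ) - ((2 : ℝ) * m)) * ((1 : ℝ) - ((2 : ℝ) * m))))
      (H_qm : qm = ((2 : ℝ) * (((1 : ℝ) - m) * ((((((((((73554 : ℝ) * z2m) + (-59696 : ℝ)) * z2m) + (7462 : ℝ)) * z2m) + (-104468 : ℝ)) * z2m) + (275912 : ℝ)) + ((94874 : ℝ) * uvm_8)))))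
      (H_Ta : Ta = (t0a + (t1a * r)))
      (H_kla : kla = ((0 : ℝ) * r))
      (H_kha : kha = (kh0a + (kh1a * r)))
      (H_Ca : Ca = ((c0a + (c1a * r)) + (c2a * (r * r))))
      (H_Bea : Bea = ((b0a + (b1a * r)) + (b2a * (r * r))))
      (H_oUa : oUa = ((65536 : ℝ) - Ta))
      (H_TTa : TTa = (Ta * Ta))
      (H_spa : spa = ((4294967296 : ℝ) + TTa))
      (H_sma : sma = ((4294967296 : ℝ) - TTa))
      (H_oCa : oCa = (((4194304 : ℝ) * sma) - (Ca * spa)))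
      (H_oBa : oBa = ((((549755813888 : ℝ) * Ta) * ((429496729600 : ℝ) - ((1 : ℝ) * (((65536 : ℝ) - Ta) * ((65536 : ℝ) - Ta))))) - ((429496729600 : ℝ) * (Bea * spa))))
      (H_Eha : Eha = (((21474836480 : ℝ) + ((1966080 : ℝ) * Ta)) + ((275 : ℝ) * TTa)))
      (H_Nna : Nna = (((26 : ℝ) * Eha) + (880468295680 : ℝ)))
      (H_oKha : oKha = (((16384000000 : ℝ) * ((kha * spa) * Eha)) - ((4169138176 : ℝ) * ((Ta * sma) * Nna))))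
      (H_A0la : A0la = ((4194304 : ℝ) + kla))
      (H_A0ha : A0ha = ((4194304 : ℝ) + kha))
      (H_A1la : A1la = (Ca - kla))
      (H_A1ha : A1ha = (Ca - kha))
      (H_Tb : Tb = (t0b + (t1b * r)))
      (H_klb : klb = ((0 : ℝ) * r))
      (H_khb : khb = (kh0b + (kh1b * r)))
      (H_Cb : Cb = ((c0b + (c1b * r)) + (c2b * (r * r))))
      (H_Beb : Beb = ((b0b + (b1b * r)) + (b2b * (r * r))))
      (H_oUb : oUb = ((65536 : ℝ) - Tb))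
      (H_TTb : TTb = (Tb * Tb))
      (H_spb : spb = ((4294967296 : ℝ) + TTb))
      (H_smb : smb = ((4294967296 : ℝ) - TTb))
      (H_oCb : oCb = (((4194304 : ℝ) * smb) - (Cb * spb)))
      (H_oBb : oBb = ((((549755813888 : ℝ) * Tb) * ((429496729600 : ℝ) - ((1 : ℝ) * (((65536 : ℝ) - Tb) * ((65536 : ℝ) - Tb))))) - ((429496729600 : ℝ) * (Beb * spb))))
      (H_Ehb : Ehb = (((21474836480 : ℝ) + ((1966080 : ℝ) * Tb)) + ((275 : ℝ) * TTb)))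
      (H_Nnb : Nnb = (((26 : ℝ) * Ehb) + (880468295680 : ℝ)))
      (H_oKhb : oKhb = (((16384000000 : ℝ) * ((khb * spb) * Ehb)) - ((4169138176 : ℝ) * ((Tb * smb) * Nnb))))
      (H_A0lb : A0lb = ((4194304 : ℝ) + klb))
      (H_A0hb : A0hb = ((4194304 : ℝ) + khb))
      (H_A1lb : A1lb = (Cb - klb))
      (H_A1hb : A1hb = (Cb - khb))
      (H_L0 : L0 = ((((A0la * h0) + (A1la * h1)) + ((533000 : ℝ) * (Bea * r))) - ((4194304 : ℝ) * hm)))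
      (H_oL0 : oL0 = (L0 - (r * r)))
      (H_R0 : R0 = ((((A0lb * c1) + (A1lb * c0)) + ((533000 : ℝ) * (Beb * r))) - ((4194304 : ℝ) * cm)))
      (H_oR0 : oR0 = (R0 - (r * r)))
      (H_L1 : L1 = ((((A0ha * h0) + (A1ha * h1)) + ((533000 : ℝ) * (Bea * r))) - ((4194304 : ℝ) * hm)))
      (H_oL1 : oL1 = (L1 - (r * r)))
      (H_R1 : R1 = ((((A0hb * c1) + (A1hb * c0)) + ((533000 : ℝ) * (Beb * r))) - ((4194304 : ℝ) * cm)))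
      (H_oR1 : oR1 = (R1 - (r * r)))
      (H_ola : ola = ((1 : ℝ) * la))
      (H_olab : olab = ((la * lb) - (1099511627776 : ℝ)))
      (H_s0_00 : s0_00 = ((e0_00 + (e1_00 * r)) + (e2_00 * (r * r))))
      (H_s1_00 : s1_00 = ((f0_00 + (f1_00 * r)) + (f2_00 * (r * r))))
      (H_oS0_00 : oS0_00 = ((A0la * A1lb) - (s0_00 * s0_00)))
      (H_oS1_00 : oS1_00 = ((A1la * A0lb) - (s1_00 * s1_00)))
      (H_g_00 : g_00 = (((s0_00 * q0) + (s1_00 * q1)) - ((4194304 : ℝ) * qm)))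
      (H_M_00 : M_00 = ((g_00 * ((la * L0) + (lb * R0))) + ((2097152 : ℝ) * (L0 * R0))))
      (H_s0_01 : s0_01 = ((e0_01 + (e1_01 * r)) + (e2_01 * (r * r))))
      (H_s1_01 : s1_01 = ((f0_01 + (f1_01 * r)) + (f2_01 * (r * r))))
      (H_oS0_01 : oS0_01 = ((A0la * A1hb) - (s0_01 * s0_01)))
      (H_oS1_01 : oS1_01 = ((A1la * A0hb) - (s1_01 * s1_01)))
      (H_g_01 : g_01 = (((s0_01 * q0) + (s1_01 * q1)) - ((4194304 : ℝ) * qm)))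
      (H_M_01 : M_01 = ((g_01 * ((la * L0) + (lb * R1))) + ((2097152 : ℝ) * (L0 * R1))))
      (H_s0_10 : s0_10 = ((e0_10 + (e1_10 * r)) + (e2_10 * (r * r))))
      (H_s1_10 : s1_10 = ((f0_10 + (f1_10 * r)) + (f2_10 * (r * r))))
      (H_oS0_10 : oS0_10 = ((A0ha * A1lb) - (s0_10 * s0_10)))
      (H_oS1_10 : oS1_10 = ((A1ha * A0lb) - (s1_10 * s1_10)))
      (H_g_10 : g_10 = (((s0_10 * q0) + (s1_10 * q1)) - ((4194304 : ℝ) * qm)))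
      (H_M_10 : M_10 = ((g_10 * ((la * L1) + (lb * R0))) + ((2097152 : ℝ) * (L1 * R0))))
      (H_s0_11 : s0_11 = ((e0_11 + (e1_11 * r)) + (e2_11 * (r * r))))
      (H_s1_11 : s1_11 = ((f0_11 + (f1_11 * r)) + (f2_11 * (r * r))))
      (H_oS0_11 : oS0_11 = ((A0ha * A1hb) - (s0_11 * s0_11)))
      (H_oS1_11 : oS1_11 = ((A1ha * A0hb) - (s1_11 * s1_11)))
      (H_g_11 : g_11 = (((s0_11 * q0) + (s1_11 * q1)) - ((4194304 : ℝ) * qm)))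
      (H_M_11 : M_11 = ((g_11 * ((la * L1) + (lb * R1))) + ((2097152 : ℝ) * (L1 * R1))))
      , 0 ≤ Ta ∧ 0 ≤ oUa ∧ 0 ≤ oCa ∧ 0 ≤ oBa ∧ 0 ≤ oKha ∧ 0 ≤ A1ha ∧ 0 ≤ Tb ∧ 0 ≤ oUb ∧ 0 ≤ oCb ∧ 0 ≤ oBb ∧ 0 ≤ oKhb ∧ 0 ≤ A1hb ∧ 0 ≤ oL0 ∧ 0 ≤ oR0 ∧ 0 ≤ oL1 ∧ 0 ≤ oR1 ∧ 0 ≤ ola ∧ 0 ≤ olab ∧ 0 ≤ h1 ∧ 0 ≤ c0 ∧ 0 ≤ oS0_00 ∧ 0 ≤ oS1_00 ∧ 0 ≤ s0_00 ∧ 0 ≤ s1_00 ∧ 0 ≤ M_00 ∧ 0 ≤ oS0_01 ∧ 0 ≤ oS1_01 ∧ 0 ≤ s0_01 ∧ 0 ≤ s1_01 ∧ 0 ≤ M_01 ∧ 0 ≤ oS0_10 ∧ 0 ≤ oS1_10 ∧ 0 ≤ s0_10 ∧ 0 ≤ s1_10 ∧ 0 ≤ M_10 ∧ 0 ≤ oS0_11 ∧ 0 ≤ oS1_11 ∧ 0 ≤ s0_11 ∧ 0 ≤ s1_11 ∧ 0 ≤ M_11 := by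
  obtain ⟨p, hp, hc⟩ := core x0 x1 hx0 hx0' hx1 hx1'
  refine ⟨p, hp, ?_⟩
  intro t0a t1a kh0a kh1a c0a c1a c2a b0a b1a b2a t0b t1b kh0b kh1b c0b c1b c2b b0b b1b b2b la lb e0_00 e1_00 e2_00 f0_00 f1_00 f2_00 e0_01 e1_01 e2_01 f0_01 f1_01 f2_01 e0_10 e1_10 e2_10 f0_10 f1_10 f2_10 e0_11 e1_11 e2_11 f0_11 f1_11 f2_11 n0 n1 h0 h1 hm c0 c1 cm z20 q0 z21 q1 z2m qm Ta kla kha Ca Bea oUa TTa spa sma oCa oBa Eha Nna oKha A0la A0ha A1la A1ha Tb klb khb Cb Beb oUb TTb spb smb oCb oBb Ehb Nnb oKhb A0lb A0hb A1lb A1hb L0 oL0 R0 oR0 L1 oL1 R1 oR1 ola olab s0_00 s1_00 oS0_00 oS1_00 g_00 M_00 s0_01 s1_01 oS0_01 oS1_01 g_01 M_01 s0_10 s1_10 oS0_10 oS1_10 g_10 M_10 s0_11 s1_11 oS0_11 oS1_11 g_11 M_11 H_t0a H_t1a H_kh0a H_kh1a H_c0a H_c1a H_c2a H_b0a H_b1a H_b2a H_t0b H_t1b H_kh0b H_kh1b H_c0b H_c1b H_c2b H_b0b H_b1b H_b2b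 H_la H_lb H_e0_00 H_e1_00 H_e2_00 H_f0_00 H_f1_00 H_f2_00 H_e0_01 H_e1_01 H_e2_01 H_f0_01 H_f1_01 H_f2_01 H_e0_10 H_e1_10 H_e2_10 H_f0_10 H_f1_10 H_f2_10 H_e0_11 H_e1_11 H_e2_11 H_f0_11 H_f1_11 H_f2_11 H_n0 H_n1 H_h0 H_h1 H_hm H_c0 H_c1 H_cm H_z20 H_q0 H_z21 H_q1 H_z2m H_qm H_Ta H_kla H_kha H_Ca H_Bea H_oUa H_TTa H_spa H_sma H_oCa H_oBa H_Eha H_Nna H_oKha H_A0la H_A0ha H_A1la H_A1ha H_Tb H_klb H_khb H_Cb H_Beb H_oUb H_TTb H_spb H_smb H_oCb H_oBb H_Ehb H_Nnb H_oKhb H_A0lb H_A0hb H_A1lb H_A1hb H_L0 H_oL0 H_R0 H_oR0 H_L1 H_oL1 H_R1 H_oR1 H_ola H_olab H_s0_00 H_s1_00 H_oS0_00 H_oS1_00 H_g_00 H_M_00 H_s0_01 H_s1_01 H_oS0_01 H_oS1_01 H_g_01 H_M_01 H_s0_10 H_s1_10 H_oS0_10 H_oS1_10 H_g_10 H_M_10 H_s0_11 H_s1_11 H_oS0_11 H_oS1_11 H_g_11 H_M_11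
  have hv := vals x0 x1 dc0_0 dc1_1 dcm_2 dn0_3 dn1_4 dnm_5 dv0_6 dv1_7 dvm_8 m r uc0_0 uc1_1 ucm_2 un0_3 un1_4 unm_5 uv0_6 uv1_7 uvm_8 t0a t1a kh0a kh1a c0a c1a c2a b0a b1a b2a t0b t1b kh0b kh1b c0b c1b c2b b0b b1b b2b la lb e0_00 e1_00 e2_00 f0_00 f1_00 f2_00 e0_01 e1_01 e2_01 f0_01 f1_01 f2_01 e0_10 e1_10 e2_10 f0_10 f1_10 f2_10 e0_11 e1_11 e2_11 f0_11 f1_11 f2_11 n0 n1 h0 h1 hm c0 c1 cm z20 q0 z21 q1 z2m qm Ta kla kha Ca Bea oUa TTa spa sma oCa oBa Eha Nna oKha A0la A0ha A1la A1ha Tb klb khb Cb Beb oUb TTb spb smb oCb oBb Ehb Nnb oKhb A0lb A0hb A1lb A1hb L0 oL0 R0 oR0 L1 oL1 R1 oR1 ola olab s0_00 s1_00 oS0_00 oS1_00 g_00 M_00 s0_01 s1_01 oS0_01 oS1_01 g_01 M_01 s0_10 s1_10 oS0_10 oS1_10 g_10 M_10 s0_11 s1_11 oS0_11 oS1_11 g_11 M_11 p H_dc0_0 H_dc1_1 H_dcm_2 H_dn0_3 H_dn1_4 H_dnm_5 H_dv0_6 H_dv1_7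 H_dvm_8 H_m H_r H_uc0_0 H_uc1_1 H_ucm_2 H_un0_3 H_un1_4 H_unm_5 H_uv0_6 H_uv1_7 H_uvm_8 H_t0a H_t1a H_kh0a H_kh1a H_c0a H_c1a H_c2a H_b0a H_b1a H_b2a H_t0b H_t1b H_kh0b H_kh1b H_c0b H_c1b H_c2b H_b0b H_b1b H_b2b H_la H_lb H_e0_00 H_e1_00 H_e2_00 H_f0_00 H_f1_00 H_f2_00 H_e0_01 H_e1_01 H_e2_01 H_f0_01 H_f1_01 H_f2_01 H_e0_10 H_e1_10 H_e2_10 H_f0_10 H_f1_10 H_f2_10 H_e0_11 H_e1_11 H_e2_11 H_f0_11 H_f1_11 H_f2_11 H_n0 H_n1 H_h0 H_h1 H_hm H_c0 H_c1 H_cm H_z20 H_q0 H_z21 H_q1 H_z2m H_qm H_Ta H_kla H_kha H_Ca H_Bea H_oUa H_TTa H_spa H_sma H_oCa H_oBa H_Eha H_Nna H_oKha H_A0la H_A0ha H_A1la H_A1ha H_Tb H_klb H_khb H_Cb H_Beb H_oUb H_TTb H_spb H_smb H_oCb H_oBb H_Ehb H_Nnb H_oKhb H_A0lb H_A0hb H_A1lb H_A1hb H_L0 H_oL0 H_R0 H_oR0 H_L1 H_oL1 H_R1 H_oR1 H_ola H_olab H_s0_00 H_s1_00 H_oS0_00 H_oS1_00 H_g_00 H_M_00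 H_s0_01 H_s1_01 H_oS0_01 H_oS1_01 H_g_01 H_M_01 H_s0_10 H_s1_10 H_oS0_10 H_oS1_10 H_g_10 H_M_10 H_s0_11 H_s1_11 H_oS0_11 H_oS1_11 H_g_11 H_M_11
  obtain ⟨w0, w1, w2, w3, w4, w5, w6, w7, w8, w9, w10, w11, w12, w13, w14, w15, w16, w17, w18, w19, w20, w21, w22, w23, w24, w25, w26, w27, w28, w29, w30, w31, w32, w33, w34, w35, w36, w37, w38, w39⟩ := hv
  simp only [w0, w1, w2, w3, w4, w5, w6, w7, w8, w9, w10, w11, w12, w13, w14, w15, w16, w17, w18, w19, w20, w21, w22, w23, w24, w25, w26, w27, w28, w29, w30, w31, w32, w33, w34, w35, w36, w37, w38, w39] at hc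
  obtain ⟨a0, a1, a2, a3, a4, a5, a6, a7, a8, a9, a10, a11, a12, a13, a14, a15, a16, a17, a18, a19, a20, a21, a22, a23, a24, a25, a26, a27, a28, a29, a30, a31, a32, a33, a34, a35, a36, a37, a38, a39⟩ := hc
  exact ⟨nonneg_of_mul_nonneg_right a0 (by positivity), nonneg_of_mul_nonneg_right a1 (by positivity), nonneg_of_mul_nonneg_right a2 (by positivity), nonneg_of_mul_nonneg_right a3 (by positivity), nonneg_of_mul_nonneg_right a4 (by positivity), nonneg_of_mul_nonneg_right a5 (by positivity), nonneg_of_mul_nonneg_right a6 (by positivity), nonneg_of_mul_nonneg_right a7 (by positivity), nonneg_of_mul_nonneg_right a8 (by positivity), nonneg_of_mul_nonneg_right a9 (by positivity), nonneg_of_mul_nonneg_right a10 (by positivity), nonneg_of_mul_nonneg_right a11 (by positivity), nonneg_of_mul_nonneg_right a12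 (by positivity), nonneg_of_mul_nonneg_right a13 (by positivity), nonneg_of_mul_nonneg_right a14 (by positivity), nonneg_of_mul_nonneg_right a15 (by positivity), nonneg_of_mul_nonneg_right a16 (by positivity), nonneg_of_mul_nonneg_right a17 (by positivity), nonneg_of_mul_nonneg_right a18 (by positivity), nonneg_of_mul_nonneg_right a19 (by positivity), nonneg_of_mul_nonneg_right a20 (by positivity), nonneg_of_mul_nonneg_right a21 (by positivity), nonneg_of_mul_nonneg_right a22 (by positivity), nonneg_of_mul_nonneg_right a23 (by positivity), nonneg_of_mul_nonneg_right a24 (by positivity), nonneg_of_mul_nonneg_right a25 (by positivity), nonneg_of_mul_nonneg_right a26 (by positivity), nonneg_of_mul_nonneg_right a27 (by positivity), nonneg_of_mul_nonneg_right a28 (by positivity), nonneg_of_mul_nonneg_right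 a29 (by positivity), nonneg_of_mul_nonneg_right a30 (by positivity), nonneg_of_mul_nonneg_right a31 (by positivity), nonneg_of_mul_nonneg_right a32 (by positivity), nonneg_of_mul_nonneg_right a33 (by positivity), nonneg_of_mul_nonneg_right a34 (by positivity), nonneg_of_mul_nonneg_right a35 (by positivity), nonneg_of_mul_nonneg_right a36 (by positivity), nonneg_of_mul_nonneg_right a37 (by positivity), nonneg_of_mul_nonneg_right a38 (by positivity), nonneg_of_mul_nonneg_right a39 (by positivity)⟩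

end Crest.Agent.R307.SIS1
private theorem rz_eeeba5a8c1 : type_of% @_root_.Crest.Agent.R307.SIS1.xv.eq_1 := @_root_.Crest.Agent.R307.SIS1.xv.eq_1 -- L14
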