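import Crest.Agent.R307.GenS
import Crest.Agent.Tools.KBp

-- ▼ part R307/GenSPot
section

/-!
Row 307, S0471, regime S: the frozen potentials (helper139, note 7058), FIN and the final
reduction of regime S to (PI) and (SI).

`n` = mean of `q`, `m = 1 - 2n`, `v = 4n(1-n)`:
`B(n) = v [b0 + b1 m + b2 m² + b3 m³ + b4 m⁴ + e (w/(1-n+w) - w/(1/2+w))]`,
`Q(n) = v [(1/2-b0) + q1 m² + q2 m⁴ + q3 m⁶ + q4 m⁸ + f (w2/(n(1-n)+w2) - w2/(1/4+w2))]`.
-/

set_option autoImplicit false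

open Crest.CubeNoise Set

namespace Crest.Agent.R307.GenS

open Crest.Agent.R307 Crest.Agent.R307.Ode Crest.Agent.R307.TwoSet Crest.Agent.R307.GenInd
  Crest.Agent.R307.Flow Crest.Agent.R307.GenFin Crest.Agent.R307.GenProd

noncomputable def BP (b0 b1 b2 b3 b4 e w n : ℝ) : ℝ :=
  4 * n * (1 - n) * (b0 + b1 * (1 - 2 * n) + b2 * (1 - 2 * n) ^ 2 + b3 * (1 - 2 * n) ^ 3 +
    b4 * (1 - 2 * n) ^ 4 + e * (w / (1 - n + w) - w / (1 / 2 + w)))

noncomputable def QP (b0 q1 q2 q3 q4 f w2 n : ℝ) : ℝ :=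
  4 * n * (1 - n) * ((1 / 2 - b0) + q1 * (1 - 2 * n) ^ 2 + q2 * (1 - 2 * n) ^ 4 +
    q3 * (1 - 2 * n) ^ 6 + q4 * (1 - 2 * n) ^ 8 +
    f * (w2 / (n * (1 - n) + w2) - w2 / (1 / 4 + w2)))

/-- `S1`, `(0, 1/5]` -/
noncomputable def B1 : ℝ → ℝ :=
  BP (239 / 1000) (7 / 1000) (140 / 1000) (29 / 1000) (67 / 1000) (123 / 1000) (1 / 50)
noncomputable def Q1 : ℝ → ℝ :=
  QP (239 / 1000) (-98 / 1000) (7 / 1000) (-56 / 1000) (69 / 1000) (89 / 1000) (1 / 160)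

/-- `S2`, `[1/5, 3/10]` -/
noncomputable def B2 : ℝ → ℝ :=
  BP (146 / 1000) (-28 / 1000) (132 / 1000) (-108 / 1000) (-114 / 1000) (235 / 1000) (1 / 50)
noncomputable def Q2 : ℝ → ℝ :=
  QP (146 / 1000) (-85 / 1000) (147 / 1000) (-92 / 1000) (91 / 1000) (-129 / 1000) (1 / 80)

/-- `S3`, `[3/10, 7/20]` -/
noncomputable def B3 : ℝ → ℝ :=
  BP (119 / 1000) (-27 / 1000) (136 / 1000) (-115 / 1000) (-88 / 1000) (219 / 1000) (1 / 100)
noncomputable def Q3 : ℝ → ℝ :=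
  QP (119 / 1000) (-80 / 1000) (173 / 1000) (-208 / 1000) (178 / 1000) (-112 / 1000) (1 / 160)

/-- `S4`, `[7/20, 2/5]` -/
noncomputable def B4 : ℝ → ℝ :=
  BP (185 / 1000) (-9 / 1000) (194 / 1000) (24 / 1000) (-14 / 1000) (171 / 1000) (1 / 100)
noncomputable def Q4 : ℝ → ℝ :=
  QP (185 / 1000) (-135 / 1000) (196 / 1000) (-276 / 1000) (233 / 1000) (-46 / 1000) (1 / 160)

lemma QP_symm (b0 q1 q2 q3 q4 f w2 n : ℝ) :
    QP b0 q1 q2 q3 q4 f w2 (1 - n) = QP b0 q1 q2 q3 q4 f w2 n := by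
  unfold QP
  have e1 : (1 - n) * (1 - (1 - n)) = n * (1 - n) := by ring
  rw [e1]
  ring

/-- the `f`-term, in `x = m²` -/
lemma fterm {n w2 : ℝ} (h0 : 0 ≤ n) (h1 : n ≤ 1) (hw : 0 < w2) :
    w2 / (n * (1 - n) + w2) - w2 / (1 / 4 + w2) =
      (1 - 2 * n) ^ 2 * (w2 / (4 * ((n * (1 - n) + w2) * (1 / 4 + w2)))) := by
  have h2 : 0 ≤ n * (1 - n) := mul_nonneg h0 (by linarith)
  have h3 : 0 < n * (1 - n) + w2 := by linarith
  have h4 : 0 < 1 / 4 + w2 := by linarith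
  field_simp
  ring

lemma fterm_bounds {n w2 : ℝ} (h0 : 0 ≤ n) (h1 : n ≤ 1) (hw : 0 < w2) :
    0 ≤ w2 / (n * (1 - n) + w2) - w2 / (1 / 4 + w2) ∧
      w2 / (n * (1 - n) + w2) - w2 / (1 / 4 + w2) ≤ 1 := by
  have h2 : 0 ≤ n * (1 - n) := mul_nonneg h0 (by linarith)
  have h3 : 0 < n * (1 - n) + w2 := by linarith
  have h4 : 0 < 1 / 4 + w2 := by linarith
  constructor
  · rw [fterm h0 h1 hw]; positivity
  · have : w2 / (n * (1 - n) + w2) ≤ 1 := by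
      rw [div_le_one h3]; linarith
    have : 0 ≤ w2 / (1 / 4 + w2) := by positivity
    linarith

/-- `v * fterm ≤ x * 4 w2 / (...)`: the `f`-term of `P` is small. -/
lemma vfterm {n w2 : ℝ} (h0 : 0 ≤ n) (h1 : n ≤ 1) (hw : 0 < w2) :
    0 ≤ 4 * n * (1 - n) * (w2 / (n * (1 - n) + w2) - w2 / (1 / 4 + w2)) ∧
    4 * n * (1 - n) * (w2 / (n * (1 - n) + w2) - w2 / (1 / 4 + w2)) ≤
      (1 - 2 * n) ^ 2 * (4 * w2) := by
  have h2 : 0 ≤ n * (1 - n) := mul_nonneg h0 (by linarith)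
  have h3 : 0 < n * (1 - n) + w2 := by linarith
  have h4 : 0 < 1 / 4 + w2 := by linarith
  have hb := (fterm_bounds h0 h1 hw).1
  refine ⟨mul_nonneg (by nlinarith) hb, ?_⟩
  rw [fterm h0 h1 hw]
  have e : 4 * n * (1 - n) * ((1 - 2 * n) ^ 2 * (w2 / (4 * ((n * (1 - n) + w2) * (1 / 4 + w2))))) =
      (1 - 2 * n) ^ 2 * (w2 * ((n * (1 - n)) / (n * (1 - n) + w2)) / (1 / 4 + w2)) := by
    field_simp
  rw [e]
  apply mul_le_mul_of_nonneg_left _ (sq_nonneg _)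
  rw [div_le_iff₀ h4]
  have h5 : (n * (1 - n)) / (n * (1 - n) + w2) ≤ 1 := by
    rw [div_le_one h3]; linarith
  nlinarith [mul_pos hw hw]

/-- the `e`-term of `B(n) + B(1-n)` is nonnegative. -/
lemma eterm {n w : ℝ} (h0 : 0 ≤ n) (h1 : n ≤ 1) (hw : 0 < w) :
    0 ≤ (w / (1 - n + w) - w / (1 / 2 + w)) + (w / (n + w) - w / (1 / 2 + w)) := by
  have h3 : 0 < 1 - n + w := by linarith
  have h3' : 0 < n + w := by linarith
  have h4 : 0 < 1 / 2 + w := by linarith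
  have e : (w / (1 - n + w) - w / (1 / 2 + w)) + (w / (n + w) - w / (1 / 2 + w)) =
      w * (1 - 2 * n) ^ 2 / (2 * ((1 - n + w) * (n + w) * (1 / 2 + w))) := by
    field_simp
    ring
  rw [e]; positivity

/-- lower bound of `P(n) = B(n) + B(1-n) + 2 Q(n)`. -/
lemma P_lower {b0 b1 b2 b3 b4 e w q1 q2 q3 q4 f w2 n F : ℝ} (h0 : 0 ≤ n) (h1 : n ≤ 1)
    (hw : 0 < w) (hw2 : 0 < w2) (he : 0 ≤ e) (hF : 0 ≤ F) (hf : -F ≤ f) :
    4 * n * (1 - n) * (1 + 2 * (b2 + q1) * (1 - 2 * n) ^ 2 + 2 * (b4 + q2) * (1 - 2 * n) ^ 4 +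
      2 * q3 * (1 - 2 * n) ^ 6 + 2 * q4 * (1 - 2 * n) ^ 8)
      - 8 * F * w2 * (1 - 2 * n) ^ 2 ≤
    BP b0 b1 b2 b3 b4 e w n + BP b0 b1 b2 b3 b4 e w (1 - n) + 2 * QP b0 q1 q2 q3 q4 f w2 n := by
  have hv : 0 ≤ 4 * n * (1 - n) := by nlinarith
  have ve := mul_nonneg hv (mul_nonneg he (eterm h0 h1 hw))
  have vf := vfterm h0 h1 hw2
  have e1 : BP b0 b1 b2 b3 b4 e w n + BP b0 b1 b2 b3 b4 e w (1 - n) +
      2 * QP b0 q1 q2 q3 q4 f w2 n =
      4 * n * (1 - n) * (1 + 2 * (b2 + q1) * (1 - 2 * n) ^ 2 + 2 * (b4 + q2) * (1 - 2 * n) ^ 4 +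
      2 * q3 * (1 - 2 * n) ^ 6 + 2 * q4 * (1 - 2 * n) ^ 8) +
      4 * n * (1 - n) * (e * ((w / (1 - n + w) - w / (1 / 2 + w)) +
        (w / (n + w) - w / (1 / 2 + w)))) +
      2 * f * (4 * n * (1 - n) * (w2 / (n * (1 - n) + w2) - w2 / (1 / 4 + w2))) := by
    unfold BP QP
    have k : 1 - (1 - n) + w = n + w := by ring
    rw [k]
    ring
  rw [e1]
  set T := 4 * n * (1 - n) * (w2 / (n * (1 - n) + w2) - w2 / (1 / 4 + w2)) with hT
  have h5 : -(F * T) ≤ f * T := by nlinarith [vf.1]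
  have h6 : F * T ≤ F * ((1 - 2 * n) ^ 2 * (4 * w2)) := mul_le_mul_of_nonneg_left vf.2 hF
  linarith

lemma Q_nonneg {b0 q1 q2 q3 q4 f w2 F : ℝ} (hw2 : 0 < w2) (hF : 0 ≤ F) (hf : -F ≤ f)
    (H : ∀ x : ℝ, 0 ≤ x → x ≤ 1 →
      0 ≤ (1 / 2 - b0) + q1 * x + q2 * x ^ 2 + q3 * x ^ 3 + q4 * x ^ 4 - F) :
    ∀ n, 0 ≤ n → n ≤ 1 → 0 ≤ QP b0 q1 q2 q3 q4 f w2 n := by
  intro n h0 h1
  unfold QP
  have hv : 0 ≤ 4 * n * (1 - n) := by nlinarith
  apply mul_nonneg hv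
  have hx0 : 0 ≤ (1 - 2 * n) ^ 2 := sq_nonneg _
  have hx1 : (1 - 2 * n) ^ 2 ≤ 1 := by nlinarith
  have h := H _ hx0 hx1
  have b := fterm_bounds h0 h1 hw2
  set T := w2 / (n * (1 - n) + w2) - w2 / (1 / 4 + w2) with hT
  have h5 : -(F * T) ≤ f * T := by nlinarith [b.1]
  have h6 : F * T ≤ F * 1 := mul_le_mul_of_nonneg_left b.2 hF
  have e1 : ((1 - 2 * n) ^ 2) ^ 2 = (1 - 2 * n) ^ 4 := by ring
  have e2 : ((1 - 2 * n) ^ 2) ^ 3 = (1 - 2 * n) ^ 6 := by ring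
  have e3 : ((1 - 2 * n) ^ 2) ^ 4 = (1 - 2 * n) ^ 8 := by ring
  rw [e1, e2, e3] at h
  linarith

/-- **FIN from a rate**: `W(c₁ - δ) ≤ W(c₁)(1 - r δ)`. -/
lemma rate_bound {W : ℝ → ℝ} (hW : ConcaveOn ℝ (Icc 0 1) W) {c₁ r δ : ℝ} (hc : c₁ < 1)
    (hr : (1 + r * (1 - c₁)) * W c₁ ≤ W 1) (hδ : 0 ≤ δ) (hδc : 0 ≤ c₁ - δ) :
    W (c₁ - δ) ≤ W c₁ * (1 - r * δ) := by
  have hL : 0 < 1 - c₁ + δ := by linarith
  have hl0 : 0 ≤ (1 - c₁) / (1 - c₁ + δ) := div_nonneg (by linarith) hL.le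
  have hl1 : (1 - c₁) / (1 - c₁ + δ) ≤ 1 := by rw [div_le_one hL]; linarith
  set l := (1 - c₁) / (1 - c₁ + δ) with hl
  have hlL : l * (1 - c₁ + δ) = 1 - c₁ := by rw [hl]; field_simp
  have e := hW.2 (show c₁ - δ ∈ Icc (0 : ℝ) 1 from ⟨hδc, by linarith⟩)
    (show (1 : ℝ) ∈ Icc (0 : ℝ) 1 from ⟨zero_le_one, le_rfl⟩) hl0
    (show (0 : ℝ) ≤ 1 - l by linarith) (by ring)
  simp only [smul_eq_mul] at e
  have k : l * (c₁ - δ) + (1 - l) * 1 = c₁ := by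
    have : l * (c₁ - δ) + (1 - l) * 1 = 1 - l * (1 - c₁ + δ) := by ring
    rw [this, hlL]; ring
  rw [k] at e
  -- `l W(c₁-δ) ≤ W c₁ - (1-l) W 1 ≤ W c₁ (1 - (1-l)(1+r(1-c₁)))`
  have e2 : l * W (c₁ - δ) ≤ W c₁ * (1 - (1 - l) * (1 + r * (1 - c₁))) := by
    have := mul_le_mul_of_nonneg_left hr (show (0 : ℝ) ≤ 1 - l by linarith)
    nlinarith
  have hlpos : 0 < l := div_pos (by linarith) hL
  have e3 : 1 - (1 - l) * (1 + r * (1 - c₁)) = l * (1 - r * δ) := by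
    have h1 : (1 - l) * (1 - c₁) = l * δ := by
      have : l * δ = 1 - c₁ - l * (1 - c₁) := by
        have h2 : l * (1 - c₁ + δ) = l * (1 - c₁) + l * δ := by ring
        rw [h2] at hlL; linarith
      rw [this]; ring
    have : 1 - (1 - l) * (1 + r * (1 - c₁)) = l - r * ((1 - l) * (1 - c₁)) := by ring
    rw [this, h1]; ring
  rw [e3] at e2
  have e4 : l * W (c₁ - δ) ≤ l * (W c₁ * (1 - r * δ)) := by linarith
  exact le_of_mul_le_mul_left e4 hlpos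

/-- FIN from the rate and an inequality for `P`. -/
theorem fins_of_rate {B Q : ℝ → ℝ} {c₁ r : ℝ} (hc0 : 0 < c₁) (hc1 : c₁ < 1) (hr2 : 2 ≤ r)
    (hr : (1 + r * (1 - c₁)) * WA (3 / 10) (-6 / 25) (43 / 100) c₁ ≤
      WA (3 / 10) (-6 / 25) (43 / 100) 1)
    (hP : ∀ n, 0 ≤ n → n ≤ 1 →
      4 * n * (1 - n) - (r / 2 - 1) * (1 - 2 * n) ^ 2 ≤ B n + B (1 - n) + 2 * Q n) :
    FINS B Q c₁ := by
  intro n h0 h1 hpos
  set φ := ph (2 * n - 1) with hφ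
  have hφ0 : 0 ≤ φ := ph_nonneg _
  have hφ1 : φ ≤ 1 := ph_le_one _
  have hφ2 : φ ^ 2 = 1 - (1 - 2 * n) ^ 2 := by
    rw [hφ, ph_sq (by rw [abs_le]; constructor <;> linarith)]; ring
  have a := rate_bound concave_WA_S hc1 hr (δ := 1 - φ) (by linarith) (by linarith)
  have e : c₁ - (1 - φ) = c₁ - 1 + φ := by ring
  rw [e] at a
  refine a.trans ?_
  have hW : 0 ≤ WA (3 / 10) (-6 / 25) (43 / 100) c₁ :=
    WA_nonneg (by norm_num) (by norm_num) hc0.le hc1.le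
  apply mul_le_mul_of_nonneg_left _ hW
  refine le_trans ?_ (hP n h0 h1)
  have hv : 4 * n * (1 - n) = φ ^ 2 := by rw [hφ2]; ring
  have hx : (1 - 2 * n) ^ 2 = 1 - φ ^ 2 := by rw [hφ2]; ring
  rw [hv, hx]
  -- `1 - r(1-φ) ≤ φ² - (r/2-1)(1-φ²)`, difference `(r/2)(1-φ)²`
  nlinarith [mul_nonneg (show (0 : ℝ) ≤ r / 2 by linarith) (sq_nonneg (1 - φ))]

/-- `P`-inequality for the explicit potentials -/
lemma hP_of {b0 b1 b2 b3 b4 e w q1 q2 q3 q4 f w2 F r : ℝ}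
    (hw : 0 < w) (hw2 : 0 < w2) (he : 0 ≤ e) (hF : 0 ≤ F) (hf : -F ≤ f)
    (hr : 8 * F * w2 ≤ r / 2 - 1)
    (H : ∀ x : ℝ, 0 ≤ x → x ≤ 1 →
      0 ≤ 2 * (b2 + q1) + 2 * (b4 + q2) * x + 2 * q3 * x ^ 2 + 2 * q4 * x ^ 3) :
    ∀ n, 0 ≤ n → n ≤ 1 →
      4 * n * (1 - n) - (r / 2 - 1) * (1 - 2 * n) ^ 2 ≤
        BP b0 b1 b2 b3 b4 e w n + BP b0 b1 b2 b3 b4 e w (1 - n) +
          2 * QP b0 q1 q2 q3 q4 f w2 n := by
  intro n h0 h1
  refine le_trans ?_ (P_lower h0 h1 hw hw2 he hF hf)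
  have hv : 0 ≤ 4 * n * (1 - n) := by nlinarith
  have hx0 : 0 ≤ (1 - 2 * n) ^ 2 := sq_nonneg _
  have hx1 : (1 - 2 * n) ^ 2 ≤ 1 := by nlinarith
  have h := mul_nonneg (mul_nonneg hv hx0) (H _ hx0 hx1)
  have h2 := mul_le_mul_of_nonneg_right hr hx0
  have e1 : 4 * n * (1 - n) * (1 + 2 * (b2 + q1) * (1 - 2 * n) ^ 2 +
      2 * (b4 + q2) * (1 - 2 * n) ^ 4 + 2 * q3 * (1 - 2 * n) ^ 6 + 2 * q4 * (1 - 2 * n) ^ 8) =
      4 * n * (1 - n) + 4 * n * (1 - n) * (1 - 2 * n) ^ 2 *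
        (2 * (b2 + q1) + 2 * (b4 + q2) * (1 - 2 * n) ^ 2 + 2 * q3 * ((1 - 2 * n) ^ 2) ^ 2 +
          2 * q4 * ((1 - 2 * n) ^ 2) ^ 3) := by ring
  rw [e1]
  linarith

lemma potOK_of {b0 b1 b2 b3 b4 e w q1 q2 q3 q4 f w2 F : ℝ} (hw2 : 0 < w2) (hF : 0 ≤ F)
    (hf : -F ≤ f)
    (H : ∀ x : ℝ, 0 ≤ x → x ≤ 1 →
      0 ≤ (1 / 2 - b0) + q1 * x + q2 * x ^ 2 + q3 * x ^ 3 + q4 * x ^ 4 - F) :
    PotOK (BP b0 b1 b2 b3 b4 e w) (QP b0 q1 q2 q3 q4 f w2) where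
  B0 := by simp [BP]
  B1 := by simp [BP]
  Q0 := by simp [QP]
  Qs := QP_symm _ _ _ _ _ _ _
  Qn := Q_nonneg hw2 hF hf H

theorem potOK1 : PotOK B1 Q1 := by
  refine potOK_of (F := 0) (by norm_num) le_rfl (by norm_num) fun x h0 h1 => ?_
  nlinarith [mul_nonneg h0 (sub_nonneg.mpr h1), pow_nonneg h0 3, pow_nonneg h0 4,
    mul_nonneg (sq_nonneg x) (sub_nonneg.mpr h1)]

theorem potOK2 : PotOK B2 Q2 := by
  refine potOK_of (F := 129 / 1000) (by norm_num) (by norm_num) (by norm_num)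
    fun x h0 h1 => ?_
  nlinarith [mul_nonneg h0 (sub_nonneg.mpr h1), pow_nonneg h0 3, pow_nonneg h0 4,
    mul_nonneg (sq_nonneg x) (sub_nonneg.mpr h1)]

theorem potOK3 : PotOK B3 Q3 := by
  refine potOK_of (F := 112 / 1000) (by norm_num) (by norm_num) (by norm_num)
    fun x h0 h1 => ?_
  nlinarith [mul_nonneg h0 (sub_nonneg.mpr h1), pow_nonneg h0 3, pow_nonneg h0 4,
    mul_nonneg (sq_nonneg x) (sub_nonneg.mpr h1)]

theorem potOK4 : PotOK B4 Q4 := by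
  refine potOK_of (F := 46 / 1000) (by norm_num) (by norm_num) (by norm_num)
    fun x h0 h1 => ?_
  nlinarith [mul_nonneg h0 (sub_nonneg.mpr h1), pow_nonneg h0 3, pow_nonneg h0 4,
    mul_nonneg (sq_nonneg x) (sub_nonneg.mpr h1)]

/-- rational bounds of `W` -/
lemma WA_one_ge : (97 / 100 : ℝ) ≤ WA (3 / 10) (-6 / 25) (43 / 100) 1 := by
  refine le_trans ?_ (le_WA_of (z := 1414 / 1000) (by norm_num))
  norm_num

lemma W2_le : WA (3 / 10) (-6 / 25) (43 / 100) (1 / 5) ≤ 1988 / 10000 := by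
  refine le_trans (WA_le_of (z := 109545 / 100000) (by norm_num) (by norm_num)) ?_
  norm_num

lemma W2_ge : 1987 / 10000 ≤ WA (3 / 10) (-6 / 25) (43 / 100) (1 / 5) := by
  refine le_trans ?_ (le_WA_of (z := 1095444 / 1000000) (by norm_num))
  norm_num

lemma W3_le : WA (3 / 10) (-6 / 25) (43 / 100) (3 / 10) ≤ 2977 / 10000 := by
  refine le_trans (WA_le_of (z := 1140176 / 1000000) (by norm_num) (by norm_num)) ?_
  norm_num

lemma W3_ge : 2976 / 10000 ≤ WA (3 / 10) (-6 / 25) (43 / 100) (3 / 10) := by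
  refine le_trans ?_ (le_WA_of (z := 1140175 / 1000000) (by norm_num))
  norm_num

lemma W35_le : WA (3 / 10) (-6 / 25) (43 / 100) (7 / 20) ≤ 3472 / 10000 := by
  refine le_trans (WA_le_of (z := 11619 / 10000) (by norm_num) (by norm_num)) ?_
  norm_num

lemma W35_ge : 3471 / 10000 ≤ WA (3 / 10) (-6 / 25) (43 / 100) (7 / 20) := by
  refine le_trans ?_ (le_WA_of (z := 116189 / 100000) (by norm_num))
  norm_num

lemma W4_le : WA (3 / 10) (-6 / 25) (43 / 100) (2 / 5) ≤ 3967 / 10000 := by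
  refine le_trans (WA_le_of (z := 1183217 / 1000000) (by norm_num) (by norm_num)) ?_
  norm_num

theorem fins1 : FINS B1 Q1 (1 / 5) := by
  refine fins_of_rate (r := 4) (by norm_num) (by norm_num) (by norm_num) ?_ ?_
  · have := WA_one_ge
    have := W2_le
    linarith
  · refine hP_of (F := 0) (by norm_num) (by norm_num) (by norm_num) le_rfl (by norm_num)
      (by norm_num) fun x h0 h1 => ?_
    nlinarith [mul_nonneg h0 (sub_nonneg.mpr h1), pow_nonneg h0 3]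

theorem fins2 : FINS B2 Q2 (3 / 10) := by
  refine fins_of_rate (r := 3) (by norm_num) (by norm_num) (by norm_num) ?_ ?_
  · have := WA_one_ge
    have := W3_le
    linarith
  · refine hP_of (F := 129 / 1000) (by norm_num) (by norm_num) (by norm_num) (by norm_num)
      (by norm_num) (by norm_num) fun x h0 h1 => ?_
    nlinarith [mul_nonneg h0 (sub_nonneg.mpr h1), pow_nonneg h0 3,
      mul_nonneg h0 (sq_nonneg (x - 1 / 2))]

theorem fins3 : FINS B3 Q3 (7 / 20) := by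
  refine fins_of_rate (r := 13 / 5) (by norm_num) (by norm_num) (by norm_num) ?_ ?_
  · have := WA_one_ge
    have := W35_le
    linarith
  · refine hP_of (F := 112 / 1000) (by norm_num) (by norm_num) (by norm_num) (by norm_num)
      (by norm_num) (by norm_num) fun x h0 h1 => ?_
    nlinarith [mul_nonneg h0 (sub_nonneg.mpr h1), pow_nonneg h0 3,
      mul_nonneg h0 (sq_nonneg (x - 1 / 2))]

theorem fins4 : FINS B4 Q4 (2 / 5) := by
  refine fins_of_rate (r := 23 / 10) (by norm_num) (by norm_num) (by norm_num) ?_ ?_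
  · have := WA_one_ge
    have := W4_le
    linarith
  · refine hP_of (F := 46 / 1000) (by norm_num) (by norm_num) (by norm_num) (by norm_num)
      (by norm_num) (by norm_num) fun x h0 h1 => ?_
    nlinarith [mul_nonneg h0 (sub_nonneg.mpr h1), pow_nonneg h0 3,
      mul_nonneg h0 (sq_nonneg (x - 1 / 2))]

/-- The (SI) targets. -/
def SI1 : Prop := SIS (13 / 50) (41 / 100) (6 / 5) (11 / 5) (1 / 100) B1 Q1 0 0 (1988 / 10000) (1 / 5)
def SI2 : Prop :=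
  SIS (13 / 50) (41 / 100) (6 / 5) (11 / 5) (1 / 100) B2 Q2 (1987 / 10000) (1 / 5)
    (2977 / 10000) (3 / 10)
def SI3 : Prop :=
  SIS (13 / 50) (41 / 100) (6 / 5) (11 / 5) (1 / 100) B3 Q3 (2976 / 10000) (3 / 10)
    (3472 / 10000) (7 / 20)
def SI4 : Prop :=
  SIS (13 / 50) (41 / 100) (6 / 5) (11 / 5) (1 / 100) B4 Q4 (3471 / 10000) (7 / 20)
    (3967 / 10000) (2 / 5)

/-- **Regime S**: `0 < c ≤ 2/5`. -/
theorem regimeS (hPI : PIS (13 / 50) (41 / 100) (6 / 5) (11 / 5) (1 / 100) (2 / 5))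
    (h1 : SI1) (h2 : SI2) (h3 : SI3) (h4 : SI4) (c : ℝ) (hc0 : 0 < c) (hc : c ≤ 2 / 5) :
    Bound (Real.sqrt (1 - c ^ 2)) := by
  have hPI' : ∀ c₁, c₁ ≤ 2 / 5 → PIS (13 / 50) (41 / 100) (6 / 5) (11 / 5) (1 / 100) c₁ :=
    fun c₁ h c h1 h2 t ht0 ht1 => hPI c h1 (h2.trans h) t ht0 ht1
  rcases le_total c (1 / 5) with h | h
  · exact bound_S_family (by norm_num) (by norm_num) (by norm_num) (by norm_num)
      (hPI' (1 / 5) (by norm_num)) le_rfl le_rfl (by norm_num) le_rfl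
      (by rw [WA_zero]) W2_le (by norm_num) potOK1 h1 fins1 c hc0 h
  · rcases h.eq_or_lt with h' | h'
    · subst h'
      exact bound_S_family (by norm_num) (by norm_num) (by norm_num) (by norm_num)
        (hPI' (1 / 5) (by norm_num)) le_rfl le_rfl (by norm_num) le_rfl
        (by rw [WA_zero]) W2_le (by norm_num) potOK1 h1 fins1 _ hc0 le_rfl
    · rcases le_or_gt c (3 / 10) with g | g
      · exact bound_S_family (by norm_num) (by norm_num) (by norm_num) (by norm_num)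
          (hPI' (3 / 10) (by norm_num)) (by norm_num) le_rfl (by norm_num) (by norm_num)
          W2_ge W3_le (by norm_num) potOK2 h2 fins2 c h' g
      · rcases le_or_gt c (7 / 20) with k | k
        · exact bound_S_family (by norm_num) (by norm_num) (by norm_num) (by norm_num)
            (hPI' (7 / 20) (by norm_num)) (by norm_num) le_rfl (by norm_num) (by norm_num)
            W3_ge W35_le (by norm_num) potOK3 h3 fins3 c g k
        · exact bound_S_family (by norm_num) (by norm_num) (by norm_num) (by norm_num)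
            (hPI' (2 / 5) le_rfl) (by norm_num) le_rfl (by norm_num) (by norm_num)
            W35_ge W4_le (by norm_num) potOK4 h4 fins4 c k hc

end Crest.Agent.R307.GenS
end

-- ▼ part R307/SIglue

/-!
Row 307, S0471 (helper437): from the polynomial conditions checked by KB to the scalar inequality (SI).
`D = 2^22`, `DT = 2^16`, `DL = 2^20` are the denominators of the integer parameters.
-/

set_option autoImplicit false

open Set

namespace Crest.Agent.R307.SIglue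

open Crest.Agent.R307.GenProd Crest.Agent.R307.GenS

/-- the mean inequality used for `√(LR)` -/
lemma sq_le_of_mean {L R g la lb T : ℝ} (hT : 0 < T) (hL : 0 < L) (hR : 0 < R) (hla : 0 ≤ la)
    (hlab : 0 ≤ la * lb - T * T) (hM : 0 ≤ g * (la * L + lb * R) + 2 * T * (L * R)) :
    0 ≤ g ∨ g ^ 2 ≤ L * R := by
  by_cases hg : 0 ≤ g
  · exact Or.inl hg
  right
  have hg' : 0 < -g := by linarith [not_le.mp hg]
  have hT2 : 0 < T * T := mul_pos hT hT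
  have hlab' : 0 < la * lb := by linarith
  have hla' : 0 < la := by
    rcases hla.eq_or_lt with h | h
    · rw [← h] at hlab'; simp at hlab'
    · exact h
  have hlb : 0 < lb := by
    by_contra h
    have := mul_nonpos_of_nonneg_of_nonpos hla (not_lt.mp h)
    linarith
  set S := la * L + lb * R with hS
  have hS0 : 0 < S := by positivity
  have hLR : 0 < L * R := mul_pos hL hR
  -- S² ≥ 4 la lb L R
  have h4 : 4 * (T * T) * (L * R) ≤ S ^ 2 := by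
    have h1 : 4 * (la * lb) * (L * R) ≤ S ^ 2 := by
      rw [hS]; nlinarith [sq_nonneg (la * L - lb * R)]
    have h2 : 4 * (T * T) * (L * R) ≤ 4 * (la * lb) * (L * R) := by
      apply mul_le_mul_of_nonneg_right _ hLR.le
      linarith
    exact h2.trans h1
  have h5 : (-g) * S ≤ 2 * T * (L * R) := by linarith
  have h6 : ((-g) * S) ^ 2 ≤ (2 * T * (L * R)) ^ 2 :=
    pow_le_pow_left₀ (mul_nonneg hg'.le hS0.le) h5 2
  have h7 : g ^ 2 * (4 * (T * T) * (L * R)) ≤ g ^ 2 * S ^ 2 :=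
    mul_le_mul_of_nonneg_left h4 (sq_nonneg g)
  have h8 : g ^ 2 * (4 * (T * T) * (L * R)) ≤ (L * R) * (4 * (T * T) * (L * R)) := by
    nlinarith
  exact le_of_mul_le_mul_right h8 (by positivity)

/-- one corner of (SI) from the polynomial conditions -/
theorem corner_kb {B Q : ℝ → ℝ} {n0 n1 m r Den D h0 h1 hm c0 c1 cm q0 q1 qm : ℝ} (hDen : 0 < Den)
    (hD : 0 < D) (hm0 : 0 < m) (hr : 0 < r) (hd : n0 - n1 = 2 * m * r)
    (eB0 : B n0 = m / Den * h0) (eB1 : B n1 = m / Den * h1)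
    (eBm : 2 * B ((n0 + n1) / 2) = m / Den * hm)
    (eC0 : B (1 - n0) = m / Den * c0) (eC1 : B (1 - n1) = m / Den * c1)
    (eCm : 2 * B (1 - (n0 + n1) / 2) = m / Den * cm)
    (eQ0 : Q n0 = m / Den * q0) (eQ1 : Q n1 = m / Den * q1)
    (eQm : 2 * Q ((n0 + n1) / 2) = m / Den * qm)
    {A0 A1 B0 B1 Be Bp s0 s1 la lb L R T : ℝ} (hT : 0 < T)
    (hL : L = A0 * h0 + A1 * h1 + 2 * Den * (Be * r) - D * hm)
    (hR : R = B0 * c1 + B1 * c0 + 2 * Den * (Bp * r) - D * cm)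
    (oL : 0 ≤ L - r * r) (oR : 0 ≤ R - r * r) (ola : 0 ≤ la) (olab : 0 ≤ la * lb - T * T)
    (os0 : 0 ≤ A0 * B1 - s0 * s0) (os1 : 0 ≤ A1 * B0 - s1 * s1) (hs0 : 0 ≤ s0) (hs1 : 0 ≤ s1)
    (oM : 0 ≤ (s0 * q0 + s1 * q1 - D * qm) * (la * L + lb * R) + 2 * T * (L * R)) :
    SI B Q (fun _ => 0) (A0 / D) (A1 / D) (Be / D) 0 0 (B0 / D) (B1 / D) (Bp / D) 0 0 n0 n1 := by
  have hr2 : 0 < r * r := mul_pos hr hr
  have hL0 : 0 < L := by linarith
  have hR0 : 0 < R := by linarith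
  have hk : 0 < m / (Den * D) := div_pos hm0 (mul_pos hDen hD)
  have eL : gapL B (fun _ => 0) (A0 / D) (A1 / D) (Be / D) 0 0 n0 n1 = m / (Den * D) * L := by
    unfold gapL
    rw [eBm, eB0, eB1, hd, hL]
    field_simp
    ring
  have eR : gapR B (fun _ => 0) (B0 / D) (B1 / D) (Bp / D) 0 0 n0 n1 = m / (Den * D) * R := by
    unfold gapR
    rw [eCm, eC0, eC1, hd, hR]
    field_simp
    ring
  have eG : 2 * Q ((n0 + n1) / 2) - s0 / D * Q n0 - s1 / D * Q n1 =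
      -(m / (Den * D) * (s0 * q0 + s1 * q1 - D * qm)) := by
    rw [eQm, eQ0, eQ1]
    field_simp
    ring
  refine ⟨by rw [eL]; positivity, by rw [eR]; positivity, s0 / D, s1 / D, by positivity,
    by positivity, ?_, ?_, ?_⟩
  · rw [div_pow, div_mul_div_comm, div_le_div_iff₀ (by positivity) (by positivity)]
    have : s0 ^ 2 ≤ A0 * B1 := by nlinarith
    have h := mul_le_mul_of_nonneg_right this (show (0:ℝ) ≤ D * D by positivity)
    nlinarith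
  · rw [div_pow, div_mul_div_comm, div_le_div_iff₀ (by positivity) (by positivity)]
    have : s1 ^ 2 ≤ A1 * B0 := by nlinarith
    have h := mul_le_mul_of_nonneg_right this (show (0:ℝ) ≤ D * D by positivity)
    nlinarith
  · rcases sq_le_of_mean hT hL0 hR0 ola olab oM with h | h
    · left
      have : 0 ≤ m / (Den * D) * (s0 * q0 + s1 * q1 - D * qm) := mul_nonneg hk.le h
      linarith
    · right
      rw [eG, eL, eR]
      have h2 := mul_le_mul_of_nonneg_left h (sq_nonneg (m / (Den * D)))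
      calc (-(m / (Den * D) * (s0 * q0 + s1 * q1 - D * qm))) ^ 2
          = (m / (Den * D)) ^ 2 * (s0 * q0 + s1 * q1 - D * qm) ^ 2 := by ring
        _ ≤ (m / (Den * D)) ^ 2 * (L * R) := h2
        _ = m / (Den * D) * L * (m / (Den * D) * R) := by ring

/-- monotonicity in `C` and `bt` -/
theorem sik_mono {B Q : ℝ → ℝ} {n0 n1 C bt C' bt' D0 b D0' b' K K' : ℝ} (hn : n1 ≤ n0)
    (hB1 : 0 ≤ B n1) (hB0 : 0 ≤ B (1 - n0)) (hK : -1 ≤ K) (hK' : -1 ≤ K')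
    (hC : C ≤ D0) (hb : bt ≤ b) (hC' : C' ≤ D0') (hb' : bt' ≤ b')
    (h : SIK B Q (fun _ => 0) C bt 0 0 C' bt' 0 0 n0 n1 K K') :
    SIK B Q (fun _ => 0) D0 b 0 0 D0' b' 0 0 n0 n1 K K' := by
  obtain ⟨h1, h2, r0, r1, hr0, hr1, e0, e1, h3⟩ := h
  have g1 : gapL B (fun _ => 0) (1 + K) (C - K) bt 0 0 n0 n1 ≤
      gapL B (fun _ => 0) (1 + K) (D0 - K) b 0 0 n0 n1 := by
    unfold gapL
    have a1 := mul_le_mul_of_nonneg_right hC hB1
    have a2 := mul_le_mul_of_nonneg_right hb (sub_nonneg.mpr hn)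
    linarith
  have g2 : gapR B (fun _ => 0) (1 + K') (C' - K') bt' 0 0 n0 n1 ≤
      gapR B (fun _ => 0) (1 + K') (D0' - K') b' 0 0 n0 n1 := by
    unfold gapR
    have a1 := mul_le_mul_of_nonneg_right hC' hB0
    have a2 := mul_le_mul_of_nonneg_right hb' (sub_nonneg.mpr hn)
    linarith
  refine ⟨h1.trans g1, h2.trans g2, r0, r1, hr0, hr1, ?_, ?_, ?_⟩
  · exact e0.trans (mul_le_mul_of_nonneg_left (by linarith) (by linarith))
  · exact e1.trans (mul_le_mul_of_nonneg_right (by linarith) (by linarith))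
  · rcases h3 with h3 | h3
    · exact Or.inl h3
    · exact Or.inr (h3.trans (mul_le_mul g1 g2 h2 (h1.trans g1)))

lemma le_Cf {T DT C D : ℝ} (hD : 0 < D) (hDT : 0 < DT)
    (h : 0 ≤ D * (DT * DT - T * T) - C * (DT * DT + T * T)) : C / D ≤ Cf (T / DT) := by
  unfold Cf
  have hp : 0 < DT * DT + T * T := add_pos_of_pos_of_nonneg (mul_pos hDT hDT) (mul_self_nonneg T)
  have e : (1 - (T / DT) ^ 2) / (1 + (T / DT) ^ 2) = (DT * DT - T * T) / (DT * DT + T * T) := by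
    have h1 : 1 + (T / DT) ^ 2 ≠ 0 := by positivity
    have h2 := hp.ne'
    rw [div_eq_div_iff h1 h2]
    field_simp
  rw [e, div_le_div_iff₀ hD hp]
  linarith

lemma le_btf {T DT b D en ed : ℝ} (hD : 0 < D) (hDT : 0 < DT) (hed : 0 < ed)
    (h : 0 ≤ 2 * D * DT * T * (ed * (DT * DT) - en * ((DT - T) * (DT - T)))
      - ed * (DT * DT) * (b * (DT * DT + T * T))) : b / D ≤ btf (en / ed) (T / DT) := by
  unfold btf Sf
  have hp : 0 < DT * DT + T * T := add_pos_of_pos_of_nonneg (mul_pos hDT hDT) (mul_self_nonneg T)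
  have e : 2 * (T / DT) / (1 + (T / DT) ^ 2) * (1 - en / ed * (1 - T / DT) ^ 2) =
      2 * DT * T * (ed * (DT * DT) - en * ((DT - T) * (DT - T))) /
        (ed * (DT * DT) * (DT * DT + T * T)) := by
    have h1 : 1 + (T / DT) ^ 2 ≠ 0 := by positivity
    have h2 := hp.ne'
    have h3 : DT ^ 2 + T ^ 2 ≠ 0 := by positivity
    field_simp
  rw [e, div_le_div_iff₀ hD (mul_pos (mul_pos hed (mul_pos hDT hDT)) hp)]
  linarith

/-- upper bound of `K` -/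
lemma Kf_le {a b p q w x t k D : ℝ} (hD : 0 < D) (hx : 0 < x) (hp : 0 ≤ p) (hq : 0 ≤ q) (ht : 0 ≤ t)
    (h : 0 ≤ k * (1 + t ^ 2) * (x ^ 2 + p * (x * t) + q * t ^ 2) -
      D * (w * (2 * t) * (1 - t ^ 2) * (a * (x ^ 2 + p * (x * t) + q * t ^ 2) + b * x ^ 2))) :
    Kf a b p q w x t ≤ k / D := by
  unfold Kf kapR Sf
  have hE : 0 < x ^ 2 + p * (x * t) + q * t ^ 2 := by positivity
  have e : w * (2 * t / (1 + t ^ 2)) * (1 - t ^ 2) *
      (a + b * (x ^ 2 / (x ^ 2 + p * (x * t) + q * t ^ 2))) =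
      w * (2 * t) * (1 - t ^ 2) * (a * (x ^ 2 + p * (x * t) + q * t ^ 2) + b * x ^ 2) /
        ((1 + t ^ 2) * (x ^ 2 + p * (x * t) + q * t ^ 2)) := by
    have h1 : 1 + t ^ 2 ≠ 0 := by positivity
    have h2 := hE.ne'
    field_simp
  rw [e, div_le_div_iff₀ (by positivity) hD]
  linarith

/-- lower bound of `K` -/
lemma le_Kf {a b p q w x t k D : ℝ} (hD : 0 < D) (hx : 0 < x) (hp : 0 ≤ p) (hq : 0 ≤ q) (ht : 0 ≤ t)
    (h : 0 ≤ D * (w * (2 * t) * (1 - t ^ 2) * (a * (x ^ 2 + p * (x * t) + q * t ^ 2) + b * x ^ 2))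
      - k * (1 + t ^ 2) * (x ^ 2 + p * (x * t) + q * t ^ 2)) :
    k / D ≤ Kf a b p q w x t := by
  unfold Kf kapR Sf
  have hE : 0 < x ^ 2 + p * (x * t) + q * t ^ 2 := by positivity
  have e : w * (2 * t / (1 + t ^ 2)) * (1 - t ^ 2) *
      (a + b * (x ^ 2 / (x ^ 2 + p * (x * t) + q * t ^ 2))) =
      w * (2 * t) * (1 - t ^ 2) * (a * (x ^ 2 + p * (x * t) + q * t ^ 2) + b * x ^ 2) /
        ((1 + t ^ 2) * (x ^ 2 + p * (x * t) + q * t ^ 2)) := by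
    have h1 : 1 + t ^ 2 ≠ 0 := by positivity
    have h2 := hE.ne'
    field_simp
  rw [e, div_le_div_iff₀ hD (by positivity)]
  linarith

lemma Kf_zero (a b p q x t : ℝ) : Kf a b p q 0 x t = 0 := by simp [Kf]

/-- the `w`-terms in terms of `u = 1/d` -/
lemma wterm {x a b u d : ℝ} (hb : 0 < b) (hd : d = b * x + a) (hpos : 0 < d)
    (hu : 1 = d ^ 1 * u) : (a / b) / (x + a / b) = a * u := by
  have hu' : u = 1 / d := by
    rw [pow_one] at hu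
    field_simp
    linarith
  have hx : x + a / b = d / b := by rw [hd]; field_simp
  rw [hx, hu']
  field_simp

/-- the four corners at a point, from four corner inequalities with bounds of `K`, `C`, `bt` -/
theorem corners_of {B Q : ℝ → ℝ} {C bt Klo Khi : ℝ → ℝ} {t t' n0 n1 : ℝ} (hn : n1 ≤ n0)
    (hQ0 : 0 ≤ Q n0) (hQ1 : 0 ≤ Q n1) (hB1 : 0 ≤ B n1) (hB0 : 0 ≤ B (1 - n0))
    {c b c' b' kl kh kl' kh' : ℝ} (hk : -1 ≤ kl) (hk' : -1 ≤ kl')
    (k1 : kl ≤ Klo t) (k2 : Klo t ≤ Khi t) (k3 : Khi t ≤ kh) (k4 : kh ≤ c)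
    (k1' : kl' ≤ Klo t') (k2' : Klo t' ≤ Khi t') (k3' : Khi t' ≤ kh') (k4' : kh' ≤ c')
    (hC : c ≤ C t) (hb : b ≤ bt t) (hC' : c' ≤ C t') (hb' : b' ≤ bt t')
    (h00 : SIK B Q (fun _ => 0) c b 0 0 c' b' 0 0 n0 n1 kl kl')
    (h01 : SIK B Q (fun _ => 0) c b 0 0 c' b' 0 0 n0 n1 kl kh')
    (h10 : SIK B Q (fun _ => 0) c b 0 0 c' b' 0 0 n0 n1 kh kl')
    (h11 : SIK B Q (fun _ => 0) c b 0 0 c' b' 0 0 n0 n1 kh kh') :
    Corners B Q C bt Klo Khi t t' n0 n1 := by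
  have key : ∀ K K', kl ≤ K → K ≤ kh → kl' ≤ K' → K' ≤ kh' →
      SIK B Q (fun _ => 0) (C t) (bt t) 0 0 (C t') (bt t') 0 0 n0 n1 K K' := by
    intro K K' a1 a2 a3 a4
    exact sik_mono hn hB1 hB0 (by linarith) (by linarith) hC hb hC' hb'
      (SIK.rect hQ0 hQ1 hk k4 hk' k4' h00 h01 h10 h11 a1 a2 a3 a4)
  exact ⟨key _ _ k1 (by linarith) k1' (by linarith), key _ _ k1 (by linarith) (by linarith) k3',
    key _ _ (by linarith) k3 k1' (by linarith), key _ _ (by linarith) k3 (by linarith) k3'⟩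

lemma factor_eq {m s n Den Z : ℝ} (h : n = m * s) : m / Den * (s * Z) = n / Den * Z := by
  rw [h]; ring

/-- one corner in the shape `SIK` -/
theorem corner_kbK {B Q : ℝ → ℝ} {n0 n1 m r Den D h0 h1 hm c0 c1 cm q0 q1 qm : ℝ} (hDen : 0 < Den)
    (hD : 0 < D) (hm0 : 0 < m) (hr : 0 < r) (hd : n0 - n1 = 2 * m * r)
    (eB0 : B n0 = m / Den * h0) (eB1 : B n1 = m / Den * h1)
    (eBm : 2 * B ((n0 + n1) / 2) = m / Den * hm)
    (eC0 : B (1 - n0) = m / Den * c0) (eC1 : B (1 - n1) = m / Den * c1)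
    (eCm : 2 * B (1 - (n0 + n1) / 2) = m / Den * cm)
    (eQ0 : Q n0 = m / Den * q0) (eQ1 : Q n1 = m / Den * q1)
    (eQm : 2 * Q ((n0 + n1) / 2) = m / Den * qm)
    {A0 A1 B0 B1 Be Bp s0 s1 la lb L R T k k' C C' : ℝ} (hT : 0 < T)
    (hA0 : A0 = D + k) (hA1 : A1 = C - k) (hB0 : B0 = D + k') (hB1 : B1 = C' - k')
    (hL : L = A0 * h0 + A1 * h1 + 2 * Den * (Be * r) - D * hm)
    (hR : R = B0 * c1 + B1 * c0 + 2 * Den * (Bp * r) - D * cm)
    (oL : 0 ≤ L - r * r) (oR : 0 ≤ R - r * r) (ola : 0 ≤ la) (olab : 0 ≤ la * lb - T * T)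
    (os0 : 0 ≤ A0 * B1 - s0 * s0) (os1 : 0 ≤ A1 * B0 - s1 * s1) (hs0 : 0 ≤ s0) (hs1 : 0 ≤ s1)
    (oM : 0 ≤ (s0 * q0 + s1 * q1 - D * qm) * (la * L + lb * R) + 2 * T * (L * R)) :
    SIK B Q (fun _ => 0) (C / D) (Be / D) 0 0 (C' / D) (Bp / D) 0 0 n0 n1 (k / D) (k' / D) := by
  have h := corner_kb hDen hD hm0 hr hd eB0 eB1 eBm eC0 eC1 eCm eQ0 eQ1 eQm hT hL hR oL oR ola olab
    os0 os1 hs0 hs1 oM
  unfold SIK
  have e0 : 1 + k / D = A0 / D := by rw [hA0]; field_simp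
  have e1 : C / D - k / D = A1 / D := by rw [hA1]; ring
  have e2 : 1 + k' / D = B0 / D := by rw [hB0]; field_simp
  have e3 : C' / D - k' / D = B1 / D := by rw [hB1]; ring
  rw [e0, e1, e2, e3]
  exact h

/-- the map from pairs to the chart -/
theorem sis_of_point {a b p q η : ℝ} {B Q : ℝ → ℝ} {wa ca wb cb : ℝ}
    (H : ∀ m r : ℝ, 0 < m → m ≤ 1 / 2 → 0 < r → r ≤ 1 → ∃ t t' : ℝ, 0 ≤ t ∧ t ≤ 1 ∧
      0 ≤ t' ∧ t' ≤ 1 ∧ Corners B Q Cf (btf η) (Kf a b p q wa ca) (Kf a b p q wb cb) t t'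
        (m * (1 + r)) (m * (1 - r))) : SIS a b p q η B Q wa ca wb cb := by
  intro n0 n1 hn1 hn hs
  have hs0 : 0 < n0 + n1 := by linarith
  have hd : 0 < n0 - n1 := by linarith
  have h := H ((n0 + n1) / 2) ((n0 - n1) / (n0 + n1)) (by linarith) (by linarith)
    (div_pos hd hs0) ((div_le_one hs0).mpr (by linarith))
  have e0 : (n0 + n1) / 2 * (1 + (n0 - n1) / (n0 + n1)) = n0 := by
    have := hs0.ne'
    field_simp
    ring
  have e1 : (n0 + n1) / 2 * (1 - (n0 - n1) / (n0 + n1)) = n1 := by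
    have := hs0.ne'
    field_simp
    ring
  rwa [e0, e1] at h

end Crest.Agent.R307.SIglue
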