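import Crest.Agent.R307.PISn
import Crest.Agent.R307.PISe
import Crest.Agent.R307.PISf
import Crest.Agent.R307.PISgd_Mg
import Crest.Agent.R307.SIS1
import Crest.Agent.R307.SIglue
import Crest.Agent.R307.SIS2f
import Crest.Agent.R307.SIS3f
import Crest.Agent.R307.SIS4f
import Crest.Agent.R307.Final71
import Crest.Agent.R307.MO01S
import Crest.Agent.R307.MO02S
import Crest.Agent.R307.MO03S
import Crest.Agent.R307.MO04S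
import Crest.Agent.R307.MO05S
import Crest.Agent.R307.MO06S
import Crest.Agent.R307.MO13S
import Crest.Agent.R307.MO07S
import Crest.Agent.R307.MO08S
import Crest.Agent.R307.MOaS
import Crest.Agent.R307.MO09S
import Crest.Agent.R307.MO10S
import Crest.Agent.R307.MO11S
import Crest.Agent.R307.MO12S
import Crest.Agent.R307.FBA0_0
import Crest.Agent.R307.FBA0_1
import Crest.Agent.R307.FBA0_2
import Crest.Agent.R307.FBA2_0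
import Crest.Agent.R307.FBA2_1
import Crest.Agent.R307.FBA3_0
import Crest.Agent.R307.FBB0_0
import Crest.Agent.R307.FBB0_1
import Crest.Agent.R307.FBB2_0
import Crest.Agent.R307.FBB2_1
import Crest.Agent.R307.FBB2_2
import Crest.Agent.R307.FBB2_3
import Crest.Agent.R307.FBB3_0
import Crest.Agent.R307.FBB3_1
import Crest.Agent.R307.EdgeFlow2

-- ▼ part R307/PISge
section

set_option autoImplicit false

namespace Crest.Agent.R307.PIS1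

open Crest.Agent.R307 Crest.Agent.R307.GenInd Crest.Agent.R307.GenPI Crest.Agent.R307.GenFin
  Crest.Agent.R307.GenS

theorem chartE {g ta v s t c p : ℝ} (hg0 : 1 ≤ g) (hgu : g ≤ 19 / 16) (hta0 : 0 ≤ ta)
    (hta1 : ta ≤ 1 / 2) (hv0 : 0 ≤ v) (hv1 : v ≤ 25 / 16) (hp0 : 0 ≤ p) (hp1 : p ≤ 1)
    (hs : s = 1 - ta * v) (ht : t = 1 - ta) (hc : c = g ^ 2 - 1) : 0 ≤ ON g c s t p := by
  obtain ⟨g1, hg1⟩ : ∃ zz : ℝ, zz = (g + (1 : ℝ)) := ⟨_, rfl⟩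
  obtain ⟨s2, hs2⟩ : ∃ zz : ℝ, zz = (s * s) := ⟨_, rfl⟩
  obtain ⟨sh, hsh⟩ : ∃ zz : ℝ, zz = ((1 : ℝ) - s2) := ⟨_, rfl⟩
  obtain ⟨R, hR⟩ : ∃ zz : ℝ, zz = (c * sh) := ⟨_, rfl⟩
  obtain ⟨U, hU⟩ : ∃ zz : ℝ, zz = (((4 : ℝ) * s) + R) := ⟨_, rfl⟩
  obtain ⟨R2, hR2⟩ : ∃ zz : ℝ, zz = (R * R) := ⟨_, rfl⟩
  obtain ⟨s3, hs3⟩ : ∃ zz : ℝ, zz = (s2 * s) := ⟨_, rfl⟩
  obtain ⟨H, hH⟩ : ∃ zz : ℝ, zz = (((16 : ℝ) * s3) - R2) := ⟨_, rfl⟩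
  obtain ⟨DNv, hDN⟩ : ∃ zz : ℝ, zz = (((g1 * g1) * (U * U)) + (c * H)) := ⟨_, rfl⟩
  obtain ⟨c2, hc2⟩ : ∃ zz : ℝ, zz = (c * c) := ⟨_, rfl⟩
  obtain ⟨t2, ht2⟩ : ∃ zz : ℝ, zz = (t * t) := ⟨_, rfl⟩
  obtain ⟨ct, hct⟩ : ∃ zz : ℝ, zz = (c * t) := ⟨_, rfl⟩
  obtain ⟨KN, hKN⟩ : ∃ zz : ℝ, zz = ((((335 : ℝ) * c2) + ((156 : ℝ) * ct)) + ((286 : ℝ) * t2)) := ⟨_, rfl⟩
  obtain ⟨KD, hKD⟩ : ∃ zz : ℝ, zz = ((((500 : ℝ) * c2) + ((600 : ℝ) * ct)) + ((1100 : ℝ) * t2)) := ⟨_, rfl⟩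
  obtain ⟨p2, hp2⟩ : ∃ zz : ℝ, zz = (p * p) := ⟨_, rfl⟩
  obtain ⟨p3, hp3⟩ : ∃ zz : ℝ, zz = (p2 * p) := ⟨_, rfl⟩
  obtain ⟨p4, hp4⟩ : ∃ zz : ℝ, zz = (p2 * p2) := ⟨_, rfl⟩
  obtain ⟨p5, hp5⟩ : ∃ zz : ℝ, zz = (p3 * p2) := ⟨_, rfl⟩
  obtain ⟨p7, hp7⟩ : ∃ zz : ℝ, zz = (p4 * p3) := ⟨_, rfl⟩
  obtain ⟨E0, hE0⟩ : ∃ zz : ℝ, zz = ((((216 : ℝ) - ((402 : ℝ) * p2)) + ((344 : ℝ) * p4)) - ((43 : ℝ) * (c2 * p4))) := ⟨_, rfl⟩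
  obtain ⟨E16, hE16⟩ : ∃ zz : ℝ, zz = (((((16 : ℝ) * s2) - ((2 : ℝ) * R2)) * E0) - (R2 * (((402 : ℝ) * p2) - ((344 : ℝ) * p4)))) := ⟨_, rfl⟩
  obtain ⟨FR, hFR⟩ : ∃ zz : ℝ, zz = ((((4000 : ℝ) * s2) - ((850 : ℝ) * (s * (R * p)))) - ((27 : ℝ) * (R2 * p2))) := ⟨_, rfl⟩
  obtain ⟨WG, hWG⟩ : ∃ zz : ℝ, zz = ((1600 : ℝ) + (g1 * (((158 : ℝ) * c) - ((43 : ℝ) * (c2 * c))))) := ⟨_, rfl⟩
  obtain ⟨th, hth⟩ : ∃ zz : ℝ, zz = ((100 : ℝ) - (ta * ta)) := ⟨_, rfl⟩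
  obtain ⟨fp, hfp⟩ : ∃ zz : ℝ, zz = (((((200 : ℝ) - ((170 : ℝ) * p)) - ((54 : ℝ) * p3)) + ((67 : ℝ) * p5)) - ((43 : ℝ) * p7)) := ⟨_, rfl⟩
  obtain ⟨shF, hshF⟩ : ∃ zz : ℝ, zz = (sh * FR) := ⟨_, rfl⟩
  obtain ⟨A, hA⟩ : ∃ zz : ℝ, zz = ((((1 : ℝ) + t2) * (((128000 : ℝ) * (s2 * (g * (U * H)))) + ((10 : ℝ) * ((s * c) * (p3 * (DNv * E16)))))) + ((32 : ℝ) * (t2 * (DNv * shF)))) := ⟨_, rfl⟩
  obtain ⟨B, hB⟩ : ∃ zz : ℝ, zz = ((((1 : ℝ) - t2) * (KN * (((80 : ℝ) * (s3 * fp)) - (c * shF)))) + ((5 : ℝ) * (KD * (th * (p * (s * (((16 : ℝ) * s2) - R2))))))) := ⟨_, rfl⟩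
  obtain ⟨O, hO⟩ : ∃ zz : ℝ, zz = (((25 : ℝ) * (g1 * (KD * A))) - (WG * (t * (DNv * B)))) := ⟨_, rfl⟩
  have hmain := PISe.main g ta v p g p ta v s t g1 c s2 sh R U R2 s3 H DNv c2 t2 ct KN KD p2 p3 p4 p5 p7 E0 E16 FR WG th fp shF A B O
    (by linarith) (by linarith) (by linarith) (by linarith) (by linarith) (by linarith) (by linarith) (by linarith)
    (one_mul _).symm (one_mul _).symm (one_mul _).symm (one_mul _).symm hs ht hg1 (by rw [hg1]; linarith) hs2 hsh hR hU hR2 hs3 hH hDN hc2 ht2 hct hKN hKD hp2 hp3 hp4 hp5 hp7 hE0 hE16 hFR hWG hth hfp hshF hA hB hO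
  have eR : RN c s = R := by rw [hR, hsh, hs2]; unfold RN; ring
  have eU : UN c s = U := by unfold UN; rw [eR, hU]
  have eH : HN c s = H := by unfold HN; rw [eR, hH, hs3, hs2, hR2]; ring
  have eDN : DN g c s = DNv := by unfold DN; rw [eU, eH, hDN, hg1]; ring
  have eE0 : E0N c p = E0 := by unfold E0N; rw [hE0, hp4, hp2, hc2]; ring
  have eE16 : E16N c s p = E16 := by
    unfold E16N; rw [eR, eE0, hE16, hs2, hR2, hp4, hp2]; ring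
  have eFR : FRN c s p = FR := by
    unfold FRN; rw [eR, hFR, hs2, hR2, hp2]; ring
  have eWG : WGN g c = WG := by
    unfold WGN; rw [hWG, hg1, hc2]; ring
  have ekn : kn c t = KN := by
    rw [hKN, hc2, hct, ht2]; unfold kn; ring
  have ekd : kd c t = KD := by
    rw [hKD, hc2, hct, ht2]; unfold kd; ring
  have efp : f1 p = fp := by
    rw [hfp, hp7, hp5, hp4, hp3, hp2]; unfold f1; ring
  have eth : 100 - (1 - t) ^ 2 = th := by rw [hth, ht]; ring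
  have esh : 1 - s ^ 2 = sh := by rw [hsh, hs2]; ring
  have eA : AN g c s t p = A := by
    unfold AN; rw [eU, eH, eDN, eE16, eFR, esh, hA, hshF, ht2, hp3, hp2, hs2]; ring
  have eB : BN c s t p = B := by
    unfold BN; rw [eR, ekn, efp, eFR, esh, ekd, eth, hB, hshF, ht2, hs3, hs2, hR2]; ring
  have eO : ON g c s t p = O := by
    unfold ON; rw [eA, eB, ekd, eWG, eDN, hO, hg1]
  rw [eO]
  exact hmain

end Crest.Agent.R307.PIS1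
end

-- ▼ part R307/PISgf
section

set_option autoImplicit false

namespace Crest.Agent.R307.PIS1

open Crest.Agent.R307 Crest.Agent.R307.GenInd Crest.Agent.R307.GenPI Crest.Agent.R307.GenFin
  Crest.Agent.R307.GenS

theorem chartF {g ep v s ta t c p : ℝ} (hg0 : 1 ≤ g) (hgu : g ≤ 303 / 256) (hep0 : 0 ≤ ep)
    (hep1 : ep ≤ 196 / 256) (hv0 : 0 ≤ v) (hv1 : v ≤ 168 / 256) (hp0 : 0 ≤ p) (hp1 : p ≤ 1)
    (hs : s = 1 - ep) (hta : ta = ep * v) (ht : t = 1 - ta) (hc : c = g ^ 2 - 1) :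
    0 ≤ ON g c s t p := by
  obtain ⟨g1, hg1⟩ : ∃ zz : ℝ, zz = (g + (1 : ℝ)) := ⟨_, rfl⟩
  obtain ⟨s2, hs2⟩ : ∃ zz : ℝ, zz = (s * s) := ⟨_, rfl⟩
  obtain ⟨sh, hsh⟩ : ∃ zz : ℝ, zz = ((1 : ℝ) - s2) := ⟨_, rfl⟩
  obtain ⟨R, hR⟩ : ∃ zz : ℝ, zz = (c * sh) := ⟨_, rfl⟩
  obtain ⟨U, hU⟩ : ∃ zz : ℝ, zz = (((4 : ℝ) * s) + R) := ⟨_, rfl⟩
  obtain ⟨R2, hR2⟩ : ∃ zz : ℝ, zz = (R * R) := ⟨_, rfl⟩
  obtain ⟨s3, hs3⟩ : ∃ zz : ℝ, zz = (s2 * s) := ⟨_, rfl⟩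
  obtain ⟨H, hH⟩ : ∃ zz : ℝ, zz = (((16 : ℝ) * s3) - R2) := ⟨_, rfl⟩
  obtain ⟨DNv, hDN⟩ : ∃ zz : ℝ, zz = (((g1 * g1) * (U * U)) + (c * H)) := ⟨_, rfl⟩
  obtain ⟨c2, hc2⟩ : ∃ zz : ℝ, zz = (c * c) := ⟨_, rfl⟩
  obtain ⟨t2, ht2⟩ : ∃ zz : ℝ, zz = (t * t) := ⟨_, rfl⟩
  obtain ⟨ct, hct⟩ : ∃ zz : ℝ, zz = (c * t) := ⟨_, rfl⟩
  obtain ⟨KN, hKN⟩ : ∃ zz : ℝ, zz = ((((335 : ℝ) * c2) + ((156 : ℝ) * ct)) + ((286 : ℝ) * t2)) := ⟨_, rfl⟩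
  obtain ⟨KD, hKD⟩ : ∃ zz : ℝ, zz = ((((500 : ℝ) * c2) + ((600 : ℝ) * ct)) + ((1100 : ℝ) * t2)) := ⟨_, rfl⟩
  obtain ⟨p2, hp2⟩ : ∃ zz : ℝ, zz = (p * p) := ⟨_, rfl⟩
  obtain ⟨p3, hp3⟩ : ∃ zz : ℝ, zz = (p2 * p) := ⟨_, rfl⟩
  obtain ⟨p4, hp4⟩ : ∃ zz : ℝ, zz = (p2 * p2) := ⟨_, rfl⟩
  obtain ⟨p5, hp5⟩ : ∃ zz : ℝ, zz = (p3 * p2) := ⟨_, rfl⟩
  obtain ⟨p7, hp7⟩ : ∃ zz : ℝ, zz = (p4 * p3) := ⟨_, rfl⟩
  obtain ⟨E0, hE0⟩ : ∃ zz : ℝ, zz = ((((216 : ℝ) - ((402 : ℝ) * p2)) + ((344 : ℝ) * p4)) - ((43 : ℝ) * (c2 * p4))) := ⟨_, rfl⟩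
  obtain ⟨E16, hE16⟩ : ∃ zz : ℝ, zz = (((((16 : ℝ) * s2) - ((2 : ℝ) * R2)) * E0) - (R2 * (((402 : ℝ) * p2) - ((344 : ℝ) * p4)))) := ⟨_, rfl⟩
  obtain ⟨FR, hFR⟩ : ∃ zz : ℝ, zz = ((((4000 : ℝ) * s2) - ((850 : ℝ) * (s * (R * p)))) - ((27 : ℝ) * (R2 * p2))) := ⟨_, rfl⟩
  obtain ⟨WG, hWG⟩ : ∃ zz : ℝ, zz = ((1600 : ℝ) + (g1 * (((158 : ℝ) * c) - ((43 : ℝ) * (c2 * c))))) := ⟨_, rfl⟩
  obtain ⟨th, hth⟩ : ∃ zz : ℝ, zz = ((100 : ℝ) - (ta * ta)) := ⟨_, rfl⟩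
  obtain ⟨fp, hfp⟩ : ∃ zz : ℝ, zz = (((((200 : ℝ) - ((170 : ℝ) * p)) - ((54 : ℝ) * p3)) + ((67 : ℝ) * p5)) - ((43 : ℝ) * p7)) := ⟨_, rfl⟩
  obtain ⟨shF, hshF⟩ : ∃ zz : ℝ, zz = (sh * FR) := ⟨_, rfl⟩
  obtain ⟨A, hA⟩ : ∃ zz : ℝ, zz = ((((1 : ℝ) + t2) * (((128000 : ℝ) * (s2 * (g * (U * H)))) + ((10 : ℝ) * ((s * c) * (p3 * (DNv * E16)))))) + ((32 : ℝ) * (t2 * (DNv * shF)))) := ⟨_, rfl⟩
  obtain ⟨B, hB⟩ : ∃ zz : ℝ, zz = ((((1 : ℝ) - t2) * (KN * (((80 : ℝ) * (s3 * fp)) - (c * shF)))) + ((5 : ℝ) * (KD * (th * (p * (s * (((16 : ℝ) * s2) - R2))))))) := ⟨_, rfl⟩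
  obtain ⟨O, hO⟩ : ∃ zz : ℝ, zz = (((25 : ℝ) * (g1 * (KD * A))) - (WG * (t * (DNv * B)))) := ⟨_, rfl⟩
  have hmain := PISf.main g ep v p g p ep v s ta t g1 c s2 sh R U R2 s3 H DNv c2 t2 ct KN KD p2 p3 p4 p5 p7 E0 E16 FR WG th fp shF A B O
    (by linarith) (by linarith) (by linarith) (by linarith) (by linarith) (by linarith) (by linarith) (by linarith)
    (one_mul _).symm (one_mul _).symm (one_mul _).symm (one_mul _).symm hs hta ht hg1 (by rw [hg1]; linarith) hs2 hsh hR hU hR2 hs3 hH hDN hc2 ht2 hct hKN hKD hp2 hp3 hp4 hp5 hp7 hE0 hE16 hFR hWG hth hfp hshF hA hB hO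
  have eR : RN c s = R := by rw [hR, hsh, hs2]; unfold RN; ring
  have eU : UN c s = U := by unfold UN; rw [eR, hU]
  have eH : HN c s = H := by unfold HN; rw [eR, hH, hs3, hs2, hR2]; ring
  have eDN : DN g c s = DNv := by unfold DN; rw [eU, eH, hDN, hg1]; ring
  have eE0 : E0N c p = E0 := by unfold E0N; rw [hE0, hp4, hp2, hc2]; ring
  have eE16 : E16N c s p = E16 := by
    unfold E16N; rw [eR, eE0, hE16, hs2, hR2, hp4, hp2]; ring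
  have eFR : FRN c s p = FR := by
    unfold FRN; rw [eR, hFR, hs2, hR2, hp2]; ring
  have eWG : WGN g c = WG := by
    unfold WGN; rw [hWG, hg1, hc2]; ring
  have ekn : kn c t = KN := by
    rw [hKN, hc2, hct, ht2]; unfold kn; ring
  have ekd : kd c t = KD := by
    rw [hKD, hc2, hct, ht2]; unfold kd; ring
  have efp : f1 p = fp := by
    rw [hfp, hp7, hp5, hp4, hp3, hp2]; unfold f1; ring
  have eth : 100 - (1 - t) ^ 2 = th := by rw [hth, ht]; ring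
  have esh : 1 - s ^ 2 = sh := by rw [hsh, hs2]; ring
  have eA : AN g c s t p = A := by
    unfold AN; rw [eU, eH, eDN, eE16, eFR, esh, hA, hshF, ht2, hp3, hp2, hs2]; ring
  have eB : BN c s t p = B := by
    unfold BN; rw [eR, ekn, efp, eFR, esh, ekd, eth, hB, hshF, ht2, hs3, hs2, hR2]; ring
  have eO : ON g c s t p = O := by
    unfold ON; rw [eA, eB, ekd, eWG, eDN, hO, hg1]
  rw [eO]
  exact hmain

end Crest.Agent.R307.PIS1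
end

-- ▼ part R307/PIS1
section

/-!
Row 307, S0471, regime S: **(PI) for `c ∈ (0, 2/5]`** (`pis_S`), from six kernel-checked charts.
-/

set_option autoImplicit false

namespace Crest.Agent.R307.PIS1

open Crest.Agent.R307 Crest.Agent.R307.GenInd Crest.Agent.R307.GenPI Crest.Agent.R307.GenFin
  Crest.Agent.R307.GenS

lemma pt_zero {c p r : ℝ} (hc0 : 0 < c) (hc1 : c ≤ 2 / 5) (hp0 : 0 ≤ p) (hp1 : p ≤ 1)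
    (hr0 : 0 ≤ r) (hr1 : r ≤ 1) : Pt (WS c) c 0 p r := by
  refine ⟨0, ⟨le_rfl, by simp; positivity⟩, ?_⟩
  have := LL_nonneg hc0 hc1 le_rfl hp0 hp1 hr0 hr1 le_rfl
  simpa using this

lemma pt_small {c t p r : ℝ} (hc0 : 0 < c) (hc1 : c ≤ 2 / 5) (ht0 : 0 < t) (htc : t ≤ c)
    (hp0 : 0 ≤ p) (hp1 : p ≤ 1) (hr0 : 0 ≤ r) (hr1 : r ≤ 1) : Pt (WS c) c t p r := by
  have hX0 : 0 < t / c := div_pos ht0 hc0
  have hX1 : t / c ≤ 1 := (div_le_one hc0).mpr htc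
  have e : c * (t / c) = t := by field_simp
  by_cases h : t / c ≤ 1 - r
  · have hd : 0 < 1 - r := lt_of_lt_of_le hX0 h
    have h2 := chartA (c := c) (p := p) (r := r) (Y := (t / c) / (1 - r)) hc0 hc1 hp0 hp1 hr0
      (by linarith) (by positivity) ((div_le_one hd).mpr h)
    have e2 : (1 - r) * ((t / c) / (1 - r)) = t / c := by field_simp
    rw [e2, e] at h2
    exact h2
  · have h' : 1 - r < t / c := not_le.mp h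
    have h2 := chartB (c := c) (p := p) (r := r) (Xq := t / c) (V := (1 - r) / (t / c)) hc0 hc1
      hp0 hp1 hr0 hr1 hX0.le hX1 (div_nonneg (by linarith) hX0.le) ((div_le_one hX0).mpr h'.le)
      (by field_simp)
    rw [e] at h2
    exact h2

lemma pt_D {c t p r : ℝ} (hc0 : 0 < c) (hc1 : c ≤ 2 / 5) (ht0 : 0 < t) (ht1 : t ≤ 1)
    (hp0 : 0 ≤ p) (hp1 : p ≤ 1) (hr0 : 0 < r) (hr1 : r ≤ 1) (h : c ≤ 2 * (r * t)) :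
    Pt (WS c) c t p r := by
  have hrt : 0 < r * t := mul_pos hr0 ht0
  exact chartD (z := c / (r * t)) hc0 hc1 hp0 hp1 hr0 hr1 ht0 ht1 (by positivity)
    ((div_le_iff₀ hrt).mpr h) (by field_simp)

lemma pt_mid {c t p r : ℝ} (hc0 : 0 < c) (hc1 : c ≤ 2 / 5) (htc : c < t) (ht1 : t ≤ 1 / 2)
    (hp0 : 0 ≤ p) (hp1 : p ≤ 1) (hr0 : 0 ≤ r) (hr1 : r ≤ 1) : Pt (WS c) c t p r := by
  have ht0 : 0 < t := hc0.trans htc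
  have hxi0 : 0 < c / t := div_pos hc0 ht0
  have hxi1 : c / t ≤ 1 := (div_le_one ht0).mpr htc.le
  by_cases h : r ≤ c / t
  · exact chartC (xi := c / t) (s := r / (c / t)) hc0 hc1 hp0 hp1 hr0 hr1 ht0 ht1 hxi0 hxi1
      (by positivity) ((div_le_one hxi0).mpr h) (by field_simp) (by field_simp)
  · have h' : c / t < r := not_le.mp h
    have h2 : c < r * t := (div_lt_iff₀ ht0).mp h'
    have hr : 0 < r := hxi0.trans h'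
    exact pt_D hc0 hc1 ht0 (by linarith) hp0 hp1 hr hr1 (by linarith)

lemma pt_N {c t p r : ℝ} (hc0 : 0 < c) (hc1 : c ≤ 2 / 5) (ht0 : 1 / 2 ≤ t) (ht1 : t ≤ 1)
    (hp0 : 0 ≤ p) (hp1 : p ≤ 1) (hr0 : 0 ≤ r) (hrc : r ≤ c) : Pt (WS c) c t p r := by
  set g := Real.sqrt (1 + c) with hgd
  have hg2 : g ^ 2 = 1 + c := Real.sq_sqrt (by linarith)
  have hg0 : 0 ≤ g := Real.sqrt_nonneg _
  have hg1 : 1 ≤ g := by nlinarith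
  have hgu : g ≤ 303 / 256 := by nlinarith
  have hcg : c = g ^ 2 - 1 := by linarith
  set σ := r / c with hσ
  have hσ0 : 0 ≤ σ := div_nonneg hr0 hc0.le
  have hσ1 : σ ≤ 1 := (div_le_one hc0).mpr hrc
  have hrσ : r = c * σ := by rw [hσ]; field_simp
  set q := Real.sqrt (1 + 4 * σ ^ 2) with hq
  have hq2 : q ^ 2 = 1 + 4 * σ ^ 2 := Real.sq_sqrt (by positivity)
  have hq0 : 0 ≤ q := Real.sqrt_nonneg _
  obtain ⟨s, hs⟩ : ∃ s : ℝ, s = q - 2 * σ := ⟨_, rfl⟩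
  have hqσ : 2 * σ < q := by nlinarith
  have hs0 : 0 < s := by linarith
  have hss : s ^ 2 + 4 * σ * s = 1 := by
    rw [hs]; nlinarith
  have hs1 : s ≤ 1 := by nlinarith [mul_nonneg hσ0 hs0.le]
  have hsl : 15 / 64 ≤ s := by
    by_contra hcon
    have h1 : s < 15 / 64 := not_le.mp hcon
    have h2 : σ * s ≤ s := by nlinarith
    nlinarith
  have hrs : 4 * s * r = c * (1 - s ^ 2) := by
    rw [hrσ]; linear_combination c * hss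
  refine pt_of_ON hc0 hc1 hg1 hg2 (by linarith) ht1 hp0 hp1 hr0 hrc (by linarith) hrs ?_
  by_cases h : 1 - s ≤ 25 / 16 * (1 - t)
  · rcases (by linarith : 0 ≤ 1 - t).eq_or_lt with hτ | hτ
    · have hs' : s = 1 := by
        rw [← hτ] at h; linarith
      exact chartE (ta := 0) (v := 0) hg1 (by linarith) le_rfl (by norm_num) le_rfl (by norm_num)
        hp0 hp1 (by linarith) (by linarith) hcg
    · refine chartE (ta := 1 - t) (v := (1 - s) / (1 - t)) hg1 (by linarith) hτ.le (by linarith)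
        (div_nonneg (by linarith) hτ.le) ((div_le_iff₀ hτ).mpr h) hp0 hp1 ?_ (by ring) hcg
      have : (1 - t) * ((1 - s) / (1 - t)) = 1 - s := by field_simp
      linarith
  · have h' : 25 / 16 * (1 - t) < 1 - s := not_le.mp h
    have hε : 0 < 1 - s := by linarith
    refine chartF (ep := 1 - s) (v := (1 - t) / (1 - s)) (ta := 1 - t) hg1 hgu hε.le (by linarith)
      (div_nonneg (by linarith) hε.le) ((div_le_iff₀ hε).mpr (by linarith)) hp0 hp1 (by ring)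
      ?_ (by ring) hcg
    field_simp

/-- **(PI) of regime S.** -/
theorem pis_S : PIS (13 / 50) (41 / 100) (6 / 5) (11 / 5) (1 / 100) (2 / 5) := by
  refine pis_of_point fun c t p r hc0 hc1 ht0 ht1 hp0 hp1 hr0 hr1 => ?_
  rcases ht0.eq_or_lt with h | h
  · rw [← h]
    exact pt_zero hc0 hc1 hp0.le hp1 hr0 hr1
  · by_cases h1 : t ≤ c
    · exact pt_small hc0 hc1 h h1 hp0.le hp1 hr0 hr1
    · have h1' : c < t := not_le.mp h1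
      by_cases h2 : t ≤ 1 / 2
      · exact pt_mid hc0 hc1 h1' h2 hp0.le hp1 hr0 hr1
      · have h2' : 1 / 2 < t := not_le.mp h2
        by_cases h3 : r ≤ c
        · exact pt_N hc0 hc1 h2'.le ht1 hp0.le hp1 hr0 h3
        · have h3' : c < r := not_le.mp h3
          refine pt_D hc0 hc1 h ht1 hp0.le hp1 (hc0.trans h3') hr1 ?_
          nlinarith

end Crest.Agent.R307.PIS1
end

-- ▼ part R307/SIS1f
section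

set_option autoImplicit false
set_option linter.all false
set_option maxHeartbeats 4000000

namespace Crest.Agent.R307.SIS1

open Crest.Agent.KB Crest.Agent.R307.GenProd Crest.Agent.R307.GenS Crest.Agent.R307.SIglue

theorem point (m r : ℝ) (hm0 : 0 < m) (hm1 : m ≤ 1 / 2) (hr0 : 0 < r) (hr1 : r ≤ 1) :
    ∃ t t' : ℝ, 0 ≤ t ∧ t ≤ 1 ∧ 0 ≤ t' ∧ t' ≤ 1 ∧ Corners B1 Q1 Cf (btf (1 / 100)) (Kf (13 / 50) (41 / 100) (6 / 5) (11 / 5) (0) (0)) (Kf (13 / 50) (41 / 100) (6 / 5) (11 / 5) (1988 / 10000) (1 / 5)) t t'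
      (m * (1 + r)) (m * (1 - r)) := by
  have hN0 : 0 < m * (1 + r) := by positivity
  have hN0' : m * (1 + r) ≤ 1 := by nlinarith
  have hN1 : 0 ≤ m * (1 - r) := mul_nonneg hm0.le (by linarith)
  have hN1' : m * (1 - r) ≤ 1 := by nlinarith
  obtain ⟨dc0_0, H_dc0_0⟩ : ∃ x : ℝ, x = (((1 : ℝ) * ((1 : ℝ) * (51 : ℝ))) - ((50 : ℝ) * (m * (((1 : ℝ) * (1 : ℝ)) + r)))) := ⟨_, rfl⟩
  have P_dc0_0 : 0 < dc0_0 := by rw [H_dc0_0]; nlinarith only [hN0, hN0', hN1, hN1', hm0, hm1, hr0, hr1, mul_nonneg hN0.le (sub_nonneg.mpr hN0'), mul_nonneg hN1 (sub_nonneg.mpr hN1'), mul_nonneg hm0.le (show (0:ℝ) ≤ 1 - m by linarith)]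
  obtain ⟨dc1_1, H_dc1_1⟩ : ∃ x : ℝ, x = (((1 : ℝ) * ((1 : ℝ) * (51 : ℝ))) - ((50 : ℝ) * (m * (((1 : ℝ) * (1 : ℝ)) - r)))) := ⟨_, rfl⟩
  have P_dc1_1 : 0 < dc1_1 := by rw [H_dc1_1]; nlinarith only [hN0, hN0', hN1, hN1', hm0, hm1, hr0, hr1, mul_nonneg hN0.le (sub_nonneg.mpr hN0'), mul_nonneg hN1 (sub_nonneg.mpr hN1'), mul_nonneg hm0.le (show (0:ℝ) ≤ 1 - m by linarith)]
  obtain ⟨dcm_2, H_dcm_2⟩ : ∃ x : ℝ, x = (((1 : ℝ) * (51 : ℝ)) - ((50 : ℝ) * m)) := ⟨_, rfl⟩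
  have P_dcm_2 : 0 < dcm_2 := by rw [H_dcm_2]; nlinarith only [hN0, hN0', hN1, hN1', hm0, hm1, hr0, hr1, mul_nonneg hN0.le (sub_nonneg.mpr hN0'), mul_nonneg hN1 (sub_nonneg.mpr hN1'), mul_nonneg hm0.le (show (0:ℝ) ≤ 1 - m by linarith)]
  obtain ⟨dn0_3, H_dn0_3⟩ : ∃ x : ℝ, x = (((50 : ℝ) * (m * (((1 : ℝ) * (1 : ℝ)) + r))) + ((1 : ℝ) * ((1 : ℝ) * (1 : ℝ)))) := ⟨_, rfl⟩
  have P_dn0_3 : 0 < dn0_3 := by rw [H_dn0_3]; nlinarith only [hN0, hN0', hN1, hN1', hm0, hm1, hr0, hr1, mul_nonneg hN0.le (sub_nonneg.mpr hN0'), mul_nonneg hN1 (sub_nonneg.mpr hN1'), mul_nonneg hm0.le (show (0:ℝ) ≤ 1 - m by linarith)]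
  obtain ⟨dn1_4, H_dn1_4⟩ : ∃ x : ℝ, x = (((50 : ℝ) * (m * (((1 : ℝ) * (1 : ℝ)) - r))) + ((1 : ℝ) * ((1 : ℝ) * (1 : ℝ)))) := ⟨_, rfl⟩
  have P_dn1_4 : 0 < dn1_4 := by rw [H_dn1_4]; nlinarith only [hN0, hN0', hN1, hN1', hm0, hm1, hr0, hr1, mul_nonneg hN0.le (sub_nonneg.mpr hN0'), mul_nonneg hN1 (sub_nonneg.mpr hN1'), mul_nonneg hm0.le (show (0:ℝ) ≤ 1 - m by linarith)]
  obtain ⟨dnm_5, H_dnm_5⟩ : ∃ x : ℝ, x = (((50 : ℝ) * m) + ((1 : ℝ) * (1 : ℝ))) := ⟨_, rfl⟩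
  have P_dnm_5 : 0 < dnm_5 := by rw [H_dnm_5]; nlinarith only [hN0, hN0', hN1, hN1', hm0, hm1, hr0, hr1, mul_nonneg hN0.le (sub_nonneg.mpr hN0'), mul_nonneg hN1 (sub_nonneg.mpr hN1'), mul_nonneg hm0.le (show (0:ℝ) ≤ 1 - m by linarith)]
  obtain ⟨dv0_6, H_dv0_6⟩ : ∃ x : ℝ, x = (((160 : ℝ) * ((m * (((1 : ℝ) * (1 : ℝ)) + r)) * (((1 : ℝ) * ((1 : ℝ) * (1 : ℝ))) - (m * (((1 : ℝ) * (1 : ℝ)) + r))))) + ((1 : ℝ) * ((1 : ℝ) * (1 : ℝ)))) := ⟨_, rfl⟩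
  have P_dv0_6 : 0 < dv0_6 := by rw [H_dv0_6]; nlinarith only [hN0, hN0', hN1, hN1', hm0, hm1, hr0, hr1, mul_nonneg hN0.le (sub_nonneg.mpr hN0'), mul_nonneg hN1 (sub_nonneg.mpr hN1'), mul_nonneg hm0.le (show (0:ℝ) ≤ 1 - m by linarith)]
  obtain ⟨dv1_7, H_dv1_7⟩ : ∃ x : ℝ, x = (((160 : ℝ) * ((m * (((1 : ℝ) * (1 : ℝ)) - r)) * (((1 : ℝ) * ((1 : ℝ) * (1 : ℝ))) - (m * (((1 : ℝ) * (1 : ℝ)) - r))))) + ((1 : ℝ) * ((1 : ℝ) * (1 : ℝ)))) := ⟨_, rfl⟩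
  have P_dv1_7 : 0 < dv1_7 := by rw [H_dv1_7]; nlinarith only [hN0, hN0', hN1, hN1', hm0, hm1, hr0, hr1, mul_nonneg hN0.le (sub_nonneg.mpr hN0'), mul_nonneg hN1 (sub_nonneg.mpr hN1'), mul_nonneg hm0.le (show (0:ℝ) ≤ 1 - m by linarith)]
  obtain ⟨dvm_8, H_dvm_8⟩ : ∃ x : ℝ, x = (((160 : ℝ) * (m * (((1 : ℝ) * (1 : ℝ)) - m))) + ((1 : ℝ) * (1 : ℝ))) := ⟨_, rfl⟩
  have P_dvm_8 : 0 < dvm_8 := by rw [H_dvm_8]; nlinarith only [hN0, hN0', hN1, hN1', hm0, hm1, hr0, hr1, mul_nonneg hN0.le (sub_nonneg.mpr hN0'), mul_nonneg hN1 (sub_nonneg.mpr hN1'), mul_nonneg hm0.le (show (0:ℝ) ≤ 1 - m by linarith)]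
  obtain ⟨uc0_0, H_uc0_0⟩ : ∃ x : ℝ, (1 : ℝ) = dc0_0 ^ 1 * x := ⟨1 / dc0_0, by rw [pow_one]; field_simp⟩
  obtain ⟨uc1_1, H_uc1_1⟩ : ∃ x : ℝ, (1 : ℝ) = dc1_1 ^ 1 * x := ⟨1 / dc1_1, by rw [pow_one]; field_simp⟩
  obtain ⟨ucm_2, H_ucm_2⟩ : ∃ x : ℝ, (1 : ℝ) = dcm_2 ^ 1 * x := ⟨1 / dcm_2, by rw [pow_one]; field_simp⟩
  obtain ⟨un0_3, H_un0_3⟩ : ∃ x : ℝ, (1 : ℝ) = dn0_3 ^ 1 * x := ⟨1 / dn0_3, by rw [pow_one]; field_simp⟩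
  obtain ⟨un1_4, H_un1_4⟩ : ∃ x : ℝ, (1 : ℝ) = dn1_4 ^ 1 * x := ⟨1 / dn1_4, by rw [pow_one]; field_simp⟩
  obtain ⟨unm_5, H_unm_5⟩ : ∃ x : ℝ, (1 : ℝ) = dnm_5 ^ 1 * x := ⟨1 / dnm_5, by rw [pow_one]; field_simp⟩
  obtain ⟨uv0_6, H_uv0_6⟩ : ∃ x : ℝ, (1 : ℝ) = dv0_6 ^ 1 * x := ⟨1 / dv0_6, by rw [pow_one]; field_simp⟩
  obtain ⟨uv1_7, H_uv1_7⟩ : ∃ x : ℝ, (1 : ℝ) = dv1_7 ^ 1 * x := ⟨1 / dv1_7, by rw [pow_one]; field_simp⟩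
  obtain ⟨uvm_8, H_uvm_8⟩ : ∃ x : ℝ, (1 : ℝ) = dvm_8 ^ 1 * x := ⟨1 / dvm_8, by rw [pow_one]; field_simp⟩
  obtain ⟨p, hp, H⟩ := main m r dc0_0 dc1_1 dcm_2 dn0_3 dn1_4 dnm_5 dv0_6 dv1_7 dvm_8 m r uc0_0 uc1_1 ucm_2 un0_3 un1_4 unm_5 uv0_6 uv1_7 uvm_8 (by norm_num; exact hm0.le) (by norm_num; linarith) (by norm_num; exact hr0.le) (by norm_num; exact hr1)
    P_dc0_0 P_dc1_1 P_dcm_2 P_dn0_3 P_dn1_4 P_dnm_5 P_dv0_6 P_dv1_7 P_dvm_8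
    H_dc0_0 H_dc1_1 H_dcm_2 H_dn0_3 H_dn1_4 H_dnm_5 H_dv0_6 H_dv1_7 H_dvm_8
    (one_mul _).symm (one_mul _).symm H_uc0_0 H_uc1_1 H_ucm_2 H_un0_3 H_un1_4 H_unm_5 H_uv0_6 H_uv1_7 H_uvm_8
  obtain ⟨t0a, H_t0a⟩ : ∃ x : ℝ, x = ((dg p 0 : ℤ) : ℝ) := ⟨_, rfl⟩
  obtain ⟨t1a, H_t1a⟩ : ∃ x : ℝ, x = ((dg p 1 : ℤ) : ℝ) := ⟨_, rfl⟩
  obtain ⟨kh0a, H_kh0a⟩ : ∃ x : ℝ, x = ((dg p 2 : ℤ) : ℝ) := ⟨_, rfl⟩
  obtain ⟨kh1a, H_kh1a⟩ : ∃ x : ℝ, x = ((dg p 3 : ℤ) : ℝ) := ⟨_, rfl⟩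
  obtain ⟨c0a, H_c0a⟩ : ∃ x : ℝ, x = ((dg p 4 : ℤ) : ℝ) := ⟨_, rfl⟩
  obtain ⟨c1a, H_c1a⟩ : ∃ x : ℝ, x = ((dg p 5 : ℤ) : ℝ) := ⟨_, rfl⟩
  obtain ⟨c2a, H_c2a⟩ : ∃ x : ℝ, x = ((dg p 6 : ℤ) : ℝ) := ⟨_, rfl⟩
  obtain ⟨b0a, H_b0a⟩ : ∃ x : ℝ, x = ((dg p 7 : ℤ) : ℝ) := ⟨_, rfl⟩
  obtain ⟨b1a, H_b1a⟩ : ∃ x : ℝ, x = ((dg p 8 : ℤ) : ℝ) := ⟨_, rfl⟩
  obtain ⟨b2a, H_b2a⟩ : ∃ x : ℝ, x = ((dg p 9 : ℤ) : ℝ) := ⟨_, rfl⟩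
  obtain ⟨t0b, H_t0b⟩ : ∃ x : ℝ, x = ((dg p 10 : ℤ) : ℝ) := ⟨_, rfl⟩
  obtain ⟨t1b, H_t1b⟩ : ∃ x : ℝ, x = ((dg p 11 : ℤ) : ℝ) := ⟨_, rfl⟩
  obtain ⟨kh0b, H_kh0b⟩ : ∃ x : ℝ, x = ((dg p 12 : ℤ) : ℝ) := ⟨_, rfl⟩
  obtain ⟨kh1b, H_kh1b⟩ : ∃ x : ℝ, x = ((dg p 13 : ℤ) : ℝ) := ⟨_, rfl⟩
  obtain ⟨c0b, H_c0b⟩ : ∃ x : ℝ, x = ((dg p 14 : ℤ) : ℝ) := ⟨_, rfl⟩
  obtain ⟨c1b, H_c1b⟩ : ∃ x : ℝ, x = ((dg p 15 : ℤ) : ℝ) := ⟨_, rfl⟩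
  obtain ⟨c2b, H_c2b⟩ : ∃ x : ℝ, x = ((dg p 16 : ℤ) : ℝ) := ⟨_, rfl⟩
  obtain ⟨b0b, H_b0b⟩ : ∃ x : ℝ, x = ((dg p 17 : ℤ) : ℝ) := ⟨_, rfl⟩
  obtain ⟨b1b, H_b1b⟩ : ∃ x : ℝ, x = ((dg p 18 : ℤ) : ℝ) := ⟨_, rfl⟩
  obtain ⟨b2b, H_b2b⟩ : ∃ x : ℝ, x = ((dg p 19 : ℤ) : ℝ) := ⟨_, rfl⟩
  obtain ⟨la, H_la⟩ : ∃ x : ℝ, x = ((dg p 20 : ℤ) : ℝ) := ⟨_, rfl⟩
  obtain ⟨lb, H_lb⟩ : ∃ x : ℝ, x = ((dg p 21 : ℤ) : ℝ) := ⟨_, rfl⟩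
  obtain ⟨e0_00, H_e0_00⟩ : ∃ x : ℝ, x = ((dg p 22 : ℤ) : ℝ) := ⟨_, rfl⟩
  obtain ⟨e1_00, H_e1_00⟩ : ∃ x : ℝ, x = ((dg p 23 : ℤ) : ℝ) := ⟨_, rfl⟩
  obtain ⟨e2_00, H_e2_00⟩ : ∃ x : ℝ, x = ((dg p 24 : ℤ) : ℝ) := ⟨_, rfl⟩
  obtain ⟨f0_00, H_f0_00⟩ : ∃ x : ℝ, x = ((dg p 25 : ℤ) : ℝ) := ⟨_, rfl⟩
  obtain ⟨f1_00, H_f1_00⟩ : ∃ x : ℝ, x = ((dg p 26 : ℤ) : ℝ) := ⟨_, rfl⟩
  obtain ⟨f2_00, H_f2_00⟩ : ∃ x : ℝ, x = ((dg p 27 : ℤ) : ℝ) := ⟨_, rfl⟩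
  obtain ⟨e0_01, H_e0_01⟩ : ∃ x : ℝ, x = ((dg p 28 : ℤ) : ℝ) := ⟨_, rfl⟩
  obtain ⟨e1_01, H_e1_01⟩ : ∃ x : ℝ, x = ((dg p 29 : ℤ) : ℝ) := ⟨_, rfl⟩
  obtain ⟨e2_01, H_e2_01⟩ : ∃ x : ℝ, x = ((dg p 30 : ℤ) : ℝ) := ⟨_, rfl⟩
  obtain ⟨f0_01, H_f0_01⟩ : ∃ x : ℝ, x = ((dg p 31 : ℤ) : ℝ) := ⟨_, rfl⟩
  obtain ⟨f1_01, H_f1_01⟩ : ∃ x : ℝ, x = ((dg p 32 : ℤ) : ℝ) := ⟨_, rfl⟩
  obtain ⟨f2_01, H_f2_01⟩ : ∃ x : ℝ, x = ((dg p 33 : ℤ) : ℝ) := ⟨_, rfl⟩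
  obtain ⟨e0_10, H_e0_10⟩ : ∃ x : ℝ, x = ((dg p 34 : ℤ) : ℝ) := ⟨_, rfl⟩
  obtain ⟨e1_10, H_e1_10⟩ : ∃ x : ℝ, x = ((dg p 35 : ℤ) : ℝ) := ⟨_, rfl⟩
  obtain ⟨e2_10, H_e2_10⟩ : ∃ x : ℝ, x = ((dg p 36 : ℤ) : ℝ) := ⟨_, rfl⟩
  obtain ⟨f0_10, H_f0_10⟩ : ∃ x : ℝ, x = ((dg p 37 : ℤ) : ℝ) := ⟨_, rfl⟩
  obtain ⟨f1_10, H_f1_10⟩ : ∃ x : ℝ, x = ((dg p 38 : ℤ) : ℝ) := ⟨_, rfl⟩
  obtain ⟨f2_10, H_f2_10⟩ : ∃ x : ℝ, x = ((dg p 39 : ℤ) : ℝ) := ⟨_, rfl⟩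
  obtain ⟨e0_11, H_e0_11⟩ : ∃ x : ℝ, x = ((dg p 40 : ℤ) : ℝ) := ⟨_, rfl⟩
  obtain ⟨e1_11, H_e1_11⟩ : ∃ x : ℝ, x = ((dg p 41 : ℤ) : ℝ) := ⟨_, rfl⟩
  obtain ⟨e2_11, H_e2_11⟩ : ∃ x : ℝ, x = ((dg p 42 : ℤ) : ℝ) := ⟨_, rfl⟩
  obtain ⟨f0_11, H_f0_11⟩ : ∃ x : ℝ, x = ((dg p 43 : ℤ) : ℝ) := ⟨_, rfl⟩
  obtain ⟨f1_11, H_f1_11⟩ : ∃ x : ℝ, x = ((dg p 44 : ℤ) : ℝ) := ⟨_, rfl⟩
  obtain ⟨f2_11, H_f2_11⟩ : ∃ x : ℝ, x = ((dg p 45 : ℤ) : ℝ) := ⟨_, rfl⟩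
  obtain ⟨n0, H_n0⟩ : ∃ x : ℝ, x = (m * ((1 : ℝ) + r)) := ⟨_, rfl⟩
  obtain ⟨n1, H_n1⟩ : ∃ x : ℝ, x = (m * ((1 : ℝ) - r)) := ⟨_, rfl⟩
  obtain ⟨h0, H_h0⟩ : ∃ x : ℝ, x = (((1 : ℝ) + r) * (((1 : ℝ) - n0) * ((((((((((71422 : ℝ) * ((1 : ℝ) - ((2 : ℝ) * n0))) + (30914 : ℝ)) * ((1 : ℝ) - ((2 : ℝ) * n0))) + (149240 : ℝ)) * ((1 : ℝ) - ((2 : ℝ) * n0))) + (7462 : ℝ)) * ((1 : ℝ) - ((2 : ℝ) * n0))) + (249731 : ℝ)) + ((131118 : ℝ) * uc0_0)))) := ⟨_, rfl⟩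
  obtain ⟨h1, H_h1⟩ : ∃ x : ℝ, x = (((1 : ℝ) - r) * (((1 : ℝ) - n1) * ((((((((((71422 : ℝ) * ((1 : ℝ) - ((2 : ℝ) * n1))) + (30914 : ℝ)) * ((1 : ℝ) - ((2 : ℝ) * n1))) + (149240 : ℝ)) * ((1 : ℝ) - ((2 : ℝ) * n1))) + (7462 : ℝ)) * ((1 : ℝ) - ((2 : ℝ) * n1))) + (249731 : ℝ)) + ((131118 : ℝ) * uc1_1)))) := ⟨_, rfl⟩
  obtain ⟨hm, H_hm⟩ : ∃ x : ℝ, x = ((2 : ℝ) * (((1 : ℝ) - m) * ((((((((((71422 : ℝ) * ((1 : ℝ) - ((2 : ℝ) * m))) + (30914 : ℝ)) * ((1 : ℝ) - ((2 : ℝ) * m))) + (149240 : ℝ)) * ((1 : ℝ) - ((2 : ℝ) * m))) + (7462 : ℝ)) * ((1 : ℝ) - ((2 : ℝ) * m))) + (249731 : ℝ)) + ((131118 : ℝ) * ucm_2)))) := ⟨_, rfl⟩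
  obtain ⟨c0, H_c0⟩ : ∃ x : ℝ, x = (((1 : ℝ) + r) * (((1 : ℝ) - n0) * ((((((((((71422 : ℝ) * (((2 : ℝ) * n0) - (1 : ℝ))) + (30914 : ℝ)) * (((2 : ℝ) * n0) - (1 : ℝ))) + (149240 : ℝ)) * (((2 : ℝ) * n0) - (1 : ℝ))) + (7462 : ℝ)) * (((2 : ℝ) * n0) - (1 : ℝ))) + (249731 : ℝ)) + ((131118 : ℝ) * un0_3)))) := ⟨_, rfl⟩
  obtain ⟨c1, H_c1⟩ : ∃ x : ℝ, x = (((1 : ℝ) - r) * (((1 : ℝ) - n1) * ((((((((((71422 : ℝ) * (((2 : ℝ) * n1) - (1 : ℝ))) + (30914 : ℝ)) * (((2 : ℝ) * n1) - (1 : ℝ))) + (149240 : ℝ)) * (((2 : ℝ) * n1) - (1 : ℝ))) + (7462 : ℝ)) * (((2 : ℝ) * n1) - (1 : ℝ))) + (249731 : ℝ)) + ((131118 : ℝ) * un1_4)))) := ⟨_, rfl⟩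
  obtain ⟨cm, H_cm⟩ : ∃ x : ℝ, x = ((2 : ℝ) * (((1 : ℝ) - m) * ((((((((((71422 : ℝ) * (((2 : ℝ) * m) - (1 : ℝ))) + (30914 : ℝ)) * (((2 : ℝ) * m) - (1 : ℝ))) + (149240 : ℝ)) * (((2 : ℝ) * m) - (1 : ℝ))) + (7462 : ℝ)) * (((2 : ℝ) * m) - (1 : ℝ))) + (249731 : ℝ)) + ((131118 : ℝ) * unm_5)))) := ⟨_, rfl⟩
  obtain ⟨z20, H_z20⟩ : ∃ x : ℝ, x = (((1 : ℝ) - ((2 : ℝ) * n0)) * ((1 : ℝ) - ((2 : ℝ) * n0))) := ⟨_, rfl⟩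
  obtain ⟨q0, H_q0⟩ : ∃ x : ℝ, x = (((1 : ℝ) + r) * (((1 : ℝ) - n0) * ((((((((((73554 : ℝ) * z20) + (-59696 : ℝ)) * z20) + (7462 : ℝ)) * z20) + (-104468 : ℝ)) * z20) + (275912 : ℝ)) + ((94874 : ℝ) * uv0_6)))) := ⟨_, rfl⟩
  obtain ⟨z21, H_z21⟩ : ∃ x : ℝ, x = (((1 : ℝ) - ((2 : ℝ) * n1)) * ((1 : ℝ) - ((2 : ℝ) * n1))) := ⟨_, rfl⟩
  obtain ⟨q1, H_q1⟩ : ∃ x : ℝ, x = (((1 : ℝ) - r) * (((1 : ℝ) - n1) * ((((((((((73554 : ℝ) * z21) + (-59696 : ℝ)) * z21) + (7462 : ℝ)) * z21) + (-104468 : ℝ)) * z21) + (275912 : ℝ)) + ((94874 : ℝ) * uv1_7)))) := ⟨_, rfl⟩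
  obtain ⟨z2m, H_z2m⟩ : ∃ x : ℝ, x = (((1 : ℝ) - ((2 : ℝ) * m)) * ((1 : ℝ) - ((2 : ℝ) * m))) := ⟨_, rfl⟩
  obtain ⟨qm, H_qm⟩ : ∃ x : ℝ, x = ((2 : ℝ) * (((1 : ℝ) - m) * ((((((((((73554 : ℝ) * z2m) + (-59696 : ℝ)) * z2m) + (7462 : ℝ)) * z2m) + (-104468 : ℝ)) * z2m) + (275912 : ℝ)) + ((94874 : ℝ) * uvm_8)))) := ⟨_, rfl⟩
  obtain ⟨Ta, H_Ta⟩ : ∃ x : ℝ, x = (t0a + (t1a * r)) := ⟨_, rfl⟩
  obtain ⟨kla, H_kla⟩ : ∃ x : ℝ, x = ((0 : ℝ) * r) := ⟨_, rfl⟩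
  obtain ⟨kha, H_kha⟩ : ∃ x : ℝ, x = (kh0a + (kh1a * r)) := ⟨_, rfl⟩
  obtain ⟨Ca, H_Ca⟩ : ∃ x : ℝ, x = ((c0a + (c1a * r)) + (c2a * (r * r))) := ⟨_, rfl⟩
  obtain ⟨Bea, H_Bea⟩ : ∃ x : ℝ, x = ((b0a + (b1a * r)) + (b2a * (r * r))) := ⟨_, rfl⟩
  obtain ⟨oUa, H_oUa⟩ : ∃ x : ℝ, x = ((65536 : ℝ) - Ta) := ⟨_, rfl⟩
  obtain ⟨TTa, H_TTa⟩ : ∃ x : ℝ, x = (Ta * Ta) := ⟨_, rfl⟩
  obtain ⟨spa, H_spa⟩ : ∃ x : ℝ, x = ((4294967296 : ℝ) + TTa) := ⟨_, rfl⟩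
  obtain ⟨sma, H_sma⟩ : ∃ x : ℝ, x = ((4294967296 : ℝ) - TTa) := ⟨_, rfl⟩
  obtain ⟨oCa, H_oCa⟩ : ∃ x : ℝ, x = (((4194304 : ℝ) * sma) - (Ca * spa)) := ⟨_, rfl⟩
  obtain ⟨oBa, H_oBa⟩ : ∃ x : ℝ, x = ((((549755813888 : ℝ) * Ta) * ((429496729600 : ℝ) - ((1 : ℝ) * (((65536 : ℝ) - Ta) * ((65536 : ℝ) - Ta))))) - ((429496729600 : ℝ) * (Bea * spa))) := ⟨_, rfl⟩
  obtain ⟨Eha, H_Eha⟩ : ∃ x : ℝ, x = (((21474836480 : ℝ) + ((1966080 : ℝ) * Ta)) + ((275 : ℝ) * TTa)) := ⟨_, rfl⟩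
  obtain ⟨Nna, H_Nna⟩ : ∃ x : ℝ, x = (((26 : ℝ) * Eha) + (880468295680 : ℝ)) := ⟨_, rfl⟩
  obtain ⟨oKha, H_oKha⟩ : ∃ x : ℝ, x = (((16384000000 : ℝ) * ((kha * spa) * Eha)) - ((4169138176 : ℝ) * ((Ta * sma) * Nna))) := ⟨_, rfl⟩
  obtain ⟨A0la, H_A0la⟩ : ∃ x : ℝ, x = ((4194304 : ℝ) + kla) := ⟨_, rfl⟩
  obtain ⟨A0ha, H_A0ha⟩ : ∃ x : ℝ, x = ((4194304 : ℝ) + kha) := ⟨_, rfl⟩
  obtain ⟨A1la, H_A1la⟩ : ∃ x : ℝ, x = (Ca - kla) := ⟨_, rfl⟩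
  obtain ⟨A1ha, H_A1ha⟩ : ∃ x : ℝ, x = (Ca - kha) := ⟨_, rfl⟩
  obtain ⟨Tb, H_Tb⟩ : ∃ x : ℝ, x = (t0b + (t1b * r)) := ⟨_, rfl⟩
  obtain ⟨klb, H_klb⟩ : ∃ x : ℝ, x = ((0 : ℝ) * r) := ⟨_, rfl⟩
  obtain ⟨khb, H_khb⟩ : ∃ x : ℝ, x = (kh0b + (kh1b * r)) := ⟨_, rfl⟩
  obtain ⟨Cb, H_Cb⟩ : ∃ x : ℝ, x = ((c0b + (c1b * r)) + (c2b * (r * r))) := ⟨_, rfl⟩
  obtain ⟨Beb, H_Beb⟩ : ∃ x : ℝ, x = ((b0b + (b1b * r)) + (b2b * (r * r))) := ⟨_, rfl⟩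
  obtain ⟨oUb, H_oUb⟩ : ∃ x : ℝ, x = ((65536 : ℝ) - Tb) := ⟨_, rfl⟩
  obtain ⟨TTb, H_TTb⟩ : ∃ x : ℝ, x = (Tb * Tb) := ⟨_, rfl⟩
  obtain ⟨spb, H_spb⟩ : ∃ x : ℝ, x = ((4294967296 : ℝ) + TTb) := ⟨_, rfl⟩
  obtain ⟨smb, H_smb⟩ : ∃ x : ℝ, x = ((4294967296 : ℝ) - TTb) := ⟨_, rfl⟩
  obtain ⟨oCb, H_oCb⟩ : ∃ x : ℝ, x = (((4194304 : ℝ) * smb) - (Cb * spb)) := ⟨_, rfl⟩
  obtain ⟨oBb, H_oBb⟩ : ∃ x : ℝ, x = ((((549755813888 : ℝ) * Tb) * ((429496729600 : ℝ) - ((1 : ℝ) * (((65536 : ℝ) - Tb) * ((65536 : ℝ) - Tb))))) - ((429496729600 : ℝ) * (Beb * spb))) := ⟨_, rfl⟩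
  obtain ⟨Ehb, H_Ehb⟩ : ∃ x : ℝ, x = (((21474836480 : ℝ) + ((1966080 : ℝ) * Tb)) + ((275 : ℝ) * TTb)) := ⟨_, rfl⟩
  obtain ⟨Nnb, H_Nnb⟩ : ∃ x : ℝ, x = (((26 : ℝ) * Ehb) + (880468295680 : ℝ)) := ⟨_, rfl⟩
  obtain ⟨oKhb, H_oKhb⟩ : ∃ x : ℝ, x = (((16384000000 : ℝ) * ((khb * spb) * Ehb)) - ((4169138176 : ℝ) * ((Tb * smb) * Nnb))) := ⟨_, rfl⟩
  obtain ⟨A0lb, H_A0lb⟩ : ∃ x : ℝ, x = ((4194304 : ℝ) + klb) := ⟨_, rfl⟩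
  obtain ⟨A0hb, H_A0hb⟩ : ∃ x : ℝ, x = ((4194304 : ℝ) + khb) := ⟨_, rfl⟩
  obtain ⟨A1lb, H_A1lb⟩ : ∃ x : ℝ, x = (Cb - klb) := ⟨_, rfl⟩
  obtain ⟨A1hb, H_A1hb⟩ : ∃ x : ℝ, x = (Cb - khb) := ⟨_, rfl⟩
  obtain ⟨L0, H_L0⟩ : ∃ x : ℝ, x = ((((A0la * h0) + (A1la * h1)) + ((533000 : ℝ) * (Bea * r))) - ((4194304 : ℝ) * hm)) := ⟨_, rfl⟩
  obtain ⟨oL0, H_oL0⟩ : ∃ x : ℝ, x = (L0 - (r * r)) := ⟨_, rfl⟩
  obtain ⟨R0, H_R0⟩ : ∃ x : ℝ, x = ((((A0lb * c1) + (A1lb * c0)) + ((533000 : ℝ) * (Beb * r))) - ((4194304 : ℝ) * cm)) := ⟨_, rfl⟩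
  obtain ⟨oR0, H_oR0⟩ : ∃ x : ℝ, x = (R0 - (r * r)) := ⟨_, rfl⟩
  obtain ⟨L1, H_L1⟩ : ∃ x : ℝ, x = ((((A0ha * h0) + (A1ha * h1)) + ((533000 : ℝ) * (Bea * r))) - ((4194304 : ℝ) * hm)) := ⟨_, rfl⟩
  obtain ⟨oL1, H_oL1⟩ : ∃ x : ℝ, x = (L1 - (r * r)) := ⟨_, rfl⟩
  obtain ⟨R1, H_R1⟩ : ∃ x : ℝ, x = ((((A0hb * c1) + (A1hb * c0)) + ((533000 : ℝ) * (Beb * r))) - ((4194304 : ℝ) * cm)) := ⟨_, rfl⟩
  obtain ⟨oR1, H_oR1⟩ : ∃ x : ℝ, x = (R1 - (r * r)) := ⟨_, rfl⟩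
  obtain ⟨ola, H_ola⟩ : ∃ x : ℝ, x = ((1 : ℝ) * la) := ⟨_, rfl⟩
  obtain ⟨olab, H_olab⟩ : ∃ x : ℝ, x = ((la * lb) - (1099511627776 : ℝ)) := ⟨_, rfl⟩
  obtain ⟨s0_00, H_s0_00⟩ : ∃ x : ℝ, x = ((e0_00 + (e1_00 * r)) + (e2_00 * (r * r))) := ⟨_, rfl⟩
  obtain ⟨s1_00, H_s1_00⟩ : ∃ x : ℝ, x = ((f0_00 + (f1_00 * r)) + (f2_00 * (r * r))) := ⟨_, rfl⟩
  obtain ⟨oS0_00, H_oS0_00⟩ : ∃ x : ℝ, x = ((A0la * A1lb) - (s0_00 * s0_00)) := ⟨_, rfl⟩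
  obtain ⟨oS1_00, H_oS1_00⟩ : ∃ x : ℝ, x = ((A1la * A0lb) - (s1_00 * s1_00)) := ⟨_, rfl⟩
  obtain ⟨g_00, H_g_00⟩ : ∃ x : ℝ, x = (((s0_00 * q0) + (s1_00 * q1)) - ((4194304 : ℝ) * qm)) := ⟨_, rfl⟩
  obtain ⟨M_00, H_M_00⟩ : ∃ x : ℝ, x = ((g_00 * ((la * L0) + (lb * R0))) + ((2097152 : ℝ) * (L0 * R0))) := ⟨_, rfl⟩
  obtain ⟨s0_01, H_s0_01⟩ : ∃ x : ℝ, x = ((e0_01 + (e1_01 * r)) + (e2_01 * (r * r))) := ⟨_, rfl⟩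
  obtain ⟨s1_01, H_s1_01⟩ : ∃ x : ℝ, x = ((f0_01 + (f1_01 * r)) + (f2_01 * (r * r))) := ⟨_, rfl⟩
  obtain ⟨oS0_01, H_oS0_01⟩ : ∃ x : ℝ, x = ((A0la * A1hb) - (s0_01 * s0_01)) := ⟨_, rfl⟩
  obtain ⟨oS1_01, H_oS1_01⟩ : ∃ x : ℝ, x = ((A1la * A0hb) - (s1_01 * s1_01)) := ⟨_, rfl⟩
  obtain ⟨g_01, H_g_01⟩ : ∃ x : ℝ, x = (((s0_01 * q0) + (s1_01 * q1)) - ((4194304 : ℝ) * qm)) := ⟨_, rfl⟩
  obtain ⟨M_01, H_M_01⟩ : ∃ x : ℝ, x = ((g_01 * ((la * L0) + (lb * R1))) + ((2097152 : ℝ) * (L0 * R1))) := ⟨_, rfl⟩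
  obtain ⟨s0_10, H_s0_10⟩ : ∃ x : ℝ, x = ((e0_10 + (e1_10 * r)) + (e2_10 * (r * r))) := ⟨_, rfl⟩
  obtain ⟨s1_10, H_s1_10⟩ : ∃ x : ℝ, x = ((f0_10 + (f1_10 * r)) + (f2_10 * (r * r))) := ⟨_, rfl⟩
  obtain ⟨oS0_10, H_oS0_10⟩ : ∃ x : ℝ, x = ((A0ha * A1lb) - (s0_10 * s0_10)) := ⟨_, rfl⟩
  obtain ⟨oS1_10, H_oS1_10⟩ : ∃ x : ℝ, x = ((A1ha * A0lb) - (s1_10 * s1_10)) := ⟨_, rfl⟩
  obtain ⟨g_10, H_g_10⟩ : ∃ x : ℝ, x = (((s0_10 * q0) + (s1_10 * q1)) - ((4194304 : ℝ) * qm)) := ⟨_, rfl⟩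
  obtain ⟨M_10, H_M_10⟩ : ∃ x : ℝ, x = ((g_10 * ((la * L1) + (lb * R0))) + ((2097152 : ℝ) * (L1 * R0))) := ⟨_, rfl⟩
  obtain ⟨s0_11, H_s0_11⟩ : ∃ x : ℝ, x = ((e0_11 + (e1_11 * r)) + (e2_11 * (r * r))) := ⟨_, rfl⟩
  obtain ⟨s1_11, H_s1_11⟩ : ∃ x : ℝ, x = ((f0_11 + (f1_11 * r)) + (f2_11 * (r * r))) := ⟨_, rfl⟩
  obtain ⟨oS0_11, H_oS0_11⟩ : ∃ x : ℝ, x = ((A0ha * A1hb) - (s0_11 * s0_11)) := ⟨_, rfl⟩
  obtain ⟨oS1_11, H_oS1_11⟩ : ∃ x : ℝ, x = ((A1ha * A0hb) - (s1_11 * s1_11)) := ⟨_, rfl⟩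
  obtain ⟨g_11, H_g_11⟩ : ∃ x : ℝ, x = (((s0_11 * q0) + (s1_11 * q1)) - ((4194304 : ℝ) * qm)) := ⟨_, rfl⟩
  obtain ⟨M_11, H_M_11⟩ : ∃ x : ℝ, x = ((g_11 * ((la * L1) + (lb * R1))) + ((2097152 : ℝ) * (L1 * R1))) := ⟨_, rfl⟩
  have H' := H t0a t1a kh0a kh1a c0a c1a c2a b0a b1a b2a t0b t1b kh0b kh1b c0b c1b c2b b0b b1b b2b la lb e0_00 e1_00 e2_00 f0_00 f1_00 f2_00 e0_01 e1_01 e2_01 f0_01 f1_01 f2_01 e0_10 e1_10 e2_10 f0_10 f1_10 f2_10 e0_11 e1_11 e2_11 f0_11 f1_11 f2_11 n0 n1 h0 h1 hm c0 c1 cm z20 q0 z21 q1 z2m qm Ta kla kha Ca Bea oUa TTa spa sma oCa oBa Eha Nna oKha A0la A0ha A1la A1ha Tb klb khb Cb Beb oUb TTb spb smb oCb oBb Ehb Nnb oKhb A0lb A0hb A1lb A1hb L0 oL0 R0 oR0 L1 oL1 R1 oR1 ola olab s0_00 s1_00 oS0_00 oS1_00 g_00 M_00 s0_01 s1_01 oS0_01 oS1_01 g_01 M_01 s0_10 s1_10 oS0_10 oS1_10 g_10 M_10 s0_11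 s1_11 oS0_11 oS1_11 g_11 M_11 H_t0a H_t1a H_kh0a H_kh1a H_c0a H_c1a H_c2a H_b0a H_b1a H_b2a H_t0b H_t1b H_kh0b H_kh1b H_c0b H_c1b H_c2b H_b0b H_b1b H_b2b H_la H_lb H_e0_00 H_e1_00 H_e2_00 H_f0_00 H_f1_00 H_f2_00 H_e0_01 H_e1_01 H_e2_01 H_f0_01 H_f1_01 H_f2_01 H_e0_10 H_e1_10 H_e2_10 H_f0_10 H_f1_10 H_f2_10 H_e0_11 H_e1_11 H_e2_11 H_f0_11 H_f1_11 H_f2_11 H_n0 H_n1 H_h0 H_h1 H_hm H_c0 H_c1 H_cm H_z20 H_q0 H_z21 H_q1 H_z2m H_qm H_Ta H_kla H_kha H_Ca H_Bea H_oUa H_TTa H_spa H_sma H_oCa H_oBa H_Eha H_Nna H_oKha H_A0la H_A0ha H_A1la H_A1ha H_Tb H_klb H_khb H_Cb H_Beb H_oUb H_TTb H_spb H_smb H_oCb H_oBb H_Ehb H_Nnb H_oKhb H_A0lb H_A0hb H_A1lb H_A1hb H_L0 H_oL0 H_R0 H_oR0 H_L1 H_oL1 H_R1 H_oR1 H_ola H_olab H_s0_00 H_s1_00 H_oS0_00 H_oS1_00 H_g_00 H_M_00 H_s0_01 H_s1_01 H_oS0_01 H_oS1_01 H_g_01 H_M_01 H_s0_10 H_s1_10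 H_oS0_10 H_oS1_10 H_g_10 H_M_10 H_s0_11 H_s1_11 H_oS0_11 H_oS1_11 H_g_11 H_M_11
  clear H
  obtain ⟨o_Ta, o_oUa, o_oCa, o_oBa, o_oKha, o_A1ha, o_Tb, o_oUb, o_oCb, o_oBb, o_oKhb, o_A1hb, o_oL0, o_oR0, o_oL1, o_oR1, o_ola, o_olab, o_h1, o_c0, o_oS0_00, o_oS1_00, o_s0_00, o_s1_00, o_M_00, o_oS0_01, o_oS1_01, o_s0_01, o_s1_01, o_M_01, o_oS0_10, o_oS1_10, o_s0_10, o_s1_10, o_M_10, o_oS0_11, o_oS1_11, o_s0_11, o_s1_11, o_M_11⟩ := H'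
  rw [← H_n0, ← H_n1]
  have emid : (n0 + n1) / 2 = m := by rw [H_n0, H_n1]; ring
  have hd : n0 - n1 = 2 * m * r := by rw [H_n0, H_n1]; ring
  have eB0 : B1 n0 = m / 266500 * h0 := by
    have w := wterm (x := 1 - n0) (a := 1) (b := 50) (d := dc0_0) (u := uc0_0) (by norm_num) (by rw [H_dc0_0, H_n0]; ring) P_dc0_0 H_uc0_0
    simp only [B1, BP]
    rw [w, H_h0, factor_eq H_n0]
    ring
  have eB1 : B1 n1 = m / 266500 * h1 := by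
    have w := wterm (x := 1 - n1) (a := 1) (b := 50) (d := dc1_1) (u := uc1_1) (by norm_num) (by rw [H_dc1_1, H_n1]; ring) P_dc1_1 H_uc1_1
    simp only [B1, BP]
    rw [w, H_h1, factor_eq H_n1]
    ring
  have eBm : 2 * B1 m = m / 266500 * hm := by
    have w := wterm (x := 1 - m) (a := 1) (b := 50) (d := dcm_2) (u := ucm_2) (by norm_num) (by rw [H_dcm_2]; ring) P_dcm_2 H_ucm_2
    simp only [B1, BP]
    rw [w, H_hm]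
    ring
  have eC0 : B1 (1 - n0) = m / 266500 * c0 := by
    have w := wterm (x := 1 - (1 - n0)) (a := 1) (b := 50) (d := dn0_3) (u := un0_3) (by norm_num) (by rw [H_dn0_3, H_n0]; ring) P_dn0_3 H_un0_3
    simp only [B1, BP]
    rw [w, H_c0, factor_eq H_n0]
    ring
  have eC1 : B1 (1 - n1) = m / 266500 * c1 := by
    have w := wterm (x := 1 - (1 - n1)) (a := 1) (b := 50) (d := dn1_4) (u := un1_4) (by norm_num) (by rw [H_dn1_4, H_n1]; ring) P_dn1_4 H_un1_4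
    simp only [B1, BP]
    rw [w, H_c1, factor_eq H_n1]
    ring
  have eCm : 2 * B1 (1 - m) = m / 266500 * cm := by
    have w := wterm (x := 1 - (1 - m)) (a := 1) (b := 50) (d := dnm_5) (u := unm_5) (by norm_num) (by rw [H_dnm_5]; ring) P_dnm_5 H_unm_5
    simp only [B1, BP]
    rw [w, H_cm]
    ring
  have eQ0 : Q1 n0 = m / 266500 * q0 := by
    have w := wterm (x := n0 * (1 - n0)) (a := 1) (b := 160) (d := dv0_6) (u := uv0_6) (by norm_num) (by rw [H_dv0_6, H_n0]; ring) P_dv0_6 H_uv0_6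
    simp only [Q1, QP]
    rw [w, H_q0, factor_eq H_n0]
    rw [H_z20]
    ring
  have eQ1 : Q1 n1 = m / 266500 * q1 := by
    have w := wterm (x := n1 * (1 - n1)) (a := 1) (b := 160) (d := dv1_7) (u := uv1_7) (by norm_num) (by rw [H_dv1_7, H_n1]; ring) P_dv1_7 H_uv1_7
    simp only [Q1, QP]
    rw [w, H_q1, factor_eq H_n1]
    rw [H_z21]
    ring
  have eQm : 2 * Q1 m = m / 266500 * qm := by
    have w := wterm (x := m * (1 - m)) (a := 1) (b := 160) (d := dvm_8) (u := uvm_8) (by norm_num) (by rw [H_dvm_8]; ring) P_dvm_8 H_uvm_8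
    simp only [Q1, QP]
    rw [w, H_qm]
    rw [H_z2m]
    ring
  have eBm' : 2 * B1 ((n0 + n1) / 2) = m / 266500 * hm := by rw [emid]; exact eBm
  have eCm' : 2 * B1 (1 - (n0 + n1) / 2) = m / 266500 * cm := by rw [emid]; exact eCm
  have eQm' : 2 * Q1 ((n0 + n1) / 2) = m / 266500 * qm := by rw [emid]; exact eQm
  have K00 : SIK B1 Q1 (fun _ => 0) (Ca / 4194304) (Bea / 4194304) 0 0 (Cb / 4194304) (Beb / 4194304) 0 0 n0 n1 (kla / 4194304) (klb / 4194304) := by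
    refine corner_kbK (m := m) (r := r) (Den := 266500) (D := 4194304) (T := 1048576) (L := L0) (R := R0) (A0 := A0la) (A1 := A1la) (B0 := A0lb) (B1 := A1lb) (s0 := s0_00) (s1 := s1_00) (la := la) (lb := lb) (by norm_num) (by norm_num) hm0 hr0 hd eB0 eB1 eBm' eC0 eC1 eCm' eQ0 eQ1 eQm' (by norm_num) H_A0la H_A1la H_A0lb H_A1lb ?_ ?_ ?_ ?_ ?_ ?_ ?_ ?_ o_s0_00 o_s1_00 ?_
    · rw [H_L0]; ring
    · rw [H_R0]; ring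
    · rw [← H_oL0]; exact o_oL0
    · rw [← H_oR0]; exact o_oR0
    · have h := o_ola; rw [H_ola] at h; linarith only [h]
    · have h := o_olab; rw [H_olab] at h; linarith only [h]
    · rw [← H_oS0_00]; exact o_oS0_00
    · rw [← H_oS1_00]; exact o_oS1_00
    · have h := o_M_00; rw [H_M_00, H_g_00] at h; linarith only [h]
  have K01 : SIK B1 Q1 (fun _ => 0) (Ca / 4194304) (Bea / 4194304) 0 0 (Cb / 4194304) (Beb / 4194304) 0 0 n0 n1 (kla / 4194304) (khb / 4194304) := by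
    refine corner_kbK (m := m) (r := r) (Den := 266500) (D := 4194304) (T := 1048576) (L := L0) (R := R1) (A0 := A0la) (A1 := A1la) (B0 := A0hb) (B1 := A1hb) (s0 := s0_01) (s1 := s1_01) (la := la) (lb := lb) (by norm_num) (by norm_num) hm0 hr0 hd eB0 eB1 eBm' eC0 eC1 eCm' eQ0 eQ1 eQm' (by norm_num) H_A0la H_A1la H_A0hb H_A1hb ?_ ?_ ?_ ?_ ?_ ?_ ?_ ?_ o_s0_01 o_s1_01 ?_
    · rw [H_L0]; ring
    · rw [H_R1]; ring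
    · rw [← H_oL0]; exact o_oL0
    · rw [← H_oR1]; exact o_oR1
    · have h := o_ola; rw [H_ola] at h; linarith only [h]
    · have h := o_olab; rw [H_olab] at h; linarith only [h]
    · rw [← H_oS0_01]; exact o_oS0_01
    · rw [← H_oS1_01]; exact o_oS1_01
    · have h := o_M_01; rw [H_M_01, H_g_01] at h; linarith only [h]
  have K10 : SIK B1 Q1 (fun _ => 0) (Ca / 4194304) (Bea / 4194304) 0 0 (Cb / 4194304) (Beb / 4194304) 0 0 n0 n1 (kha / 4194304) (klb / 4194304) := by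
    refine corner_kbK (m := m) (r := r) (Den := 266500) (D := 4194304) (T := 1048576) (L := L1) (R := R0) (A0 := A0ha) (A1 := A1ha) (B0 := A0lb) (B1 := A1lb) (s0 := s0_10) (s1 := s1_10) (la := la) (lb := lb) (by norm_num) (by norm_num) hm0 hr0 hd eB0 eB1 eBm' eC0 eC1 eCm' eQ0 eQ1 eQm' (by norm_num) H_A0ha H_A1ha H_A0lb H_A1lb ?_ ?_ ?_ ?_ ?_ ?_ ?_ ?_ o_s0_10 o_s1_10 ?_
    · rw [H_L1]; ring
    · rw [H_R0]; ring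
    · rw [← H_oL1]; exact o_oL1
    · rw [← H_oR0]; exact o_oR0
    · have h := o_ola; rw [H_ola] at h; linarith only [h]
    · have h := o_olab; rw [H_olab] at h; linarith only [h]
    · rw [← H_oS0_10]; exact o_oS0_10
    · rw [← H_oS1_10]; exact o_oS1_10
    · have h := o_M_10; rw [H_M_10, H_g_10] at h; linarith only [h]
  have K11 : SIK B1 Q1 (fun _ => 0) (Ca / 4194304) (Bea / 4194304) 0 0 (Cb / 4194304) (Beb / 4194304) 0 0 n0 n1 (kha / 4194304) (khb / 4194304) := by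
    refine corner_kbK (m := m) (r := r) (Den := 266500) (D := 4194304) (T := 1048576) (L := L1) (R := R1) (A0 := A0ha) (A1 := A1ha) (B0 := A0hb) (B1 := A1hb) (s0 := s0_11) (s1 := s1_11) (la := la) (lb := lb) (by norm_num) (by norm_num) hm0 hr0 hd eB0 eB1 eBm' eC0 eC1 eCm' eQ0 eQ1 eQm' (by norm_num) H_A0ha H_A1ha H_A0hb H_A1hb ?_ ?_ ?_ ?_ ?_ ?_ ?_ ?_ o_s0_11 o_s1_11 ?_
    · rw [H_L1]; ring
    · rw [H_R1]; ring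
    · rw [← H_oL1]; exact o_oL1
    · rw [← H_oR1]; exact o_oR1
    · have h := o_ola; rw [H_ola] at h; linarith only [h]
    · have h := o_olab; rw [H_olab] at h; linarith only [h]
    · rw [← H_oS0_11]; exact o_oS0_11
    · rw [← H_oS1_11]; exact o_oS1_11
    · have h := o_M_11; rw [H_M_11, H_g_11] at h; linarith only [h]
  have Ta0 : 0 ≤ Ta := o_Ta
  have Ta1 : Ta ≤ 65536 := by have h := o_oUa; rw [H_oUa] at h; linarith only [h]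
  have ta0 : 0 ≤ Ta / 65536 := by positivity
  have ta1 : Ta / 65536 ≤ 1 := by rw [div_le_one (by norm_num)]; exact Ta1
  have hCa : Ca / 4194304 ≤ Cf (Ta / 65536) := by
    refine le_Cf (by norm_num) (by norm_num) ?_
    have h := o_oCa; rw [H_oCa, H_sma, H_spa, H_TTa] at h; linarith only [h]
  have hba : Bea / 4194304 ≤ btf (1 / 100) (Ta / 65536) := by
    refine le_btf (by norm_num) (by norm_num) (by norm_num) ?_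
    have h := o_oBa; rw [H_oBa, H_spa, H_TTa] at h; linarith only [h]
  have hha : Kf (13 / 50) (41 / 100) (6 / 5) (11 / 5) (1988 / 10000) (1 / 5) (Ta / 65536) ≤ kha / 4194304 := by
    refine Kf_le (by norm_num) (by norm_num) (by norm_num) (by norm_num) ta0 ?_
    have h := div_nonneg o_oKha (show (0:ℝ) ≤ 37778931862957161709568000000000 by norm_num)
    rw [H_oKha, H_Nna, H_Eha, H_sma, H_spa, H_TTa] at h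
    refine h.trans_eq ?_
    ring
  have hla : kla / 4194304 ≤ Kf (13 / 50) (41 / 100) (6 / 5) (11 / 5) (0) (0) (Ta / 65536) := by rw [Kf_zero, H_kla]; norm_num
  have hna : -1 ≤ kla / 4194304 := by rw [H_kla]; norm_num
  have hma : Kf (13 / 50) (41 / 100) (6 / 5) (11 / 5) (0) (0) (Ta / 65536) ≤ Kf (13 / 50) (41 / 100) (6 / 5) (11 / 5) (1988 / 10000) (1 / 5) (Ta / 65536) := by
    have h := Kf_bounds (a := 13 / 50) (b := 41 / 100) (p := 6 / 5) (q := 11 / 5) (wa := 0) (w := 1988 / 10000) (wb := 1988 / 10000) (ca := 0) (c := 1 / 5) (cb := 1 / 5) (by norm_num) (by norm_num) (by norm_num) (by norm_num) (by norm_num) (by norm_num) le_rfl (by norm_num) (by norm_num) le_rfl (by norm_num) ta0 ta1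
    exact h.2.1
  have hka : kha / 4194304 ≤ Ca / 4194304 := by
    apply div_le_div_of_nonneg_right _ (by norm_num)
    have h := o_A1ha; rw [H_A1ha] at h; linarith only [h]
  have Tb0 : 0 ≤ Tb := o_Tb
  have Tb1 : Tb ≤ 65536 := by have h := o_oUb; rw [H_oUb] at h; linarith only [h]
  have tb0 : 0 ≤ Tb / 65536 := by positivity
  have tb1 : Tb / 65536 ≤ 1 := by rw [div_le_one (by norm_num)]; exact Tb1
  have hCb : Cb / 4194304 ≤ Cf (Tb / 65536) := by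
    refine le_Cf (by norm_num) (by norm_num) ?_
    have h := o_oCb; rw [H_oCb, H_smb, H_spb, H_TTb] at h; linarith only [h]
  have hbb : Beb / 4194304 ≤ btf (1 / 100) (Tb / 65536) := by
    refine le_btf (by norm_num) (by norm_num) (by norm_num) ?_
    have h := o_oBb; rw [H_oBb, H_spb, H_TTb] at h; linarith only [h]
  have hhb : Kf (13 / 50) (41 / 100) (6 / 5) (11 / 5) (1988 / 10000) (1 / 5) (Tb / 65536) ≤ khb / 4194304 := by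
    refine Kf_le (by norm_num) (by norm_num) (by norm_num) (by norm_num) tb0 ?_
    have h := div_nonneg o_oKhb (show (0:ℝ) ≤ 37778931862957161709568000000000 by norm_num)
    rw [H_oKhb, H_Nnb, H_Ehb, H_smb, H_spb, H_TTb] at h
    refine h.trans_eq ?_
    ring
  have hlb : klb / 4194304 ≤ Kf (13 / 50) (41 / 100) (6 / 5) (11 / 5) (0) (0) (Tb / 65536) := by rw [Kf_zero, H_klb]; norm_num
  have hnb : -1 ≤ klb / 4194304 := by rw [H_klb]; norm_num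
  have hmb : Kf (13 / 50) (41 / 100) (6 / 5) (11 / 5) (0) (0) (Tb / 65536) ≤ Kf (13 / 50) (41 / 100) (6 / 5) (11 / 5) (1988 / 10000) (1 / 5) (Tb / 65536) := by
    have h := Kf_bounds (a := 13 / 50) (b := 41 / 100) (p := 6 / 5) (q := 11 / 5) (wa := 0) (w := 1988 / 10000) (wb := 1988 / 10000) (ca := 0) (c := 1 / 5) (cb := 1 / 5) (by norm_num) (by norm_num) (by norm_num) (by norm_num) (by norm_num) (by norm_num) le_rfl (by norm_num) (by norm_num) le_rfl (by norm_num) tb0 tb1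
    exact h.2.1
  have hkb : khb / 4194304 ≤ Cb / 4194304 := by
    apply div_le_div_of_nonneg_right _ (by norm_num)
    have h := o_A1hb; rw [H_A1hb] at h; linarith only [h]
  have hQ0 : 0 ≤ Q1 n0 := potOK1.Qn n0 (by rw [H_n0]; exact hN0.le) (by rw [H_n0]; exact hN0')
  have hQ1 : 0 ≤ Q1 n1 := potOK1.Qn n1 (by rw [H_n1]; exact hN1) (by rw [H_n1]; exact hN1')
  have hB1 : 0 ≤ B1 n1 := by rw [eB1]; exact mul_nonneg (by positivity) o_h1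
  have hB0 : 0 ≤ B1 (1 - n0) := by rw [eC0]; exact mul_nonneg (by positivity) o_c0
  refine ⟨Ta / 65536, Tb / 65536, ta0, ta1, tb0, tb1, ?_⟩
  exact corners_of (sub_nonneg.mp (by rw [hd]; positivity)) hQ0 hQ1 hB1 hB0 hna hnb hla hma hha hka hlb hmb hhb hkb hCa hba hCb hbb K00 K01 K10 K11

/-- (SI) on the interval -/
theorem SI1_proof : SI1 := by
  unfold SI1
  exact sis_of_point point

end Crest.Agent.R307.SIS1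
end

-- ▼ part R307/RegS
section

/-!
Row 307 (S0471), regime S complete: the bound for all `0 < c ≤ 2/5`
(`regimeS` of `GenSPot`, product inequality `PIS1.pis_S`, step inequalities `SIS1..SIS4`).
-/

set_option autoImplicit false

namespace Crest.Agent.R307.RegS

open Crest.Agent.R307.GenProd Crest.Agent.R307.GenS

/-- **Regime S**: `0 < c ≤ 2/5`. -/
theorem boundS (c : ℝ) (hc0 : 0 < c) (hc : c ≤ 2 / 5) : Bound (Real.sqrt (1 - c ^ 2)) :=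
  regimeS PIS1.pis_S SIS1.SI1_proof SIS2.SI2_proof SIS3.SI3_proof SIS4.SI4_proof c hc0 hc


end Crest.Agent.R307.RegS
end

-- ▼ part R307/MAll
section

/-!
Row 307 (S0471), regime M: `c ∈ [2/5, 79/100]` (helper371).
-/

set_option autoImplicit false

namespace Crest.Agent.R307.MAll

open Crest.Agent.R307.Final71

/-- **Regime M.** -/
theorem bound_M : BoundOn (2 / 5) (79 / 100) := by
  have h := ((((((((((((MO01.bound.append MO02.bound).append MO03.bound).append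
    MO04.bound).append MO05.bound).append MO06.bound).append MO13.bound).append
    MO07.bound).append MO08.bound).append MOa.bound).append MO09.bound).append
    MO10.bound).append MO11.bound).append MO12.bound
  exact h.mono (by norm_num) (by norm_num)

end Crest.Agent.R307.MAll
end

-- ▼ part R307/FBA
section

set_option autoImplicit false

namespace Crest.Agent.R307.FBA

open Crest.Agent.KB Crest.Agent.R307.FB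

theorem cov0 : Cov 8 (ch0 11 20) [(0, 256), (0, 256), (59, 84)] :=
  (cov_node 0 128 (by norm_num) (cov_node 1 128 (by norm_num) (cov_node 0 64 (by norm_num) (cov_node 1 64 (by norm_num) (cov_node 0 32 (by norm_num) c0_0 c0_1) (cov_node 0 32 (by norm_num) c0_2 c0_3)) c0_4) (cov_node 0 64 (by norm_num) (cov_node 1 192 (by norm_num) (cov_node 0 32 (by norm_num) (cov_node 1 160 (by norm_num) (cov_node 0 16 (by norm_num) c0_5 (cov_node 2 71 (by norm_num) c0_6 c0_7)) (cov_node 0 16 (by norm_num) c0_8 (cov_node 2 71 (by norm_num) c0_9 (cov_node 1 176 (by norm_num) c0_10 c0_11)))) (cov_node 1 160 (by norm_num) c0_12 (cov_node 2 71 (by norm_num) c0_13 (cov_node 0 48 (by norm_num) (cov_node 1 176 (by norm_num) c0_14 c0_15) c0_16)))) (cov_node 0 32 (by norm_num) (cov_node 1 224 (by norm_num) (cov_node 0 16 (by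 norm_num) c0_17 c0_18) c0_19) (cov_node 1 224 (by norm_num) (cov_node 0 48 (by norm_num) c0_20 c0_21) c0_22))) c0_23)) c0_24)

theorem cov2 : Cov 8 (ch2 11 20) [(0, 256), (0, 256), (59, 84)] :=
  (cov_node 0 128 (by norm_num) (cov_node 1 128 (by norm_num) (cov_node 0 64 (by norm_num) (cov_node 1 64 (by norm_num) c2_0 (cov_node 0 32 (by norm_num) c2_1 (cov_node 1 96 (by norm_num) c2_2 c2_3))) (cov_node 1 64 (by norm_num) (cov_node 0 96 (by norm_num) c2_4 c2_5) (cov_node 2 71 (by norm_num) c2_6 (cov_node 0 96 (by norm_num) c2_7 (cov_node 2 77 (by norm_num) c2_8 c2_9))))) (cov_node 0 64 (by norm_num) (cov_node 1 192 (by norm_num) (cov_node 0 32 (by norm_num) (cov_node 1 160 (by norm_num) c2_10 c2_11) (cov_node 1 160 (by norm_num) c2_12 c2_13)) c2_14) (cov_node 1 192 (by norm_num) c2_15 c2_16))) (cov_node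 1 128 (by norm_num) (cov_node 0 192 (by norm_num) (cov_node 1 64 (by norm_num) c2_17 c2_18) c2_19) c2_20))

theorem cov3 : Cov 8 (ch3 11 20) [(0, 256), (0, 256), (59, 84)] :=
  (cov_node 1 128 (by norm_num) (cov_node 0 128 (by norm_num) (cov_node 1 64 (by norm_num) (cov_node 0 64 (by norm_num) (cov_node 1 32 (by norm_num) c3_0 c3_1) c3_2) c3_3) (cov_node 1 64 (by norm_num) (cov_node 0 192 (by norm_num) (cov_node 1 32 (by norm_num) (cov_node 0 160 (by norm_num) (cov_node 1 16 (by norm_num) c3_4 (cov_node 0 144 (by norm_num) c3_5 c3_6)) c3_7) c3_8) c3_9) c3_10)) c3_11)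

end Crest.Agent.R307.FBA
end

-- ▼ part R307/FBB
section

set_option autoImplicit false

namespace Crest.Agent.R307.FBB

open Crest.Agent.KB Crest.Agent.R307.FB

theorem cov0 : Cov 9 (ch0 113 200) [(0, 512), (0, 512), (168, 176)] :=
  (cov_node 0 256 (by norm_num) (cov_node 1 256 (by norm_num) (cov_node 0 128 (by norm_num) (cov_node 1 128 (by norm_num) (cov_node 0 64 (by norm_num) c0_0 c0_1) c0_2) c0_3) (cov_node 0 128 (by norm_num) (cov_node 1 384 (by norm_num) (cov_node 0 64 (by norm_num) (cov_node 1 320 (by norm_num) c0_4 (cov_node 0 32 (by norm_num) c0_5 (cov_node 1 352 (by norm_num) c0_6 c0_7))) (cov_node 1 320 (by norm_num) c0_8 (cov_node 0 96 (by norm_num) (cov_node 1 352 (by norm_num) c0_9 c0_10) c0_11))) (cov_node 0 64 (by norm_num) (cov_node 1 448 (by norm_num) c0_12 c0_13) (cov_node 1 448 (by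 norm_num) (cov_node 0 96 (by norm_num) c0_14 c0_15) c0_16))) c0_17)) c0_18)

theorem cov2 : Cov 9 (ch2 113 200) [(0, 512), (0, 512), (168, 176)] :=
  (cov_node 0 256 (by norm_num) (cov_node 1 256 (by norm_num) (cov_node 0 128 (by norm_num) (cov_node 1 128 (by norm_num) c2_0 (cov_node 0 64 (by norm_num) c2_1 (cov_node 1 192 (by norm_num) c2_2 (cov_node 0 96 (by norm_num) c2_3 c2_4)))) (cov_node 1 128 (by norm_num) (cov_node 0 192 (by norm_num) c2_5 (cov_node 1 64 (by norm_num) c2_6 (cov_node 0 224 (by norm_num) c2_7 (cov_node 1 96 (by norm_num) c2_8 (cov_node 0 240 (by norm_num) (cov_node 1 112 (by norm_num) (cov_node 0 232 (by norm_num) c2_9 (cov_node 1 104 (by norm_num) c2_10 c2_11)) (cov_node 0 232 (by norm_num) c2_12 (cov_node 2 172 (by norm_num) c2_13 (cov_node 2 174 (by norm_num) c2_14 c2_15)))) (cov_node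 1 112 (by norm_num) (cov_node 0 248 (by norm_num) (cov_node 2 172 (by norm_num) c2_16 c2_17) c2_18) c2_19)))))) (cov_node 0 192 (by norm_num) (cov_node 1 192 (by norm_num) c2_20 c2_21) (cov_node 1 192 (by norm_num) (cov_node 0 224 (by norm_num) c2_22 (cov_node 1 160 (by norm_num) (cov_node 0 240 (by norm_num) (cov_node 2 172 (by norm_num) c2_23 c2_24) c2_25) c2_26)) c2_27)))) (cov_node 0 128 (by norm_num) (cov_node 1 384 (by norm_num) (cov_node 0 64 (by norm_num) c2_28 c2_29) c2_30) (cov_node 1 384 (by norm_num) c2_31 c2_32))) (cov_node 1 256 (by norm_num) (cov_node 0 384 (by norm_num) (cov_node 1 128 (by norm_num) (cov_node 0 320 (by norm_num) (cov_node 1 64 (by norm_num) c2_33 (cov_node 0 288 (by norm_num) c2_34 c2_35)) c2_36) c2_37) c2_38) c2_39))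

theorem cov3 : Cov 9 (ch3 113 200) [(0, 512), (0, 512), (168, 176)] :=
  (cov_node 0 256 (by norm_num) (cov_node 1 256 (by norm_num) (cov_node 0 128 (by norm_num) (cov_node 1 128 (by norm_num) (cov_node 0 64 (by norm_num) c3_0 c3_1) c3_2) (cov_node 1 128 (by norm_num) (cov_node 0 192 (by norm_num) c3_3 (cov_node 1 64 (by norm_num) (cov_node 0 224 (by norm_num) c3_4 (cov_node 1 32 (by norm_num) c3_5 c3_6)) c3_7)) c3_8)) c3_9) (cov_node 1 256 (by norm_num) (cov_node 1 128 (by norm_num) (cov_node 0 384 (by norm_num) (cov_node 0 320 (by norm_num) (cov_node 1 64 (by norm_num) (cov_node 0 288 (by norm_num) (cov_node 1 32 (by norm_num) c3_10 c3_11) c3_12) c3_13) c3_14) c3_15) c3_16) c3_17))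

end Crest.Agent.R307.FBB
end

-- ▼ part R307/FBFlow

/-!
Row 307 (S0471), flow regime `c ∈ [.7887, .899]` (helper886): box certificates for the interior pairs,
edges by helper472 (`flowHyp_of_interior`).
-/

set_option autoImplicit false

namespace Crest.Agent.R307.FBFlow

open Crest.Agent.R307.Flow Crest.Agent.R307.Elim Crest.Agent.R307.FB Crest.Agent.R307.Edge

lemma rho_bounds {ρ r : ℝ} (hρ : ρ = 2 * r / (1 + r ^ 2)) (h0 : 0 < r) (h1 : r ≤ 11 / 32) :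
    0 < ρ ∧ ρ ≤ 13 / 20 ∧ ρ ^ 2 ≤ 1 / 2 := by
  have hp : 0 < ρ := by rw [hρ]; positivity
  have h2 : ρ ≤ 13 / 20 := by
    rw [hρ, div_le_iff₀ (by positivity)]
    nlinarith
  exact ⟨hp, h2, by nlinarith⟩

theorem flowHyp_A {ρ r : ℝ} (hρ : ρ = 2 * r / (1 + r ^ 2)) (hr : (59 : ℝ) / 256 ≤ r)
    (hr' : r ≤ 84 / 256) : FlowHyp ρ := by
  have hr0 : 0 < r := by linarith
  obtain ⟨h0, h1, h2⟩ := rho_bounds hρ hr0 (by linarith)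
  refine flowHyp_of_interior (b := 11 / 20) h0 (by linarith)
    (Or.inl ⟨h1, by norm_num, by norm_num⟩) ?_
  intro s t hs ht hst
  have key := slab (N := 8) (S := 256) (lo := 59) (hi := 84) (bn := 11) (bd := 20) (by norm_num)
    FBA.cov0 FBA.cov2 FBA.cov3 hr0 (by linarith) hρ (by push_cast; linarith) (by push_cast; linarith)
    (by norm_num) h2 (by push_cast; nlinarith [sq_nonneg ρ]) hs ht hst
  have e : (fun g : ℝ => ρ ^ 2 / ph ρ + ρ ^ 2 * (11 / 20) * (ph g - ph ρ)) =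
      fun g : ℝ => ρ ^ 2 / ph ρ + ((11 : ℤ) : ℝ) / ((20 : ℤ) : ℝ) * ρ ^ 2 * (ph g - ph ρ) := by
    funext g; push_cast; ring
  rw [e]
  exact key

theorem flowHyp_B {ρ r : ℝ} (hρ : ρ = 2 * r / (1 + r ^ 2)) (hr : (84 : ℝ) / 256 ≤ r)
    (hr' : r ≤ 88 / 256) : FlowHyp ρ := by
  have hr0 : 0 < r := by linarith
  obtain ⟨h0, h1, h2⟩ := rho_bounds hρ hr0 (by linarith)
  refine flowHyp_of_interior (b := 113 / 200) h0 (by linarith)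
    (Or.inl ⟨h1, by norm_num, by norm_num⟩) ?_
  intro s t hs ht hst
  have key := slab (N := 9) (S := 512) (lo := 168) (hi := 176) (bn := 113) (bd := 200) (by norm_num)
    FBB.cov0 FBB.cov2 FBB.cov3 hr0 (by linarith) hρ (by push_cast; linarith) (by push_cast; linarith)
    (by norm_num) h2 (by push_cast; nlinarith [sq_nonneg ρ]) hs ht hst
  have e : (fun g : ℝ => ρ ^ 2 / ph ρ + ρ ^ 2 * (113 / 200) * (ph g - ph ρ)) =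
      fun g : ℝ => ρ ^ 2 / ph ρ + ((113 : ℤ) : ℝ) / ((200 : ℤ) : ℝ) * ρ ^ 2 * (ph g - ph ρ) := by
    funext g; push_cast; ring
  rw [e]
  exact key

/-- **Regime L, middle part**: `FlowHyp (√(1-c²))` for `.7887 ≤ c ≤ .899`. -/
theorem flow_L2 (c : ℝ) (h : (7887 / 10000 : ℝ) ≤ c) (h1 : c ≤ 899 / 1000) :
    FlowHyp (Real.sqrt (1 - c ^ 2)) := by
  have hc : 0 < 1 + c := by linarith
  have hc1 : 0 < 1 - c := by linarith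
  obtain ⟨r, hr⟩ : ∃ r : ℝ, r = Real.sqrt ((1 - c) / (1 + c)) := ⟨_, rfl⟩
  have hr2 : r ^ 2 = (1 - c) / (1 + c) := by rw [hr]; exact Real.sq_sqrt (by positivity)
  have hr0 : 0 < r := by rw [hr]; exact Real.sqrt_pos.2 (by positivity)
  have hρ : Real.sqrt (1 - c ^ 2) = 2 * r / (1 + r ^ 2) := by
    have e : 1 + r ^ 2 = 2 / (1 + c) := by rw [hr2]; field_simp; ring
    have e2 : 2 * r / (1 + r ^ 2) = r * (1 + c) := by rw [e]; field_simp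
    rw [e2]
    have e3 : 1 - c ^ 2 = (r * (1 + c)) ^ 2 := by
      rw [mul_pow, hr2]; field_simp; ring
    rw [e3]
    exact Real.sqrt_sq (by positivity)
  have lo : (59 : ℝ) / 256 ≤ r := by
    rw [hr]
    apply Real.le_sqrt_of_sq_le
    rw [le_div_iff₀ hc]
    nlinarith
  have hi : r ≤ 88 / 256 := by
    rw [hr]
    apply Real.sqrt_le_iff.mpr
    refine ⟨by norm_num, ?_⟩
    rw [div_le_iff₀ hc]
    nlinarith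
  rcases le_total r (84 / 256) with h3 | h3
  · exact flowHyp_A hρ lo h3
  · exact flowHyp_B hρ h3 hi

end Crest.Agent.R307.FBFlow
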