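import Crest.Agent.R307.FBReal_Mg

-- ▼ part R307/FBPair
section

/-!
Row 307 (S0471), flow regime: from the clause inequalities to `PairStep` (helper886).
-/

set_option autoImplicit false
set_option linter.unusedVariables false

namespace Crest.Agent.R307.FB

open Crest.Agent.R307.Flow Crest.Agent.R307.Elim

/-- geometric data of the point `R` -/
structure GR (R : RP) (fg : ℝ) : Prop where
  G : Geo R.rho R.c R.s R.t R.fs R.ft fg (R.lam2 / 2) (R.mu2 / 2) (R.g2 / 2) R.d R.Sig R.C2 R.SC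
    (R.L2 / 2) (R.wq4 / 4)
  pfs : R.fs = ph R.s
  pft : R.ft = ph R.t
  pfg : fg = ph (R.g2 / 2)
  pc : R.c = ph R.rho
  hbd : 0 < R.bd
  hK : R.bn * R.c ^ 2 ≤ R.bd

/-- the potential -/
noncomputable def Psi (R : RP) : ℝ → ℝ :=
  fun g => R.rho ^ 2 / ph R.rho + R.bn / R.bd * R.rho ^ 2 * (ph g - ph R.rho)

lemma f_from {P al be eps n0 n1 H D c2 : ℝ} (hP : 0 < P) (hal : 0 < al) (hbe : 0 < be)
    (hc2 : 0 ≤ c2) (hn : n1 ≤ n0)
    (h : 0 ≤ 16384 * c2 * (al * P * (be * P)) * (1024 ^ 2 * n1 * P - (1024 * H) * (1024 * H) * P) -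
      (1024 * H) * (1024 * H) * ((eps * P) * (eps * P) * P * (4096 * D))) :
    eps ^ 2 * D * H ^ 2 ≤ 4 * c2 * (al * be) * (n0 - H ^ 2) := by
  have e : 16384 * c2 * (al * P * (be * P)) * (1024 ^ 2 * n1 * P - (1024 * H) * (1024 * H) * P) -
      (1024 * H) * (1024 * H) * ((eps * P) * (eps * P) * P * (4096 * D)) =
      (4096 * 1024 ^ 2 * P ^ 3) * (4 * c2 * (al * be) * (n1 - H ^ 2) - eps ^ 2 * D * H ^ 2) := by ring
  rw [e] at h
  have h1 := nonneg_of_mul_nonneg_right h (by positivity)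
  have h2 : 0 ≤ 4 * c2 * (al * be) * (n0 - n1) := by
    have := sub_nonneg.2 hn
    positivity
  have h3 : 4 * c2 * (al * be) * (n0 - H ^ 2) =
    4 * c2 * (al * be) * (n1 - H ^ 2) + 4 * c2 * (al * be) * (n0 - n1) := by ring
  linarith

lemma b_from {P al o G x r : ℝ} (hP : 0 < P) (h : 0 ≤ (1024 * G) * (o * P) - 1024 * r * (al * P)) :
    al * r ≤ G * o := by
  have e : (1024 * G) * (o * P) - 1024 * r * (al * P) = (1024 * P) * (G * o - al * r) := by ring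
  rw [e] at h
  have := nonneg_of_mul_nonneg_right h (by positivity)
  linarith


lemma x_from {P a b H rd lw mw : ℝ} (hP : 0 < P)
    (h : 0 ≤ ((1024 * H) * P) * (2 * lw * (1024 * P * b) + 2 * mw * (1024 * P * a)) -
      rd * ((1024 * P * a) * (1024 * P * b))) :
    rd / 2 * (a * b) ≤ H * (lw * b + mw * a) := by
  have e : ((1024 * H) * P) * (2 * lw * (1024 * P * b) + 2 * mw * (1024 * P * a)) -
      rd * ((1024 * P * a) * (1024 * P * b)) =
      (2 * 1024 ^ 2 * P ^ 2) * (H * (lw * b + mw * a) - rd / 2 * (a * b)) := by ring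
  rw [e] at h
  have := nonneg_of_mul_nonneg_right h (by positivity)
  linarith

lemma sg_cases (b : Bool) : ((sg b : ℤ) : ℝ) = 1 ∨ ((sg b : ℤ) : ℝ) = -1 := by
  cases b <;> simp [sg]

variable {R : RP} {fg : ℝ} {p : Par}

/-- `m ≥ φ_g` -/
lemma m_ge (hG : GR R fg) (hm : 0 ≤ R.m p) (hm2 : 0 ≤ R.om2 p) : fg ≤ R.m p / 1024 := by
  have h1 : fg ^ 2 ≤ (R.m p / 1024) ^ 2 := by
    rw [hG.G.hfg]
    simp only [RP.om2, RP.wg4] at hm2
    nlinarith
  exact le_of_sq_le_sq' h1 (by positivity)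
where
  le_of_sq_le_sq' {a b : ℝ} (h : a ^ 2 ≤ b ^ 2) (hb : 0 ≤ b) : a ≤ b := by
    nlinarith [abs_le_of_sq_le_sq h hb, le_abs_self a]

lemma wg4_eq (R : RP) : R.wg4 = 4 * (1 - (R.g2 / 2) ^ 2) := by simp only [RP.wg4]; ring

lemma PP_pos (hG : GR R fg) (hm : 0 ≤ R.m p) : 0 < R.PP p := by
  have h1 := hG.G.Sg_pos
  have h2 : 0 < R.wg4 := by
    rw [wg4_eq, ← hG.G.hfg]
    have := hG.G.hfg0
    positivity
  have h3 := hG.G.hfs0
  have h4 := hG.G.hft0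
  simp only [RP.PP, RP.wS1, RP.wSig, RP.mff]
  positivity

lemma mL_eq (R : RP) (p : Par) : R.mL p = 2048 * (R.m p / 1024 + R.L2 / 2) := by
  simp only [RP.mL]; ring

lemma hKp (hG : GR R fg) : 0 ≤ R.c - R.bn / R.bd * R.c ^ 3 := by
  have h1 := hG.G.hc0
  have h2 := hG.hbd
  have h3 := hG.hK
  have e : R.c - R.bn / R.bd * R.c ^ 3 = R.c / R.bd * (R.bd - R.bn * R.c ^ 2) := by
    field_simp
  rw [e]
  have := sub_nonneg.2 h3
  positivity

/-- the scalar inequality for the balanced family from `oII` -/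
lemma ii_bal (hG : GR R fg) (hm : 0 ≤ R.m p) (hm2 : 0 ≤ R.om2 p) (h : 0 ≤ R.oII p) :
    (R.lam2 / 2) * (1 - (4 * p.et / R.PP p) * ((R.mu2 / 2) * R.d * (R.d + (R.g2 / 2) * R.Sig))) *
        (R.fs * Psi R R.s) +
      (R.mu2 / 2) * (1 - (4 * p.et / R.PP p) * ((R.lam2 / 2) * R.d * (R.d - (R.g2 / 2) * R.Sig))) *
        (R.ft * Psi R R.t) +
      (R.rho * R.d / 2) ^ 2 / (R.wq4 / 4) ≤ fg * Psi R (R.g2 / 2) := by
  have hP := PP_pos hG hm
  have hC := hG.G.C2_pos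
  have hw := hG.G.wq_pos
  have hL := hG.G.L_pos
  have hb := hG.hbd
  have hM := m_ge hG hm hm2
  have key := ii_core hG.G (τ := 4 * p.et / R.PP p) (b := R.bn / R.bd) hM (hKp hG) ?_
  · simp only [Psi, ← hG.pc, ← hG.pfs, ← hG.pft, ← hG.pfg]
    exact key
  · have hmL : 0 < R.mL p := by rw [mL_eq]; positivity
    have e0 : R.m p / 1024 + R.L2 / 2 = R.mL p / 2048 := by rw [mL_eq]; ring
    rw [e0]
    have hw4 : 0 < R.wq4 := by linarith
    have e : (R.c - R.bn / R.bd * R.c ^ 3) * (1 / (R.C2 * (R.mL p / 2048)) +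
        4 * ↑p.et / R.PP p * (R.C2 * (R.fs + R.ft) - R.g2 / 2 * R.Sig * R.SC) / R.C2) +
        R.bn / R.bd * R.c ^ 2 * (1 + 4 * ↑p.et / R.PP p *
          (R.fs ^ 2 + R.ft ^ 2 - R.g2 / 2 * R.Sig * (R.s + R.t))) - 1 / (R.wq4 / 4) =
        R.oII p / (R.bd * R.C2 * R.mL p * R.PP p * R.wq4) := by
      rw [eq_div_iff (by positivity)]
      simp only [RP.oII, RP.K3, RP.bc2, RP.c2, RP.CmL, RP.gS, RP.ws, RP.wt]
      field_simp
      ring
    rw [e]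
    exact div_nonneg h (by positivity)

set_option maxHeartbeats 4000000 in
/-- kind 0 -/
theorem pair0 (hG : GR R fg)
    (cl : 0 ≤ R.m p ∧ 0 ≤ R.om2 p ∧ 0 ≤ R.oal p ∧ 0 ≤ R.obe p ∧ 0 ≤ R.ob1 p ∧ 0 ≤ R.ob2 p ∧
      0 ≤ R.ob3 p ∧ 0 ≤ R.ob4 p ∧ 0 ≤ R.op1 p ∧ 0 ≤ R.op2 p ∧ 0 ≤ R.op3 p ∧ 0 ≤ R.op4 p ∧
      0 ≤ R.oga1 p ∧ 0 ≤ R.oga2 p ∧ 0 ≤ R.oII p ∧ 0 ≤ R.of2 p ∧ 0 ≤ R.of1 p)
    (hx1 : p.H1 ≥ p.G1 ∨ (0 ≤ R.oA1 p ∧ 0 ≤ R.oB1 p ∧ 0 ≤ R.oX1 p))
    (hx2 : p.H2 ≥ p.G2 ∨ (0 ≤ R.oA2 p ∧ 0 ≤ R.oB2 p ∧ 0 ≤ R.oX2 p))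
    (hG1 : 0 ≤ p.G1) (hG2 : 0 ≤ p.G2) (hga1 : 0 ≤ p.ga1) (hga2 : 0 ≤ p.ga2) :
    PairStep R.rho R.s R.t (Psi R) := by
  obtain ⟨cm, cm2, cal, cbe, cb1, cb2, cb3, cb4, cp1, cp2, cp3, cp4, cga1, cga2, cII, cf2, cf1⟩ := cl
  have hP := PP_pos hG cm
  have g := hG.G
  have hc2 : R.c ^ 2 = 4 * (R.lam2 / 2 * (R.mu2 / 2)) := g.four.symm
  obtain ⟨τ, hτ⟩ : ∃ τ : ℝ, τ = 4 * (p.et : ℝ) / R.PP p := ⟨_, rfl⟩
  have hτP : τ * R.PP p = 4 * p.et := by rw [hτ]; field_simp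
  obtain ⟨al, hal⟩ : ∃ al : ℝ, al = 1 - τ * ((R.mu2 / 2) * R.d * (R.d + (R.g2 / 2) * R.Sig)) := ⟨_, rfl⟩
  obtain ⟨be, hbe⟩ : ∃ be : ℝ, be = 1 - τ * ((R.lam2 / 2) * R.d * (R.d - (R.g2 / 2) * R.Sig)) := ⟨_, rfl⟩
  have halP : R.alP p = al * R.PP p := by
    rw [hal]
    simp only [RP.alP, RP.gS]
    linear_combination (R.mu2 / 2 * R.d * (R.d + R.g2 / 2 * R.Sig)) * hτP
  have hbeP : R.beP p = be * R.PP p := by
    rw [hbe]
    simp only [RP.beP, RP.gS]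
    linear_combination (R.lam2 / 2 * R.d * (R.d - R.g2 / 2 * R.Sig)) * hτP
  have pal : 0 < al := by
    simp only [RP.oal, halP] at cal
    have e : 128 * (al * R.PP p) - R.PP p = R.PP p * (128 * al - 1) := by ring
    rw [e] at cal
    have := nonneg_of_mul_nonneg_right cal hP
    linarith
  have pbe : 0 < be := by
    simp only [RP.obe, hbeP] at cbe
    have e : 128 * (be * R.PP p) - R.PP p = R.PP p * (128 * be - 1) := by ring
    rw [e] at cbe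
    have := nonneg_of_mul_nonneg_right cbe hP
    linarith
  obtain ⟨G1, hG1'⟩ : ∃ G1 : ℝ, (p.G1 : ℝ) = 1024 * G1 := ⟨p.G1 / 1024, by ring⟩
  obtain ⟨G2, hG2'⟩ : ∃ G2 : ℝ, (p.G2 : ℝ) = 1024 * G2 := ⟨p.G2 / 1024, by ring⟩
  obtain ⟨H1, hH1'⟩ : ∃ H1 : ℝ, (p.H1 : ℝ) = 1024 * H1 := ⟨p.H1 / 1024, by ring⟩
  obtain ⟨H2, hH2'⟩ : ∃ H2 : ℝ, (p.H2 : ℝ) = 1024 * H2 := ⟨p.H2 / 1024, by ring⟩
  have pG1 : 0 ≤ G1 := by
    have : (0 : ℝ) ≤ p.G1 := by exact_mod_cast hG1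
    linarith
  have pG2 : 0 ≤ G2 := by
    have : (0 : ℝ) ≤ p.G2 := by exact_mod_cast hG2
    linarith
  have pga1 : (0 : ℝ) ≤ p.ga1 := by exact_mod_cast hga1
  have pga2 : (0 : ℝ) ≤ p.ga2 := by exact_mod_cast hga2
  have hdpos := g.d_pos
  have habsd : |R.d| = R.d := abs_of_pos hdpos
  have hρ := g.h0
  -- the quantities n0, eps
  obtain ⟨n1, hn1⟩ : ∃ n1 : ℝ, n1 = (1 - (p.et : ℝ) / 1024) *
      (1 - τ * ((1 - (R.g2 / 2) ^ 2) * R.Sig) + τ * (R.m p / 1024 * R.fs * R.ft)) := ⟨_, rfl⟩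
  have hPe : R.PP p = 4096 * ((1 - (R.g2 / 2) ^ 2) * R.Sig + R.m p / 1024 * R.fs * R.ft) := by
    simp only [RP.PP, RP.wS1, RP.wSig, RP.mff, RP.wg4]; ring
  have hN1 : R.N1 p = 1024 ^ 2 * n1 * R.PP p := by
    rw [hn1]
    have e1 : τ * ((1 - (R.g2 / 2) ^ 2) * R.Sig) * R.PP p = 4 * p.et * ((1 - (R.g2 / 2) ^ 2) * R.Sig) := by
      rw [← hτP]; ring
    have e2 : τ * (R.m p / 1024 * R.fs * R.ft) * R.PP p = 4 * p.et * (R.m p / 1024 * R.fs * R.ft) := by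
      rw [← hτP]; ring
    have e3 : 1024 ^ 2 * ((1 - (p.et : ℝ) / 1024) *
      (1 - τ * ((1 - (R.g2 / 2) ^ 2) * R.Sig) + τ * (R.m p / 1024 * R.fs * R.ft))) * R.PP p =
      1024 * (1024 - p.et) * (R.PP p - τ * ((1 - (R.g2 / 2) ^ 2) * R.Sig) * R.PP p +
        τ * (R.m p / 1024 * R.fs * R.ft) * R.PP p) := by ring
    rw [e3, e1, e2]
    simp only [RP.N1, RP.wS1, RP.wSig, RP.mff, RP.wg4]
    ring
  have hη : τ * ((1 - (R.g2 / 2) ^ 2) * R.Sig) + τ * (R.m p / 1024 * R.fs * R.ft) = p.et / 1024 := by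
    have : τ * R.PP p = 4096 * (τ * ((1 - (R.g2 / 2) ^ 2) * R.Sig) +
      τ * (R.m p / 1024 * R.fs * R.ft)) := by rw [hPe]; ring
    rw [hτP] at this
    linarith
  have hn01 : n1 ≤ (1 - (2 * τ) * (1 - (R.g2 / 2) ^ 2) * (1 - R.s * R.t) / 2) ^ 2 -
      (2 * τ) ^ 2 / 4 * (1 - (R.g2 / 2) ^ 2) * (1 - R.s ^ 2) * (1 - R.t ^ 2) := by
    rw [hn1, ← hη, ← g.hSg]
    have e1 : (1 - (τ * ((1 - (R.g2 / 2) ^ 2) * R.Sig) + τ * (R.m p / 1024 * R.fs * R.ft))) *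
      (1 - τ * ((1 - (R.g2 / 2) ^ 2) * R.Sig) + τ * (R.m p / 1024 * R.fs * R.ft)) =
      (1 - τ * ((1 - (R.g2 / 2) ^ 2) * R.Sig)) ^ 2 - τ ^ 2 * (R.m p / 1024) ^ 2 *
        (R.fs ^ 2 * R.ft ^ 2) := by ring
    rw [e1, g.hfs, g.hft]
    have h1 : 1 - (R.g2 / 2) ^ 2 ≤ (R.m p / 1024) ^ 2 := by
      rw [← g.hfg]
      have h2 := m_ge hG cm cm2
      have h3 := g.hfg0
      nlinarith
    have h2 : 0 ≤ τ ^ 2 * ((1 - R.s ^ 2) * (1 - R.t ^ 2)) := by
      rw [← g.hfs, ← g.hft]; positivity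
    have h3 := mul_le_mul_of_nonneg_right h1 h2
    have e5 : (1 - (2 * τ) * (1 - (R.g2 / 2) ^ 2) * R.Sig / 2) ^ 2 -
      (2 * τ) ^ 2 / 4 * (1 - (R.g2 / 2) ^ 2) * (1 - R.s ^ 2) * (1 - R.t ^ 2) -
      ((1 - τ * ((1 - (R.g2 / 2) ^ 2) * R.Sig)) ^ 2 - τ ^ 2 * (R.m p / 1024) ^ 2 *
        ((1 - R.s ^ 2) * (1 - R.t ^ 2))) = (R.m p / 1024) ^ 2 * (τ ^ 2 * ((1 - R.s ^ 2) * (1 - R.t ^ 2))) -
        (1 - (R.g2 / 2) ^ 2) * (τ ^ 2 * ((1 - R.s ^ 2) * (1 - R.t ^ 2))) := by ring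
    have h4 := sub_nonneg.2 h3
    rw [← e5] at h4
    exact sub_nonneg.1 h4
  have heps : R.epsP p = (1 - (2 * τ) / 2 * ((R.lam2 / 2) * (R.mu2 / 2) * R.d ^ 2 -
      R.s * R.t * (1 - (R.g2 / 2) ^ 2))) * R.PP p := by
    have e : (1 - (2 * τ) / 2 * ((R.lam2 / 2) * (R.mu2 / 2) * R.d ^ 2 -
      R.s * R.t * (1 - (R.g2 / 2) ^ 2))) * R.PP p = R.PP p - (τ * R.PP p) *
        ((R.lam2 / 2) * (R.mu2 / 2) * R.d ^ 2 - R.s * R.t * (1 - (R.g2 / 2) ^ 2)) := by ring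
    rw [e, hτP]
    simp only [RP.epsP, RP.z4, RP.lmd, RP.wg4]
    ring
  have hA2 : ∀ H : ℝ, 1024 * R.alP p - (1024 * H) * R.sP p = 1024 * R.PP p * (al - R.s * H) := by
    intro H
    rw [halP]; simp only [RP.sP]; ring
  have hB2 : ∀ H : ℝ, 1024 * R.beP p - (1024 * H) * R.tP p = 1024 * R.PP p * (be - R.t * H) := by
    intro H
    rw [hbeP]; simp only [RP.tP]; ring
  have hA1 : ∀ H : ℝ, 1024 * R.alP p + (1024 * H) * R.sP p = 1024 * R.PP p * (al + R.s * H) := by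
    intro H
    rw [halP]; simp only [RP.sP]; ring
  have hB1 : ∀ H : ℝ, 1024 * R.beP p + (1024 * H) * R.tP p = 1024 * R.PP p * (be + R.t * H) := by
    intro H
    rw [hbeP]; simp only [RP.tP]; ring
  have strict : ∀ a : ℝ, 0 ≤ 1024 * R.PP p * a - R.PP p → 0 < a := by
    intro a h
    have e : 1024 * R.PP p * a - R.PP p = R.PP p * (1024 * a - 1) := by ring
    rw [e] at h
    have := nonneg_of_mul_nonneg_right h hP
    linarith
  have hΘ : 0 < 4 * (R.lam2 / 2) * (R.mu2 / 2) := by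
    have := g.lam_pos
    have := g.mu_pos
    positivity
  have hii := ii_bal hG cm cm2 cII
  rw [← hτ] at hii
  rw [← hal, ← hbe] at hii
  refine pairStep_elim (k := 2 * τ) (lam := R.lam2 / 2) (mu := R.mu2 / 2) (g := R.g2 / 2)
    (d := R.d) (al := al) (be := be) (G1 := G1) (G2 := G2) (H1 := H1) (H2 := H2)
    (Θ1 := 4 * (R.lam2 / 2) * (R.mu2 / 2)) (Θ2 := 4 * (R.lam2 / 2) * (R.mu2 / 2))
    (Dbar1 := 1 - (R.g2 / 2) ^ 2 + p.ga1 / 1024 * (R.rho * R.d / 2))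
    (Dbar2 := 1 - (R.g2 / 2) ^ 2 + p.ga2 / 1024 * (R.rho * R.d / 2))
    g.h0 g.h1 g.hs g.ht g.hlam g.hmu g.hg g.hd ?_ ?_ rfl rfl pal pbe pG1 pG2
    ?_ ?_ ?_ ?_ ?_ ?_ ?_ ?_ ?_ ?_ hΘ hΘ ?_ ?_ ?_ ?_ ?_ ?_ ?_ ?_ ?_
  · rw [hal, g.hSg]; ring
  · rw [hbe, g.hSg]; ring
  · simp only [RP.ob1, RP.ralP, hG2', halP] at cb1
    have h := b_from hP (al := al) (r := R.rho) (o := 1 + (sg p.o1 : ℝ) * (R.s - R.rho)) (G := G2)
      (x := 0) (by linarith [cb1])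
    rcases sg_cases p.o1 with h1 | h1 <;> rw [h1] at h
    · right; linarith [h, show G2 * (1 + 1 * (R.s - R.rho)) = G2 * (1 - R.rho + R.s) by ring]
    · left; linarith [h, show G2 * (1 + -1 * (R.s - R.rho)) = G2 * (1 + R.rho - R.s) by ring]
  · simp only [RP.ob2, RP.rbeP, hG2', hbeP] at cb2
    have h := b_from hP (al := be) (r := R.rho) (o := 1 + (sg p.o2 : ℝ) * (R.t - R.rho)) (G := G2)
      (x := 0) (by linarith [cb2])
    rcases sg_cases p.o2 with h1 | h1 <;> rw [h1] at h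
    · right; linarith [h, show G2 * (1 + 1 * (R.t - R.rho)) = G2 * (1 - R.rho + R.t) by ring]
    · left; linarith [h, show G2 * (1 + -1 * (R.t - R.rho)) = G2 * (1 + R.rho - R.t) by ring]
  · simp only [RP.ob3, RP.ralP, hG1', halP] at cb3
    have h := b_from hP (al := al) (r := R.rho) (o := 1 + (sg p.o3 : ℝ) * (R.s + R.rho)) (G := G1)
      (x := 0) (by linarith [cb3])
    rcases sg_cases p.o3 with h1 | h1 <;> rw [h1] at h
    · left; linarith [h, show G1 * (1 + 1 * (R.s + R.rho)) = G1 * (1 + R.rho + R.s) by ring]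
    · right; linarith [h, show G1 * (1 + -1 * (R.s + R.rho)) = G1 * (1 - R.rho - R.s) by ring]
  · simp only [RP.ob4, RP.rbeP, hG1', hbeP] at cb4
    have h := b_from hP (al := be) (r := R.rho) (o := 1 + (sg p.o4 : ℝ) * (R.t + R.rho)) (G := G1)
      (x := 0) (by linarith [cb4])
    rcases sg_cases p.o4 with h1 | h1 <;> rw [h1] at h
    · left; linarith [h, show G1 * (1 + 1 * (R.t + R.rho)) = G1 * (1 + R.rho + R.t) by ring]
    · right; linarith [h, show G1 * (1 + -1 * (R.t + R.rho)) = G1 * (1 - R.rho - R.t) by ring]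
  · simp only [RP.op1, hG2', hA2] at cp1
    exact strict _ cp1
  · simp only [RP.op2, hG2', hB2] at cp2
    exact strict _ cp2
  · simp only [RP.op3, hG1', hA1] at cp3
    exact strict _ cp3
  · simp only [RP.op4, hG1', hB1] at cp4
    exact strict _ cp4
  · rcases hx2 with h | ⟨ha, hb, hx⟩
    · left
      have : (p.G2 : ℝ) ≤ p.H2 := by exact_mod_cast h
      linarith
    · right
      simp only [RP.oA2, RP.A2, hH2', hA2] at ha
      simp only [RP.oB2, RP.B2, hH2', hB2] at hb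
      refine ⟨strict _ ha, strict _ hb, ?_⟩
      rw [habsd]
      simp only [RP.oX2, RP.A2, RP.B2, hH2', hA2, hB2, RP.lws, RP.mwt, RP.rd, RP.ws, RP.wt] at hx
      refine x_from (lw := R.lam2 / 2 * (1 - R.s ^ 2)) (mw := R.mu2 / 2 * (1 - R.t ^ 2)) hP ?_
      rw [← g.hfs, ← g.hft]
      linarith [hx]
  · rcases hx1 with h | ⟨ha, hb, hx⟩
    · left
      have : (p.G1 : ℝ) ≤ p.H1 := by exact_mod_cast h
      linarith
    · right
      simp only [RP.oA1, RP.A1, hH1', hA1] at ha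
      simp only [RP.oB1, RP.B1, hH1', hB1] at hb
      refine ⟨strict _ ha, strict _ hb, ?_⟩
      rw [habsd]
      simp only [RP.oX1, RP.A1, RP.B1, hH1', hA1, hB1, RP.lws, RP.mwt, RP.rd, RP.ws, RP.wt] at hx
      refine x_from (lw := R.lam2 / 2 * (1 - R.s ^ 2)) (mw := R.mu2 / 2 * (1 - R.t ^ 2)) hP ?_
      rw [← g.hfs, ← g.hft]
      linarith [hx]
  · intro x y H _ _ _ _ _
    exact Theta_base
  · intro x y H _ _ _ _ _
    exact Theta_base
  · have : 0 ≤ (p.ga1 : ℝ) / 1024 * (R.rho * R.d / 2) := by positivity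
    linarith
  · rw [habsd]
    simp only [RP.oga1] at cga1
    have : -(R.g2 / 2) ≤ (p.ga1 : ℝ) / 1024 := by linarith
    have h2 := mul_le_mul_of_nonneg_right this (by positivity : 0 ≤ R.rho * R.d / 2)
    linarith
  · have : 0 ≤ (p.ga2 : ℝ) / 1024 * (R.rho * R.d / 2) := by positivity
    linarith
  · rw [habsd]
    simp only [RP.oga2] at cga2
    have : (R.g2 / 2) ≤ (p.ga2 : ℝ) / 1024 := by linarith
    have h2 := mul_le_mul_of_nonneg_right this (by positivity : 0 ≤ R.rho * R.d / 2)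
    linarith
  · have e : 4 * (4 * (R.lam2 / 2) * (R.mu2 / 2)) * (al * be) = 4 * R.c ^ 2 * (al * be) := by
      rw [hc2]; ring
    rw [e]
    refine f_from hP pal pbe (sq_nonneg _) hn01 ?_
    simp only [RP.of1, RP.abP, RP.e2P, halP, hbeP, heps, hN1, hH1', RP.c2, RP.rd] at cf1
    have e4 : 1024 * R.wg4 + 2 * ((p.ga1 : ℝ) * (R.rho * R.d)) =
      4096 * (1 - (R.g2 / 2) ^ 2 + p.ga1 / 1024 * (R.rho * R.d / 2)) := by
      simp only [RP.wg4]; ring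
    rw [e4] at cf1
    rw [pow_two R.c]
    exact cf1
  · have e : 4 * (4 * (R.lam2 / 2) * (R.mu2 / 2)) * (al * be) = 4 * R.c ^ 2 * (al * be) := by
      rw [hc2]; ring
    rw [e]
    refine f_from hP pal pbe (sq_nonneg _) hn01 ?_
    simp only [RP.of2, RP.abP, RP.e2P, halP, hbeP, heps, hN1, hH2', RP.c2, RP.rd] at cf2
    have e4 : 1024 * R.wg4 + 2 * ((p.ga2 : ℝ) * (R.rho * R.d)) =
      4096 * (1 - (R.g2 / 2) ^ 2 + p.ga2 / 1024 * (R.rho * R.d / 2)) := by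
      simp only [RP.wg4]; ring
    rw [e4] at cf2
    rw [pow_two R.c]
    exact cf2
  · rw [← hG.pfs, ← hG.pft, ← hG.pfg, ← g.hwq]
    exact hii

end Crest.Agent.R307.FB
end

-- ▼ part R307/FBPair2
section

/-!
Row 307 (S0471), flow regime: `PairStep` from the clause inequalities, kinds 1, 3, and the
combination (helper886).
-/

set_option autoImplicit false
set_option linter.unusedVariables false

namespace Crest.Agent.R307.FB

open Crest.Agent.R307.Flow Crest.Agent.R307.Elim Crest.Agent.KB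

variable {R : RP} {fg : ℝ} {p : Par}

lemma ii_zero (hG : GR R fg) (hm : 0 ≤ R.m p) (hm2 : 0 ≤ R.om2 p) (h : 0 ≤ R.oII0 p) :
    (R.lam2 / 2) * 1 * (R.fs * Psi R R.s) + (R.mu2 / 2) * 1 * (R.ft * Psi R R.t) +
      (R.rho * R.d / 2) ^ 2 / (R.wq4 / 4) ≤ fg * Psi R (R.g2 / 2) := by
  have hP := PP_pos hG hm
  have hC := hG.G.C2_pos
  have hw := hG.G.wq_pos
  have hL := hG.G.L_pos
  have hb := hG.hbd
  have hM := m_ge hG hm hm2
  have key := ii_core hG.G (τ := 0) (b := R.bn / R.bd) hM (hKp hG) ?_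
  · simp only [zero_mul, sub_zero] at key
    simp only [Psi, ← hG.pc, ← hG.pfs, ← hG.pft, ← hG.pfg]
    exact key
  · have hmL : 0 < R.mL p := by rw [mL_eq]; positivity
    have e0 : R.m p / 1024 + R.L2 / 2 = R.mL p / 2048 := by rw [mL_eq]; ring
    rw [e0]
    have hw4 : 0 < R.wq4 := by linarith
    have e : (R.c - R.bn / R.bd * R.c ^ 3) * (1 / (R.C2 * (R.mL p / 2048)) +
        0 * (R.C2 * (R.fs + R.ft) - R.g2 / 2 * R.Sig * R.SC) / R.C2) +
        R.bn / R.bd * R.c ^ 2 * (1 + 0 *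
          (R.fs ^ 2 + R.ft ^ 2 - R.g2 / 2 * R.Sig * (R.s + R.t))) - 1 / (R.wq4 / 4) =
        R.oII0 p / (R.bd * R.C2 * R.mL p * R.wq4) := by
      rw [eq_div_iff (by positivity)]
      simp only [RP.oII0, RP.K3, RP.bc2, RP.c2, RP.CmL]
      field_simp
      ring
    rw [e]
    exact div_nonneg h (by positivity)

set_option maxHeartbeats 1000000 in
/-- kind 3 -/
theorem pair3 (hG : GR R fg) (hr : R.rho ^ 2 ≤ 1 / 2)
    (cl : 0 ≤ R.m p ∧ 0 ≤ R.om2 p ∧ 0 ≤ R.oII0 p) :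
    PairStep R.rho R.s R.t (Psi R) := by
  obtain ⟨cm, cm2, cII⟩ := cl
  have g := hG.G
  have hii := ii_zero hG cm cm2 cII
  have hΘ : 0 < 4 * (R.lam2 / 2) * (R.mu2 / 2) := by
    have := g.lam_pos
    have := g.mu_pos
    positivity
  have hdpos := g.d_pos
  have habsd : |R.d| = R.d := abs_of_pos hdpos
  have hρ := g.h0
  have hs := abs_lt.mp g.hs
  have ht := abs_lt.mp g.ht
  have hga := abs_lt.mp g.g_abs
  have hc2 : R.c ^ 2 = 4 * (R.lam2 / 2 * (R.mu2 / 2)) := g.four.symm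
  have hd2 : R.d ≤ 2 := by rw [g.hd]; linarith
  have hD : 1 - (R.g2 / 2) ^ 2 + 1 * (R.rho * R.d / 2) ≤ 2 := by
    have h1 : R.rho * R.d / 2 ≤ 1 := by nlinarith [g.h1]
    nlinarith [sq_nonneg (R.g2 / 2)]
  have hD0 : 0 ≤ 1 - (R.g2 / 2) ^ 2 + 1 * (R.rho * R.d / 2) := by
    have h1 : 0 ≤ R.rho * R.d / 2 := by positivity
    have h2 : (R.g2 / 2) ^ 2 ≤ 1 := by
      have := g.hfg
      nlinarith [sq_nonneg fg]
    linarith
  have hf : (1 : ℝ) ^ 2 * (1 - (R.g2 / 2) ^ 2 + 1 * (R.rho * R.d / 2)) * R.rho ^ 2 ≤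
      4 * (4 * (R.lam2 / 2) * (R.mu2 / 2)) * (1 * 1) * (1 - R.rho ^ 2) := by
    have e : 4 * (4 * (R.lam2 / 2) * (R.mu2 / 2)) * (1 * 1) = 4 * (1 - R.rho ^ 2) := by
      rw [← g.hc, hc2]; ring
    rw [e]
    have h1 : (1 : ℝ) ^ 2 * (1 - (R.g2 / 2) ^ 2 + 1 * (R.rho * R.d / 2)) * R.rho ^ 2 ≤ 2 * R.rho ^ 2 := by
      rw [one_pow, one_mul]
      exact mul_le_mul_of_nonneg_right hD (sq_nonneg _)
    have h2 : 0 ≤ R.rho ^ 2 := sq_nonneg _
    have h3 : 0 ≤ (1 / 2 - R.rho ^ 2) * (2 - R.rho ^ 2) := mul_nonneg (by linarith) (by linarith)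
    have e2 : 4 * (1 - R.rho ^ 2) * (1 - R.rho ^ 2) - 2 * R.rho ^ 2 =
      4 * ((1 / 2 - R.rho ^ 2) * (2 - R.rho ^ 2)) := by ring
    linarith
  refine pairStep_elim (k := 0) (lam := R.lam2 / 2) (mu := R.mu2 / 2) (g := R.g2 / 2)
    (d := R.d) (al := 1) (be := 1) (n0 := 1) (eps := 1) (G1 := R.rho) (G2 := R.rho) (H1 := R.rho)
    (H2 := R.rho)
    (Θ1 := 4 * (R.lam2 / 2) * (R.mu2 / 2)) (Θ2 := 4 * (R.lam2 / 2) * (R.mu2 / 2))
    (Dbar1 := 1 - (R.g2 / 2) ^ 2 + 1 * (R.rho * R.d / 2))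
    (Dbar2 := 1 - (R.g2 / 2) ^ 2 + 1 * (R.rho * R.d / 2))
    g.h0 g.h1 g.hs g.ht g.hlam g.hmu g.hg g.hd (by ring) (by ring) (by ring) (by ring)
    one_pos one_pos hρ.le hρ.le
    ?_ ?_ ?_ ?_ ?_ ?_ ?_ ?_ (Or.inl le_rfl) (Or.inl le_rfl) hΘ hΘ ?_ ?_ ?_ ?_ ?_ ?_ hf hf ?_
  · rcases le_total R.s R.rho with h | h
    · left; linarith [mul_nonneg hρ.le (sub_nonneg.2 h)]
    · right; linarith [mul_nonneg hρ.le (sub_nonneg.2 h)]
  · rcases le_total R.t R.rho with h | h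
    · left; linarith [mul_nonneg hρ.le (sub_nonneg.2 h)]
    · right; linarith [mul_nonneg hρ.le (sub_nonneg.2 h)]
  · rcases le_total (-R.s) R.rho with h | h
    · left; linarith [mul_nonneg hρ.le (sub_nonneg.2 h)]
    · right; linarith [mul_nonneg hρ.le (sub_nonneg.2 h)]
  · rcases le_total (-R.t) R.rho with h | h
    · left; linarith [mul_nonneg hρ.le (sub_nonneg.2 h)]
    · right; linarith [mul_nonneg hρ.le (sub_nonneg.2 h)]
  · linarith [g.h1, mul_pos hρ (by linarith [hs.2] : 0 < 1 - R.s)]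
  · linarith [g.h1, mul_pos hρ (by linarith [ht.2] : 0 < 1 - R.t)]
  · linarith [g.h1, mul_pos hρ (by linarith [hs.1] : 0 < 1 + R.s)]
  · linarith [g.h1, mul_pos hρ (by linarith [ht.1] : 0 < 1 + R.t)]
  · intro x y H _ _ _ _ _
    exact Theta_base
  · intro x y H _ _ _ _ _
    exact Theta_base
  · have : 0 ≤ R.rho * R.d / 2 := by positivity
    linarith
  · rw [habsd]
    have h2 := mul_le_mul_of_nonneg_right (by linarith [hga.1] : -(R.g2 / 2) ≤ 1)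
      (by positivity : 0 ≤ R.rho * R.d / 2)
    linarith
  · have : 0 ≤ R.rho * R.d / 2 := by positivity
    linarith
  · rw [habsd]
    have h2 := mul_le_mul_of_nonneg_right (by linarith [hga.2] : (R.g2 / 2) ≤ 1)
      (by positivity : 0 ≤ R.rho * R.d / 2)
    linarith
  · rw [← hG.pfs, ← hG.pft, ← hG.pfg, ← g.hwq]
    exact hii

set_option maxHeartbeats 1000000 in
/-- kind 1 -/
theorem pair1 (hG : GR R fg) (hs0 : 0 ≤ R.s) (ht0 : R.t ≤ 0)
    (cl : 0 ≤ R.oden ∧ 0 ≤ R.od3 ∧ 0 ≤ R.od4 ∧ 0 ≤ R.oDI) :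
    PairStep R.rho R.s R.t (Psi R) := by
  obtain ⟨c1, c3, c4, cD⟩ := cl
  have g := hG.G
  have hC := g.C2_pos
  have hw := g.wq_pos
  have hL := g.L_pos
  have hb := hG.hbd
  have hc := g.hc0
  have hd := g.d_pos
  have hρ := g.h0
  have hρ1 := g.h1
  have hs := abs_lt.mp g.hs
  have ht := abs_lt.mp g.ht
  have hden : 0 < R.den4 / 4 := by
    simp only [RP.oden] at c1
    linarith
  -- num > 0
  have hnum : 0 < R.num4 := by
    have e : R.num4 = 2 * (R.mu2) * ((R.lam2 * R.fs ^ 2 + R.mu2 * R.ft ^ 2)) +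
        2 * R.rho * (R.lam2 * (R.s * (1 - R.s))) + 2 * R.rho * (R.mu2 * ((-R.t) * (1 + R.t))) := by
      rw [g.hfs, g.hft]
      simp only [RP.num4, RP.den4, RP.wg4, RP.g2, RP.lmd, RP.d, RP.d2, RP.lam2, RP.mu2]
      ring
    have h1 : 0 < R.lam2 := by have := g.lam_pos; linarith
    have h2 : 0 < R.mu2 := by have := g.mu_pos; linarith
    have h3 := g.hfs0
    have h4 := g.hft0
    have h5 : 0 ≤ R.s * (1 - R.s) := mul_nonneg hs0 (by linarith)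
    have h6 : 0 ≤ (-R.t) * (1 + R.t) := mul_nonneg (by linarith) (by linarith)
    rw [e]
    positivity
  obtain ⟨th, hth⟩ : ∃ th : ℝ, th = 1 - (R.lam2 / 2) * (R.mu2 / 2) * R.d * (R.d - 2 * R.rho) / (R.den4 / 4) :=
    ⟨_, rfl⟩
  have hthn : th = R.num4 / R.den4 := by
    rw [hth]
    have : 0 < R.den4 := by linarith
    simp only [RP.num4, RP.lmd, RP.d2]
    field_simp
    ring
  have hden4 : 0 < R.den4 := by linarith
  have hthp : 0 < th := by rw [hthn]; exact div_pos hnum hden4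
  have hthd : th * R.den4 = R.num4 := by rw [hthn]; field_simp
  have hgg : (1 + R.rho) / 2 * R.s + (1 - R.rho) / 2 * R.t = R.g2 / 2 := by
    simp only [RP.g2, RP.lam2, RP.mu2]; ring
  -- the scalar inequality
  have hV : 0 < R.V4 := by
    simp only [RP.V4, RP.c2]
    have h1 : 0 < R.wg4 := by
      rw [wg4_eq, ← g.hfg]
      have := g.hfg0
      positivity
    have h2 : 0 < R.L2 := by linarith
    positivity
  have hw4 : 0 < R.wq4 := by linarith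
  have hii := ii_dict g (b := R.bn / R.bd) (V := R.V4 / 4) (den := R.den4 / 4) (wz := R.wz2 / 2)
    (th := th) (by simp only [RP.V4, RP.c2, RP.wg4]; ring) hden
    (by simp only [RP.wz2, RP.ws, RP.wt]; ring) hth (hKp hG) (by
      have e : (R.c - R.bn / R.bd * R.c ^ 3) * (2 * R.c / (R.C2 * (R.V4 / 4)) +
          (R.d - 2 * R.rho) * (R.L2 / 2) / (R.d * (R.den4 / 4))) +
          R.bn / R.bd * R.c ^ 2 * (1 + (R.d - 2 * R.rho) * (R.wz2 / 2) / (R.d * (R.den4 / 4))) -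
          1 / (R.wq4 / 4) = R.oDI / (R.bd * R.C2 * R.V4 * R.d * R.den4 * R.wq4) := by
        rw [eq_div_iff (by positivity)]
        simp only [RP.oDI, RP.K3, RP.bc2, RP.c2, RP.dden, RP.CV, RP.d2]
        field_simp
        ring
      rw [e]
      exact div_nonneg cD (by positivity))
  refine pairStep_dict (th := th) g.h0 g.h1 g.hs.le g.ht.le hthp ?_ ?_ ?_ ?_ ?_
  · rw [hgg, ← hG.pfg]; exact g.hfg0
  · rw [hgg, hthn]
    simp only [RP.od3] at c3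
    rw [div_mul_eq_mul_div, div_le_iff₀ hden4]
    linarith
  · rw [hgg, hthn]
    simp only [RP.od4] at c4
    rw [div_mul_eq_mul_div, le_div_iff₀ hden4]
    linarith
  · rw [hgg]
    apply le_of_eq
    have h1 : th * R.den4 - R.num4 = 0 := by rw [hthd]; ring
    simp only [RP.num4, RP.den4, RP.lmd, RP.d2, RP.d, RP.wg4, RP.lam2, RP.mu2, RP.g2] at h1 ⊢
    linear_combination (-1 / 4) * h1
  · rw [hgg, ← hG.pfs, ← hG.pft, ← hG.pfg]
    have e1 : (1 + R.rho) / 2 = R.lam2 / 2 := by simp only [RP.lam2]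
    have e2 : (1 - R.rho) / 2 = R.mu2 / 2 := by simp only [RP.mu2]
    rw [e1, e2]
    have e3 : 1 - (R.g2 / 2) ^ 2 + R.g2 / 2 * (R.rho * (R.s - R.t) / 2) = R.wq4 / 4 := by
      rw [g.hwq, g.hd]
    rw [e3, ← g.hd]
    simp only [Psi, ← hG.pc, ← hG.pfs, ← hG.pft, ← hG.pfg]
    exact hii

/-- all kinds -/
theorem pair_of_clause {B : Bs} {x : ℕ → ℝ} {a b e : ℝ} (hS : Sp B x a b e R) (hG : GR R fg)
    (pa : 0 < a) (pb : 0 < b) (pe : 0 < e) (hr : R.rho ^ 2 ≤ 1 / 2)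
    (hcl : ∀ E ∈ clause B p, 0 ≤ E.val x (fun _ => 1)) : PairStep R.rho R.s R.t (Psi R) := by
  unfold clause at hcl
  split at hcl
  · -- kind 0
    have h0 : ∀ E ∈ clause0 B p, 0 ≤ E.val x (fun _ => 1) := fun E hE =>
      hcl E (by simp only [List.mem_append]; exact Or.inr (Or.inr (Or.inr hE)))
    have hc : ∀ E ∈ cons0 p, 0 ≤ E.val x (fun _ => 1) := fun E hE =>
      hcl E (by simp only [List.mem_append]; exact Or.inl hE)
    have hx1 : ∀ E ∈ ex1 B p, 0 ≤ E.val x (fun _ => 1) := fun E hE =>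
      hcl E (by simp only [List.mem_append]; exact Or.inr (Or.inl hE))
    have hx2 : ∀ E ∈ ex2 B p, 0 ≤ E.val x (fun _ => 1) := fun E hE =>
      hcl E (by simp only [List.mem_append]; exact Or.inr (Or.inr (Or.inl hE)))
    have k1 := hc (.c p.G1) (by simp [cons0])
    have k2 := hc (.c p.G2) (by simp [cons0])
    have k3 := hc (.c p.ga1) (by simp [cons0])
    have k4 := hc (.c p.ga2) (by simp [cons0])
    simp only [Ex.val, Int.cast_nonneg_iff] at k1 k2 k3 k4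
    refine pair0 hG (cl0 hS pa pb pe h0) ?_ ?_ k1 k2 k3 k4
    · by_cases hh : p.h1 = true
      · exact Or.inr (clx1 hS pa pb pe hh hx1)
      · left
        have := hx1 (.c (p.H1 - p.G1)) (by simp [ex1, hh])
        simp only [Ex.val, Int.cast_nonneg_iff] at this
        omega
    · by_cases hh : p.h2 = true
      · exact Or.inr (clx2 hS pa pb pe hh hx2)
      · left
        have := hx2 (.c (p.H2 - p.G2)) (by simp [ex2, hh])
        simp only [Ex.val, Int.cast_nonneg_iff] at this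
        omega
  · -- kind 1
    split_ifs at hcl with hd
    · exact pair1 hG (hS.hdict hd).1 (hS.hdict hd).2 (cl1 hS pa pb pe hcl)
    · exfalso
      have := hcl (.c (-1)) (by simp)
      simp only [Ex.val] at this
      norm_num at this
  · -- kind 2
    exfalso
    have h := cl2 hS pa pb pe hcl
    simp only [RP.otr] at h
    have := hG.G.hst
    linarith
  · exact pair3 hG hr (cl3 hS pa pb pe hcl)

end Crest.Agent.R307.FB
end

-- ▼ part R307/FBGlue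

/-!
Row 307 (S0471), flow regime: charts, coverings and the final statement for one slab (helper886).
-/

set_option autoImplicit false
set_option linter.unusedVariables false

namespace Crest.Agent.R307.FB

open Crest.Agent.R307.Flow Crest.Agent.R307.Elim Crest.Agent.KB

/-- the clauses cover the box `b` -/
def Cov (s : ℕ) (B : Bs) (b : Box) : Prop :=
  ∀ x : ℕ → ℝ, InBox 3 s b x → ∃ p : Par, ∀ E ∈ clause B p, 0 ≤ E.val x (fun _ => 1)

theorem cov_run {w s : ℕ} {Xl M : List ℕ} {ps : List Par} {B : Bs} {tr : Tr} {b : Box}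
    (h : run 3 w s Xl M (ps.map (clause B)) tr b = true) : Cov s B b := by
  intro x hx
  obtain ⟨cl, hcl, h2⟩ := run_sound _ _ _ _ _ _ _ _ h x hx
  obtain ⟨p, -, rfl⟩ := List.mem_map.mp hcl
  exact ⟨p, h2⟩

theorem cov_node {s : ℕ} {B : Bs} {b : Box} (i : ℕ) (m : ℤ) (hi : i < 3)
    (h1 : Cov s B (Box.setc b i (ba b i, m))) (h2 : Cov s B (Box.setc b i (m, bb b i))) :
    Cov s B b := by
  intro x hx
  have hxi := hx i hi
  rcases le_total (x i * 2 ^ s) (m : ℝ) with hm | hm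
  · exact h1 x (InBox_setc hx i _ ⟨hxi.1, hm⟩)
  · exact h2 x (InBox_setc hx i _ ⟨hm, hxi.2⟩)

/-- half-angle pairs -/
structure Half (n d a s f : ℝ) : Prop where
  h1 : n ^ 2 + d ^ 2 = a
  h2 : d ^ 2 - n ^ 2 = a * s
  h3 : 2 * (n * d) = a * f
  pa : 0 < a

lemma half_pos {s f : ℝ} (hs : |s| < 1) (hf : f ^ 2 = 1 - s ^ 2) :
    Half (f / (1 + s)) 1 (2 / (1 + s)) s f := by
  have h := abs_lt.mp hs
  have h1 : 0 < 1 + s := by linarith
  have e : (f / (1 + s)) ^ 2 = (1 - s) / (1 + s) := by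
    rw [div_pow, hf, div_eq_div_iff (by positivity) h1.ne']; ring
  refine ⟨?_, ?_, ?_, by positivity⟩
  · rw [e]; field_simp; ring
  · rw [e]; field_simp; ring
  · field_simp

lemma half_neg {s f : ℝ} (hs : |s| < 1) (hf : f ^ 2 = 1 - s ^ 2) :
    Half 1 (f / (1 - s)) (2 / (1 - s)) s f := by
  have h := abs_lt.mp hs
  have h1 : 0 < 1 - s := by linarith
  have e : (f / (1 - s)) ^ 2 = (1 + s) / (1 - s) := by
    rw [div_pow, hf, div_eq_div_iff (by positivity) h1.ne']; ring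
  refine ⟨?_, ?_, ?_, by positivity⟩
  · rw [e]; field_simp; ring
  · rw [e]; field_simp; ring
  · field_simp

/-- the point -/
noncomputable def mkR (ρ s t bn bd : ℝ) : RP :=
  ⟨s, t, ph s, ph t, (1 + ph s * ph t - s * t) / 2, (s * ph t + t * ph s) / 2, ρ, ph ρ, bn, bd⟩

lemma mkSp {B : Bs} {x : ℕ → ℝ} {a b e ρ s t pn pd qn qd : ℝ}
    (e1 : B.pn.val x (fun _ => 1) = pn) (e2 : B.pd.val x (fun _ => 1) = pd)
    (e3 : B.qn.val x (fun _ => 1) = qn) (e4 : B.qd.val x (fun _ => 1) = qd)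
    (hp : Half pn pd a s (ph s)) (hq : Half qn qd b t (ph t))
    (he : 1 + x 2 ^ 2 = e) (hr : 2 * x 2 = e * ρ) (hc : 1 - x 2 ^ 2 = e * ph ρ)
    (hdict : B.dict = true → 0 ≤ s ∧ t ≤ 0) :
    Sp B x a b e (mkR ρ s t B.bn B.bd) := by
  obtain ⟨p1, p2, p3, pa⟩ := hp
  obtain ⟨q1, q2, q3, pb⟩ := hq
  refine ⟨rfl, rfl, ?_, ?_, he, ?_, ?_, ?_, ?_, ?_, ?_, hr, hc, hdict⟩
  · rw [e1, e2]; exact p1
  · rw [e3, e4]; exact q1
  · rw [e1, e2]; exact p2
  · rw [e3, e4]; exact q2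
  · rw [e1, e2]; exact p3
  · rw [e3, e4]; exact q3
  · rw [e1, e2, e3, e4]
    simp only [mkR]
    have r1 : pn ^ 2 = a * (1 - s) / 2 := by linarith
    have r2 : pd ^ 2 = a * (1 + s) / 2 := by linarith
    have r3 : qn ^ 2 = b * (1 - t) / 2 := by linarith
    have r4 : qd ^ 2 = b * (1 + t) / 2 := by linarith
    have e5 : (pn * qd + qn * pd) ^ 2 = pn ^ 2 * qd ^ 2 + qn ^ 2 * pd ^ 2 +
      (2 * (pn * pd)) * (2 * (qn * qd)) / 2 := by ring
    rw [e5, p3, q3, r1, r2, r3, r4]; ring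
  · rw [e1, e2, e3, e4]
    simp only [mkR]
    have e5 : (pn * qd + qn * pd) * (pd * qd - pn * qn) =
      (2 * (pn * pd)) * (qd ^ 2 - qn ^ 2) / 2 + (2 * (qn * qd)) * (pd ^ 2 - pn ^ 2) / 2 := by ring
    rw [e5, p3, q3, p2, q2]; ring

lemma mkGR {ρ s t bn bd : ℝ} (h0 : 0 < ρ) (h1 : ρ < 1) (hs : |s| < 1) (ht : |t| < 1) (hst : t < s)
    (hbd : 0 < bd) (hK : bn * (1 - ρ ^ 2) ≤ bd) :
    GR (mkR ρ s t bn bd) (ph ((mkR ρ s t bn bd).g2 / 2)) := by
  have sq : ∀ {z : ℝ}, |z| < 1 → ph z ^ 2 = 1 - z ^ 2 ∧ 0 < ph z := by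
    intro z hz
    have h : 0 < 1 - z ^ 2 := by
      have := abs_lt.mp hz
      nlinarith
    exact ⟨Real.sq_sqrt h.le, Real.sqrt_pos.2 h⟩
  have hg : |(mkR ρ s t bn bd).g2 / 2| < 1 := by
    have a1 := abs_lt.mp hs
    have a2 := abs_lt.mp ht
    simp only [RP.g2, RP.lam2, RP.mu2, mkR]
    rw [abs_lt]
    constructor <;> nlinarith
  have hρa : |ρ| < 1 := by rw [abs_of_pos h0]; exact h1
  refine ⟨⟨h0, h1, (sq hρa).2, (sq hρa).1, hs, ht, hst, (sq hs).1, (sq hs).2, (sq ht).1, (sq ht).2,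
    (sq hg).1, (sq hg).2, rfl, rfl, ?_, rfl, rfl, rfl, rfl, ?_, ?_⟩, rfl, rfl, rfl, rfl, hbd, ?_⟩
  · simp only [RP.g2]; ring
  · simp only [RP.L2]; ring
  · simp only [RP.wq4, RP.wg4, RP.rd]; ring
  · simp only [mkR]
    rw [(sq hρa).1]; exact hK

/-- the three charts -/
def ch0 (bn bd : ℤ) : Bs := ⟨.X 0 1, .W 0 1, .X 1 1, .W 1 1, bn, bd, false⟩
def ch2 (bn bd : ℤ) : Bs := ⟨.X 0 1, .W 0 1, .W 1 1, .X 1 1, bn, bd, true⟩
def ch3 (bn bd : ℤ) : Bs := ⟨.W 0 1, .X 0 1, .W 1 1, .X 1 1, bn, bd, false⟩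

/-- the point of the box -/
def pt (x y r : ℝ) : ℕ → ℝ
  | 0 => x
  | 1 => y
  | _ => r

lemma inbox_pt {N : ℕ} {lo hi : ℤ} {S : ℕ} {x y r : ℝ} (hS : S = 2 ^ N)
    (hx : 0 ≤ x) (hx1 : x ≤ 1) (hy : 0 ≤ y) (hy1 : y ≤ 1) (hr : (lo : ℝ) ≤ r * S)
    (hr1 : r * S ≤ hi) : InBox 3 N [(0, S), (0, S), (lo, hi)] (pt x y r) := by
  have hS2 : ((S : ℕ) : ℝ) = 2 ^ N := by rw [hS]; push_cast; rfl
  have hp : (0 : ℝ) < 2 ^ N := by positivity
  rw [hS2] at hr hr1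
  intro i hi'
  interval_cases i
  · simp only [ba, bb, pt, List.getD_cons_zero]
    push_cast
    rw [hS2]
    constructor
    · positivity
    · nlinarith
  · simp only [ba, bb, pt, List.getD_cons_succ, List.getD_cons_zero]
    push_cast
    rw [hS2]
    constructor
    · positivity
    · nlinarith
  · simp only [ba, bb, pt, List.getD_cons_succ, List.getD_cons_zero]
    exact ⟨hr, hr1⟩

/-- one slab -/
theorem slab {N S : ℕ} {lo hi bn bd : ℤ} (hS : S = 2 ^ N)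
    (c0 : Cov N (ch0 bn bd) [(0, S), (0, S), (lo, hi)])
    (c2 : Cov N (ch2 bn bd) [(0, S), (0, S), (lo, hi)])
    (c3 : Cov N (ch3 bn bd) [(0, S), (0, S), (lo, hi)])
    {ρ r : ℝ} (hr0 : 0 < r) (hr1 : r < 1) (hρ : ρ = 2 * r / (1 + r ^ 2))
    (hr : (lo : ℝ) ≤ r * S) (hr' : r * S ≤ hi) (hbd : 0 < bd) (hρ2 : ρ ^ 2 ≤ 1 / 2)
    (hK : (bn : ℝ) * (1 - ρ ^ 2) ≤ bd) {s t : ℝ} (hs : |s| < 1) (ht : |t| < 1) (hst : t < s) :
    PairStep ρ s t (fun g => ρ ^ 2 / ph ρ + (bn : ℝ) / bd * ρ ^ 2 * (ph g - ph ρ)) := by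
  have h0 : 0 < ρ := by rw [hρ]; positivity
  have h1 : ρ < 1 := by
    rw [hρ, div_lt_one (by positivity)]
    nlinarith [mul_pos (sub_pos.2 hr1) (sub_pos.2 hr1)]
  have hbd' : (0 : ℝ) < (bd : ℝ) := by exact_mod_cast hbd
  have hG := mkGR (bn := bn) (bd := bd) h0 h1 hs ht hst hbd' hK
  have hphρ : ph ρ = (1 - r ^ 2) / (1 + r ^ 2) := by
    unfold ph
    have e : 1 - ρ ^ 2 = ((1 - r ^ 2) / (1 + r ^ 2)) ^ 2 := by
      rw [hρ]; field_simp; ring
    rw [e]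
    exact Real.sqrt_sq (div_nonneg (by nlinarith) (by positivity))
  have pe : 0 < 1 + r ^ 2 := by positivity
  have hrr : 2 * r = (1 + r ^ 2) * ρ := by rw [hρ]; field_simp
  have hcc : 1 - r ^ 2 = (1 + r ^ 2) * ph ρ := by rw [hphρ]; field_simp
  have hfs := hG.G.hfs
  have hft := hG.G.hft
  have hfs0 := hG.G.hfs0
  have hft0 := hG.G.hft0
  simp only [mkR] at hfs hft hfs0 hft0
  have as := abs_lt.mp hs
  have at' := abs_lt.mp ht
  have hfs1 : ph s ≤ 1 := by nlinarith [sq_nonneg s]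
  have hft1 : ph t ≤ 1 := by nlinarith [sq_nonneg t]
  have fin : ∀ {B : Bs} {x : ℕ → ℝ} {a b : ℝ}, B.bn = bn → B.bd = bd → x 2 = r → 0 < a → 0 < b →
      Sp B x a b (1 + r ^ 2) (mkR ρ s t B.bn B.bd) →
      (∃ p : Par, ∀ E ∈ clause B p, 0 ≤ E.val x (fun _ => 1)) →
      PairStep ρ s t (fun g => ρ ^ 2 / ph ρ + (bn : ℝ) / bd * ρ ^ 2 * (ph g - ph ρ)) := by
    intro B x a b hb1 hb2 _ pa pb hSp hex
    obtain ⟨p, hp⟩ := hex
    rw [hb1, hb2] at hSp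
    exact pair_of_clause hSp hG pa pb pe hρ2 hp
  by_cases hs0 : 0 ≤ s
  · have u1 : 0 ≤ ph s / (1 + s) := by
      have : 0 < 1 + s := by linarith
      positivity
    have u2 : ph s / (1 + s) ≤ 1 := by rw [div_le_one (by linarith)]; linarith
    by_cases ht0 : 0 ≤ t
    · have v1 : 0 ≤ ph t / (1 + t) := by
        have : 0 < 1 + t := by linarith
        positivity
      have v2 : ph t / (1 + t) ≤ 1 := by rw [div_le_one (by linarith)]; linarith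
      have hs' := half_pos hs hfs
      have ht' := half_pos ht hft
      exact fin (B := ch0 bn bd) (x := pt (ph s / (1 + s)) (ph t / (1 + t)) r) rfl rfl rfl hs'.pa ht'.pa
        (mkSp (by simp [ch0, Ex.val, pt]) (by simp [ch0, Ex.val]) (by simp [ch0, Ex.val, pt])
          (by simp [ch0, Ex.val]) hs' ht' rfl hrr hcc (by simp [ch0]))
        (c0 _ (inbox_pt hS u1 u2 v1 v2 hr hr'))
    · have v1 : 0 ≤ ph t / (1 - t) := by
        have : 0 < 1 - t := by linarith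
        positivity
      have v2 : ph t / (1 - t) ≤ 1 := by rw [div_le_one (by linarith)]; linarith
      have hs' := half_pos hs hfs
      have ht' := half_neg ht hft
      exact fin (B := ch2 bn bd) (x := pt (ph s / (1 + s)) (ph t / (1 - t)) r) rfl rfl rfl hs'.pa ht'.pa
        (mkSp (by simp [ch2, Ex.val, pt]) (by simp [ch2, Ex.val]) (by simp [ch2, Ex.val])
          (by simp [ch2, Ex.val, pt]) hs' ht' rfl hrr hcc (fun _ => ⟨hs0, by linarith⟩))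
        (c2 _ (inbox_pt hS u1 u2 v1 v2 hr hr'))
  · have u1 : 0 ≤ ph s / (1 - s) := by
      have : 0 < 1 - s := by linarith
      positivity
    have u2 : ph s / (1 - s) ≤ 1 := by rw [div_le_one (by linarith)]; linarith
    have v1 : 0 ≤ ph t / (1 - t) := by
      have : 0 < 1 - t := by linarith
      positivity
    have v2 : ph t / (1 - t) ≤ 1 := by rw [div_le_one (by linarith)]; linarith
    have hs' := half_neg hs hfs
    have ht' := half_neg ht hft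
    exact fin (B := ch3 bn bd) (x := pt (ph s / (1 - s)) (ph t / (1 - t)) r) rfl rfl rfl hs'.pa ht'.pa
      (mkSp (by simp [ch3, Ex.val]) (by simp [ch3, Ex.val, pt]) (by simp [ch3, Ex.val])
        (by simp [ch3, Ex.val, pt]) hs' ht' rfl hrr hcc (by simp [ch3]))
      (c3 _ (inbox_pt hS u1 u2 v1 v2 hr hr'))

end Crest.Agent.R307.FB
private theorem rz_25bfbbd447 : type_of% @_root_.Crest.Agent.R307.FB.pt.eq_1 := @_root_.Crest.Agent.R307.FB.pt.eq_1 -- L128
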