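import Crest.Agent.Tools.KB
import Crest.Agent.R307.Elim2

-- ▼ part R307/FBDefs
section

/-!
Row 307 (S0471), flow regime: parametrised clauses (box-wise menu of constants) for the polynomial
certificates, and their real values.  Generated (helper886).
-/

set_option autoImplicit false
set_option linter.unusedSimpArgs false
set_option linter.unusedTactic false
set_option linter.unusedVariables false
set_option linter.unreachableTactic false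

namespace Crest.Agent.R307.FB

open Crest.Agent.KB

/-- chart: the four half-angle coordinates, and `b = bn/bd` -/
structure Bs where
  (pn pd qn qd : Ex)
  (bn bd : ℤ)
  (dict : Bool)

/-- parameters of a clause -/
structure Par where
  (kind : ℕ)
  (a0 a1 a2 et G1 G2 H1 H2 ga1 ga2 : ℤ)
  (o1 o2 o3 o4 h1 h2 : Bool)

def sg (b : Bool) : ℤ := if b then 1 else -1

def Dp (B : Bs) : Ex := (.add (.mul B.pn B.pn) (.mul B.pd B.pd))
def Dq (B : Bs) : Ex := (.add (.mul B.qn B.qn) (.mul B.qd B.qd))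
def Dr (B : Bs) : Ex := (.add (.mul (.W 2 1) (.W 2 1)) (.mul (.X 2 1) (.X 2 1)))
def sN (B : Bs) : Ex := (.sub (.mul B.pd B.pd) (.mul B.pn B.pn))
def tN (B : Bs) : Ex := (.sub (.mul B.qd B.qd) (.mul B.qn B.qn))
def fsN (B : Bs) : Ex := (.mul (.c 2) (.mul B.pn B.pd))
def ftN (B : Bs) : Ex := (.mul (.c 2) (.mul B.qn B.qd))
def pq (B : Bs) : Ex := (.add (.mul B.pn B.qd) (.mul B.qn B.pd))
def C2N (B : Bs) : Ex := (.mul (pq B) (pq B))
def SCN (B : Bs) : Ex := (.mul (pq B) (.sub (.mul B.pd B.qd) (.mul B.pn B.qn)))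
def rhoN (B : Bs) : Ex := (.mul (.c 2) (.mul (.X 2 1) (.W 2 1)))
def cN (B : Bs) : Ex := (.sub (.mul (.W 2 1) (.W 2 1)) (.mul (.X 2 1) (.X 2 1)))
def lam2N (B : Bs) : Ex := (.add (.mul (Dr B) (.c 1)) (rhoN B))
def mu2N (B : Bs) : Ex := (.sub (.mul (Dr B) (.c 1)) (rhoN B))
def g2N (B : Bs) : Ex := (.add (.mul (Dq B) (.mul (lam2N B) (sN B))) (.mul (Dp B) (.mul (mu2N B) (tN B))))
def dN (B : Bs) : Ex := (.sub (.mul (Dq B) (sN B)) (.mul (Dp B) (tN B)))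
def SigN (B : Bs) : Ex := (.sub (.mul (Dq B) (.mul (Dp B) (.c 1))) (.mul (sN B) (tN B)))
def wsN (B : Bs) : Ex := (.mul (fsN B) (fsN B))
def wtN (B : Bs) : Ex := (.mul (ftN B) (ftN B))
def Dp2 (B : Bs) : Ex := (.mul (Dp B) (Dp B))
def Dq2 (B : Bs) : Ex := (.mul (Dq B) (Dq B))
def Dr2 (B : Bs) : Ex := (.mul (Dr B) (Dr B))
def wg4N (B : Bs) : Ex := (.sub (.mul (Dr2 B) (.mul (Dq2 B) (.mul (Dp2 B) (.c 4)))) (.mul (g2N B) (g2N B)))
def wSigN (B : Bs) : Ex := (.mul (wg4N B) (SigN B))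
def gSN (B : Bs) : Ex := (.mul (g2N B) (SigN B))
def rdN (B : Bs) : Ex := (.mul (rhoN B) (dN B))
def wq4N (B : Bs) : Ex := (.add (wg4N B) (.mul (g2N B) (rdN B)))
def L2N (B : Bs) : Ex := (.add (.mul (Dq B) (.mul (lam2N B) (fsN B))) (.mul (Dp B) (.mul (mu2N B) (ftN B))))
def c2N (B : Bs) : Ex := (.mul (cN B) (cN B))
def K3N (B : Bs) : Ex := (.sub (.mul (Dr2 B) (.mul (.c B.bd) (cN B))) (.mul (.c B.bn) (.mul (cN B) (c2N B))))
def bc2N (B : Bs) : Ex := (.mul (.c B.bn) (c2N B))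
def lmdN (B : Bs) : Ex := (.mul (.mul (lam2N B) (mu2N B)) (dN B))
def z4N (B : Bs) : Ex := (.mul (lmdN B) (dN B))
def den4N (B : Bs) : Ex := (.add (.mul (mu2N B) (wg4N B)) (.mul (.mul (rhoN B) (g2N B)) (.sub (.mul (Dq B) (.mul (lam2N B) (.sub (.mul (Dp B) (.c 1)) (sN B)))) (.mul (Dp B) (.mul (mu2N B) (.add (.mul (Dq B) (.c 1)) (tN B)))))))
def d2N (B : Bs) : Ex := (.sub (.mul (Dr B) (dN B)) (.mul (Dq B) (.mul (Dp B) (.mul (.c 2) (rhoN B)))))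
def num4N (B : Bs) : Ex := (.sub (den4N B) (.mul (lmdN B) (d2N B)))
def wz2N (B : Bs) : Ex := (.add (.mul (Dq2 B) (.mul (lam2N B) (wsN B))) (.mul (Dp2 B) (.mul (mu2N B) (wtN B))))
def V4N (B : Bs) : Ex := (.add (.add (wg4N B) (.mul (Dq2 B) (.mul (Dp2 B) (.mul (.c 4) (c2N B))))) (.mul (Dq B) (.mul (Dp B) (.mul (.mul (.c 4) (cN B)) (L2N B)))))
def CVN (B : Bs) : Ex := (.mul (C2N B) (V4N B))
def ddenN (B : Bs) : Ex := (.mul (dN B) (den4N B))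
def Dr3 (B : Bs) : Ex := (.mul (Dr B) (Dr2 B))
def odenN (B : Bs) : Ex := (.sub (.mul (.c 16) (den4N B)) (.mul (Dr3 B) (.mul (Dq2 B) (.mul (Dp2 B) (.c 1)))))
def od3N (B : Bs) : Ex := (.sub (.mul (Dr B) (.mul (Dq B) (.mul (.mul (.c 2) (sN B)) (den4N B)))) (.mul (num4N B) (g2N B)))
def od4N (B : Bs) : Ex := (.sub (.mul (num4N B) (g2N B)) (.mul (Dr B) (.mul (Dp B) (.mul (.mul (.c 2) (tN B)) (den4N B)))))
def Dr4 (B : Bs) : Ex := (.mul (Dr2 B) (Dr2 B))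
def oDIN (B : Bs) : Ex := (.sub (.add (.mul (Dq B) (.mul (Dp B) (.mul (.mul (.c 2) (K3N B)) (.mul (.add (.mul (Dq2 B) (.mul (Dp2 B) (.mul (.mul (.c 4) (cN B)) (ddenN B)))) (.mul (.mul (d2N B) (L2N B)) (CVN B))) (wq4N B))))) (.mul (.mul (bc2N B) (.add (ddenN B) (.mul (Dr B) (.mul (.c 2) (.mul (d2N B) (wz2N B)))))) (.mul (CVN B) (wq4N B)))) (.mul (Dr4 B) (.mul (Dq2 B) (.mul (Dp2 B) (.mul (.mul (.c 4) (.c B.bd)) (.mul (CVN B) (ddenN B)))))))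
def otrN (B : Bs) : Ex := (.sub (.mul (Dp B) (tN B)) (.mul (Dq B) (sN B)))
def mN (B : Bs) (p : Par) : Ex := (.add (.mul (Dq B) (.add (.mul (Dp B) (.c p.a0)) (.mul (.c p.a1) (fsN B)))) (.mul (Dp B) (.mul (.c p.a2) (ftN B))))
def om2N (B : Bs) (p : Par) : Ex := (.sub (.mul (Dr2 B) (.mul (.c 4) (.mul (mN B p) (mN B p)))) (.mul (.c 1048576) (wg4N B)))
def mLN (B : Bs) (p : Par) : Ex := (.add (.mul (Dr B) (.mul (.c 2) (mN B p))) (.mul (.c 1024) (L2N B)))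
def CmLN (B : Bs) (p : Par) : Ex := (.mul (C2N B) (mLN B p))
def oII0N (B : Bs) (p : Par) : Ex := (.sub (.add (.mul (Dq2 B) (.mul (Dp2 B) (.mul (.c 2048) (.mul (K3N B) (wq4N B))))) (.mul (.mul (bc2N B) (wq4N B)) (CmLN B p))) (.mul (Dr4 B) (.mul (Dq2 B) (.mul (Dp2 B) (.mul (.mul (.c 4) (.c B.bd)) (CmLN B p))))))
def mffN (B : Bs) (p : Par) : Ex := (.mul (.mul (.c 4) (mN B p)) (.mul (fsN B) (ftN B)))
def wS1N (B : Bs) : Ex := (.mul (.c 1024) (wSigN B))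
def PPN (B : Bs) (p : Par) : Ex := (.add (wS1N B) (.mul (Dr2 B) (.mul (Dq B) (.mul (Dp B) (mffN B p)))))
def alPN (B : Bs) (p : Par) : Ex := (.sub (PPN B p) (.mul (.c p.et) (.mul (.mul (mu2N B) (dN B)) (.add (.mul (Dr B) (.mul (Dq B) (.mul (Dp B) (.mul (.c 2) (dN B))))) (gSN B)))))
def bePN (B : Bs) (p : Par) : Ex := (.sub (PPN B p) (.mul (.c p.et) (.mul (.mul (lam2N B) (dN B)) (.sub (.mul (Dr B) (.mul (Dq B) (.mul (Dp B) (.mul (.c 2) (dN B))))) (gSN B)))))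
def epsPN (B : Bs) (p : Par) : Ex := (.sub (PPN B p) (.mul (.c p.et) (.sub (.mul (Dq B) (.mul (Dp B) (z4N B))) (.mul (.mul (sN B) (tN B)) (wg4N B)))))
def N1N (B : Bs) (p : Par) : Ex := (.mul (.sub (.c 1024) (.c p.et)) (.add (.sub (.mul (.c 1024) (PPN B p)) (.mul (.c p.et) (wS1N B))) (.mul (Dr2 B) (.mul (Dq B) (.mul (Dp B) (.mul (.c p.et) (mffN B p)))))))
def oalN (B : Bs) (p : Par) : Ex := (.sub (.mul (.c 128) (alPN B p)) (PPN B p))
def obeN (B : Bs) (p : Par) : Ex := (.sub (.mul (.c 128) (bePN B p)) (PPN B p))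
def ralPN (B : Bs) (p : Par) : Ex := (.mul (.mul (.c 1024) (rhoN B)) (alPN B p))
def rbePN (B : Bs) (p : Par) : Ex := (.mul (.mul (.c 1024) (rhoN B)) (bePN B p))
def ob1N (B : Bs) (p : Par) : Ex := (.sub (.mul (.c p.G2) (.mul (.add (.mul (Dr B) (.mul (Dp B) (.c 1))) (.mul (.c (sg p.o1)) (.sub (.mul (Dr B) (sN B)) (.mul (Dp B) (rhoN B))))) (PPN B p))) (.mul (Dp B) (ralPN B p)))
def ob2N (B : Bs) (p : Par) : Ex := (.sub (.mul (.c p.G2) (.mul (.add (.mul (Dr B) (.mul (Dq B) (.c 1))) (.mul (.c (sg p.o2)) (.sub (.mul (Dr B) (tN B)) (.mul (Dq B) (rhoN B))))) (PPN B p))) (.mul (Dq B) (rbePN B p)))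
def ob3N (B : Bs) (p : Par) : Ex := (.sub (.mul (.c p.G1) (.mul (.add (.mul (Dr B) (.mul (Dp B) (.c 1))) (.mul (.c (sg p.o3)) (.add (.mul (Dr B) (sN B)) (.mul (Dp B) (rhoN B))))) (PPN B p))) (.mul (Dp B) (ralPN B p)))
def ob4N (B : Bs) (p : Par) : Ex := (.sub (.mul (.c p.G1) (.mul (.add (.mul (Dr B) (.mul (Dq B) (.c 1))) (.mul (.c (sg p.o4)) (.add (.mul (Dr B) (tN B)) (.mul (Dq B) (rhoN B))))) (PPN B p))) (.mul (Dq B) (rbePN B p)))
def sPN (B : Bs) (p : Par) : Ex := (.mul (sN B) (PPN B p))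
def tPN (B : Bs) (p : Par) : Ex := (.mul (tN B) (PPN B p))
def op1N (B : Bs) (p : Par) : Ex := (.sub (.sub (.mul (Dp B) (.mul (.c 1024) (alPN B p))) (.mul (.c p.G2) (sPN B p))) (.mul (Dp B) (PPN B p)))
def op2N (B : Bs) (p : Par) : Ex := (.sub (.sub (.mul (Dq B) (.mul (.c 1024) (bePN B p))) (.mul (.c p.G2) (tPN B p))) (.mul (Dq B) (PPN B p)))
def op3N (B : Bs) (p : Par) : Ex := (.sub (.add (.mul (Dp B) (.mul (.c 1024) (alPN B p))) (.mul (.c p.G1) (sPN B p))) (.mul (Dp B) (PPN B p)))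
def op4N (B : Bs) (p : Par) : Ex := (.sub (.add (.mul (Dq B) (.mul (.c 1024) (bePN B p))) (.mul (.c p.G1) (tPN B p))) (.mul (Dq B) (PPN B p)))
def A2N (B : Bs) (p : Par) : Ex := (.sub (.mul (Dp B) (.mul (.c 1024) (alPN B p))) (.mul (.c p.H2) (sPN B p)))
def B2N (B : Bs) (p : Par) : Ex := (.sub (.mul (Dq B) (.mul (.c 1024) (bePN B p))) (.mul (.c p.H2) (tPN B p)))
def A1N (B : Bs) (p : Par) : Ex := (.add (.mul (Dp B) (.mul (.c 1024) (alPN B p))) (.mul (.c p.H1) (sPN B p)))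
def B1N (B : Bs) (p : Par) : Ex := (.add (.mul (Dq B) (.mul (.c 1024) (bePN B p))) (.mul (.c p.H1) (tPN B p)))
def lwsN (B : Bs) : Ex := (.mul (lam2N B) (wsN B))
def mwtN (B : Bs) : Ex := (.mul (mu2N B) (wtN B))
def oA2N (B : Bs) (p : Par) : Ex := (.sub (A2N B p) (.mul (Dp B) (PPN B p)))
def oB2N (B : Bs) (p : Par) : Ex := (.sub (B2N B p) (.mul (Dq B) (PPN B p)))
def oA1N (B : Bs) (p : Par) : Ex := (.sub (A1N B p) (.mul (Dp B) (PPN B p)))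
def oB1N (B : Bs) (p : Par) : Ex := (.sub (B1N B p) (.mul (Dq B) (PPN B p)))
def oX2N (B : Bs) (p : Par) : Ex := (.sub (.mul (.mul (.c p.H2) (PPN B p)) (.add (.mul (Dq B) (.mul (lwsN B) (B2N B p))) (.mul (Dp B) (.mul (mwtN B) (A2N B p))))) (.mul (rdN B) (.mul (A2N B p) (B2N B p))))
def oX1N (B : Bs) (p : Par) : Ex := (.sub (.mul (.mul (.c p.H1) (PPN B p)) (.add (.mul (Dq B) (.mul (lwsN B) (B1N B p))) (.mul (Dp B) (.mul (mwtN B) (A1N B p))))) (.mul (rdN B) (.mul (A1N B p) (B1N B p))))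
def oga1N (B : Bs) (p : Par) : Ex := (.add (.mul (Dr B) (.mul (Dq B) (.mul (Dp B) (.mul (.c 2) (.c p.ga1))))) (.mul (.c 1024) (g2N B)))
def oga2N (B : Bs) (p : Par) : Ex := (.sub (.mul (Dr B) (.mul (Dq B) (.mul (Dp B) (.mul (.c 2) (.c p.ga2))))) (.mul (.c 1024) (g2N B)))
def e2PN (B : Bs) (p : Par) : Ex := (.mul (.mul (epsPN B p) (epsPN B p)) (PPN B p))
def abPN (B : Bs) (p : Par) : Ex := (.mul (.mul (.c 16384) (c2N B)) (.mul (alPN B p) (bePN B p)))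
def of2N (B : Bs) (p : Par) : Ex := (.sub (.mul (Dq2 B) (.mul (Dp2 B) (.mul (abPN B p) (.sub (N1N B p) (.mul (.mul (.c p.H2) (.c p.H2)) (PPN B p)))))) (.mul (.mul (.c p.H2) (.c p.H2)) (.mul (e2PN B p) (.add (.mul (.c 1024) (wg4N B)) (.mul (Dr B) (.mul (Dq B) (.mul (Dp B) (.mul (.c 2) (.mul (.c p.ga2) (rdN B))))))))))
def of1N (B : Bs) (p : Par) : Ex := (.sub (.mul (Dq2 B) (.mul (Dp2 B) (.mul (abPN B p) (.sub (N1N B p) (.mul (.mul (.c p.H1) (.c p.H1)) (PPN B p)))))) (.mul (.mul (.c p.H1) (.c p.H1)) (.mul (e2PN B p) (.add (.mul (.c 1024) (wg4N B)) (.mul (Dr B) (.mul (Dq B) (.mul (Dp B) (.mul (.c 2) (.mul (.c p.ga1) (rdN B))))))))))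
def oIIN (B : Bs) (p : Par) : Ex := (.sub (.add (.mul (Dq B) (.mul (Dp B) (.mul (.mul (K3N B) (wq4N B)) (.add (.mul (Dq B) (.mul (Dp B) (.mul (.c 2048) (PPN B p)))) (.mul (.mul (.c 2) (.mul (.c p.et) (mLN B p))) (.sub (.mul (Dr B) (.mul (Dq B) (.mul (Dp B) (.mul (.mul (.c 2) (C2N B)) (.add (.mul (Dq B) (fsN B)) (.mul (Dp B) (ftN B))))))) (.mul (gSN B) (SCN B)))))))) (.mul (.mul (.mul (bc2N B) (wq4N B)) (CmLN B p)) (.add (PPN B p) (.mul (Dr B) (.mul (.mul (.c 2) (.c p.et)) (.sub (.mul (Dr B) (.mul (Dq B) (.mul (Dp B) (.mul (.c 2) (.add (.mul (Dq2 B) (wsN B)) (.mul (Dp2 B) (wtN B))))))) (.mul (gSN B) (.add (.mul (Dq B) (sN B)) (.mul (Dp B) (tN B)))))))))) (.mul (Dr4 B) (.mul (Dq2 B) (.mul (Dp2 B) (.mul (.mul (.c 4) (.c B.bd)) (.mul (CmLN B p) (PPN B p)))))))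

def clause0 (B : Bs) (p : Par) : List Ex :=
  [mN B p, om2N B p, oalN B p, obeN B p, ob1N B p, ob2N B p, ob3N B p, ob4N B p, op1N B p, op2N B p, op3N B p, op4N B p, oga1N B p, oga2N B p, oIIN B p, of2N B p, of1N B p]
def ex1 (B : Bs) (p : Par) : List Ex := if p.h1 then [oA1N B p, oB1N B p, oX1N B p] else [.c (p.H1 - p.G1)]
def ex2 (B : Bs) (p : Par) : List Ex := if p.h2 then [oA2N B p, oB2N B p, oX2N B p] else [.c (p.H2 - p.G2)]
def cons0 (p : Par) : List Ex := [.c p.G1, .c p.G2, .c p.ga1, .c p.ga2]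
def clause1 (B : Bs) (p : Par) : List Ex :=
  [odenN B, od3N B, od4N B, oDIN B]
def clause2 (B : Bs) (p : Par) : List Ex :=
  [otrN B]
def clause3 (B : Bs) (p : Par) : List Ex :=
  [mN B p, om2N B p, oII0N B p]

def clause (B : Bs) (p : Par) : List Ex :=
  match p.kind with
  | 0 => cons0 p ++ (ex1 B p ++ (ex2 B p ++ clause0 B p))
  | 1 => if B.dict then clause1 B p else [.c (-1)]
  | 2 => clause2 B p
  | _ => clause3 B p

/-- real data -/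
structure RP where
  (s t fs ft C2 SC rho c bn bd : ℝ)

noncomputable def RP.lam2 (R : RP) : ℝ := (1 + R.rho)
noncomputable def RP.mu2 (R : RP) : ℝ := (1 - R.rho)
noncomputable def RP.g2 (R : RP) : ℝ := ((R.lam2 * R.s) + (R.mu2 * R.t))
noncomputable def RP.d (R : RP) : ℝ := (R.s - R.t)
noncomputable def RP.Sig (R : RP) : ℝ := (1 - (R.s * R.t))
noncomputable def RP.ws (R : RP) : ℝ := (R.fs * R.fs)
noncomputable def RP.wt (R : RP) : ℝ := (R.ft * R.ft)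
noncomputable def RP.wg4 (R : RP) : ℝ := (4 - (R.g2 * R.g2))
noncomputable def RP.wSig (R : RP) : ℝ := (R.wg4 * R.Sig)
noncomputable def RP.gS (R : RP) : ℝ := (R.g2 * R.Sig)
noncomputable def RP.rd (R : RP) : ℝ := (R.rho * R.d)
noncomputable def RP.wq4 (R : RP) : ℝ := (R.wg4 + (R.g2 * R.rd))
noncomputable def RP.L2 (R : RP) : ℝ := ((R.lam2 * R.fs) + (R.mu2 * R.ft))
noncomputable def RP.c2 (R : RP) : ℝ := (R.c * R.c)
noncomputable def RP.K3 (R : RP) : ℝ := ((R.bd * R.c) - (R.bn * (R.c * R.c2)))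
noncomputable def RP.bc2 (R : RP) : ℝ := (R.bn * R.c2)
noncomputable def RP.lmd (R : RP) : ℝ := ((R.lam2 * R.mu2) * R.d)
noncomputable def RP.z4 (R : RP) : ℝ := (R.lmd * R.d)
noncomputable def RP.den4 (R : RP) : ℝ := ((R.mu2 * R.wg4) + ((R.rho * R.g2) * ((R.lam2 * (1 - R.s)) - (R.mu2 * (1 + R.t)))))
noncomputable def RP.d2 (R : RP) : ℝ := (R.d - (2 * R.rho))
noncomputable def RP.num4 (R : RP) : ℝ := (R.den4 - (R.lmd * R.d2))
noncomputable def RP.wz2 (R : RP) : ℝ := ((R.lam2 * R.ws) + (R.mu2 * R.wt))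
noncomputable def RP.V4 (R : RP) : ℝ := ((R.wg4 + (4 * R.c2)) + ((4 * R.c) * R.L2))
noncomputable def RP.CV (R : RP) : ℝ := (R.C2 * R.V4)
noncomputable def RP.dden (R : RP) : ℝ := (R.d * R.den4)
noncomputable def RP.oden (R : RP) : ℝ := ((16 * R.den4) - 1)
noncomputable def RP.od3 (R : RP) : ℝ := (((2 * R.s) * R.den4) - (R.num4 * R.g2))
noncomputable def RP.od4 (R : RP) : ℝ := ((R.num4 * R.g2) - ((2 * R.t) * R.den4))
noncomputable def RP.oDI (R : RP) : ℝ := ((((2 * R.K3) * ((((4 * R.c) * R.dden) + ((R.d2 * R.L2) * R.CV)) * R.wq4)) + ((R.bc2 * (R.dden + (2 * (R.d2 * R.wz2)))) * (R.CV * R.wq4))) - ((4 * R.bd) * (R.CV * R.dden)))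
noncomputable def RP.otr (R : RP) : ℝ := (R.t - R.s)
noncomputable def RP.m (R : RP) (p : Par) : ℝ := (((p.a0 : ℝ) + ((p.a1 : ℝ) * R.fs)) + ((p.a2 : ℝ) * R.ft))
noncomputable def RP.om2 (R : RP) (p : Par) : ℝ := ((4 * ((R.m p) * (R.m p))) - (1048576 * R.wg4))
noncomputable def RP.mL (R : RP) (p : Par) : ℝ := ((2 * (R.m p)) + (1024 * R.L2))
noncomputable def RP.CmL (R : RP) (p : Par) : ℝ := (R.C2 * (R.mL p))
noncomputable def RP.oII0 (R : RP) (p : Par) : ℝ := (((2048 * (R.K3 * R.wq4)) + ((R.bc2 * R.wq4) * (R.CmL p))) - ((4 * R.bd) * (R.CmL p)))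
noncomputable def RP.mff (R : RP) (p : Par) : ℝ := ((4 * (R.m p)) * (R.fs * R.ft))
noncomputable def RP.wS1 (R : RP) : ℝ := (1024 * R.wSig)
noncomputable def RP.PP (R : RP) (p : Par) : ℝ := (R.wS1 + (R.mff p))
noncomputable def RP.alP (R : RP) (p : Par) : ℝ := ((R.PP p) - ((p.et : ℝ) * ((R.mu2 * R.d) * ((2 * R.d) + R.gS))))
noncomputable def RP.beP (R : RP) (p : Par) : ℝ := ((R.PP p) - ((p.et : ℝ) * ((R.lam2 * R.d) * ((2 * R.d) - R.gS))))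
noncomputable def RP.epsP (R : RP) (p : Par) : ℝ := ((R.PP p) - ((p.et : ℝ) * (R.z4 - ((R.s * R.t) * R.wg4))))
noncomputable def RP.N1 (R : RP) (p : Par) : ℝ := ((1024 - (p.et : ℝ)) * (((1024 * (R.PP p)) - ((p.et : ℝ) * R.wS1)) + ((p.et : ℝ) * (R.mff p))))
noncomputable def RP.oal (R : RP) (p : Par) : ℝ := ((128 * (R.alP p)) - (R.PP p))
noncomputable def RP.obe (R : RP) (p : Par) : ℝ := ((128 * (R.beP p)) - (R.PP p))
noncomputable def RP.ralP (R : RP) (p : Par) : ℝ := ((1024 * R.rho) * (R.alP p))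
noncomputable def RP.rbeP (R : RP) (p : Par) : ℝ := ((1024 * R.rho) * (R.beP p))
noncomputable def RP.ob1 (R : RP) (p : Par) : ℝ := (((p.G2 : ℝ) * ((1 + ((sg p.o1 : ℝ) * (R.s - R.rho))) * (R.PP p))) - (R.ralP p))
noncomputable def RP.ob2 (R : RP) (p : Par) : ℝ := (((p.G2 : ℝ) * ((1 + ((sg p.o2 : ℝ) * (R.t - R.rho))) * (R.PP p))) - (R.rbeP p))
noncomputable def RP.ob3 (R : RP) (p : Par) : ℝ := (((p.G1 : ℝ) * ((1 + ((sg p.o3 : ℝ) * (R.s + R.rho))) * (R.PP p))) - (R.ralP p))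
noncomputable def RP.ob4 (R : RP) (p : Par) : ℝ := (((p.G1 : ℝ) * ((1 + ((sg p.o4 : ℝ) * (R.t + R.rho))) * (R.PP p))) - (R.rbeP p))
noncomputable def RP.sP (R : RP) (p : Par) : ℝ := (R.s * (R.PP p))
noncomputable def RP.tP (R : RP) (p : Par) : ℝ := (R.t * (R.PP p))
noncomputable def RP.op1 (R : RP) (p : Par) : ℝ := (((1024 * (R.alP p)) - ((p.G2 : ℝ) * (R.sP p))) - (R.PP p))
noncomputable def RP.op2 (R : RP) (p : Par) : ℝ := (((1024 * (R.beP p)) - ((p.G2 : ℝ) * (R.tP p))) - (R.PP p))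
noncomputable def RP.op3 (R : RP) (p : Par) : ℝ := (((1024 * (R.alP p)) + ((p.G1 : ℝ) * (R.sP p))) - (R.PP p))
noncomputable def RP.op4 (R : RP) (p : Par) : ℝ := (((1024 * (R.beP p)) + ((p.G1 : ℝ) * (R.tP p))) - (R.PP p))
noncomputable def RP.A2 (R : RP) (p : Par) : ℝ := ((1024 * (R.alP p)) - ((p.H2 : ℝ) * (R.sP p)))
noncomputable def RP.B2 (R : RP) (p : Par) : ℝ := ((1024 * (R.beP p)) - ((p.H2 : ℝ) * (R.tP p)))
noncomputable def RP.A1 (R : RP) (p : Par) : ℝ := ((1024 * (R.alP p)) + ((p.H1 : ℝ) * (R.sP p)))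
noncomputable def RP.B1 (R : RP) (p : Par) : ℝ := ((1024 * (R.beP p)) + ((p.H1 : ℝ) * (R.tP p)))
noncomputable def RP.lws (R : RP) : ℝ := (R.lam2 * R.ws)
noncomputable def RP.mwt (R : RP) : ℝ := (R.mu2 * R.wt)
noncomputable def RP.oA2 (R : RP) (p : Par) : ℝ := ((R.A2 p) - (R.PP p))
noncomputable def RP.oB2 (R : RP) (p : Par) : ℝ := ((R.B2 p) - (R.PP p))
noncomputable def RP.oA1 (R : RP) (p : Par) : ℝ := ((R.A1 p) - (R.PP p))
noncomputable def RP.oB1 (R : RP) (p : Par) : ℝ := ((R.B1 p) - (R.PP p))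
noncomputable def RP.oX2 (R : RP) (p : Par) : ℝ := ((((p.H2 : ℝ) * (R.PP p)) * ((R.lws * (R.B2 p)) + (R.mwt * (R.A2 p)))) - (R.rd * ((R.A2 p) * (R.B2 p))))
noncomputable def RP.oX1 (R : RP) (p : Par) : ℝ := ((((p.H1 : ℝ) * (R.PP p)) * ((R.lws * (R.B1 p)) + (R.mwt * (R.A1 p)))) - (R.rd * ((R.A1 p) * (R.B1 p))))
noncomputable def RP.oga1 (R : RP) (p : Par) : ℝ := ((2 * (p.ga1 : ℝ)) + (1024 * R.g2))
noncomputable def RP.oga2 (R : RP) (p : Par) : ℝ := ((2 * (p.ga2 : ℝ)) - (1024 * R.g2))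
noncomputable def RP.e2P (R : RP) (p : Par) : ℝ := (((R.epsP p) * (R.epsP p)) * (R.PP p))
noncomputable def RP.abP (R : RP) (p : Par) : ℝ := ((16384 * R.c2) * ((R.alP p) * (R.beP p)))
noncomputable def RP.of2 (R : RP) (p : Par) : ℝ := (((R.abP p) * ((R.N1 p) - (((p.H2 : ℝ) * (p.H2 : ℝ)) * (R.PP p)))) - (((p.H2 : ℝ) * (p.H2 : ℝ)) * ((R.e2P p) * ((1024 * R.wg4) + (2 * ((p.ga2 : ℝ) * R.rd))))))
noncomputable def RP.of1 (R : RP) (p : Par) : ℝ := (((R.abP p) * ((R.N1 p) - (((p.H1 : ℝ) * (p.H1 : ℝ)) * (R.PP p)))) - (((p.H1 : ℝ) * (p.H1 : ℝ)) * ((R.e2P p) * ((1024 * R.wg4) + (2 * ((p.ga1 : ℝ) * R.rd))))))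
noncomputable def RP.oII (R : RP) (p : Par) : ℝ := ((((R.K3 * R.wq4) * ((2048 * (R.PP p)) + ((2 * ((p.et : ℝ) * (R.mL p))) * (((2 * R.C2) * (R.fs + R.ft)) - (R.gS * R.SC))))) + (((R.bc2 * R.wq4) * (R.CmL p)) * ((R.PP p) + ((2 * (p.et : ℝ)) * ((2 * (R.ws + R.wt)) - (R.gS * (R.s + R.t))))))) - ((4 * R.bd) * ((R.CmL p) * (R.PP p))))

/-- the substitution -/
structure Sp (B : Bs) (x : ℕ → ℝ) (a b e : ℝ) (R : RP) : Prop where
  (hbn : R.bn = (B.bn : ℝ)) (hbd : R.bd = (B.bd : ℝ))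
  (ha : B.pn.val x (fun _ => 1) ^ 2 + B.pd.val x (fun _ => 1) ^ 2 = a)
  (hb : B.qn.val x (fun _ => 1) ^ 2 + B.qd.val x (fun _ => 1) ^ 2 = b)
  (he : 1 + x 2 ^ 2 = e)
  (hs : B.pd.val x (fun _ => 1) ^ 2 - B.pn.val x (fun _ => 1) ^ 2 = a * R.s)
  (ht : B.qd.val x (fun _ => 1) ^ 2 - B.qn.val x (fun _ => 1) ^ 2 = b * R.t)
  (hfs : 2 * (B.pn.val x (fun _ => 1) * B.pd.val x (fun _ => 1)) = a * R.fs)
  (hft : 2 * (B.qn.val x (fun _ => 1) * B.qd.val x (fun _ => 1)) = b * R.ft)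
  (hC2 : (B.pn.val x (fun _ => 1) * B.qd.val x (fun _ => 1) + B.qn.val x (fun _ => 1) * B.pd.val x (fun _ => 1)) ^ 2 =
    a * b * R.C2)
  (hSC : (B.pn.val x (fun _ => 1) * B.qd.val x (fun _ => 1) + B.qn.val x (fun _ => 1) * B.pd.val x (fun _ => 1)) *
    (B.pd.val x (fun _ => 1) * B.qd.val x (fun _ => 1) - B.pn.val x (fun _ => 1) * B.qn.val x (fun _ => 1)) =
    a * b * R.SC)
  (hrho : 2 * x 2 = e * R.rho) (hc : 1 - x 2 ^ 2 = e * R.c)
  (hdict : B.dict = true → 0 ≤ R.s ∧ R.t ≤ 0)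

variable {B : Bs} {x : ℕ → ℝ} {a b e : ℝ} {R : RP} {p : Par}

theorem v_Dp (h : Sp B x a b e R) : (Dp B).val x (fun _ => 1) = a := by
  simp only [Dp, Ex.val]; rw [← h.ha]; ring
theorem v_Dq (h : Sp B x a b e R) : (Dq B).val x (fun _ => 1) = b := by
  simp only [Dq, Ex.val]; rw [← h.hb]; ring
theorem v_Dr (h : Sp B x a b e R) : (Dr B).val x (fun _ => 1) = e := by
  simp only [Dr, Ex.val]; rw [← h.he]; ring
theorem v_sN (h : Sp B x a b e R) : (sN B).val x (fun _ => 1) = a ^ 1 * R.s := by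
  have h1 := h.hs
  simp only [sN, Ex.val]; push_cast; linear_combination h1
theorem v_tN (h : Sp B x a b e R) : (tN B).val x (fun _ => 1) = b ^ 1 * R.t := by
  have h1 := h.ht
  simp only [tN, Ex.val]; push_cast; linear_combination h1
theorem v_fsN (h : Sp B x a b e R) : (fsN B).val x (fun _ => 1) = a ^ 1 * R.fs := by
  have h1 := h.hfs
  simp only [fsN, Ex.val]; push_cast; linear_combination h1
theorem v_ftN (h : Sp B x a b e R) : (ftN B).val x (fun _ => 1) = b ^ 1 * R.ft := by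
  have h1 := h.hft
  simp only [ftN, Ex.val]; push_cast; linear_combination h1
theorem v_C2N (h : Sp B x a b e R) : (C2N B).val x (fun _ => 1) = a ^ 1 * b ^ 1 * R.C2 := by
  have h1 := h.hC2
  simp only [C2N, Ex.val, pq]; push_cast; linear_combination h1
theorem v_SCN (h : Sp B x a b e R) : (SCN B).val x (fun _ => 1) = a ^ 1 * b ^ 1 * R.SC := by
  have h1 := h.hSC
  simp only [SCN, Ex.val, pq]; push_cast; linear_combination h1
theorem v_rhoN (h : Sp B x a b e R) : (rhoN B).val x (fun _ => 1) = e ^ 1 * R.rho := by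
  have h1 := h.hrho
  simp only [rhoN, Ex.val]; push_cast; linear_combination h1
theorem v_cN (h : Sp B x a b e R) : (cN B).val x (fun _ => 1) = e ^ 1 * R.c := by
  have h1 := h.hc
  simp only [cN, Ex.val]; push_cast; linear_combination h1
theorem v_lam2N (h : Sp B x a b e R) : (lam2N B).val x (fun _ => 1) = e ^ 1 * R.lam2 := by
  simp only [lam2N, Ex.val, v_Dr h, v_rhoN h]; simp only [RP.lam2]; push_cast; ring
theorem v_mu2N (h : Sp B x a b e R) : (mu2N B).val x (fun _ => 1) = e ^ 1 * R.mu2 := by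
  simp only [mu2N, Ex.val, v_Dr h, v_rhoN h]; simp only [RP.mu2]; push_cast; ring
theorem v_g2N (h : Sp B x a b e R) : (g2N B).val x (fun _ => 1) = a ^ 1 * b ^ 1 * e ^ 1 * R.g2 := by
  simp only [g2N, Ex.val, v_Dq h, v_lam2N h, v_sN h, v_Dp h, v_mu2N h, v_tN h]; simp only [RP.g2]; push_cast; ring
theorem v_dN (h : Sp B x a b e R) : (dN B).val x (fun _ => 1) = a ^ 1 * b ^ 1 * R.d := by
  simp only [dN, Ex.val, v_Dq h, v_sN h, v_Dp h, v_tN h]; simp only [RP.d]; push_cast; ring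
theorem v_SigN (h : Sp B x a b e R) : (SigN B).val x (fun _ => 1) = a ^ 1 * b ^ 1 * R.Sig := by
  simp only [SigN, Ex.val, v_Dq h, v_Dp h, v_sN h, v_tN h]; simp only [RP.Sig]; push_cast; ring
theorem v_wsN (h : Sp B x a b e R) : (wsN B).val x (fun _ => 1) = a ^ 2 * R.ws := by
  simp only [wsN, Ex.val, v_fsN h]; simp only [RP.ws]; push_cast; ring
theorem v_wtN (h : Sp B x a b e R) : (wtN B).val x (fun _ => 1) = b ^ 2 * R.wt := by
  simp only [wtN, Ex.val, v_ftN h]; simp only [RP.wt]; push_cast; ring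
theorem v_Dp2 (h : Sp B x a b e R) : (Dp2 B).val x (fun _ => 1) = a ^ 2 := by
  simp only [Dp2, Ex.val, v_Dp h]; ring
theorem v_Dq2 (h : Sp B x a b e R) : (Dq2 B).val x (fun _ => 1) = b ^ 2 := by
  simp only [Dq2, Ex.val, v_Dq h]; ring
theorem v_Dr2 (h : Sp B x a b e R) : (Dr2 B).val x (fun _ => 1) = e ^ 2 := by
  simp only [Dr2, Ex.val, v_Dr h]; ring
theorem v_wg4N (h : Sp B x a b e R) : (wg4N B).val x (fun _ => 1) = a ^ 2 * b ^ 2 * e ^ 2 * R.wg4 := by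
  simp only [wg4N, Ex.val, v_Dr2 h, v_Dq2 h, v_Dp2 h, v_g2N h]; simp only [RP.wg4]; push_cast; ring
theorem v_wSigN (h : Sp B x a b e R) : (wSigN B).val x (fun _ => 1) = a ^ 3 * b ^ 3 * e ^ 2 * R.wSig := by
  simp only [wSigN, Ex.val, v_wg4N h, v_SigN h]; simp only [RP.wSig]; push_cast; ring
theorem v_gSN (h : Sp B x a b e R) : (gSN B).val x (fun _ => 1) = a ^ 2 * b ^ 2 * e ^ 1 * R.gS := by
  simp only [gSN, Ex.val, v_g2N h, v_SigN h]; simp only [RP.gS]; push_cast; ring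
theorem v_rdN (h : Sp B x a b e R) : (rdN B).val x (fun _ => 1) = a ^ 1 * b ^ 1 * e ^ 1 * R.rd := by
  simp only [rdN, Ex.val, v_rhoN h, v_dN h]; simp only [RP.rd]; push_cast; ring
theorem v_wq4N (h : Sp B x a b e R) : (wq4N B).val x (fun _ => 1) = a ^ 2 * b ^ 2 * e ^ 2 * R.wq4 := by
  simp only [wq4N, Ex.val, v_wg4N h, v_g2N h, v_rdN h]; simp only [RP.wq4]; push_cast; ring
theorem v_L2N (h : Sp B x a b e R) : (L2N B).val x (fun _ => 1) = a ^ 1 * b ^ 1 * e ^ 1 * R.L2 := by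
  simp only [L2N, Ex.val, v_Dq h, v_lam2N h, v_fsN h, v_Dp h, v_mu2N h, v_ftN h]; simp only [RP.L2]; push_cast; ring
theorem v_c2N (h : Sp B x a b e R) : (c2N B).val x (fun _ => 1) = e ^ 2 * R.c2 := by
  simp only [c2N, Ex.val, v_cN h]; simp only [RP.c2]; push_cast; ring
theorem v_K3N (h : Sp B x a b e R) : (K3N B).val x (fun _ => 1) = e ^ 3 * R.K3 := by
  simp only [K3N, Ex.val, v_Dr2 h, v_cN h, v_c2N h]; simp only [RP.K3]; rw [h.hbn, h.hbd]; push_cast; ring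
theorem v_bc2N (h : Sp B x a b e R) : (bc2N B).val x (fun _ => 1) = e ^ 2 * R.bc2 := by
  simp only [bc2N, Ex.val, v_c2N h]; simp only [RP.bc2]; rw [h.hbn]; push_cast; ring
theorem v_lmdN (h : Sp B x a b e R) : (lmdN B).val x (fun _ => 1) = a ^ 1 * b ^ 1 * e ^ 2 * R.lmd := by
  simp only [lmdN, Ex.val, v_lam2N h, v_mu2N h, v_dN h]; simp only [RP.lmd]; push_cast; ring
theorem v_z4N (h : Sp B x a b e R) : (z4N B).val x (fun _ => 1) = a ^ 2 * b ^ 2 * e ^ 2 * R.z4 := by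
  simp only [z4N, Ex.val, v_lmdN h, v_dN h]; simp only [RP.z4]; push_cast; ring
theorem v_den4N (h : Sp B x a b e R) : (den4N B).val x (fun _ => 1) = a ^ 2 * b ^ 2 * e ^ 3 * R.den4 := by
  simp only [den4N, Ex.val, v_mu2N h, v_wg4N h, v_rhoN h, v_g2N h, v_Dq h, v_lam2N h, v_Dp h, v_sN h, v_tN h]; simp only [RP.den4]; push_cast; ring
theorem v_d2N (h : Sp B x a b e R) : (d2N B).val x (fun _ => 1) = a ^ 1 * b ^ 1 * e ^ 1 * R.d2 := by
  simp only [d2N, Ex.val, v_Dr h, v_dN h, v_Dq h, v_Dp h, v_rhoN h]; simp only [RP.d2]; push_cast; ring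
theorem v_num4N (h : Sp B x a b e R) : (num4N B).val x (fun _ => 1) = a ^ 2 * b ^ 2 * e ^ 3 * R.num4 := by
  simp only [num4N, Ex.val, v_den4N h, v_lmdN h, v_d2N h]; simp only [RP.num4]; push_cast; ring
theorem v_wz2N (h : Sp B x a b e R) : (wz2N B).val x (fun _ => 1) = a ^ 2 * b ^ 2 * e ^ 1 * R.wz2 := by
  simp only [wz2N, Ex.val, v_Dq2 h, v_lam2N h, v_wsN h, v_Dp2 h, v_mu2N h, v_wtN h]; simp only [RP.wz2]; push_cast; ring
theorem v_V4N (h : Sp B x a b e R) : (V4N B).val x (fun _ => 1) = a ^ 2 * b ^ 2 * e ^ 2 * R.V4 := by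
  simp only [V4N, Ex.val, v_wg4N h, v_Dq2 h, v_Dp2 h, v_c2N h, v_Dq h, v_Dp h, v_cN h, v_L2N h]; simp only [RP.V4]; push_cast; ring
theorem v_CVN (h : Sp B x a b e R) : (CVN B).val x (fun _ => 1) = a ^ 3 * b ^ 3 * e ^ 2 * R.CV := by
  simp only [CVN, Ex.val, v_C2N h, v_V4N h]; simp only [RP.CV]; push_cast; ring
theorem v_ddenN (h : Sp B x a b e R) : (ddenN B).val x (fun _ => 1) = a ^ 3 * b ^ 3 * e ^ 3 * R.dden := by
  simp only [ddenN, Ex.val, v_dN h, v_den4N h]; simp only [RP.dden]; push_cast; ring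
theorem v_Dr3 (h : Sp B x a b e R) : (Dr3 B).val x (fun _ => 1) = e ^ 3 := by
  simp only [Dr3, Ex.val, v_Dr h, v_Dr2 h]; ring
theorem v_odenN (h : Sp B x a b e R) : (odenN B).val x (fun _ => 1) = a ^ 2 * b ^ 2 * e ^ 3 * R.oden := by
  simp only [odenN, Ex.val, v_den4N h, v_Dr3 h, v_Dq2 h, v_Dp2 h]; simp only [RP.oden]; push_cast; ring
theorem v_od3N (h : Sp B x a b e R) : (od3N B).val x (fun _ => 1) = a ^ 3 * b ^ 3 * e ^ 4 * R.od3 := by
  simp only [od3N, Ex.val, v_Dr h, v_Dq h, v_sN h, v_den4N h, v_num4N h, v_g2N h]; simp only [RP.od3]; push_cast; ring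
theorem v_od4N (h : Sp B x a b e R) : (od4N B).val x (fun _ => 1) = a ^ 3 * b ^ 3 * e ^ 4 * R.od4 := by
  simp only [od4N, Ex.val, v_num4N h, v_g2N h, v_Dr h, v_Dp h, v_tN h, v_den4N h]; simp only [RP.od4]; push_cast; ring
theorem v_Dr4 (h : Sp B x a b e R) : (Dr4 B).val x (fun _ => 1) = e ^ 4 := by
  simp only [Dr4, Ex.val, v_Dr2 h]; ring
theorem v_oDIN (h : Sp B x a b e R) : (oDIN B).val x (fun _ => 1) = a ^ 8 * b ^ 8 * e ^ 9 * R.oDI := by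
  simp only [oDIN, Ex.val, v_Dq h, v_Dp h, v_K3N h, v_Dq2 h, v_Dp2 h, v_cN h, v_ddenN h, v_d2N h, v_L2N h, v_CVN h, v_wq4N h, v_bc2N h, v_Dr h, v_wz2N h, v_Dr4 h]; simp only [RP.oDI]; rw [h.hbd]; push_cast; ring
theorem v_otrN (h : Sp B x a b e R) : (otrN B).val x (fun _ => 1) = a ^ 1 * b ^ 1 * R.otr := by
  simp only [otrN, Ex.val, v_Dp h, v_tN h, v_Dq h, v_sN h]; simp only [RP.otr]; push_cast; ring
theorem v_mN (h : Sp B x a b e R) : (mN B p).val x (fun _ => 1) = a ^ 1 * b ^ 1 * (R.m p) := by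
  simp only [mN, Ex.val, v_Dq h, v_Dp h, v_fsN h, v_ftN h]; simp only [RP.m]; push_cast; ring
theorem v_om2N (h : Sp B x a b e R) : (om2N B p).val x (fun _ => 1) = a ^ 2 * b ^ 2 * e ^ 2 * (R.om2 p) := by
  simp only [om2N, Ex.val, v_Dr2 h, v_mN h, v_wg4N h]; simp only [RP.om2]; push_cast; ring
theorem v_mLN (h : Sp B x a b e R) : (mLN B p).val x (fun _ => 1) = a ^ 1 * b ^ 1 * e ^ 1 * (R.mL p) := by
  simp only [mLN, Ex.val, v_Dr h, v_mN h, v_L2N h]; simp only [RP.mL]; push_cast; ring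
theorem v_CmLN (h : Sp B x a b e R) : (CmLN B p).val x (fun _ => 1) = a ^ 2 * b ^ 2 * e ^ 1 * (R.CmL p) := by
  simp only [CmLN, Ex.val, v_C2N h, v_mLN h]; simp only [RP.CmL]; push_cast; ring
theorem v_oII0N (h : Sp B x a b e R) : (oII0N B p).val x (fun _ => 1) = a ^ 4 * b ^ 4 * e ^ 5 * (R.oII0 p) := by
  simp only [oII0N, Ex.val, v_Dq2 h, v_Dp2 h, v_K3N h, v_wq4N h, v_bc2N h, v_CmLN h, v_Dr4 h]; simp only [RP.oII0]; rw [h.hbd]; push_cast; ring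
theorem v_mffN (h : Sp B x a b e R) : (mffN B p).val x (fun _ => 1) = a ^ 2 * b ^ 2 * (R.mff p) := by
  simp only [mffN, Ex.val, v_mN h, v_fsN h, v_ftN h]; simp only [RP.mff]; push_cast; ring
theorem v_wS1N (h : Sp B x a b e R) : (wS1N B).val x (fun _ => 1) = a ^ 3 * b ^ 3 * e ^ 2 * R.wS1 := by
  simp only [wS1N, Ex.val, v_wSigN h]; simp only [RP.wS1]; push_cast; ring
theorem v_PPN (h : Sp B x a b e R) : (PPN B p).val x (fun _ => 1) = a ^ 3 * b ^ 3 * e ^ 2 * (R.PP p) := by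
  simp only [PPN, Ex.val, v_wS1N h, v_Dr2 h, v_Dq h, v_Dp h, v_mffN h]; simp only [RP.PP]; push_cast; ring
theorem v_alPN (h : Sp B x a b e R) : (alPN B p).val x (fun _ => 1) = a ^ 3 * b ^ 3 * e ^ 2 * (R.alP p) := by
  simp only [alPN, Ex.val, v_PPN h, v_mu2N h, v_dN h, v_Dr h, v_Dq h, v_Dp h, v_gSN h]; simp only [RP.alP]; push_cast; ring
theorem v_bePN (h : Sp B x a b e R) : (bePN B p).val x (fun _ => 1) = a ^ 3 * b ^ 3 * e ^ 2 * (R.beP p) := by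
  simp only [bePN, Ex.val, v_PPN h, v_lam2N h, v_dN h, v_Dr h, v_Dq h, v_Dp h, v_gSN h]; simp only [RP.beP]; push_cast; ring
theorem v_epsPN (h : Sp B x a b e R) : (epsPN B p).val x (fun _ => 1) = a ^ 3 * b ^ 3 * e ^ 2 * (R.epsP p) := by
  simp only [epsPN, Ex.val, v_PPN h, v_Dq h, v_Dp h, v_z4N h, v_sN h, v_tN h, v_wg4N h]; simp only [RP.epsP]; push_cast; ring
theorem v_N1N (h : Sp B x a b e R) : (N1N B p).val x (fun _ => 1) = a ^ 3 * b ^ 3 * e ^ 2 * (R.N1 p) := by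
  simp only [N1N, Ex.val, v_PPN h, v_wS1N h, v_Dr2 h, v_Dq h, v_Dp h, v_mffN h]; simp only [RP.N1]; push_cast; ring
theorem v_oalN (h : Sp B x a b e R) : (oalN B p).val x (fun _ => 1) = a ^ 3 * b ^ 3 * e ^ 2 * (R.oal p) := by
  simp only [oalN, Ex.val, v_alPN h, v_PPN h]; simp only [RP.oal]; push_cast; ring
theorem v_obeN (h : Sp B x a b e R) : (obeN B p).val x (fun _ => 1) = a ^ 3 * b ^ 3 * e ^ 2 * (R.obe p) := by
  simp only [obeN, Ex.val, v_bePN h, v_PPN h]; simp only [RP.obe]; push_cast; ring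
theorem v_ralPN (h : Sp B x a b e R) : (ralPN B p).val x (fun _ => 1) = a ^ 3 * b ^ 3 * e ^ 3 * (R.ralP p) := by
  simp only [ralPN, Ex.val, v_rhoN h, v_alPN h]; simp only [RP.ralP]; push_cast; ring
theorem v_rbePN (h : Sp B x a b e R) : (rbePN B p).val x (fun _ => 1) = a ^ 3 * b ^ 3 * e ^ 3 * (R.rbeP p) := by
  simp only [rbePN, Ex.val, v_rhoN h, v_bePN h]; simp only [RP.rbeP]; push_cast; ring
theorem v_ob1N (h : Sp B x a b e R) : (ob1N B p).val x (fun _ => 1) = a ^ 4 * b ^ 3 * e ^ 3 * (R.ob1 p) := by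
  simp only [ob1N, Ex.val, v_Dr h, v_Dp h, v_sN h, v_rhoN h, v_PPN h, v_ralPN h]; simp only [RP.ob1]; push_cast; ring
theorem v_ob2N (h : Sp B x a b e R) : (ob2N B p).val x (fun _ => 1) = a ^ 3 * b ^ 4 * e ^ 3 * (R.ob2 p) := by
  simp only [ob2N, Ex.val, v_Dr h, v_Dq h, v_tN h, v_rhoN h, v_PPN h, v_rbePN h]; simp only [RP.ob2]; push_cast; ring
theorem v_ob3N (h : Sp B x a b e R) : (ob3N B p).val x (fun _ => 1) = a ^ 4 * b ^ 3 * e ^ 3 * (R.ob3 p) := by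
  simp only [ob3N, Ex.val, v_Dr h, v_Dp h, v_sN h, v_rhoN h, v_PPN h, v_ralPN h]; simp only [RP.ob3]; push_cast; ring
theorem v_ob4N (h : Sp B x a b e R) : (ob4N B p).val x (fun _ => 1) = a ^ 3 * b ^ 4 * e ^ 3 * (R.ob4 p) := by
  simp only [ob4N, Ex.val, v_Dr h, v_Dq h, v_tN h, v_rhoN h, v_PPN h, v_rbePN h]; simp only [RP.ob4]; push_cast; ring
theorem v_sPN (h : Sp B x a b e R) : (sPN B p).val x (fun _ => 1) = a ^ 4 * b ^ 3 * e ^ 2 * (R.sP p) := by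
  simp only [sPN, Ex.val, v_sN h, v_PPN h]; simp only [RP.sP]; push_cast; ring
theorem v_tPN (h : Sp B x a b e R) : (tPN B p).val x (fun _ => 1) = a ^ 3 * b ^ 4 * e ^ 2 * (R.tP p) := by
  simp only [tPN, Ex.val, v_tN h, v_PPN h]; simp only [RP.tP]; push_cast; ring
theorem v_op1N (h : Sp B x a b e R) : (op1N B p).val x (fun _ => 1) = a ^ 4 * b ^ 3 * e ^ 2 * (R.op1 p) := by
  simp only [op1N, Ex.val, v_Dp h, v_alPN h, v_sPN h, v_PPN h]; simp only [RP.op1]; push_cast; ring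
theorem v_op2N (h : Sp B x a b e R) : (op2N B p).val x (fun _ => 1) = a ^ 3 * b ^ 4 * e ^ 2 * (R.op2 p) := by
  simp only [op2N, Ex.val, v_Dq h, v_bePN h, v_tPN h, v_PPN h]; simp only [RP.op2]; push_cast; ring
theorem v_op3N (h : Sp B x a b e R) : (op3N B p).val x (fun _ => 1) = a ^ 4 * b ^ 3 * e ^ 2 * (R.op3 p) := by
  simp only [op3N, Ex.val, v_Dp h, v_alPN h, v_sPN h, v_PPN h]; simp only [RP.op3]; push_cast; ring
theorem v_op4N (h : Sp B x a b e R) : (op4N B p).val x (fun _ => 1) = a ^ 3 * b ^ 4 * e ^ 2 * (R.op4 p) := by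
  simp only [op4N, Ex.val, v_Dq h, v_bePN h, v_tPN h, v_PPN h]; simp only [RP.op4]; push_cast; ring
theorem v_A2N (h : Sp B x a b e R) : (A2N B p).val x (fun _ => 1) = a ^ 4 * b ^ 3 * e ^ 2 * (R.A2 p) := by
  simp only [A2N, Ex.val, v_Dp h, v_alPN h, v_sPN h]; simp only [RP.A2]; push_cast; ring
theorem v_B2N (h : Sp B x a b e R) : (B2N B p).val x (fun _ => 1) = a ^ 3 * b ^ 4 * e ^ 2 * (R.B2 p) := by
  simp only [B2N, Ex.val, v_Dq h, v_bePN h, v_tPN h]; simp only [RP.B2]; push_cast; ring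
theorem v_A1N (h : Sp B x a b e R) : (A1N B p).val x (fun _ => 1) = a ^ 4 * b ^ 3 * e ^ 2 * (R.A1 p) := by
  simp only [A1N, Ex.val, v_Dp h, v_alPN h, v_sPN h]; simp only [RP.A1]; push_cast; ring
theorem v_B1N (h : Sp B x a b e R) : (B1N B p).val x (fun _ => 1) = a ^ 3 * b ^ 4 * e ^ 2 * (R.B1 p) := by
  simp only [B1N, Ex.val, v_Dq h, v_bePN h, v_tPN h]; simp only [RP.B1]; push_cast; ring
theorem v_lwsN (h : Sp B x a b e R) : (lwsN B).val x (fun _ => 1) = a ^ 2 * e ^ 1 * R.lws := by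
  simp only [lwsN, Ex.val, v_lam2N h, v_wsN h]; simp only [RP.lws]; push_cast; ring
theorem v_mwtN (h : Sp B x a b e R) : (mwtN B).val x (fun _ => 1) = b ^ 2 * e ^ 1 * R.mwt := by
  simp only [mwtN, Ex.val, v_mu2N h, v_wtN h]; simp only [RP.mwt]; push_cast; ring
theorem v_oA2N (h : Sp B x a b e R) : (oA2N B p).val x (fun _ => 1) = a ^ 4 * b ^ 3 * e ^ 2 * (R.oA2 p) := by
  simp only [oA2N, Ex.val, v_A2N h, v_Dp h, v_PPN h]; simp only [RP.oA2]; push_cast; ring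
theorem v_oB2N (h : Sp B x a b e R) : (oB2N B p).val x (fun _ => 1) = a ^ 3 * b ^ 4 * e ^ 2 * (R.oB2 p) := by
  simp only [oB2N, Ex.val, v_B2N h, v_Dq h, v_PPN h]; simp only [RP.oB2]; push_cast; ring
theorem v_oA1N (h : Sp B x a b e R) : (oA1N B p).val x (fun _ => 1) = a ^ 4 * b ^ 3 * e ^ 2 * (R.oA1 p) := by
  simp only [oA1N, Ex.val, v_A1N h, v_Dp h, v_PPN h]; simp only [RP.oA1]; push_cast; ring
theorem v_oB1N (h : Sp B x a b e R) : (oB1N B p).val x (fun _ => 1) = a ^ 3 * b ^ 4 * e ^ 2 * (R.oB1 p) := by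
  simp only [oB1N, Ex.val, v_B1N h, v_Dq h, v_PPN h]; simp only [RP.oB1]; push_cast; ring
theorem v_oX2N (h : Sp B x a b e R) : (oX2N B p).val x (fun _ => 1) = a ^ 8 * b ^ 8 * e ^ 5 * (R.oX2 p) := by
  simp only [oX2N, Ex.val, v_PPN h, v_Dq h, v_lwsN h, v_B2N h, v_Dp h, v_mwtN h, v_A2N h, v_rdN h]; simp only [RP.oX2]; push_cast; ring
theorem v_oX1N (h : Sp B x a b e R) : (oX1N B p).val x (fun _ => 1) = a ^ 8 * b ^ 8 * e ^ 5 * (R.oX1 p) := by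
  simp only [oX1N, Ex.val, v_PPN h, v_Dq h, v_lwsN h, v_B1N h, v_Dp h, v_mwtN h, v_A1N h, v_rdN h]; simp only [RP.oX1]; push_cast; ring
theorem v_oga1N (h : Sp B x a b e R) : (oga1N B p).val x (fun _ => 1) = a ^ 1 * b ^ 1 * e ^ 1 * (R.oga1 p) := by
  simp only [oga1N, Ex.val, v_Dr h, v_Dq h, v_Dp h, v_g2N h]; simp only [RP.oga1]; push_cast; ring
theorem v_oga2N (h : Sp B x a b e R) : (oga2N B p).val x (fun _ => 1) = a ^ 1 * b ^ 1 * e ^ 1 * (R.oga2 p) := by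
  simp only [oga2N, Ex.val, v_Dr h, v_Dq h, v_Dp h, v_g2N h]; simp only [RP.oga2]; push_cast; ring
theorem v_e2PN (h : Sp B x a b e R) : (e2PN B p).val x (fun _ => 1) = a ^ 9 * b ^ 9 * e ^ 6 * (R.e2P p) := by
  simp only [e2PN, Ex.val, v_epsPN h, v_PPN h]; simp only [RP.e2P]; push_cast; ring
theorem v_abPN (h : Sp B x a b e R) : (abPN B p).val x (fun _ => 1) = a ^ 6 * b ^ 6 * e ^ 6 * (R.abP p) := by
  simp only [abPN, Ex.val, v_c2N h, v_alPN h, v_bePN h]; simp only [RP.abP]; push_cast; ring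
theorem v_of2N (h : Sp B x a b e R) : (of2N B p).val x (fun _ => 1) = a ^ 11 * b ^ 11 * e ^ 8 * (R.of2 p) := by
  simp only [of2N, Ex.val, v_Dq2 h, v_Dp2 h, v_abPN h, v_N1N h, v_PPN h, v_e2PN h, v_wg4N h, v_Dr h, v_Dq h, v_Dp h, v_rdN h]; simp only [RP.of2]; push_cast; ring
theorem v_of1N (h : Sp B x a b e R) : (of1N B p).val x (fun _ => 1) = a ^ 11 * b ^ 11 * e ^ 8 * (R.of1 p) := by
  simp only [of1N, Ex.val, v_Dq2 h, v_Dp2 h, v_abPN h, v_N1N h, v_PPN h, v_e2PN h, v_wg4N h, v_Dr h, v_Dq h, v_Dp h, v_rdN h]; simp only [RP.of1]; push_cast; ring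
theorem v_oIIN (h : Sp B x a b e R) : (oIIN B p).val x (fun _ => 1) = a ^ 7 * b ^ 7 * e ^ 7 * (R.oII p) := by
  simp only [oIIN, Ex.val, v_Dq h, v_Dp h, v_K3N h, v_wq4N h, v_PPN h, v_mLN h, v_Dr h, v_C2N h, v_fsN h, v_ftN h, v_gSN h, v_SCN h, v_bc2N h, v_CmLN h, v_Dq2 h, v_wsN h, v_Dp2 h, v_wtN h, v_sN h, v_tN h, v_Dr4 h]; simp only [RP.oII]; rw [h.hbd]; push_cast; ring
theorem cl0 (h : Sp B x a b e R) (pa : 0 < a) (pb : 0 < b) (pe : 0 < e)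
    (hcl : ∀ E ∈ clause0 B p, 0 ≤ E.val x (fun _ => 1)) :
    0 ≤ R.m p ∧ 0 ≤ R.om2 p ∧ 0 ≤ R.oal p ∧ 0 ≤ R.obe p ∧ 0 ≤ R.ob1 p ∧ 0 ≤ R.ob2 p ∧ 0 ≤ R.ob3 p ∧ 0 ≤ R.ob4 p ∧ 0 ≤ R.op1 p ∧ 0 ≤ R.op2 p ∧ 0 ≤ R.op3 p ∧ 0 ≤ R.op4 p ∧ 0 ≤ R.oga1 p ∧ 0 ≤ R.oga2 p ∧ 0 ≤ R.oII p ∧ 0 ≤ R.of2 p ∧ 0 ≤ R.of1 p := by
  have w0 := hcl (mN B p) (by simp [clause0])
  rw [v_mN h] at w0
  have w1 := hcl (om2N B p) (by simp [clause0])
  rw [v_om2N h] at w1
  have w2 := hcl (oalN B p) (by simp [clause0])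
  rw [v_oalN h] at w2
  have w3 := hcl (obeN B p) (by simp [clause0])
  rw [v_obeN h] at w3
  have w4 := hcl (ob1N B p) (by simp [clause0])
  rw [v_ob1N h] at w4
  have w5 := hcl (ob2N B p) (by simp [clause0])
  rw [v_ob2N h] at w5
  have w6 := hcl (ob3N B p) (by simp [clause0])
  rw [v_ob3N h] at w6
  have w7 := hcl (ob4N B p) (by simp [clause0])
  rw [v_ob4N h] at w7
  have w8 := hcl (op1N B p) (by simp [clause0])
  rw [v_op1N h] at w8
  have w9 := hcl (op2N B p) (by simp [clause0])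
  rw [v_op2N h] at w9
  have w10 := hcl (op3N B p) (by simp [clause0])
  rw [v_op3N h] at w10
  have w11 := hcl (op4N B p) (by simp [clause0])
  rw [v_op4N h] at w11
  have w12 := hcl (oga1N B p) (by simp [clause0])
  rw [v_oga1N h] at w12
  have w13 := hcl (oga2N B p) (by simp [clause0])
  rw [v_oga2N h] at w13
  have w14 := hcl (oIIN B p) (by simp [clause0])
  rw [v_oIIN h] at w14
  have w15 := hcl (of2N B p) (by simp [clause0])
  rw [v_of2N h] at w15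
  have w16 := hcl (of1N B p) (by simp [clause0])
  rw [v_of1N h] at w16
  exact ⟨nonneg_of_mul_nonneg_right w0 (by positivity), nonneg_of_mul_nonneg_right w1 (by positivity), nonneg_of_mul_nonneg_right w2 (by positivity), nonneg_of_mul_nonneg_right w3 (by positivity), nonneg_of_mul_nonneg_right w4 (by positivity), nonneg_of_mul_nonneg_right w5 (by positivity), nonneg_of_mul_nonneg_right w6 (by positivity), nonneg_of_mul_nonneg_right w7 (by positivity), nonneg_of_mul_nonneg_right w8 (by positivity), nonneg_of_mul_nonneg_right w9 (by positivity), nonneg_of_mul_nonneg_right w10 (by positivity), nonneg_of_mul_nonneg_right w11 (by positivity), nonneg_of_mul_nonneg_right w12 (by positivity), nonneg_of_mul_nonneg_right w13 (by positivity), nonneg_of_mul_nonneg_right w14 (by positivity), nonneg_of_mul_nonneg_right w15 (by positivity), nonneg_of_mul_nonneg_right w16 (by positivity)⟩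
theorem clx1 (h : Sp B x a b e R) (pa : 0 < a) (pb : 0 < b) (pe : 0 < e) (hh : p.h1 = true)
    (hcl : ∀ E ∈ ex1 B p, 0 ≤ E.val x (fun _ => 1)) :
    0 ≤ R.oA1 p ∧ 0 ≤ R.oB1 p ∧ 0 ≤ R.oX1 p := by
  have w0 := hcl (oA1N B p) (by simp [ex1, hh])
  rw [v_oA1N h] at w0
  have w1 := hcl (oB1N B p) (by simp [ex1, hh])
  rw [v_oB1N h] at w1
  have w2 := hcl (oX1N B p) (by simp [ex1, hh])
  rw [v_oX1N h] at w2
  exact ⟨nonneg_of_mul_nonneg_right w0 (by positivity), nonneg_of_mul_nonneg_right w1 (by positivity), nonneg_of_mul_nonneg_right w2 (by positivity)⟩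
theorem clx2 (h : Sp B x a b e R) (pa : 0 < a) (pb : 0 < b) (pe : 0 < e) (hh : p.h2 = true)
    (hcl : ∀ E ∈ ex2 B p, 0 ≤ E.val x (fun _ => 1)) :
    0 ≤ R.oA2 p ∧ 0 ≤ R.oB2 p ∧ 0 ≤ R.oX2 p := by
  have w0 := hcl (oA2N B p) (by simp [ex2, hh])
  rw [v_oA2N h] at w0
  have w1 := hcl (oB2N B p) (by simp [ex2, hh])
  rw [v_oB2N h] at w1
  have w2 := hcl (oX2N B p) (by simp [ex2, hh])
  rw [v_oX2N h] at w2
  exact ⟨nonneg_of_mul_nonneg_right w0 (by positivity), nonneg_of_mul_nonneg_right w1 (by positivity), nonneg_of_mul_nonneg_right w2 (by positivity)⟩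
theorem cl1 (h : Sp B x a b e R) (pa : 0 < a) (pb : 0 < b) (pe : 0 < e)
    (hcl : ∀ E ∈ clause1 B p, 0 ≤ E.val x (fun _ => 1)) :
    0 ≤ R.oden ∧ 0 ≤ R.od3 ∧ 0 ≤ R.od4 ∧ 0 ≤ R.oDI := by
  have w0 := hcl (odenN B) (by simp [clause1])
  rw [v_odenN h] at w0
  have w1 := hcl (od3N B) (by simp [clause1])
  rw [v_od3N h] at w1
  have w2 := hcl (od4N B) (by simp [clause1])
  rw [v_od4N h] at w2
  have w3 := hcl (oDIN B) (by simp [clause1])
  rw [v_oDIN h] at w3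
  exact ⟨nonneg_of_mul_nonneg_right w0 (by positivity), nonneg_of_mul_nonneg_right w1 (by positivity), nonneg_of_mul_nonneg_right w2 (by positivity), nonneg_of_mul_nonneg_right w3 (by positivity)⟩
theorem cl2 (h : Sp B x a b e R) (pa : 0 < a) (pb : 0 < b) (pe : 0 < e)
    (hcl : ∀ E ∈ clause2 B p, 0 ≤ E.val x (fun _ => 1)) :
    0 ≤ R.otr := by
  have w0 := hcl (otrN B) (by simp [clause2])
  rw [v_otrN h] at w0
  exact nonneg_of_mul_nonneg_right w0 (by positivity)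
theorem cl3 (h : Sp B x a b e R) (pa : 0 < a) (pb : 0 < b) (pe : 0 < e)
    (hcl : ∀ E ∈ clause3 B p, 0 ≤ E.val x (fun _ => 1)) :
    0 ≤ R.m p ∧ 0 ≤ R.om2 p ∧ 0 ≤ R.oII0 p := by
  have w0 := hcl (mN B p) (by simp [clause3])
  rw [v_mN h] at w0
  have w1 := hcl (om2N B p) (by simp [clause3])
  rw [v_om2N h] at w1
  have w2 := hcl (oII0N B p) (by simp [clause3])
  rw [v_oII0N h] at w2
  exact ⟨nonneg_of_mul_nonneg_right w0 (by positivity), nonneg_of_mul_nonneg_right w1 (by positivity), nonneg_of_mul_nonneg_right w2 (by positivity)⟩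

end Crest.Agent.R307.FB
end

-- ▼ part R307/FBReal

/-!
Row 307 (S0471), flow regime: the scalar inequality (ii) in the form used by the box certificates.
-/

set_option autoImplicit false

namespace Crest.Agent.R307.FB

open Crest.Agent.R307.Flow

/-- the scalar data of a pair -/
structure Geo (ρ c s t fs ft fg lam mu g d Sg C2 SC L wq : ℝ) : Prop where
  h0 : 0 < ρ
  h1 : ρ < 1
  hc0 : 0 < c
  hc : c ^ 2 = 1 - ρ ^ 2
  hs : |s| < 1
  ht : |t| < 1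
  hst : t < s
  hfs : fs ^ 2 = 1 - s ^ 2
  hfs0 : 0 < fs
  hft : ft ^ 2 = 1 - t ^ 2
  hft0 : 0 < ft
  hfg : fg ^ 2 = 1 - g ^ 2
  hfg0 : 0 < fg
  hlam : lam = (1 + ρ) / 2
  hmu : mu = (1 - ρ) / 2
  hg : g = lam * s + mu * t
  hd : d = s - t
  hSg : Sg = 1 - s * t
  hC2 : C2 = (1 + fs * ft - s * t) / 2
  hSC : SC = (s * ft + t * fs) / 2
  hL : L = lam * fs + mu * ft
  hwq : wq = 1 - g ^ 2 + g * (ρ * d / 2)

variable {ρ c s t fs ft fg lam mu g d Sg C2 SC L wq : ℝ}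

lemma Geo.st_lt (G : Geo ρ c s t fs ft fg lam mu g d Sg C2 SC L wq) : |s * t| < 1 := by
  rw [abs_mul]
  have := G.hs
  have := G.ht
  have h1 := abs_nonneg s
  have h2 := abs_nonneg t
  nlinarith

lemma Geo.C2_pos (G : Geo ρ c s t fs ft fg lam mu g d Sg C2 SC L wq) : 0 < C2 := by
  rw [G.hC2]
  have h1 := (abs_lt.mp G.st_lt).2
  have h2 := mul_pos G.hfs0 G.hft0
  linarith

lemma Geo.Sg_pos (G : Geo ρ c s t fs ft fg lam mu g d Sg C2 SC L wq) : 0 < Sg := by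
  rw [G.hSg]
  have h1 := (abs_lt.mp G.st_lt).2
  linarith

lemma Geo.lam_pos (G : Geo ρ c s t fs ft fg lam mu g d Sg C2 SC L wq) : 0 < lam := by
  rw [G.hlam]; linarith [G.h0]

lemma Geo.mu_pos (G : Geo ρ c s t fs ft fg lam mu g d Sg C2 SC L wq) : 0 < mu := by
  rw [G.hmu]; linarith [G.h1]

lemma Geo.L_pos (G : Geo ρ c s t fs ft fg lam mu g d Sg C2 SC L wq) : 0 < L := by
  rw [G.hL]
  have := mul_pos G.lam_pos G.hfs0
  have := mul_pos G.mu_pos G.hft0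
  linarith

lemma Geo.d_pos (G : Geo ρ c s t fs ft fg lam mu g d Sg C2 SC L wq) : 0 < d := by
  rw [G.hd]; linarith [G.hst]

lemma Geo.g_abs (G : Geo ρ c s t fs ft fg lam mu g d Sg C2 SC L wq) : |g| < 1 := by
  have hs := abs_lt.mp G.hs
  have ht := abs_lt.mp G.ht
  have h1 := G.lam_pos
  have h2 := G.mu_pos
  have h3 : lam + mu = 1 := by rw [G.hlam, G.hmu]; ring
  rw [G.hg, abs_lt]
  constructor <;> nlinarith

lemma Geo.wq_pos (G : Geo ρ c s t fs ft fg lam mu g d Sg C2 SC L wq) : 0 < wq := by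
  have e : wq = 1 - g * ((s + t) / 2) := by
    rw [G.hwq, G.hg, G.hd, G.hlam, G.hmu]; ring
  have hg := G.g_abs
  have h1 : |(s + t) / 2| < 1 := by
    have hs := abs_lt.mp G.hs
    have ht := abs_lt.mp G.ht
    rw [abs_lt]
    constructor <;> linarith
  have h2 : |g * ((s + t) / 2)| < 1 := by
    rw [abs_mul]
    have := abs_nonneg g
    have := abs_nonneg ((s + t) / 2)
    nlinarith
  rw [e]
  linarith [(abs_lt.mp h2).2]

lemma Geo.gap (G : Geo ρ c s t fs ft fg lam mu g d Sg C2 SC L wq) :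
    (fg ^ 2 - L ^ 2) * C2 = lam * mu * d ^ 2 := by
  have h3 : mu = 1 - lam := by rw [G.hlam, G.hmu]; ring
  have e1 : fg ^ 2 - L ^ 2 = 2 * (lam * mu) * (1 - s * t - fs * ft) := by
    rw [G.hfg, G.hL, G.hg]
    have : (lam * fs + mu * ft) ^ 2 = lam ^ 2 * (1 - s ^ 2) + mu ^ 2 * (1 - t ^ 2) +
        2 * (lam * mu) * (fs * ft) := by
      rw [← G.hfs, ← G.hft]; ring
    rw [this, h3]; ring
  rw [e1, G.hC2, G.hd]
  have e2 : (fs * ft) ^ 2 = (1 - s ^ 2) * (1 - t ^ 2) := by rw [mul_pow, G.hfs, G.hft]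
  have : 2 * (lam * mu) * (1 - s * t - fs * ft) * ((1 + fs * ft - s * t) / 2) =
      lam * mu * ((1 - s * t) ^ 2 - (fs * ft) ^ 2) := by ring
  rw [this, e2]; ring

lemma Geo.sub_L (G : Geo ρ c s t fs ft fg lam mu g d Sg C2 SC L wq) {M : ℝ} (hM : fg ≤ M) :
    lam * mu * d ^ 2 * (1 / (C2 * (M + L))) ≤ fg - L := by
  have hC := G.C2_pos
  have hL := G.L_pos
  have hf := G.hfg0
  have e : fg - L = lam * mu * d ^ 2 * (1 / (C2 * (fg + L))) := by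
    rw [← G.gap]
    field_simp
    ring
  rw [e]
  have h1 : 1 / (C2 * (M + L)) ≤ 1 / (C2 * (fg + L)) := by
    apply one_div_le_one_div_of_le (by positivity)
    exact mul_le_mul_of_nonneg_left (by linarith) hC.le
  have h2 : 0 ≤ lam * mu * d ^ 2 := by
    have := G.lam_pos
    have := G.mu_pos
    positivity
  exact mul_le_mul_of_nonneg_left h1 h2

lemma Geo.four (G : Geo ρ c s t fs ft fg lam mu g d Sg C2 SC L wq) : 4 * (lam * mu) = c ^ 2 := by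
  rw [G.hc, G.hlam, G.hmu]; ring

/-- (ii) for the balanced family; `τ = k/2` -/
theorem ii_core (G : Geo ρ c s t fs ft fg lam mu g d Sg C2 SC L wq) {τ M b : ℝ}
    (hM : fg ≤ M) (hK : 0 ≤ c - b * c ^ 3)
    (hT : 0 ≤ (c - b * c ^ 3) * (1 / (C2 * (M + L)) + τ * (C2 * (fs + ft) - g * Sg * SC) / C2) +
      b * c ^ 2 * (1 + τ * (fs ^ 2 + ft ^ 2 - g * Sg * (s + t))) - 1 / wq) :
    lam * (1 - τ * (mu * d * (d + g * Sg))) * (fs * (ρ ^ 2 / c + b * ρ ^ 2 * (fs - c))) +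
      mu * (1 - τ * (lam * d * (d - g * Sg))) * (ft * (ρ ^ 2 / c + b * ρ ^ 2 * (ft - c))) +
      (ρ * d / 2) ^ 2 / wq ≤ fg * (ρ ^ 2 / c + b * ρ ^ 2 * (fg - c)) := by
  have hc := G.hc0
  have hC := G.C2_pos
  have hw := G.wq_pos
  have h3 : mu = 1 - lam := by rw [G.hlam, G.hmu]; ring
  have k1 := G.sub_L hM
  -- the `L` part
  have e1 : lam * (1 - τ * (mu * d * (d + g * Sg))) * fs + mu * (1 - τ * (lam * d * (d - g * Sg))) * ft =
      L - τ * (lam * mu * d ^ 2) * ((C2 * (fs + ft) - g * Sg * SC) / C2) := by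
    have r1 : (fs - ft) * C2 = -(SC * d) := by
      rw [G.hC2, G.hSC, G.hd]
      have a1 : (fs - ft) * ((1 + fs * ft - s * t) / 2) =
        (fs - ft + fs ^ 2 * ft - fs * ft ^ 2 - s * t * fs + s * t * ft) / 2 := by ring
      rw [a1, G.hfs, G.hft]; ring
    have r2 : (C2 * (fs + ft) - g * Sg * SC) / C2 * d = d * (fs + ft) + g * Sg * (fs - ft) := by
      rw [div_mul_eq_mul_div, div_eq_iff hC.ne']
      have : (d * (fs + ft) + g * Sg * (fs - ft)) * C2 = d * (fs + ft) * C2 + g * Sg * ((fs - ft) * C2) := by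
        ring
      rw [this, r1]; ring
    have r3 : τ * (lam * mu * d ^ 2) * ((C2 * (fs + ft) - g * Sg * SC) / C2) =
        τ * (lam * mu * d) * ((C2 * (fs + ft) - g * Sg * SC) / C2 * d) := by ring
    rw [r3, r2, G.hL]; ring
  have e2 : lam * (1 - τ * (mu * d * (d + g * Sg))) * fs ^ 2 +
      mu * (1 - τ * (lam * d * (d - g * Sg))) * ft ^ 2 =
      fg ^ 2 - lam * mu * d ^ 2 * (1 + τ * (fs ^ 2 + ft ^ 2 - g * Sg * (s + t))) := by
    rw [G.hfs, G.hft, G.hfg, G.hd]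
    have : g ^ 2 = (lam * s + mu * t) ^ 2 := by rw [G.hg]
    rw [this, h3]
    ring
  have e3 : lam * (1 - τ * (mu * d * (d + g * Sg))) * (fs * (ρ ^ 2 / c + b * ρ ^ 2 * (fs - c))) +
      mu * (1 - τ * (lam * d * (d - g * Sg))) * (ft * (ρ ^ 2 / c + b * ρ ^ 2 * (ft - c))) =
      (ρ ^ 2 / c - b * ρ ^ 2 * c) * (lam * (1 - τ * (mu * d * (d + g * Sg))) * fs +
        mu * (1 - τ * (lam * d * (d - g * Sg))) * ft) +
      b * ρ ^ 2 * (lam * (1 - τ * (mu * d * (d + g * Sg))) * fs ^ 2 +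
        mu * (1 - τ * (lam * d * (d - g * Sg))) * ft ^ 2) := by ring
  rw [e3, e1, e2]
  have e4 : (ρ * d / 2) ^ 2 / wq = ρ ^ 2 / c ^ 2 * (lam * mu * d ^ 2) * (1 / wq) := by
    have : (ρ * d / 2) ^ 2 = ρ ^ 2 / c ^ 2 * (lam * mu * d ^ 2) := by
      have h4 : lam * mu = c ^ 2 / 4 := by linarith [G.four]
      rw [h4]
      field_simp
      ring
    rw [this]; ring
  rw [e4]
  have e5 : fg * (ρ ^ 2 / c + b * ρ ^ 2 * (fg - c)) -
      ((ρ ^ 2 / c - b * ρ ^ 2 * c) * (L - τ * (lam * mu * d ^ 2) *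
        ((C2 * (fs + ft) - g * Sg * SC) / C2)) +
      b * ρ ^ 2 * (fg ^ 2 - lam * mu * d ^ 2 * (1 + τ * (fs ^ 2 + ft ^ 2 - g * Sg * (s + t)))) +
      ρ ^ 2 / c ^ 2 * (lam * mu * d ^ 2) * (1 / wq)) =
      ρ ^ 2 / c ^ 2 * (lam * mu * d ^ 2) *
        ((c - b * c ^ 3) * (1 / (C2 * (M + L)) + τ * (C2 * (fs + ft) - g * Sg * SC) / C2) +
      b * c ^ 2 * (1 + τ * (fs ^ 2 + ft ^ 2 - g * Sg * (s + t))) - 1 / wq) +
      ρ ^ 2 / c ^ 2 * (c - b * c ^ 3) * (fg - L - lam * mu * d ^ 2 * (1 / (C2 * (M + L)))) := by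
    have r1 : ρ ^ 2 / c - b * ρ ^ 2 * c = ρ ^ 2 / c ^ 2 * (c - b * c ^ 3) := by
      field_simp
    have r2 : b * ρ ^ 2 = ρ ^ 2 / c ^ 2 * (b * c ^ 2) := by
      field_simp
    have r3 : fg * (ρ ^ 2 / c + b * ρ ^ 2 * (fg - c)) = (ρ ^ 2 / c - b * ρ ^ 2 * c) * fg +
      b * ρ ^ 2 * fg ^ 2 := by ring
    rw [r3, r1, r2]
    ring
  have h4 : 0 ≤ ρ ^ 2 / c ^ 2 * (lam * mu * d ^ 2) := by
    have := G.lam_pos
    have := G.mu_pos
    positivity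
  have h5 : 0 ≤ ρ ^ 2 / c ^ 2 * (c - b * c ^ 3) := mul_nonneg (by positivity) hK
  have h6 := mul_nonneg h4 hT
  have h7 := mul_nonneg h5 (sub_nonneg.2 k1)
  linarith [e5]

/-- (ii) for the dictator family: `th = 1 - lam mu d (d-2ρ)/den` -/
theorem ii_dict (G : Geo ρ c s t fs ft fg lam mu g d Sg C2 SC L wq) {b V den wz th : ℝ}
    (hV : V = 1 - g ^ 2 + c ^ 2 + 2 * c * L) (hden : 0 < den)
    (hwz : wz = lam * fs ^ 2 + mu * ft ^ 2)
    (hth : th = 1 - lam * mu * d * (d - 2 * ρ) / den) (hK : 0 ≤ c - b * c ^ 3)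
    (hT : 0 ≤ (c - b * c ^ 3) * (2 * c / (C2 * V) + (d - 2 * ρ) * L / (d * den)) +
      b * c ^ 2 * (1 + (d - 2 * ρ) * wz / (d * den)) - 1 / wq) :
    lam * th * (fs * (ρ ^ 2 / c + b * ρ ^ 2 * (fs - c))) +
      mu * th * (ft * (ρ ^ 2 / c + b * ρ ^ 2 * (ft - c))) +
      (ρ * d / 2) ^ 2 / wq ≤ fg * (ρ ^ 2 / c + b * ρ ^ 2 * (fg - c)) := by
  have hc := G.hc0
  have hC := G.C2_pos
  have hw := G.wq_pos
  have hd := G.d_pos
  have hL := G.L_pos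
  have h3 : mu = 1 - lam := by rw [G.hlam, G.hmu]; ring
  have hM : fg ≤ (1 - g ^ 2 + c ^ 2) / (2 * c) := by
    rw [le_div_iff₀ (by positivity), ← G.hfg]
    nlinarith [sq_nonneg (fg - c)]
  have k1 := G.sub_L hM
  have k0 : 1 / (C2 * ((1 - g ^ 2 + c ^ 2) / (2 * c) + L)) = 2 * c / (C2 * V) := by
    have hV' : (1 - g ^ 2 + c ^ 2) / (2 * c) + L = V / (2 * c) := by
      rw [hV]; field_simp
    rw [hV']
    have : 0 < V := by
      rw [hV, ← G.hfg]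
      positivity
    field_simp
  rw [k0] at k1
  have e0 : 1 - th = lam * mu * d ^ 2 * ((d - 2 * ρ) / (d * den)) := by
    rw [hth]; field_simp; ring
  have e2 : wz = fg ^ 2 - lam * mu * d ^ 2 := by
    rw [hwz, G.hfs, G.hft, G.hfg, G.hd]
    have : g ^ 2 = (lam * s + mu * t) ^ 2 := by rw [G.hg]
    rw [this, h3]
    ring
  have e4 : (ρ * d / 2) ^ 2 / wq = ρ ^ 2 / c ^ 2 * (lam * mu * d ^ 2) * (1 / wq) := by
    have : (ρ * d / 2) ^ 2 = ρ ^ 2 / c ^ 2 * (lam * mu * d ^ 2) := by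
      have h4 : lam * mu = c ^ 2 / 4 := by linarith [G.four]
      rw [h4]
      field_simp
      ring
    rw [this]; ring
  rw [e4]
  have r1 : ρ ^ 2 / c - b * ρ ^ 2 * c = ρ ^ 2 / c ^ 2 * (c - b * c ^ 3) := by
    field_simp
  have r2 : b * ρ ^ 2 = ρ ^ 2 / c ^ 2 * (b * c ^ 2) := by
    field_simp
  have e5 : fg * (ρ ^ 2 / c + b * ρ ^ 2 * (fg - c)) -
      (lam * th * (fs * (ρ ^ 2 / c + b * ρ ^ 2 * (fs - c))) +
      mu * th * (ft * (ρ ^ 2 / c + b * ρ ^ 2 * (ft - c))) +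
      ρ ^ 2 / c ^ 2 * (lam * mu * d ^ 2) * (1 / wq)) =
      ρ ^ 2 / c ^ 2 * (lam * mu * d ^ 2) *
        ((c - b * c ^ 3) * (2 * c / (C2 * V) + (d - 2 * ρ) * L / (d * den)) +
      b * c ^ 2 * (1 + (d - 2 * ρ) * wz / (d * den)) - 1 / wq) +
      ρ ^ 2 / c ^ 2 * (c - b * c ^ 3) * (fg - L - lam * mu * d ^ 2 * (2 * c / (C2 * V))) := by
    have q1 : lam * th * (fs * (ρ ^ 2 / c + b * ρ ^ 2 * (fs - c))) +
      mu * th * (ft * (ρ ^ 2 / c + b * ρ ^ 2 * (ft - c))) =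
        (ρ ^ 2 / c - b * ρ ^ 2 * c) * (L - (1 - th) * L) + b * ρ ^ 2 * (wz - (1 - th) * wz) := by
      rw [G.hL, hwz]; ring
    have q2 : fg * (ρ ^ 2 / c + b * ρ ^ 2 * (fg - c)) = (ρ ^ 2 / c - b * ρ ^ 2 * c) * fg +
      b * ρ ^ 2 * fg ^ 2 := by ring
    have q3 : fg ^ 2 = wz + lam * mu * d ^ 2 := by rw [e2]; ring
    rw [q1, q2, q3, e0, r1, r2]
    ring
  have h4 : 0 ≤ ρ ^ 2 / c ^ 2 * (lam * mu * d ^ 2) := by
    have := G.lam_pos
    have := G.mu_pos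
    positivity
  have h5 : 0 ≤ ρ ^ 2 / c ^ 2 * (c - b * c ^ 3) := mul_nonneg (by positivity) hK
  have h6 := mul_nonneg h4 hT
  have h7 := mul_nonneg h5 (sub_nonneg.2 k1)
  linarith [e5]

end Crest.Agent.R307.FB
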