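import Crest.Agent.R307.Calc

/-!
Row 307, task T11a: elementary bounds for `psi`, `kappa`, `log` (helper129).
-/

set_option autoImplicit false

open Crest.CubeNoise Set

namespace Crest.Agent.R307

/-- monotonicity on `[0,1)` from a nonnegative derivative. -/
private theorem mono_of_hasDerivAt {f f' : ℝ → ℝ}
    (hd : ∀ x : ℝ, 0 ≤ x → x < 1 → HasDerivAt f (f' x) x)
    (hn : ∀ x : ℝ, 0 < x → x < 1 → 0 ≤ f' x) : MonotoneOn f (Ico 0 1) := by
  refine monotoneOn_of_deriv_nonneg (convex_Ico 0 1) ?_ ?_ ?_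
  · intro x hx
    exact (hd x hx.1 hx.2).continuousAt.continuousWithinAt
  · rw [interior_Ico]
    intro x hx
    exact (hd x hx.1.le hx.2).differentiableAt.differentiableWithinAt
  · rw [interior_Ico]
    intro x hx
    rw [(hd x hx.1.le hx.2).deriv]
    exact hn x hx.1 hx.2

private theorem nonneg_of_hasDerivAt {f f' : ℝ → ℝ}
    (hd : ∀ x : ℝ, 0 ≤ x → x < 1 → HasDerivAt f (f' x) x)
    (hn : ∀ x : ℝ, 0 < x → x < 1 → 0 ≤ f' x) (h0 : f 0 = 0) {x : ℝ} (hx0 : 0 ≤ x) (hx1 : x < 1) :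
    0 ≤ f x := by
  have := mono_of_hasDerivAt hd hn (left_mem_Ico.mpr one_pos) ⟨hx0, hx1⟩ hx0
  rwa [h0] at this


/-- `artanh t ≤ t (1 - (2/3) t^2 - (2/15) t^4) / (1 - t^2)` -/
theorem artanh_le_poly {t : ℝ} (h0 : 0 ≤ t) (h1 : t < 1) :
    Real.artanh t ≤ (t - 2 / 3 * t ^ 3 - 2 / 15 * t ^ 5) / (1 - t ^ 2) := by
  have h := nonneg_of_hasDerivAt
    (f := fun t => (t - 2 / 3 * t ^ 3 - 2 / 15 * t ^ 5) / (1 - t ^ 2) - Real.artanh t)
    (f' := fun t => 2 / 5 * t ^ 6 / (1 - t ^ 2) ^ 2) (fun y hy0 hy1 => by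
      have h3 := one_sub_sq_pos hy0 hy1
      have e1 : HasDerivAt (fun x : ℝ => 1 - x ^ 2) (-(2 * y)) y := by
        have := (hasDerivAt_pow 2 y).const_sub 1
        simpa using this
      have e2 : HasDerivAt (fun t : ℝ => t - 2 / 3 * t ^ 3 - 2 / 15 * t ^ 5)
          (1 - 2 / 3 * (3 * y ^ 2) - 2 / 15 * (5 * y ^ 4)) y := by
        have a := (hasDerivAt_pow 3 y).const_mul (2 / 3 : ℝ)
        have b := (hasDerivAt_pow 5 y).const_mul (2 / 15 : ℝ)
        have := ((hasDerivAt_id y).sub a).sub b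
        refine this.congr_deriv ?_
        push_cast
        ring
      refine ((e2.div e1 h3.ne').sub
        (hasDerivAt_artanh (abs_lt_one_of_mem hy0 hy1))).congr_deriv ?_
      field_simp
      ring) (fun y hy0 hy1 => by positivity) (by simp) h0 h1
  try simp only at h
  linarith

/-- lower bound for `kappa`. -/
theorem kappa_ge_poly {t : ℝ} (h0 : 0 ≤ t) (h1 : t < 1) :
    2 + 2 / 3 * t ^ 2 + 26 / 45 * t ^ 4 ≤ kappa t := by
  rcases eq_or_lt_of_le h0 with h | h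
  · rw [← h, kappa_zero]; norm_num
  rw [kappa_of_pos h]
  have hA := artanh_pos' h h1
  have h3 := one_sub_sq_pos h0 h1
  have hle := artanh_le_poly h0 h1
  rw [le_div_iff₀ h3] at hle
  have hs1 : t ^ 2 < 1 := by nlinarith
  have hs0 : 0 ≤ t ^ 2 := sq_nonneg t
  have key : 1 + 2 / 3 * t ^ 2 + 26 / 45 * t ^ 4 ≤ t / ((1 - t ^ 2) * Real.artanh t) := by
    rw [le_div_iff₀ (mul_pos h3 hA)]
    have hc : 0 ≤ 1 + 2 / 3 * t ^ 2 + 26 / 45 * t ^ 4 := by positivity
    have h5 : (1 + 2 / 3 * t ^ 2 + 26 / 45 * t ^ 4) * (Real.artanh t * (1 - t ^ 2)) ≤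
        (1 + 2 / 3 * t ^ 2 + 26 / 45 * t ^ 4) * (t - 2 / 3 * t ^ 3 - 2 / 15 * t ^ 5) :=
      mul_le_mul_of_nonneg_left hle hc
    have h6 : (1 + 2 / 3 * t ^ 2 + 26 / 45 * t ^ 4) * (t - 2 / 3 * t ^ 3 - 2 / 15 * t ^ 5) ≤ t := by
      have : t - (1 + 2 / 3 * t ^ 2 + 26 / 45 * t ^ 4) * (t - 2 / 3 * t ^ 3 - 2 / 15 * t ^ 5) =
          64 / 135 * t ^ 7 + 52 / 675 * t ^ 9 := by ring
      have h7 : 0 ≤ 64 / 135 * t ^ 7 + 52 / 675 * t ^ 9 := by positivity
      linarith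
    calc (1 + 2 / 3 * t ^ 2 + 26 / 45 * t ^ 4) * ((1 - t ^ 2) * Real.artanh t)
        = (1 + 2 / 3 * t ^ 2 + 26 / 45 * t ^ 4) * (Real.artanh t * (1 - t ^ 2)) := by ring
      _ ≤ _ := h5
      _ ≤ t := h6
  linarith








theorem log_two_div_le {m : ℝ} (h0 : 0 ≤ m) (h1 : m < 1) :
    Real.log (2 / (1 + m)) ≤ (1 - m) * (3 + m) / (4 * (1 + m)) := by
  have hd : ∀ x : ℝ, 0 ≤ x → HasDerivAt
      (fun m : ℝ => (1 - m) * (3 + m) / (4 * (1 + m)) + Real.log (1 + m))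
      (-((1 - x) ^ 2 / (4 * (1 + x) ^ 2))) x := by
    intro x hx
    have h3 : 0 < 1 + x := by linarith
    have e1 : HasDerivAt (fun m : ℝ => (1 - m) * (3 + m)) ((-1) * (3 + x) + (1 - x) * 1) x := by
      have a := (hasDerivAt_id x).const_sub 1
      have b := (hasDerivAt_id x).const_add 3
      exact a.mul b
    have e2 : HasDerivAt (fun m : ℝ => 4 * (1 + m)) (4 * 1) x :=
      ((hasDerivAt_id x).const_add 1).const_mul 4
    have d1 : HasDerivAt (fun y : ℝ => Real.log (1 + y)) (1 / (1 + x)) x := by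
      have := ((hasDerivAt_id x).const_add 1).log (by simpa using h3.ne')
      simpa using this
    refine ((e1.div e2 (by positivity)).add d1).congr_deriv ?_
    field_simp
    ring
  have hanti : AntitoneOn
      (fun m : ℝ => (1 - m) * (3 + m) / (4 * (1 + m)) + Real.log (1 + m)) (Icc 0 1) := by
    refine antitoneOn_of_deriv_nonpos (convex_Icc 0 1) ?_ ?_ ?_
    · intro x hx
      exact (hd x hx.1).continuousAt.continuousWithinAt
    · rw [interior_Icc]
      intro x hx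
      exact (hd x hx.1.le).differentiableAt.differentiableWithinAt
    · rw [interior_Icc]
      intro x hx
      rw [(hd x hx.1.le).deriv]
      have h3 : 0 < 1 + x := by linarith [hx.1]
      have : 0 ≤ (1 - x) ^ 2 / (4 * (1 + x) ^ 2) := by positivity
      linarith
  have h := hanti ⟨h0, h1.le⟩ (right_mem_Icc.mpr zero_le_one) h1.le
  try simp only at h
  norm_num at h
  rw [Real.log_div two_ne_zero (by linarith)]
  linarith

end Crest.Agent.R307
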