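import Crest.Agent.R307.SubDefs
import Crest.Agent.R307.Split
import Crest.Agent.R307.Ode

/-!
Row 307 (S0472), task T12: the rate bound (part 1 of S0472) by induction on the dimension, from the
mean-profile bound (T7), the local and corner bounds (T3, T4), the supporting plane for `LL` (T8), the
bounds on `y` (T9), the region split (T10) and the scalar inequality (T11).
-/

set_option autoImplicit false

open Crest.CubeNoise Set

namespace Crest.Agent.R307

/-! ### the interface statements -/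

/-- T7 -/
def GGStmt : Prop :=
  ∀ (n : ℕ) (g : (Fin n → Bool) → ℝ), (∀ x, |g x| < 1) → ∀ t, 0 ≤ t → t < 1 →
    GG t (cubeAverage g) (cubeAverage fun x => signEntropy (g x)) ≤ production g

/-- T10 -/
def QoneStmt : Prop :=
  ∀ m A : ℝ, |m| < 1 → 0 < A → A ≤ 7 / 20 * (1 - m ^ 2) →
    SS (signEntropy m - A) ≤ PP (1 - m ^ 2) A

/-- T3 -/
def LocalStmt : Prop :=
  ∀ (n : ℕ) (g0 g1 : (Fin n → Bool) → ℝ), (∀ x, |g0 x| < 1) → (∀ x, |g1 x| < 1) →
    ∀ m δ w V : ℝ, m = (cubeAverage g0 + cubeAverage g1) / 2 →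
      δ = (cubeAverage g0 - cubeAverage g1) / 2 → w = 1 - m ^ 2 →
      V = cubeAverage (fun x => ((g0 x + g1 x) / 2) ^ 2) - m ^ 2 →
      0 ≤ V ∧ |δ| < w - V ∧
        δ ^ 2 * V / (w * (w - V)) ≤
          2 * (cubeAverage (fun x => io (g0 x) (g1 x)) - io (cubeAverage g0) (cubeAverage g1))

/-- T4 -/
def CornerStmt : Prop :=
  ∀ (n : ℕ) (g0 g1 : (Fin n → Bool) → ℝ), (∀ x, |g0 x| < 1) → (∀ x, |g1 x| < 1) →
    ∀ m δ V : ℝ, m = (cubeAverage g0 + cubeAverage g1) / 2 →
      δ = (cubeAverage g0 - cubeAverage g1) / 2 → 0 ≤ m → 0 < δ →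
      V = cubeAverage (fun x => ((g0 x + g1 x) / 2) ^ 2) - m ^ 2 →
      -Real.log (1 - δ ^ 2 / (1 + m) ^ 2) / (1 - m) ^ 2 * V ≤
          2 * (cubeAverage (fun x => io (g0 x) (g1 x)) - io (cubeAverage g0) (cubeAverage g1))

/-- T8 -/
def LSuppStmt : Prop :=
  ∀ (n : ℕ) (g0 g1 : (Fin n → Bool) → ℝ), (∀ x, |g0 x| < 1) → (∀ x, |g1 x| < 1) →
    ∀ m δ : ℝ, m = (cubeAverage g0 + cubeAverage g1) / 2 →
      δ = (cubeAverage g0 - cubeAverage g1) / 2 → 0 ≤ m → 0 ≤ δ →
      LL (cubeAverage g0) (cubeAverage g1) + (kappa (δ / (1 + m)) - 2) *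
          (cubeAverage (fun x => io (g0 x) (g1 x)) - io (cubeAverage g0) (cubeAverage g1)) ≤
        cubeAverage (fun x => LL (g0 x) (g1 x))

/-- T9 -/
def IoneStmt : Prop :=
  ∀ (n : ℕ) (g0 g1 : (Fin n → Bool) → ℝ), (∀ x, |g0 x| < 1) → (∀ x, |g1 x| < 1) →
    ∀ m w V y : ℝ, m = (cubeAverage g0 + cubeAverage g1) / 2 → w = 1 - m ^ 2 → 0 ≤ m →
      V = cubeAverage (fun x => ((g0 x + g1 x) / 2) ^ 2) - m ^ 2 →
      y = signEntropy m - cubeAverage (fun x => signEntropy ((g0 x + g1 x) / 2)) →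
      0 ≤ y ∧ y ≤ Real.log (2 / (1 + m)) / (1 - m) ^ 2 * V ∧
        y ≤ signEntropy m - w * Real.log 2 + V * Real.log 2

/-- T11 -/
def FFStmt : Prop :=
  ∀ m δ w V y j ι : ℝ, 0 ≤ m → m < 1 → 0 < δ → δ < 1 - m → w = 1 - m ^ 2 →
    ι = io (m + δ) (m - δ) → 0 ≤ V → δ < w - V → 0 ≤ y →
    y ≤ Real.log (2 / (1 + m)) / (1 - m) ^ 2 * V →
    y ≤ signEntropy m - w * Real.log 2 + V * Real.log 2 →
    -Real.log (1 - δ ^ 2 / (1 + m) ^ 2) / (1 - m) ^ 2 * V ≤ 2 * j →
    δ ^ 2 * V / (w * (w - V)) ≤ 2 * j →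
    ι + y + j ≤ signEntropy m - 7 / 20 * w →
    SS (ι + y + j) ≤ kappa (δ / (1 + m)) * j + LL (m + δ) (m - δ) + SS (y + j)

/-! ### auxiliary facts on `SS` -/

theorem F72_two_le_kappa {t : ℝ} (h0 : 0 ≤ t) (h1 : t < 1) : 2 ≤ kappa t := by
  have h := strictMonoOn_kappa.monotoneOn (left_mem_Ico.mpr one_pos) (⟨h0, h1⟩ : t ∈ Ico (0:ℝ) 1) h0
  rwa [kappa_zero] at h

theorem F72_sF_nonneg {t : ℝ} (h0 : 0 ≤ t) (h1 : t < 1) : 0 ≤ sF t := by
  unfold sF
  linarith [two_psi_le h0 h1]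

theorem F72_SS_nonneg {I : ℝ} (hI : I < Real.log 2) : 0 ≤ SS I := by
  unfold SS
  have h := hinv_mem (y := Real.log 2 - I) (by linarith)
  exact F72_sF_nonneg h.1 h.2

theorem F72_SS_tangent {I t : ℝ} (hI : I < Real.log 2) (h0 : 0 ≤ t) (h1 : t < 1) :
    sF t + (kappa t - 2) * (I - psi t) ≤ SS I := by
  have hk := F72_two_le_kappa h0 h1
  rcases le_or_gt 0 I with h | h
  · obtain ⟨r, hr0, hr1, hr⟩ := exists_psi_eq h hI
    rw [← hr, SS_psi hr0 hr1]
    have := F_tangent_le h0 h1 hr0 hr1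
    unfold sF
    linarith
  · rw [SS_of_neg h]
    have := F_tangent_le h0 h1 le_rfl one_pos
    rw [psi_zero] at this
    unfold sF
    have h2 : (kappa t - 2) * I ≤ 0 := mul_nonpos_of_nonneg_of_nonpos (by linarith) h.le
    linarith

theorem F72_SS_mid {a b : ℝ} (ha : a < Real.log 2) (hb : b < Real.log 2) :
    SS ((a + b) / 2) ≤ (SS a + SS b) / 2 := by
  rcases le_or_gt 0 ((a + b) / 2) with h | h
  · obtain ⟨r, hr0, hr1, hr⟩ := exists_psi_eq h (by linarith : (a + b) / 2 < Real.log 2)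
    have h1 := F72_SS_tangent ha hr0 hr1
    have h2 := F72_SS_tangent hb hr0 hr1
    rw [← hr, SS_psi hr0 hr1]
    have h3 : (kappa r - 2) * (a - psi r) + (kappa r - 2) * (b - psi r) = 0 := by
      rw [hr]; ring
    linarith
  · rw [SS_of_neg h]
    linarith [F72_SS_nonneg ha, F72_SS_nonneg hb]

theorem F72_RR_le {t m A : ℝ} (h0 : 0 ≤ t) (h1 : t < 1) (hI : signEntropy m - A < Real.log 2) :
    RR t m A ≤ 2 * (signEntropy m - A) + SS (signEntropy m - A) := by
  have h := F72_SS_tangent hI h0 h1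
  unfold RR
  unfold sF at h
  linarith

theorem F72_kk_nonneg {a b : ℝ} (ha : |a| < 1) (hb : |b| < 1) : 0 ≤ kk a b := by
  unfold kk
  obtain ⟨ha1, ha2⟩ := abs_lt.mp ha
  obtain ⟨hb1, hb2⟩ := abs_lt.mp hb
  have hmono : StrictMonoOn Real.artanh (Ioo (-1) 1) := Real.strictMonoOn_artanh
  rcases le_total a b with h | h
  · have := hmono.monotoneOn ⟨ha1, ha2⟩ ⟨hb1, hb2⟩ h
    have : 0 ≤ (Real.artanh a - Real.artanh b) * (a - b) :=
      mul_nonneg_of_nonpos_of_nonpos (by linarith) (by linarith)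
    linarith
  · have := hmono.monotoneOn ⟨hb1, hb2⟩ ⟨ha1, ha2⟩ h
    have : 0 ≤ (Real.artanh a - Real.artanh b) * (a - b) :=
      mul_nonneg (by linarith) (by linarith)
    linarith

/-- the rate functional `2 I + S(I)` -/
noncomputable def RT (m A : ℝ) : ℝ := 2 * (signEntropy m - A) + SS (signEntropy m - A)

theorem RT_neg (m A : ℝ) : RT (-m) A = RT m A := by
  unfold RT; rw [signEntropy_neg]

/-- the two-point step with `m ≥ 0`, `δ ≥ 0`, `A > (7/20) w` -/
theorem F72_step_pos (H3 : LocalStmt) (H4 : CornerStmt) (H8 : LSuppStmt) (H9 : IoneStmt)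
    (H11 : FFStmt) {n : ℕ} (g0 g1 : (Fin n → Bool) → ℝ) (h0 : ∀ x, |g0 x| < 1)
    (h1 : ∀ x, |g1 x| < 1) (hm : 0 ≤ (cubeAverage g0 + cubeAverage g1) / 2)
    (hd : 0 ≤ (cubeAverage g0 - cubeAverage g1) / 2)
    (hA : 7 / 20 * (1 - ((cubeAverage g0 + cubeAverage g1) / 2) ^ 2) ≤
      (cubeAverage (fun x => signEntropy (g0 x)) + cubeAverage (fun x => signEntropy (g1 x))) / 2) :
    RT ((cubeAverage g0 + cubeAverage g1) / 2)
        ((cubeAverage (fun x => signEntropy (g0 x)) + cubeAverage (fun x => signEntropy (g1 x))) / 2)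
      ≤ (RT (cubeAverage g0) (cubeAverage (fun x => signEntropy (g0 x))) +
          RT (cubeAverage g1) (cubeAverage (fun x => signEntropy (g1 x)))) / 2 +
        cubeAverage (fun x => kk (g0 x) (g1 x)) := by
  have hm0 := abs_cubeAverage_lt_one h0
  have hm1 := abs_cubeAverage_lt_one h1
  set m0 := cubeAverage g0 with hm0d
  set m1 := cubeAverage g1 with hm1d
  set A0 := cubeAverage (fun x => signEntropy (g0 x)) with hA0d
  set A1 := cubeAverage (fun x => signEntropy (g1 x)) with hA1d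
  obtain ⟨hm0a, hm0b⟩ := abs_lt.mp hm0
  obtain ⟨hm1a, hm1b⟩ := abs_lt.mp hm1
  obtain ⟨m, hmd⟩ : ∃ m, m = (m0 + m1) / 2 := ⟨_, rfl⟩
  obtain ⟨δ, hδd⟩ : ∃ δ, δ = (m0 - m1) / 2 := ⟨_, rfl⟩
  obtain ⟨A, hAd⟩ : ∃ A, A = (A0 + A1) / 2 := ⟨_, rfl⟩
  obtain ⟨w, hwd⟩ : ∃ w, w = 1 - m ^ 2 := ⟨_, rfl⟩
  rw [← hmd, ← hAd] at hA ⊢
  rw [← hmd] at hm
  rw [← hδd] at hd
  rw [← hwd] at hA
  have hA0pos : 0 < A0 := by
    rw [hA0d, ← cubeAverage_const (n := n) 0]
    exact cubeAverage_lt fun x => signEntropy_pos (h0 x)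
  have hA1pos : 0 < A1 := by
    rw [hA1d, ← cubeAverage_const (n := n) 0]
    exact cubeAverage_lt fun x => signEntropy_pos (h1 x)
  -- averages of io, kk, LL
  set EI := cubeAverage (fun x => io (g0 x) (g1 x)) with hEId
  set EL := cubeAverage (fun x => LL (g0 x) (g1 x)) with hELd
  set EH := cubeAverage (fun x => signEntropy ((g0 x + g1 x) / 2)) with hEHd
  have hEI : EI = EH - A := by
    have e : (fun x => signEntropy ((g0 x + g1 x) / 2)) =
        fun x => io (g0 x) (g1 x) + (1 / 2) * (signEntropy (g0 x) + signEntropy (g1 x)) := by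
      funext x; unfold io; ring
    rw [hEHd, e, cubeAverage_add, cubeAverage_const_mul, cubeAverage_add, hAd]
    ring
  have hEK : cubeAverage (fun x => kk (g0 x) (g1 x)) = EL + 2 * EI := by
    have e : (fun x => kk (g0 x) (g1 x)) =
        fun x => LL (g0 x) (g1 x) + 2 * io (g0 x) (g1 x) := by
      funext x; unfold LL; ring
    rw [e, cubeAverage_add, cubeAverage_const_mul]
  obtain ⟨ι, hιd⟩ : ∃ ι, ι = io m0 m1 := ⟨_, rfl⟩
  obtain ⟨j, hjd⟩ : ∃ j, j = EI - ι := ⟨_, rfl⟩
  obtain ⟨y, hyd⟩ : ∃ y, y = signEntropy m - EH := ⟨_, rfl⟩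
  have hI : signEntropy m - A = ι + y + j := by rw [hyd, hjd, hEI]; ring
  have hιe : ι = signEntropy m - (signEntropy m0 + signEntropy m1) / 2 := by
    rw [hιd]; unfold io; rw [hmd]
  have hIavg : ((signEntropy m0 - A0) + (signEntropy m1 - A1)) / 2 = y + j := by
    have : y + j = signEntropy m - A - ι := by rw [hI]; ring
    rw [this, hιe, hAd]; ring
  have hlt0 : signEntropy m0 - A0 < Real.log 2 := by linarith [signEntropy_le m0]
  have hlt1 : signEntropy m1 - A1 < Real.log 2 := by linarith [signEntropy_le m1]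
  have hmid := F72_SS_mid hlt0 hlt1
  rw [hIavg] at hmid
  have hRT : 2 * (y + j) + SS (y + j) ≤ (RT m0 A0 + RT m1 A1) / 2 := by
    unfold RT
    linarith
  refine le_trans ?_ (add_le_add_left hRT _)
  have hRTm : RT m A = 2 * (ι + y + j) + SS (ι + y + j) := by
    unfold RT; rw [hI]
  rw [hRTm]
  have hm_lt : m < 1 := by rw [hmd]; linarith
  rcases eq_or_lt_of_le hd with hδ0 | hδpos
  · -- δ = 0
    have e : m0 = m1 := by linarith
    have hι0 : ι = 0 := by
      rw [hιd, e]; unfold io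
      rw [show (m1 + m1) / 2 = m1 by ring]; ring
    have hk : 0 ≤ cubeAverage (fun x => kk (g0 x) (g1 x)) := by
      rw [← cubeAverage_const (n := n) 0]
      exact cubeAverage_mono fun x => F72_kk_nonneg (h0 x) (h1 x)
    rw [hι0]
    simp only [zero_add]
    linarith
  · obtain ⟨V, hVd⟩ : ∃ V, V = cubeAverage (fun x => ((g0 x + g1 x) / 2) ^ 2) - m ^ 2 := ⟨_, rfl⟩
    obtain ⟨hV0, hVδ, hloc⟩ := H3 n g0 g1 h0 h1 m δ w V hmd hδd hwd hVd
    have hcor := H4 n g0 g1 h0 h1 m δ V hmd hδd hm hδpos hVd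
    have hls := H8 n g0 g1 h0 h1 m δ hmd hδd hm hd
    obtain ⟨hy0, hyK, hyL⟩ := H9 n g0 g1 h0 h1 m w V y hmd hwd hm hVd hyd
    rw [← hm0d, ← hm1d, ← hEId, ← hιd, ← hjd] at hloc hcor hls
    rw [← hELd] at hls
    rw [abs_of_pos hδpos] at hVδ
    have hm0' : m + δ = m0 := by rw [hmd, hδd]; ring
    have hm1' : m - δ = m1 := by rw [hmd, hδd]; ring
    have hff := H11 m δ w V y j ι hm hm_lt hδpos (by linarith) hwd (by rw [hm0', hm1', hιd])
      hV0 hVδ hy0 hyK hyL hcor hloc (by linarith)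
    rw [hm0', hm1'] at hff
    rw [hEK]
    have : EI = ι + j := by rw [hjd]; ring
    rw [this]
    linarith


theorem kk_neg_neg {a b : ℝ} (ha : |a| < 1) (hb : |b| < 1) : kk (-a) (-b) = kk a b := by
  unfold kk
  rw [artanh_neg' ha, artanh_neg' hb]
  ring

theorem kk_comm (a b : ℝ) : kk a b = kk b a := by
  unfold kk; ring

theorem cubeAverage_neg' {n : ℕ} (g : (Fin n → Bool) → ℝ) :
    cubeAverage (fun x => -g x) = -cubeAverage g := by
  have := cubeAverage_const_mul (-1) g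
  simp only [neg_mul, one_mul] at this
  exact this

/-- the two-point step with `A > (7/20) w`, no sign conditions -/
theorem F72_step (H3 : LocalStmt) (H4 : CornerStmt) (H8 : LSuppStmt) (H9 : IoneStmt)
    (H11 : FFStmt) {n : ℕ} (g0 g1 : (Fin n → Bool) → ℝ) (h0 : ∀ x, |g0 x| < 1)
    (h1 : ∀ x, |g1 x| < 1)
    (hA : 7 / 20 * (1 - ((cubeAverage g0 + cubeAverage g1) / 2) ^ 2) ≤
      (cubeAverage (fun x => signEntropy (g0 x)) + cubeAverage (fun x => signEntropy (g1 x))) / 2) :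
    RT ((cubeAverage g0 + cubeAverage g1) / 2)
        ((cubeAverage (fun x => signEntropy (g0 x)) + cubeAverage (fun x => signEntropy (g1 x))) / 2)
      ≤ (RT (cubeAverage g0) (cubeAverage (fun x => signEntropy (g0 x))) +
          RT (cubeAverage g1) (cubeAverage (fun x => signEntropy (g1 x)))) / 2 +
        cubeAverage (fun x => kk (g0 x) (g1 x)) := by
  -- first the case m ≥ 0
  have key : ∀ f0 f1 : (Fin n → Bool) → ℝ, (∀ x, |f0 x| < 1) → (∀ x, |f1 x| < 1) →
      0 ≤ (cubeAverage f0 + cubeAverage f1) / 2 →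
      7 / 20 * (1 - ((cubeAverage f0 + cubeAverage f1) / 2) ^ 2) ≤
      (cubeAverage (fun x => signEntropy (f0 x)) + cubeAverage (fun x => signEntropy (f1 x))) / 2 →
      RT ((cubeAverage f0 + cubeAverage f1) / 2)
        ((cubeAverage (fun x => signEntropy (f0 x)) + cubeAverage (fun x => signEntropy (f1 x))) / 2)
      ≤ (RT (cubeAverage f0) (cubeAverage (fun x => signEntropy (f0 x))) +
          RT (cubeAverage f1) (cubeAverage (fun x => signEntropy (f1 x)))) / 2 +
        cubeAverage (fun x => kk (f0 x) (f1 x)) := by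
    intro f0 f1 hf0 hf1 hm hA'
    rcases le_total 0 ((cubeAverage f0 - cubeAverage f1) / 2) with hd | hd
    · exact F72_step_pos H3 H4 H8 H9 H11 f0 f1 hf0 hf1 hm hd hA'
    · have h := F72_step_pos H3 H4 H8 H9 H11 f1 f0 hf1 hf0 (by rwa [add_comm]) (by linarith)
        (by rw [add_comm (cubeAverage f1), add_comm (cubeAverage fun x => signEntropy (f1 x))]
            exact hA')
      rw [add_comm (cubeAverage f1) (cubeAverage f0),
        add_comm (cubeAverage fun x => signEntropy (f1 x)) (cubeAverage fun x => signEntropy (f0 x)),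
        add_comm (RT (cubeAverage f1) _)] at h
      have e : (fun x => kk (f1 x) (f0 x)) = fun x => kk (f0 x) (f1 x) := by
        funext x; exact kk_comm _ _
      rw [e] at h
      exact h
  rcases le_total 0 ((cubeAverage g0 + cubeAverage g1) / 2) with hm | hm
  · exact key g0 g1 h0 h1 hm hA
  · have h := key (fun x => -g0 x) (fun x => -g1 x) (fun x => by rw [abs_neg]; exact h0 x)
      (fun x => by rw [abs_neg]; exact h1 x)
    simp only [cubeAverage_neg', signEntropy_neg] at h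
    rw [show (-cubeAverage g0 + -cubeAverage g1) / 2 = -((cubeAverage g0 + cubeAverage g1) / 2) by
      ring] at h
    rw [neg_sq, RT_neg, RT_neg, RT_neg] at h
    have e : (fun x => kk (-g0 x) (-g1 x)) = fun x => kk (g0 x) (g1 x) := by
      funext x; exact kk_neg_neg (h0 x) (h1 x)
    rw [e] at h
    exact h (by linarith) hA

/-- the rate bound in closed form -/
theorem F72_rate (H7 : GGStmt) (H10 : QoneStmt) (H3 : LocalStmt) (H4 : CornerStmt)
    (H8 : LSuppStmt) (H9 : IoneStmt) (H11 : FFStmt) :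
    ∀ (n : ℕ) (g : (Fin n → Bool) → ℝ), (∀ x, |g x| < 1) →
      RT (cubeAverage g) (cubeAverage fun x => signEntropy (g x)) ≤ production g := by
  intro n
  induction n with
  | zero =>
    intro g hg
    rw [production_zero, cubeAverage_zero, cubeAverage_zero]
    unfold RT
    rw [sub_self, SS_zero]
    norm_num
  | succ n ih =>
    intro g hg
    have hg0 : ∀ x, |sl0 g x| < 1 := fun x => hg _
    have hg1 : ∀ x, |sl1 g x| < 1 := fun x => hg _
    have hm := abs_cubeAverage_lt_one hg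
    have hw := one_sub_sq_cubeAverage_pos hg
    have hApos : 0 < cubeAverage (fun x => signEntropy (g x)) := by
      rw [← cubeAverage_const (n := n + 1) 0]
      exact cubeAverage_lt fun x => signEntropy_pos (hg x)
    rcases le_total (cubeAverage (fun x => signEntropy (g x))) (7 / 20 * (1 - cubeAverage g ^ 2))
      with hA | hA
    · -- use the mean-profile bound
      have h1 := H10 _ _ hm hApos hA
      set m := cubeAverage g with hmd
      set A := cubeAverage (fun x => signEntropy (g x)) with hAd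
      have hA2 : A / (1 - m ^ 2) ≤ Real.log 2 := by
        rw [div_le_iff₀ hw]
        have : (0.6931471803 : ℝ) < Real.log 2 := Real.log_two_gt_d9
        have h7 : (7 / 20 : ℝ) ≤ Real.log 2 := by linarith
        nlinarith
      have hA3 : 0 < A / (1 - m ^ 2) := by positivity
      have ht := hinv_mem hA3
      have hs := signEntropy_hinv hA3 hA2
      have h2 := H7 (n + 1) g hg _ ht.1 ht.2
      rw [← hmd, ← hAd] at h2
      refine le_trans ?_ h2
      have hA4 : A = (1 - m ^ 2) * signEntropy (hinv (A / (1 - m ^ 2))) := by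
        rw [hs]; field_simp
      rw [GG_self hA4]
      unfold RT
      unfold PP at h1
      unfold SS at h1
      rw [sub_sub_cancel] at h1
      unfold SS
      unfold sF psi at h1
      rw [hs] at h1
      have e : (1 - m ^ 2) * (hinv (A / (1 - m ^ 2)) * Real.artanh (hinv (A / (1 - m ^ 2))) -
          2 * (Real.log 2 - A / (1 - m ^ 2))) =
          (1 - m ^ 2) * (hinv (A / (1 - m ^ 2)) * Real.artanh (hinv (A / (1 - m ^ 2))) -
            2 * Real.log 2) + 2 * A := by
        field_simp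
        ring
      rw [e] at h1
      unfold sF psi
      linarith
    · have e0 := ih (sl0 g) hg0
      have e1 := ih (sl1 g) hg1
      rw [production_split, cubeAverage_split, cubeAverage_split (fun x => signEntropy (g x))]
      rw [cubeAverage_split, cubeAverage_split (fun x => signEntropy (g x))] at hA
      have h := F72_step H3 H4 H8 H9 H11 (sl0 g) (sl1 g) hg0 hg1 hA
      refine h.trans ?_
      linarith

/-- the tangent form of the rate bound -/
theorem F72_RR (H7 : GGStmt) (H10 : QoneStmt) (H3 : LocalStmt) (H4 : CornerStmt)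
    (H8 : LSuppStmt) (H9 : IoneStmt) (H11 : FFStmt) :
    ∀ (n : ℕ) (g : (Fin n → Bool) → ℝ), (∀ x, |g x| < 1) → ∀ t, 0 ≤ t → t < 1 →
      RR t (cubeAverage g) (cubeAverage fun x => signEntropy (g x)) ≤ production g := by
  intro n g hg t ht0 ht1
  refine le_trans (F72_RR_le ht0 ht1 ?_) (F72_rate H7 H10 H3 H4 H8 H9 H11 n g hg)
  have hApos : 0 < cubeAverage (fun x => signEntropy (g x)) := by
    rw [← cubeAverage_const (n := n) 0]
    exact cubeAverage_lt fun x => signEntropy_pos (hg x)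
  linarith [signEntropy_le (cubeAverage g)]

/-- S0472 from the interface statements. -/
theorem s0472_of_interface (H7 : GGStmt) (H10 : QoneStmt) (H3 : LocalStmt) (H4 : CornerStmt)
    (H8 : LSuppStmt) (H9 : IoneStmt) (H11 : FFStmt) (n : ℕ) (g : (Fin n → Bool) → ℝ)
    (hg : ∀ x, |g x| < 1) :
    (∀ r : ℝ, 0 ≤ r → r < 1 → Real.log 2 - signEntropy r = information g →
        r * Real.artanh r ≤ production g) ∧
    (surplusArg g < 0 → 2 * information g ≤ production g) ∧
    (∀ s : ℝ, 0 ≤ s → s < 1 → Real.log 2 - signEntropy s = surplusArg g →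
        2 * information g + (1 - cubeAverage g ^ 2) * (s * Real.artanh s - 2 * surplusArg g)
          ≤ production g) :=
  s0472_of_tangent (F72_RR H7 H10 H3 H4 H8 H9 H11) H7 n g hg

/-- S0470 from the interface statements. -/
theorem s0470_of_interface (H7 : GGStmt) (H10 : QoneStmt) (H3 : LocalStmt) (H4 : CornerStmt)
    (H8 : LSuppStmt) (H9 : IoneStmt) (H11 : FFStmt) (n : ℕ) (u : (Fin n → Bool) → ℝ)
    (hu : ∀ x, |u x| ≤ 1) (ρ : ℝ) (hρ : |ρ| ≤ 1) (r : ℝ) (hr : 0 ≤ r) (hr1 : r ≤ 1)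
    (hI : information u = Real.log 2 - signEntropy r) :
    information (noise ρ u) ≤ Real.log 2 - signEntropy (|ρ| * r) :=
  Ode.s0470_of_rate (fun n g hg => (s0472_of_interface H7 H10 H3 H4 H8 H9 H11 n g hg).1)
    n u hu ρ hρ r hr hr1 hI

end Crest.Agent.R307
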