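import Crest.Agent.R307.Split
import Crest.Agent.R307.Calc

/-!
Row 307 (S0472), second batch of shared definitions (captain helper307): the subadditivity route.
-/

set_option autoImplicit false

open Set Crest.CubeNoise

namespace Crest.Agent.R307

/-- `io a b = h((a+b)/2) - (h a + h b)/2`. -/
noncomputable def io (a b : ℝ) : ℝ := signEntropy ((a + b) / 2) - (signEntropy a + signEntropy b) / 2

/-- `cc t = CC t - 2 log 2`. -/
noncomputable def cc (t : ℝ) : ℝ := CC t - 2 * Real.log 2

/-- `sF x = x artanh x - 2 psi x`, i.e. `S (psi x)`. -/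
noncomputable def sF (x : ℝ) : ℝ := x * Real.artanh x - 2 * psi x

/-- inverse of `signEntropy` on `[0,1)`; value `0` for arguments `≥ log 2`. -/
noncomputable def hinv (y : ℝ) : ℝ :=
  if h : 0 < y ∧ y ≤ Real.log 2 then Classical.choose (exists_signEntropy_eq h.1 h.2) else 0

/-- the function `S`: `S I = sF r` where `psi r = I`, and `S I = 0` for `I ≤ 0` (use for `I < log 2`). -/
noncomputable def SS (I : ℝ) : ℝ := sF (hinv (Real.log 2 - I))

/-- `PP w A = w * S (log 2 - A / w)`, the perspective. -/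
noncomputable def PP (w A : ℝ) : ℝ := w * SS (Real.log 2 - A / w)

/-- `L a b = kk a b - 2 io a b`. -/
noncomputable def LL (a b : ℝ) : ℝ := kk a b - 2 * io a b

theorem hinv_mem {y : ℝ} (h0 : 0 < y) : 0 ≤ hinv y ∧ hinv y < 1 := by
  unfold hinv
  split_ifs with h
  · exact ⟨(Classical.choose_spec (exists_signEntropy_eq h.1 h.2)).1,
      (Classical.choose_spec (exists_signEntropy_eq h.1 h.2)).2.1⟩
  · norm_num

theorem signEntropy_hinv {y : ℝ} (h0 : 0 < y) (h1 : y ≤ Real.log 2) : signEntropy (hinv y) = y := by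
  unfold hinv
  rw [dif_pos ⟨h0, h1⟩]
  exact (Classical.choose_spec (exists_signEntropy_eq h0 h1)).2.2

theorem hinv_of_gt {y : ℝ} (h1 : Real.log 2 < y) : hinv y = 0 := by
  unfold hinv
  rw [dif_neg]
  rintro ⟨_, h⟩
  linarith

theorem hinv_signEntropy {r : ℝ} (h0 : 0 ≤ r) (h1 : r < 1) : hinv (signEntropy r) = r := by
  have hp : 0 < signEntropy r := signEntropy_pos (abs_lt_one_of_mem h0 h1)
  have hm := hinv_mem hp
  have he := signEntropy_hinv hp (signEntropy_le r)
  exact strictAntiOn_signEntropy.injOn ⟨hm.1, hm.2.le⟩ ⟨h0, h1.le⟩ he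

theorem SS_psi {r : ℝ} (h0 : 0 ≤ r) (h1 : r < 1) : SS (psi r) = sF r := by
  unfold SS psi
  rw [sub_sub_cancel, hinv_signEntropy h0 h1]

theorem sF_zero : sF 0 = 0 := by simp [sF, psi_zero]

theorem SS_of_neg {I : ℝ} (h : I < 0) : SS I = 0 := by
  unfold SS
  rw [hinv_of_gt (by linarith), sF_zero]

theorem SS_zero : SS 0 = 0 := by
  have := SS_psi (r := 0) le_rfl one_pos
  rwa [psi_zero, sF_zero] at this

end Crest.Agent.R307
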