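import Crest.Agent.R307.Split
import Crest.Agent.R307.SubDefs
import Crest.Agent.R307.Calc

-- ▼ part R307/LSupp
section

/-!
Row 307 (S0472), task T8: supporting plane for `LL` (helper862).
-/

set_option autoImplicit false

open Set Crest.CubeNoise

namespace Crest.Agent.R307

namespace LSupp

theorem persp_aux {a b : ℝ} (ha : |a| < 1) (hb : |b| < 1) :
    |(a + b) / 2| < 1 ∧ |(a - b) / 2 / (1 + (a + b) / 2)| < 1 ∧
      |(a - b) / 2 / (1 - (a + b) / 2)| < 1 := by
  obtain ⟨a1, a2⟩ := abs_lt.mp ha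
  obtain ⟨b1, b2⟩ := abs_lt.mp hb
  have h1 : 0 < 1 + (a + b) / 2 := by linarith
  have h2 : 0 < 1 - (a + b) / 2 := by linarith
  refine ⟨?_, ?_, ?_⟩
  · rw [abs_lt]; constructor <;> linarith
  · rw [abs_lt, lt_div_iff₀ h1, div_lt_iff₀ h1]; constructor <;> linarith
  · rw [abs_lt, lt_div_iff₀ h2, div_lt_iff₀ h2]; constructor <;> linarith

theorem psi_logs {x : ℝ} (hx : |x| < 1) :
    psi x = ((1 + x) * Real.log (1 + x) + (1 - x) * Real.log (1 - x)) / 2 := by
  unfold psi
  rw [signEntropy_eq_logs hx.le]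
  ring

theorem logs_plus {a b : ℝ} (ha : |a| < 1) (hb : |b| < 1) :
    1 + (a - b) / 2 / (1 + (a + b) / 2) = (1 + a) / (1 + (a + b) / 2) ∧
    1 - (a - b) / 2 / (1 + (a + b) / 2) = (1 + b) / (1 + (a + b) / 2) := by
  obtain ⟨a1, a2⟩ := abs_lt.mp ha
  obtain ⟨b1, b2⟩ := abs_lt.mp hb
  have h1 : 0 < 1 + (a + b) / 2 := by linarith
  constructor
  · rw [eq_div_iff h1.ne', add_mul, div_mul_cancel₀ _ h1.ne']; ring
  · rw [eq_div_iff h1.ne', sub_mul, div_mul_cancel₀ _ h1.ne']; ring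

theorem logs_minus {a b : ℝ} (ha : |a| < 1) (hb : |b| < 1) :
    1 + (a - b) / 2 / (1 - (a + b) / 2) = (1 - b) / (1 - (a + b) / 2) ∧
    1 - (a - b) / 2 / (1 - (a + b) / 2) = (1 - a) / (1 - (a + b) / 2) := by
  obtain ⟨a1, a2⟩ := abs_lt.mp ha
  obtain ⟨b1, b2⟩ := abs_lt.mp hb
  have h1 : 0 < 1 - (a + b) / 2 := by linarith
  constructor
  · rw [eq_div_iff h1.ne', add_mul, div_mul_cancel₀ _ h1.ne']; ring
  · rw [eq_div_iff h1.ne', sub_mul, div_mul_cancel₀ _ h1.ne']; ring

theorem kk_persp' {a b : ℝ} (ha : |a| < 1) (hb : |b| < 1) :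
    kk a b = ((1 + (a + b) / 2) * ((a - b) / 2 / (1 + (a + b) / 2) *
        Real.artanh ((a - b) / 2 / (1 + (a + b) / 2))) +
      (1 - (a + b) / 2) * ((a - b) / 2 / (1 - (a + b) / 2) *
        Real.artanh ((a - b) / 2 / (1 - (a + b) / 2)))) / 2 := by
  obtain ⟨a1, a2⟩ := abs_lt.mp ha
  obtain ⟨b1, b2⟩ := abs_lt.mp hb
  have h1 : 0 < 1 + (a + b) / 2 := by linarith
  have h2 : 0 < 1 - (a + b) / 2 := by linarith
  obtain ⟨_, hp, hm⟩ := persp_aux ha hb
  rw [artanh_eq_log_sub hp, artanh_eq_log_sub hm, (logs_plus ha hb).1, (logs_plus ha hb).2,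
    (logs_minus ha hb).1, (logs_minus ha hb).2,
    Real.log_div (by linarith) h1.ne', Real.log_div (by linarith) h1.ne',
    Real.log_div (by linarith) h2.ne', Real.log_div (by linarith) h2.ne',
    ← mul_assoc, ← mul_assoc, mul_div_cancel₀ _ h1.ne', mul_div_cancel₀ _ h2.ne']
  unfold kk
  rw [artanh_eq_log_sub ha, artanh_eq_log_sub hb]
  ring

theorem io_persp' {a b : ℝ} (ha : |a| < 1) (hb : |b| < 1) :
    io a b = ((1 + (a + b) / 2) * psi ((a - b) / 2 / (1 + (a + b) / 2)) +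
      (1 - (a + b) / 2) * psi ((a - b) / 2 / (1 - (a + b) / 2))) / 2 := by
  obtain ⟨a1, a2⟩ := abs_lt.mp ha
  obtain ⟨b1, b2⟩ := abs_lt.mp hb
  have h1 : 0 < 1 + (a + b) / 2 := by linarith
  have h2 : 0 < 1 - (a + b) / 2 := by linarith
  obtain ⟨hM, hp, hm⟩ := persp_aux ha hb
  rw [psi_logs hp, psi_logs hm, (logs_plus ha hb).1, (logs_plus ha hb).2,
    (logs_minus ha hb).1, (logs_minus ha hb).2,
    Real.log_div (by linarith) h1.ne', Real.log_div (by linarith) h1.ne',
    Real.log_div (by linarith) h2.ne', Real.log_div (by linarith) h2.ne']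
  have key : ∀ P u v X Y : ℝ, P ≠ 0 → P * ((u / P * X + v / P * Y) / 2) = (u * X + v * Y) / 2 := by
    intro P u v X Y hP
    field_simp
  rw [key _ _ _ _ _ h1.ne', key _ _ _ _ _ h2.ne']
  unfold io
  rw [signEntropy_eq_logs hM.le, signEntropy_eq_logs ha.le, signEntropy_eq_logs hb.le]
  ring

/-- the function `sF - lam psi` -/
noncomputable def chi (lam x : ℝ) : ℝ := sF x - lam * psi x

theorem LL_persp' {a b : ℝ} (ha : |a| < 1) (hb : |b| < 1) (lam : ℝ) :
    LL a b - lam * io a b =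
      ((1 + (a + b) / 2) * chi lam ((a - b) / 2 / (1 + (a + b) / 2)) +
      (1 - (a + b) / 2) * chi lam ((a - b) / 2 / (1 - (a + b) / 2))) / 2 := by
  unfold LL chi sF
  rw [kk_persp' ha hb, io_persp' ha hb]
  ring

theorem sF_neg {x : ℝ} (hx : |x| < 1) : sF (-x) = sF x := by
  unfold sF
  rw [artanh_neg' hx, psi_neg]
  ring

theorem sF_abs {x : ℝ} (hx : |x| < 1) : sF |x| = sF x := by
  rcases abs_choice x with h | h <;> rw [h]
  exact sF_neg hx

theorem psi_abs (x : ℝ) : psi |x| = psi x := by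
  rcases abs_choice x with h | h <;> rw [h]
  exact psi_neg x

/-- tangent inequality for `S` in the parameter -/
theorem sF_tangent {t x : ℝ} (h0 : 0 ≤ t) (h1 : t < 1) (hx : |x| < 1) :
    sF t + (kappa t - 2) * (psi x - psi t) ≤ sF x := by
  have h := F_tangent_le h0 h1 (abs_nonneg x) hx
  rw [← sF_abs hx, ← psi_abs x]
  unfold sF
  linarith

/-- `chi` is minimal at `ε` for `lam = kappa ε - 2` -/
theorem chi_min {ε x : ℝ} (h0 : 0 ≤ ε) (h1 : ε < 1) (hx : |x| < 1) :
    chi (kappa ε - 2) ε ≤ chi (kappa ε - 2) x := by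
  have h := sF_tangent h0 h1 hx
  unfold chi
  linarith

theorem chi_support {ε x0 x : ℝ} (h0 : 0 ≤ ε) (hle : ε ≤ x0) (h1 : x0 < 1) (hx : |x| < 1) :
    chi (kappa ε - 2) x0 + (kappa x0 - kappa ε) * Real.artanh x0 * (x - x0) ≤
      chi (kappa ε - 2) x := by
  have hx0 : 0 ≤ x0 := h0.trans hle
  have h := sF_tangent hx0 h1 hx
  have hk : kappa ε ≤ kappa x0 :=
    strictMonoOn_kappa.monotoneOn ⟨h0, hle.trans_lt h1⟩ ⟨hx0, h1⟩ hle
  have hp : Real.artanh x0 * (x - x0) ≤ psi x - psi x0 := by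
    have := signEntropy_le_tangent hx.le (abs_lt_one_of_mem hx0 h1)
    unfold psi
    linarith
  have h2 := mul_le_mul_of_nonneg_left hp (by linarith : 0 ≤ kappa x0 - kappa ε)
  unfold chi
  nlinarith

end LSupp

open LSupp in
/-- supporting plane of `LL - lam io` at `(m+δ, m-δ)`, `lam = kappa (δ/(1+m)) - 2`. -/
theorem LL_support {m δ : ℝ} (hm0 : 0 ≤ m) (hm1 : m < 1) (hδ0 : 0 ≤ δ) (hδ : δ < 1 - m) :
    ∃ c0 c1 c2 : ℝ,
      (∀ a b : ℝ, |a| < 1 → |b| < 1 →
        c0 + c1 * ((a + b) / 2) + c2 * ((a - b) / 2) ≤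
          LL a b - (kappa (δ / (1 + m)) - 2) * io a b) ∧
      c0 + c1 * m + c2 * δ =
        LL (m + δ) (m - δ) - (kappa (δ / (1 + m)) - 2) * io (m + δ) (m - δ) := by
  set ε : ℝ := δ / (1 + m) with hε
  set x0 : ℝ := δ / (1 - m) with hx0
  have hp : 0 < 1 + m := by linarith
  have hq : 0 < 1 - m := by linarith
  have hε0 : 0 ≤ ε := by positivity
  have hεx : ε ≤ x0 := by
    rw [hε, hx0]
    exact div_le_div_of_nonneg_left hδ0 hq (by linarith)
  have hx1 : x0 < 1 := by rw [hx0, div_lt_one hq]; exact hδ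
  have hε1 : ε < 1 := hεx.trans_lt hx1
  set lam : ℝ := kappa ε - 2 with hlam
  set s : ℝ := (kappa x0 - kappa ε) * Real.artanh x0 with hs
  refine ⟨(chi lam ε + chi lam x0 - s * x0) / 2, (chi lam ε - chi lam x0 + s * x0) / 2, s / 2,
    ?_, ?_⟩
  · intro a b ha hb
    obtain ⟨hM, hxp, hxm⟩ := persp_aux ha hb
    rw [LL_persp' ha hb lam]
    set M : ℝ := (a + b) / 2
    set d : ℝ := (a - b) / 2
    obtain ⟨hM1, hM2⟩ := abs_lt.mp hM
    have h1 : 0 < 1 + M := by linarith
    have h2 : 0 < 1 - M := by linarith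
    have e1 := mul_le_mul_of_nonneg_left (chi_min hε0 hε1 hxp) h1.le
    have e2 := mul_le_mul_of_nonneg_left (chi_support hε0 hεx hx1 hxm) h2.le
    rw [← hlam, ← hs] at e2
    rw [← hlam] at e1
    have e3 : (1 - M) * (s * (d / (1 - M) - x0)) = s * (d - (1 - M) * x0) := by
      field_simp
    nlinarith
  · have hA : |m + δ| < 1 := by rw [abs_lt]; constructor <;> linarith
    have hB : |m - δ| < 1 := by rw [abs_lt]; constructor <;> linarith
    rw [LL_persp' hA hB lam]
    have e1 : (m + δ + (m - δ)) / 2 = m := by ring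
    have e2 : (m + δ - (m - δ)) / 2 = δ := by ring
    rw [e1, e2, ← hε, ← hx0]
    have e3 : (1 - m) * x0 = δ := by rw [hx0]; field_simp
    linear_combination (-s / 2) * e3

/-- cube version of `LL_support` -/
theorem LL_cube_support {n : ℕ} (g0 g1 : (Fin n → Bool) → ℝ) (h0 : ∀ x, |g0 x| < 1)
    (h1 : ∀ x, |g1 x| < 1) {m0 m1 m δ : ℝ} (hm0 : m0 = cubeAverage g0) (hm1 : m1 = cubeAverage g1)
    (hm : m = (m0 + m1) / 2) (hδ : δ = (m0 - m1) / 2) (hmn : 0 ≤ m) (hδn : 0 ≤ δ) :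
    LL m0 m1 + (kappa (δ / (1 + m)) - 2) *
        (cubeAverage (fun x => io (g0 x) (g1 x)) - io m0 m1) ≤
      cubeAverage (fun x => LL (g0 x) (g1 x)) := by
  have a0 : |m0| < 1 := by rw [hm0]; exact abs_cubeAverage_lt_one h0
  have a1 : |m1| < 1 := by rw [hm1]; exact abs_cubeAverage_lt_one h1
  obtain ⟨a01, a02⟩ := abs_lt.mp a0
  obtain ⟨a11, a12⟩ := abs_lt.mp a1
  obtain ⟨c0, c1, c2, hsup, heq⟩ := LL_support (m := m) (δ := δ) hmn (by linarith) hδn (by linarith)
  have e0 : m + δ = m0 := by rw [hm, hδ]; ring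
  have e1 : m - δ = m1 := by rw [hm, hδ]; ring
  rw [e0, e1] at heq
  have h := cubeAverage_mono
    (g := fun x => c0 + (c1 * ((g0 x + g1 x) / 2) + c2 * ((g0 x - g1 x) / 2)))
    (h := fun x => LL (g0 x) (g1 x) + (-(kappa (δ / (1 + m)) - 2)) * io (g0 x) (g1 x))
    (fun x => by
      have := hsup (g0 x) (g1 x) (h0 x) (h1 x)
      linarith)
  have hl : cubeAverage (fun x => c0 + (c1 * ((g0 x + g1 x) / 2) + c2 * ((g0 x - g1 x) / 2))) =
      c0 + c1 * m + c2 * δ := by
    have e : (fun x => c0 + (c1 * ((g0 x + g1 x) / 2) + c2 * ((g0 x - g1 x) / 2))) =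
        fun x => c0 + ((c1 + c2) / 2 * g0 x + (c1 - c2) / 2 * g1 x) := by
      funext x; ring
    rw [e, cubeAverage_add (fun _ => c0) (fun x => (c1 + c2) / 2 * g0 x + (c1 - c2) / 2 * g1 x),
      cubeAverage_add (fun x => (c1 + c2) / 2 * g0 x) (fun x => (c1 - c2) / 2 * g1 x),
      cubeAverage_const, cubeAverage_const_mul, cubeAverage_const_mul, ← hm0, ← hm1, hm, hδ]
    ring
  rw [hl, cubeAverage_add (fun x => LL (g0 x) (g1 x)), cubeAverage_const_mul, heq] at h
  linarith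

end Crest.Agent.R307
end

-- ▼ part R307/Ione
section

/-!
Row 307 (S0472), task T9: bounds for `y = h(m) - E h(M)` (helper862).
-/

set_option autoImplicit false

open Set Crest.CubeNoise

namespace Crest.Agent.R307

namespace Ione

/-- the segment from `m` to `M` -/
theorem abs_seg_le {m M s : ℝ} (hm0 : 0 ≤ m) (hm1 : m < 1) (hM : |M| ≤ 1)
    (hs0 : 0 ≤ s) (hs1 : s ≤ 1) : |m + s * (M - m)| ≤ m + s * (1 - m) := by
  obtain ⟨h1, h2⟩ := abs_le.mp hM
  rw [abs_le]
  constructor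
  · nlinarith [mul_nonneg hs0 (by linarith : (0:ℝ) ≤ M + 1),
      mul_nonneg hm0 (by linarith : (0:ℝ) ≤ 1 - s)]
  · nlinarith [mul_nonneg hs0 (by linarith : (0:ℝ) ≤ 1 - M)]

theorem seg_lt_one {m s : ℝ} (hm1 : m < 1) (hs1 : s < 1) : m + s * (1 - m) < 1 := by
  nlinarith [mul_pos (by linarith : (0:ℝ) < 1 - s) (by linarith : (0:ℝ) < 1 - m)]

end Ione

open Ione in
/-- pointwise second order bound for `signEntropy` at `m ∈ [0,1)` -/
theorem signEntropy_tangent_sub_le {m M : ℝ} (hm0 : 0 ≤ m) (hm1 : m < 1) (hM : |M| ≤ 1) :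
    signEntropy m - Real.artanh m * (M - m) - signEntropy M ≤
      Real.log (2 / (1 + m)) / (1 - m) ^ 2 * (M - m) ^ 2 := by
  have hmm : 0 < 1 - m := by linarith
  set c : ℝ := (M - m) ^ 2 / (1 - m) ^ 2 with hc
  have hc0 : 0 ≤ c := by positivity
  have hc1 : c * (1 - m) ^ 2 = (M - m) ^ 2 := by rw [hc]; field_simp
  -- the function
  set f : ℝ → ℝ := fun s =>
    (signEntropy m - Real.artanh m * ((m + s * (M - m)) - m) - signEntropy (m + s * (M - m))) -
      c * (signEntropy m - Real.artanh m * ((m + s * (1 - m)) - m) -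
        signEntropy (m + s * (1 - m))) with hf
  set f' : ℝ → ℝ := fun s =>
    (M - m) * (Real.artanh (m + s * (M - m)) - Real.artanh m) -
      c * ((1 - m) * (Real.artanh (m + s * (1 - m)) - Real.artanh m)) with hf'
  have hx : ∀ s : ℝ, 0 ≤ s → s < 1 → |m + s * (M - m)| < 1 := fun s hs0 hs1 =>
    (abs_seg_le hm0 hm1 hM hs0 hs1.le).trans_lt (seg_lt_one hm1 hs1)
  have hy : ∀ s : ℝ, 0 ≤ s → s < 1 → |m + s * (1 - m)| < 1 := fun s hs0 hs1 => by
    have := abs_seg_le (s := s) hm0 hm1 (M := 1) (by simp) hs0 hs1.le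
    exact this.trans_lt (seg_lt_one hm1 hs1)
  have dlin : ∀ (u s : ℝ), HasDerivAt (fun s : ℝ => m + s * u) u s := fun u s => by
    have := ((hasDerivAt_id s).mul_const u).const_add m
    simpa using this
  have dA : ∀ (u s : ℝ), |m + s * u| < 1 → HasDerivAt (fun s : ℝ =>
      signEntropy m - Real.artanh m * ((m + s * u) - m) - signEntropy (m + s * u))
      (u * (Real.artanh (m + s * u) - Real.artanh m)) s := by
    intro u s hs
    have h1 := (hasDerivAt_signEntropy hs).comp s (dlin u s)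
    have h2 := (((dlin u s).sub_const m).const_mul (Real.artanh m)).const_sub (signEntropy m)
    have h3 := h2.sub h1
    refine h3.congr_deriv ?_
    ring
  have df : ∀ s : ℝ, 0 ≤ s → s < 1 → HasDerivAt f (f' s) s := by
    intro s hs0 hs1
    have h1 := dA (M - m) s (hx s hs0 hs1)
    have h2 := dA (1 - m) s (hy s hs0 hs1)
    exact h1.sub (h2.const_mul c)
  have dB : ∀ (u s : ℝ), |m + s * u| < 1 → HasDerivAt (fun s : ℝ =>
      u * (Real.artanh (m + s * u) - Real.artanh m))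
      (u ^ 2 * (1 / (1 - (m + s * u) ^ 2))) s := by
    intro u s hs
    have h1 := (hasDerivAt_artanh hs).comp s (dlin u s)
    have h3 := (h1.sub_const (Real.artanh m)).const_mul u
    refine h3.congr_deriv ?_
    ring
  have df' : ∀ s : ℝ, 0 ≤ s → s < 1 → HasDerivAt f'
      ((M - m) ^ 2 * (1 / (1 - (m + s * (M - m)) ^ 2)) -
        c * ((1 - m) ^ 2 * (1 / (1 - (m + s * (1 - m)) ^ 2)))) s := by
    intro s hs0 hs1
    have h1 := dB (M - m) s (hx s hs0 hs1)
    have h2 := dB (1 - m) s (hy s hs0 hs1)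
    exact h1.sub (h2.const_mul c)
  have hneg' : ∀ s ∈ Ico (0 : ℝ) 1, f' s ≤ 0 := by
    have hanti : AntitoneOn f' (Ico 0 1) := by
      refine antitoneOn_of_deriv_nonpos (convex_Ico 0 1) ?_ ?_ ?_
      · intro s hs
        exact (df' s hs.1 hs.2).continuousAt.continuousWithinAt
      · rw [interior_Ico]
        intro s hs
        exact (df' s hs.1.le hs.2).differentiableAt.differentiableWithinAt
      · rw [interior_Ico]
        intro s hs
        rw [(df' s hs.1.le hs.2).deriv, ← mul_assoc c, hc1, ← mul_sub]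
        have hle := abs_seg_le hm0 hm1 hM hs.1.le hs.2.le
        have hlt := seg_lt_one (m := m) hm1 hs.2
        have hy0 : 0 ≤ m + s * (1 - m) := (abs_nonneg _).trans hle
        have hsq : (m + s * (M - m)) ^ 2 ≤ (m + s * (1 - m)) ^ 2 := by
          rw [← sq_abs (m + s * (M - m))]
          exact pow_le_pow_left₀ (abs_nonneg _) hle 2
        have h1 : 0 < 1 - (m + s * (1 - m)) ^ 2 := by nlinarith
        have h2 : 1 / (1 - (m + s * (M - m)) ^ 2) ≤ 1 / (1 - (m + s * (1 - m)) ^ 2) :=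
          one_div_le_one_div_of_le h1 (by linarith)
        exact mul_nonpos_of_nonneg_of_nonpos (sq_nonneg _) (by linarith)
    intro s hs
    have h := hanti (left_mem_Ico.mpr one_pos) hs hs.1
    have h0 : f' 0 = 0 := by simp [hf']
    rwa [h0] at h
  have hantif : AntitoneOn f (Icc 0 1) := by
    refine antitoneOn_of_deriv_nonpos (convex_Icc 0 1) ?_ ?_ ?_
    · have c1 : Continuous f := by
        rw [hf]
        have := continuous_signEntropy
        fun_prop
      exact c1.continuousOn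
    · rw [interior_Icc]
      intro s hs
      exact (df s hs.1.le hs.2).differentiableAt.differentiableWithinAt
    · rw [interior_Icc]
      intro s hs
      rw [(df s hs.1.le hs.2).deriv]
      exact hneg' s ⟨hs.1.le, hs.2⟩
  have h := hantif (left_mem_Icc.mpr zero_le_one) (right_mem_Icc.mpr zero_le_one) zero_le_one
  have h0 : f 0 = 0 := by simp [hf]
  have e1 : signEntropy m - Real.artanh m * (1 - m) - signEntropy 1 = Real.log (2 / (1 + m)) := by
    have hma : |m| < 1 := abs_lt_one_of_mem hm0 hm1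
    rw [signEntropy_eq_logs hma.le, artanh_eq_log_sub hma, signEntropy_one,
      Real.log_div two_ne_zero (by linarith)]
    ring
  have h1 : f 1 = (signEntropy m - Real.artanh m * (M - m) - signEntropy M) -
      c * Real.log (2 / (1 + m)) := by
    rw [← e1, hf]
    simp only [one_mul, add_sub_cancel]
  rw [h0, h1] at h
  have e2 : Real.log (2 / (1 + m)) / (1 - m) ^ 2 * (M - m) ^ 2 = c * Real.log (2 / (1 + m)) := by
    rw [hc]; ring
  rw [e2]
  linarith

/-- cube version, general function `G` -/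
theorem Ione_cube_general {n : ℕ} (G : (Fin n → Bool) → ℝ) (hG : ∀ x, |G x| < 1)
    {m V : ℝ} (hm : m = cubeAverage G) (hm0 : 0 ≤ m)
    (hV : V = cubeAverage (fun x => (G x) ^ 2) - m ^ 2) :
    0 ≤ signEntropy m - cubeAverage (fun x => signEntropy (G x)) ∧
    signEntropy m - cubeAverage (fun x => signEntropy (G x)) ≤
      Real.log (2 / (1 + m)) / (1 - m) ^ 2 * V ∧
    signEntropy m - cubeAverage (fun x => signEntropy (G x)) ≤
      signEntropy m - (1 - m ^ 2) * Real.log 2 + V * Real.log 2 := by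
  have hma : |m| < 1 := by rw [hm]; exact abs_cubeAverage_lt_one hG
  have hm1 : m < 1 := (abs_lt.mp hma).2
  set K : ℝ := Real.log (2 / (1 + m)) / (1 - m) ^ 2 with hK
  have hlin : ∀ a b c : ℝ, cubeAverage (fun x => a + b * G x + c * (G x) ^ 2) =
      a + b * m + c * cubeAverage (fun x => (G x) ^ 2) := by
    intro a b c
    rw [cubeAverage_add (fun x => a + b * G x) (fun x => c * (G x) ^ 2),
      cubeAverage_add (fun _ => a) (fun x => b * G x), cubeAverage_const,
      cubeAverage_const_mul, cubeAverage_const_mul, ← hm]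
  refine ⟨?_, ?_, ?_⟩
  · have h := cubeAverage_mono (g := fun x => signEntropy (G x))
      (h := fun x => (signEntropy m + Real.artanh m * m) + (-Real.artanh m) * G x +
        0 * (G x) ^ 2) (fun x => by
          have := signEntropy_le_tangent (hG x).le hma
          linarith)
    rw [hlin] at h
    linarith
  · have h := cubeAverage_mono
      (g := fun x => (signEntropy m + Real.artanh m * m - K * m ^ 2) +
        (-Real.artanh m + 2 * K * m) * G x + (-K) * (G x) ^ 2)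
      (h := fun x => signEntropy (G x)) (fun x => by
          have := signEntropy_tangent_sub_le hm0 hm1 (hG x).le
          rw [← hK] at this
          nlinarith)
    rw [hlin] at h
    rw [hV]
    nlinarith
  · have h := cubeAverage_mono
      (g := fun x => Real.log 2 + 0 * G x + (-Real.log 2) * (G x) ^ 2)
      (h := fun x => signEntropy (G x)) (fun x => by
          have := le_signEntropy (hG x).le
          nlinarith)
    rw [hlin] at h
    rw [hV]
    nlinarith

/-- cube version in the notation of task T3: `m = (E g0 + E g1)/2`, `G = (g0+g1)/2`,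
`V = E G^2 - m^2`. -/
theorem Ione_cube {n : ℕ} (g0 g1 : (Fin n → Bool) → ℝ) (h0 : ∀ x, |g0 x| < 1)
    (h1 : ∀ x, |g1 x| < 1) {m V : ℝ} (hm : m = (cubeAverage g0 + cubeAverage g1) / 2)
    (hm0 : 0 ≤ m) (hV : V = cubeAverage (fun x => ((g0 x + g1 x) / 2) ^ 2) - m ^ 2) :
    0 ≤ signEntropy m - cubeAverage (fun x => signEntropy ((g0 x + g1 x) / 2)) ∧
    signEntropy m - cubeAverage (fun x => signEntropy ((g0 x + g1 x) / 2)) ≤
      Real.log (2 / (1 + m)) / (1 - m) ^ 2 * V ∧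
    signEntropy m - cubeAverage (fun x => signEntropy ((g0 x + g1 x) / 2)) ≤
      signEntropy m - (1 - m ^ 2) * Real.log 2 + V * Real.log 2 := by
  refine Ione_cube_general (fun x => (g0 x + g1 x) / 2) (fun x => ?_) ?_ hm0 hV
  · have a0 := abs_lt.mp (h0 x)
    have a1 := abs_lt.mp (h1 x)
    rw [abs_lt]
    constructor <;> linarith [a0.1, a0.2, a1.1, a1.2]
  · rw [hm]
    have : (fun x => (g0 x + g1 x) / 2) = fun x => (1 / 2 : ℝ) * (g0 x + g1 x) := by
      funext x; ring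
    rw [this, cubeAverage_const_mul, cubeAverage_add]
    ring

end Crest.Agent.R307
end

-- ▼ part R307/Qone

/-!
Row 307 (S0472), task T10: region split (Q1) (helper208).
`SS (signEntropy m - A) ≤ PP (1 - m^2) A` for `0 < A ≤ (7/20)(1 - m^2)`.
-/

set_option autoImplicit false

open Set Crest.CubeNoise

namespace Crest.Agent.R307.Q1

open Crest.Agent.R307

/-! ### log bounds -/

lemma log2_lo : (0.6931471803 : ℝ) < Real.log 2 := Real.log_two_gt_d9
lemma log2_hi : Real.log 2 < (0.6931471808 : ℝ) := Real.log_two_lt_d9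

lemma log3_bounds : (1.0986122 : ℝ) < Real.log 3 ∧ Real.log 3 < 1.0986124 := by
  have h := Real.abs_log_sub_add_sum_range_le (x := 1 / 9) (by norm_num) 8
  have e : Real.log (1 - 1 / 9) = 3 * Real.log 2 - 2 * Real.log 3 := by
    rw [show (1 : ℝ) - 1 / 9 = 2 ^ 3 / 3 ^ 2 by norm_num,
      Real.log_div (by norm_num) (by norm_num), Real.log_pow, Real.log_pow]
    norm_num
  rw [e] at h
  norm_num [Finset.sum_range_succ] at h
  obtain ⟨h1, h2⟩ := abs_le.1 h
  have := log2_lo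
  have := log2_hi
  constructor <;> linarith

lemma log5_bounds : (1.6094378 : ℝ) < Real.log 5 ∧ Real.log 5 < 1.6094380 := by
  have h := Real.abs_log_sub_add_sum_range_le (x := 3 / 128) (by norm_num) 5
  have e : Real.log (1 - 3 / 128) = 3 * Real.log 5 - 7 * Real.log 2 := by
    rw [show (1 : ℝ) - 3 / 128 = 5 ^ 3 / 2 ^ 7 by norm_num,
      Real.log_div (by norm_num) (by norm_num), Real.log_pow, Real.log_pow]
    norm_num
  rw [e] at h
  norm_num [Finset.sum_range_succ] at h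
  obtain ⟨h1, h2⟩ := abs_le.1 h
  have := log2_lo
  have := log2_hi
  constructor <;> linarith

lemma log7_bounds : (1.9459100 : ℝ) < Real.log 7 ∧ Real.log 7 < 1.9459103 := by
  have h := Real.abs_log_sub_add_sum_range_le (x := 1 / 50) (by norm_num) 5
  have e : Real.log (1 - 1 / 50) = 2 * Real.log 7 - Real.log 2 - 2 * Real.log 5 := by
    rw [show (1 : ℝ) - 1 / 50 = 7 ^ 2 / (2 * 5 ^ 2) by norm_num,
      Real.log_div (by norm_num) (by norm_num), Real.log_mul (by norm_num) (by norm_num),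
      Real.log_pow, Real.log_pow]
    push_cast
    ring
  rw [e] at h
  norm_num [Finset.sum_range_succ] at h
  obtain ⟨h1, h2⟩ := abs_le.1 h
  have := log2_lo
  have := log2_hi
  obtain ⟨h3, h4⟩ := log5_bounds
  constructor <;> linarith

/-! ### `SS` -/

lemma hinv_spec {I : ℝ} (h0 : 0 ≤ I) (h1 : I < Real.log 2) :
    ∃ r : ℝ, 0 ≤ r ∧ r < 1 ∧ psi r = I ∧ SS I = sF r := by
  obtain ⟨r, hr0, hr1, hr⟩ := exists_psi_eq h0 h1
  exact ⟨r, hr0, hr1, hr, by rw [← hr, SS_psi hr0 hr1]⟩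

/-- tangent lines of `SS` stay below -/
lemma SS_tangent {t I : ℝ} (h0 : 0 ≤ t) (h1 : t < 1) (hI : I < Real.log 2) :
    sF t + (kappa t - 2) * (I - psi t) ≤ SS I := by
  rcases lt_or_ge I 0 with h | h
  · rw [SS_of_neg h]
    have e := F_tangent_le h0 h1 le_rfl one_pos
    rw [psi_zero, zero_mul] at e
    have hk := two_le_kappa h0 h1
    unfold sF
    nlinarith
  · obtain ⟨r, hr0, hr1, hr, hS⟩ := hinv_spec h hI
    have e := F_tangent_le h0 h1 hr0 hr1
    rw [hS, ← hr]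
    unfold sF
    linarith

lemma SS_nonneg {I : ℝ} (hI : I < Real.log 2) : 0 ≤ SS I := by
  have := SS_tangent (t := 0) le_rfl one_pos hI
  rw [sF_zero, kappa_zero] at this
  linarith

lemma SS_convexOn : ConvexOn ℝ (Iio (Real.log 2)) SS := by
  refine ⟨convex_Iio _, fun x hx y hy a b ha hb hab => ?_⟩
  simp only [smul_eq_mul]
  have hx' : x < Real.log 2 := hx
  have hy' : y < Real.log 2 := hy
  have hz : a * x + b * y < Real.log 2 := by
    have hmem := (convex_Iio (Real.log 2)) hx hy ha hb hab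
    simpa using hmem
  rcases lt_or_ge (a * x + b * y) 0 with h | h
  · rw [SS_of_neg h]
    exact add_nonneg (mul_nonneg ha (SS_nonneg hx')) (mul_nonneg hb (SS_nonneg hy'))
  · obtain ⟨r, hr0, hr1, hr, hS⟩ := hinv_spec h hz
    have e1 := SS_tangent hr0 hr1 hx'
    have e2 := SS_tangent hr0 hr1 hy'
    rw [hS]
    have e3 : sF r = a * (sF r + (kappa r - 2) * (x - psi r))
        + b * (sF r + (kappa r - 2) * (y - psi r)) := by
      have hb' : b = 1 - a := by linarith
      subst hb'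
      linear_combination (kappa r - 2) * hr
    rw [e3]
    exact add_le_add (mul_le_mul_of_nonneg_left e1 ha) (mul_le_mul_of_nonneg_left e2 hb)

lemma SS_mono {x y : ℝ} (hxy : x ≤ y) (hy : y < Real.log 2) : SS x ≤ SS y := by
  rcases lt_or_ge x 0 with h | h
  · rw [SS_of_neg h]; exact SS_nonneg hy
  · obtain ⟨r, hr0, hr1, hr, hS⟩ := hinv_spec h (lt_of_le_of_lt hxy hy)
    have e1 := SS_tangent hr0 hr1 hy
    have hk := two_le_kappa hr0 hr1
    rw [hS]
    rw [hr] at e1
    nlinarith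

/-- chords stay above -/
lemma SS_le_line {y1 y2 y c σ : ℝ} (h1 : y1 ≤ y) (h2 : y ≤ y2) (h3 : y2 < Real.log 2)
    (e1 : SS y1 ≤ c + σ * y1) (e2 : SS y2 ≤ c + σ * y2) : SS y ≤ c + σ * y := by
  rcases eq_or_lt_of_le (h1.trans h2) with h | h
  · have : y = y1 := le_antisymm (by linarith) h1
    rw [this]; exact e1
  · have hd : 0 < y2 - y1 := by linarith
    have hm1 : y1 ∈ Iio (Real.log 2) := by
      have : y1 < Real.log 2 := by linarith
      exact this
    have hm2 : y2 ∈ Iio (Real.log 2) := h3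
    have ha : 0 ≤ (y2 - y) / (y2 - y1) := div_nonneg (by linarith) hd.le
    have hb : 0 ≤ (y - y1) / (y2 - y1) := div_nonneg (by linarith) hd.le
    have hab : (y2 - y) / (y2 - y1) + (y - y1) / (y2 - y1) = 1 := by field_simp; ring
    have hc := SS_convexOn.2 hm1 hm2 ha hb hab
    simp only [smul_eq_mul] at hc
    have ey : (y2 - y) / (y2 - y1) * y1 + (y - y1) / (y2 - y1) * y2 = y := by
      field_simp; ring
    rw [ey] at hc
    refine hc.trans ?_
    calc (y2 - y) / (y2 - y1) * SS y1 + (y - y1) / (y2 - y1) * SS y2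
        ≤ (y2 - y) / (y2 - y1) * (c + σ * y1) + (y - y1) / (y2 - y1) * (c + σ * y2) :=
          add_le_add (mul_le_mul_of_nonneg_left e1 ha) (mul_le_mul_of_nonneg_left e2 hb)
      _ = c * ((y2 - y) / (y2 - y1) + (y - y1) / (y2 - y1))
          + σ * ((y2 - y) / (y2 - y1) * y1 + (y - y1) / (y2 - y1) * y2) := by ring
      _ = c + σ * y := by rw [hab, ey]; ring

/-! ### reduction to `A = (7/20) w` -/

/-- the reduction, using only the convexity of `SS` -/
lemma reduce {X1 X Y1 Y w : ℝ} (hX : X1 < X) (hY : Y1 < Y) (hXY : X ≤ Y)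
    (hXY1 : X1 ≤ Y1) (hYl : Y < Real.log 2) (hlen : X - X1 = w * (Y - Y1))
    (h : SS X1 ≤ w * SS Y1) : SS X ≤ w * SS Y := by
  have hm : ∀ {z : ℝ}, z ≤ Y → z ∈ Iio (Real.log 2) := fun hz => lt_of_le_of_lt hz hYl
  have s1 := SS_convexOn.secant_mono (a := X1) (x := X) (y := Y) (hm (by linarith)) (hm hXY)
    (hm le_rfl) hX.ne' (by linarith : X1 < Y).ne' hXY
  have s2 := SS_convexOn.secant_mono (a := Y) (x := X1) (y := Y1) (hm le_rfl) (hm (by linarith))
    (hm hY.le) (by linarith : X1 < Y).ne hY.ne hXY1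
  have e1 : (SS X1 - SS Y) / (X1 - Y) = (SS Y - SS X1) / (Y - X1) := by
    rw [← neg_sub (SS Y), ← neg_sub Y, neg_div_neg_eq]
  have e2 : (SS Y1 - SS Y) / (Y1 - Y) = (SS Y - SS Y1) / (Y - Y1) := by
    rw [← neg_sub (SS Y), ← neg_sub Y, neg_div_neg_eq]
  rw [e1, e2] at s2
  have s3 := s1.trans s2
  have hd1 : 0 < X - X1 := by linarith
  have hd2 : 0 < Y - Y1 := by linarith
  rw [div_le_div_iff₀ hd1 hd2, hlen] at s3
  have s4 : SS X - SS X1 ≤ w * (SS Y - SS Y1) := by
    have : (SS X - SS X1) * (Y - Y1) ≤ (w * (SS Y - SS Y1)) * (Y - Y1) := by linarith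
    exact le_of_mul_le_mul_right this hd2
  linarith

/-! ### series bound for `psi` -/

lemma artanh_ge_poly {x : ℝ} (h0 : 0 ≤ x) (h1 : x < 1) :
    x + x ^ 3 / 3 + x ^ 5 / 5 + x ^ 7 / 7 ≤ Real.artanh x := by
  have hmono : MonotoneOn (fun x => Real.artanh x - (x + x ^ 3 / 3 + x ^ 5 / 5 + x ^ 7 / 7))
      (Ico 0 1) := by
    have hd : ∀ x : ℝ, 0 ≤ x → x < 1 →
        HasDerivAt (fun x => Real.artanh x - (x + x ^ 3 / 3 + x ^ 5 / 5 + x ^ 7 / 7))
          (1 / (1 - x ^ 2) - (1 + x ^ 2 + x ^ 4 + x ^ 6)) x := by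
      intro x hx0 hx1
      have d1 : HasDerivAt (fun x : ℝ => x + x ^ 3 / 3 + x ^ 5 / 5 + x ^ 7 / 7)
          (1 + x ^ 2 + x ^ 4 + x ^ 6) x := by
        refine ((((hasDerivAt_id x).add ((hasDerivAt_pow 3 x).div_const 3)).add
          ((hasDerivAt_pow 5 x).div_const 5)).add ((hasDerivAt_pow 7 x).div_const 7)).congr_deriv ?_
        push_cast
        ring
      exact (hasDerivAt_artanh (abs_lt_one_of_mem hx0 hx1)).sub d1
    refine monotoneOn_of_deriv_nonneg (convex_Ico 0 1) ?_ ?_ ?_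
    · intro x hx
      exact (hd x hx.1 hx.2).continuousAt.continuousWithinAt
    · rw [interior_Ico]
      intro x hx
      exact (hd x hx.1.le hx.2).differentiableAt.differentiableWithinAt
    · rw [interior_Ico]
      intro x hx
      rw [(hd x hx.1.le hx.2).deriv, sub_nonneg]
      have h3 := one_sub_sq_pos hx.1.le hx.2
      rw [le_div_iff₀ h3]
      have : (1 + x ^ 2 + x ^ 4 + x ^ 6) * (1 - x ^ 2) = 1 - x ^ 8 := by ring
      rw [this]
      have : 0 ≤ x ^ 8 := by positivity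
      linarith
  have := hmono (left_mem_Ico.mpr one_pos) ⟨h0, h1⟩ h0
  simp at this
  linarith

lemma psi_ge_poly {x : ℝ} (h0 : 0 ≤ x) (h1 : x < 1) :
    x ^ 2 / 2 + x ^ 4 / 12 + x ^ 6 / 30 + x ^ 8 / 56 ≤ psi x := by
  have hmono : MonotoneOn (fun x => psi x - (x ^ 2 / 2 + x ^ 4 / 12 + x ^ 6 / 30 + x ^ 8 / 56))
      (Ico 0 1) := by
    have hd : ∀ x : ℝ, 0 ≤ x → x < 1 →
        HasDerivAt (fun x => psi x - (x ^ 2 / 2 + x ^ 4 / 12 + x ^ 6 / 30 + x ^ 8 / 56))
          (Real.artanh x - (x + x ^ 3 / 3 + x ^ 5 / 5 + x ^ 7 / 7)) x := by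
      intro x hx0 hx1
      have d1 : HasDerivAt (fun x : ℝ => x ^ 2 / 2 + x ^ 4 / 12 + x ^ 6 / 30 + x ^ 8 / 56)
          (x + x ^ 3 / 3 + x ^ 5 / 5 + x ^ 7 / 7) x := by
        refine (((((hasDerivAt_pow 2 x).div_const 2)).add ((hasDerivAt_pow 4 x).div_const 12)).add
          ((hasDerivAt_pow 6 x).div_const 30)).add
          ((hasDerivAt_pow 8 x).div_const 56) |>.congr_deriv ?_
        push_cast
        ring
      exact (hasDerivAt_psi (abs_lt_one_of_mem hx0 hx1)).sub d1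
    refine monotoneOn_of_deriv_nonneg (convex_Ico 0 1) ?_ ?_ ?_
    · intro x hx
      exact (hd x hx.1 hx.2).continuousAt.continuousWithinAt
    · rw [interior_Ico]
      intro x hx
      exact (hd x hx.1.le hx.2).differentiableAt.differentiableWithinAt
    · rw [interior_Ico]
      intro x hx
      rw [(hd x hx.1.le hx.2).deriv, sub_nonneg]
      exact artanh_ge_poly hx.1.le hx.2
  have := hmono (left_mem_Ico.mpr one_pos) ⟨h0, h1⟩ h0
  simp [psi_zero] at this
  linarith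

/-! ### values at rational points -/

lemma psi_formula {r : ℝ} (hr : |r| ≤ 1) :
    psi r = ((1 + r) * Real.log (1 + r) + (1 - r) * Real.log (1 - r)) / 2 := by
  unfold psi; rw [signEntropy_eq_logs hr]; ring

lemma sF_formula {r : ℝ} (hr : |r| < 1) :
    sF r = r * ((Real.log (1 + r) - Real.log (1 - r)) / 2) - 2 * psi r := by
  unfold sF; rw [artanh_eq_log_sub hr]


/-- `r = 7/9` -/
lemma psi79 : psi (7 / 9) = 11 / 3 * Real.log 2 - 2 * Real.log 3 := by
  rw [psi_formula (by norm_num [abs_of_pos])]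
  rw [show (1 : ℝ) + 7 / 9 = 2 ^ 4 / 3 ^ 2 by norm_num, show (1 : ℝ) - 7 / 9 = 2 / 3 ^ 2 by norm_num,
    Real.log_div (by norm_num) (by norm_num), Real.log_div (by norm_num) (by norm_num),
    Real.log_pow, Real.log_pow]
  push_cast; ring

lemma artanh79 : Real.artanh (7 / 9) = 3 / 2 * Real.log 2 := by
  rw [artanh_eq_log_sub (by norm_num [abs_of_pos])]
  rw [show (1 : ℝ) + 7 / 9 = 2 ^ 4 / 3 ^ 2 by norm_num, show (1 : ℝ) - 7 / 9 = 2 / 3 ^ 2 by norm_num,
    Real.log_div (by norm_num) (by norm_num), Real.log_div (by norm_num) (by norm_num),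
    Real.log_pow, Real.log_pow]
  push_cast; ring

lemma psi34 : psi (3 / 4) = 7 / 8 * Real.log 7 - 2 * Real.log 2 := by
  rw [psi_formula (by norm_num [abs_of_pos])]
  rw [show (1 : ℝ) + 3 / 4 = 7 / 2 ^ 2 by norm_num, show (1 : ℝ) - 3 / 4 = 1 / 2 ^ 2 by norm_num,
    Real.log_div (by norm_num) (by norm_num), Real.log_div (by norm_num) (by norm_num),
    Real.log_pow, Real.log_one]
  push_cast; ring

lemma sF34 : sF (3 / 4) = 4 * Real.log 2 - 11 / 8 * Real.log 7 := by
  rw [sF_formula (by norm_num [abs_of_pos]), psi34]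
  rw [show (1 : ℝ) + 3 / 4 = 7 / 2 ^ 2 by norm_num, show (1 : ℝ) - 3 / 4 = 1 / 2 ^ 2 by norm_num,
    Real.log_div (by norm_num) (by norm_num), Real.log_div (by norm_num) (by norm_num),
    Real.log_pow, Real.log_one]
  push_cast; ring

lemma psi23 : psi (2 / 3) = 5 / 6 * Real.log 5 - Real.log 3 := by
  rw [psi_formula (by norm_num [abs_of_pos])]
  rw [show (1 : ℝ) + 2 / 3 = 5 / 3 by norm_num, show (1 : ℝ) - 2 / 3 = 1 / 3 by norm_num,
    Real.log_div (by norm_num) (by norm_num), Real.log_div (by norm_num) (by norm_num),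
    Real.log_one]
  ring

lemma sF23 : sF (2 / 3) = 2 * Real.log 3 - 4 / 3 * Real.log 5 := by
  rw [sF_formula (by norm_num [abs_of_pos]), psi23]
  rw [show (1 : ℝ) + 2 / 3 = 5 / 3 by norm_num, show (1 : ℝ) - 2 / 3 = 1 / 3 by norm_num,
    Real.log_div (by norm_num) (by norm_num), Real.log_div (by norm_num) (by norm_num),
    Real.log_one]
  ring

lemma psi12 : psi (1 / 2) = 3 / 4 * Real.log 3 - Real.log 2 := by
  rw [psi_formula (by norm_num [abs_of_pos])]
  rw [show (1 : ℝ) + 1 / 2 = 3 / 2 by norm_num, show (1 : ℝ) - 1 / 2 = 1 / 2 by norm_num,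
    Real.log_div (by norm_num) (by norm_num), Real.log_div (by norm_num) (by norm_num),
    Real.log_one]
  ring

lemma sF12 : sF (1 / 2) = 2 * Real.log 2 - 5 / 4 * Real.log 3 := by
  rw [sF_formula (by norm_num [abs_of_pos]), psi12]
  rw [show (1 : ℝ) + 1 / 2 = 3 / 2 by norm_num, show (1 : ℝ) - 1 / 2 = 1 / 2 by norm_num,
    Real.log_div (by norm_num) (by norm_num), Real.log_div (by norm_num) (by norm_num),
    Real.log_one]
  ring

lemma psi13 : psi (1 / 3) = 5 / 3 * Real.log 2 - Real.log 3 := by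
  rw [psi_formula (by norm_num [abs_of_pos])]
  rw [show (1 : ℝ) + 1 / 3 = 2 ^ 2 / 3 by norm_num, show (1 : ℝ) - 1 / 3 = 2 / 3 by norm_num,
    Real.log_div (by norm_num) (by norm_num), Real.log_div (by norm_num) (by norm_num),
    Real.log_pow]
  push_cast; ring

lemma sF13 : sF (1 / 3) = 2 * Real.log 3 - 19 / 6 * Real.log 2 := by
  rw [sF_formula (by norm_num [abs_of_pos]), psi13]
  rw [show (1 : ℝ) + 1 / 3 = 2 ^ 2 / 3 by norm_num, show (1 : ℝ) - 1 / 3 = 2 / 3 by norm_num,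
    Real.log_div (by norm_num) (by norm_num), Real.log_div (by norm_num) (by norm_num),
    Real.log_pow]
  push_cast; ring

/-- lower bound for `SS (log 2 - 7/20)` -/
lemma Sstar_lo : (0.1189 : ℝ) ≤ SS (Real.log 2 - 7 / 20) := by
  have h2 := log2_lo
  have h2' := log2_hi
  obtain ⟨h3, h3'⟩ := log3_bounds
  have ht := SS_tangent (t := 7 / 9) (I := Real.log 2 - 7 / 20) (by norm_num) (by norm_num)
    (by linarith)
  have hk : kappa (7 / 9) = 1 + 21 / 16 / Real.log 2 := by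
    rw [kappa_of_pos (by norm_num), artanh79]
    field_simp
    ring
  have hs : sF (7 / 9) = 4 * Real.log 3 - 37 / 6 * Real.log 2 := by
    unfold sF; rw [psi79, artanh79]; ring
  rw [hk, hs, psi79] at ht
  have hl : (0 : ℝ) < Real.log 2 := by linarith
  have hk2 : 21 / 16 / Real.log 2 ≤ (1.9 : ℝ) := by
    rw [div_le_iff₀ hl]; linarith
  have hk3 : (1 : ℝ) ≤ 21 / 16 / Real.log 2 := by
    rw [le_div_iff₀ hl]; linarith
  have hu : -(0.00117 : ℝ) ≤ Real.log 2 - 7 / 20 - (11 / 3 * Real.log 2 - 2 * Real.log 3) := by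
    linarith
  have hu2 : Real.log 2 - 7 / 20 - (11 / 3 * Real.log 2 - 2 * Real.log 3) ≤ 0 := by
    linarith
  nlinarith

/-! ### the one-variable inequality -/

/-- upper bound for the argument -/
lemma arg_le {m : ℝ} (h0 : 0 ≤ m) (h1 : m < 1) :
    signEntropy m - 7 / 20 * (1 - m ^ 2)
      ≤ Real.log 2 - 7 / 20 - (3 / 20 * m ^ 2 + (m ^ 2) ^ 2 / 12 + (m ^ 2) ^ 3 / 30
        + (m ^ 2) ^ 4 / 56) := by
  have h := psi_ge_poly h0 h1
  unfold psi at h
  nlinarith

/-- chord 1 -/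
lemma case1 {x y : ℝ} (hx0 : 0 ≤ x)
    (hy1 : psi (3 / 4) ≤ y) (hy : y ≤ Real.log 2 - 7 / 20 - 3 / 20 * x) :
    SS y ≤ (1 - x) * SS (Real.log 2 - 7 / 20) := by
  have h2 := log2_lo
  have h2' := log2_hi
  obtain ⟨h7, h7'⟩ := log7_bounds
  set S := SS (Real.log 2 - 7 / 20) with hS
  have hSlo : (0.1189 : ℝ) ≤ S := Sstar_lo
  set a := Real.log 2 - 7 / 20 with ha
  set y1 := psi (3 / 4) with hy1d
  have hy1v : y1 = 7 / 8 * Real.log 7 - 2 * Real.log 2 := psi34
  have hS1 : SS y1 = sF (3 / 4) := SS_psi (by norm_num) (by norm_num)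
  have hδ : 0 < a - y1 := by rw [ha, hy1v]; linarith
  -- the line through the two points
  set σ := (S - SS y1) / (a - y1) with hσ
  have hline : SS y ≤ (S - σ * a) + σ * y := by
    refine SS_le_line (y1 := y1) (y2 := a) hy1 (by linarith) (by rw [ha]; linarith) ?_ ?_
    · have : σ * (a - y1) = S - SS y1 := by rw [hσ]; field_simp
      linarith
    · rw [← hS]; linarith
  have hkey : S ≤ σ * (3 / 20) := by
    rw [hσ, div_mul_eq_mul_div, le_div_iff₀ hδ, hS1, sF34, hy1v, ha]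
    nlinarith
  have hσ0 : 0 ≤ σ := by nlinarith
  nlinarith [mul_le_mul_of_nonneg_left hy hσ0, mul_le_mul_of_nonneg_right hkey hx0]

/-- chord 2 -/
lemma case2 {x y : ℝ} (hx0 : 0 ≤ x) (hx1 : x ≤ 1)
    (hy1 : psi (2 / 3) ≤ y) (hy2 : y ≤ psi (3 / 4))
    (hy : y ≤ Real.log 2 - 7 / 20 - (3 / 20 * x + x ^ 2 / 12 + x ^ 3 / 30 + x ^ 4 / 56)) :
    SS y ≤ (1 - x) * SS (Real.log 2 - 7 / 20) := by
  have h2 := log2_lo
  have h2' := log2_hi
  obtain ⟨h3, h3'⟩ := log3_bounds
  obtain ⟨h5, h5'⟩ := log5_bounds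
  obtain ⟨h7, h7'⟩ := log7_bounds
  have hSlo := Sstar_lo
  have hline : SS y ≤ -0.0987 + 0.6187 * y := by
    refine SS_le_line hy1 hy2 (by rw [psi34]; linarith) ?_ ?_
    · rw [SS_psi (by norm_num) (by norm_num), sF23, psi23]; linarith
    · rw [SS_psi (by norm_num) (by norm_num), sF34, psi34]; linarith
  have hx3 : 0 ≤ x ^ 3 := by positivity
  have hx4 : 0 ≤ x ^ 4 := by positivity
  have hpoly : -0.0987 + 0.6187 * y ≤ (1 - x) * 0.1189 := by
    nlinarith [sq_nonneg (x - 0.25)]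
  have := mul_le_mul_of_nonneg_left hSlo (by linarith : 0 ≤ 1 - x)
  linarith

/-- chord 3 -/
lemma case3 {x y : ℝ} (hx0 : 0 ≤ x) (hx1 : x ≤ 1)
    (hy1 : psi (1 / 2) ≤ y) (hy2 : y ≤ psi (2 / 3))
    (hy : y ≤ Real.log 2 - 7 / 20 - (3 / 20 * x + x ^ 2 / 12 + x ^ 3 / 30 + x ^ 4 / 56)) :
    SS y ≤ (1 - x) * SS (Real.log 2 - 7 / 20) := by
  have h2 := log2_lo
  have h2' := log2_hi
  obtain ⟨h3, h3'⟩ := log3_bounds
  obtain ⟨h5, h5'⟩ := log5_bounds
  have hSlo := Sstar_lo
  have hline : SS y ≤ -0.03177 + 0.3425 * y := by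
    refine SS_le_line hy1 hy2 (by rw [psi23]; linarith) ?_ ?_
    · rw [SS_psi (by norm_num) (by norm_num), sF12, psi12]; linarith
    · rw [SS_psi (by norm_num) (by norm_num), sF23, psi23]; linarith
  have hx3 : 1.5552 * x - 0.746496 ≤ x ^ 3 := by
    nlinarith [mul_nonneg (by linarith : (0:ℝ) ≤ x + 1.44) (sq_nonneg (x - 0.72))]
  have hx4 : 1.492992 * x - 0.80621568 ≤ x ^ 4 := by
    nlinarith [sq_nonneg (x ^ 2 - 0.5184), sq_nonneg (x - 0.72)]
  have hx2 : 1.44 * x - 0.5184 ≤ x ^ 2 := by nlinarith [sq_nonneg (x - 0.72)]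
  have hpoly : -0.03177 + 0.3425 * y ≤ (1 - x) * 0.1189 := by
    nlinarith
  have := mul_le_mul_of_nonneg_left hSlo (by linarith : 0 ≤ 1 - x)
  linarith

/-- chord 4 -/
lemma case4 {x y : ℝ} (hx0 : 0 ≤ x) (hx1 : x ≤ 0.94)
    (hy1 : psi (1 / 3) ≤ y) (hy2 : y ≤ psi (1 / 2))
    (hy : y ≤ Real.log 2 - 7 / 20 - (3 / 20 * x + x ^ 2 / 12 + x ^ 3 / 30 + x ^ 4 / 56)) :
    SS y ≤ (1 - x) * SS (Real.log 2 - 7 / 20) := by
  have h2 := log2_lo
  have h2' := log2_hi
  obtain ⟨h3, h3'⟩ := log3_bounds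
  have hSlo := Sstar_lo
  have hline : SS y ≤ -0.005963 + 0.1452 * y := by
    refine SS_le_line hy1 hy2 (by rw [psi12]; linarith) ?_ ?_
    · rw [SS_psi (by norm_num) (by norm_num), sF13, psi13]; linarith
    · rw [SS_psi (by norm_num) (by norm_num), sF12, psi12]; linarith
  have hx2 : 1.88 * x - 0.8836 ≤ x ^ 2 := by nlinarith [sq_nonneg (x - 0.94)]
  have hx3 : 2.6508 * x - 1.661168 ≤ x ^ 3 := by
    nlinarith [mul_nonneg (by linarith : (0:ℝ) ≤ x + 1.88) (sq_nonneg (x - 0.94))]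
  have hx4 : 3.322336 * x - 2.34224688 ≤ x ^ 4 := by
    nlinarith [sq_nonneg (x ^ 2 - 0.8836), sq_nonneg (x - 0.94)]
  have hpoly : -0.005963 + 0.1452 * y ≤ (1 - x) * 0.1189 := by
    nlinarith
  have := mul_le_mul_of_nonneg_left hSlo (by linarith : 0 ≤ 1 - x)
  linarith

/-- below `psi (1/3)` -/
lemma case5 {x y : ℝ} (hx1 : x ≤ 0.94) (hy2 : y ≤ psi (1 / 3)) :
    SS y ≤ (1 - x) * SS (Real.log 2 - 7 / 20) := by
  have h2 := log2_lo
  have h2' := log2_hi
  obtain ⟨h3, h3'⟩ := log3_bounds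
  have hSlo := Sstar_lo
  have h1 := SS_mono hy2 (by rw [psi13]; linarith)
  rw [SS_psi (by norm_num) (by norm_num), sF13] at h1
  nlinarith

/-- `SS y ≤ y^2` for `y ≤ psi (1/2)` -/
lemma SS_le_sq {y : ℝ} (h0 : 0 ≤ y) (hy : y ≤ psi (1 / 2)) : SS y ≤ y ^ 2 := by
  have h2 := log2_lo
  have h2' := log2_hi
  obtain ⟨h3, h3'⟩ := log3_bounds
  obtain ⟨r, hr0, hr1, hr, hS⟩ := hinv_spec h0 (lt_of_le_of_lt hy (by rw [psi12]; linarith))
  have hr2 : r ≤ 1 / 2 := by
    by_contra hcon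
    have := strictMonoOn_psi ⟨by norm_num, by norm_num⟩ ⟨hr0, hr1.le⟩ (not_le.1 hcon)
    linarith
  have hpsi : r ^ 2 / 2 ≤ psi r := by
    have := psi_ge_poly hr0 hr1
    have h4 : 0 ≤ r ^ 4 := by positivity
    have h6 : 0 ≤ r ^ 6 := by positivity
    have h8 : 0 ≤ r ^ 8 := by positivity
    linarith
  have hsF : sF r ≤ r ^ 4 / 4 := by
    have hmono : MonotoneOn (fun x => x ^ 4 / 4 - sF x) (Icc 0 (1 / 2)) := by
      have hd : ∀ x : ℝ, 0 ≤ x → x < 1 →
          HasDerivAt (fun x => x ^ 4 / 4 - sF x) (x ^ 3 - (x / (1 - x ^ 2) - Real.artanh x)) x := by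
        intro x hx0 hx1
        have hx := abs_lt_one_of_mem hx0 hx1
        have d1 : HasDerivAt sF (x / (1 - x ^ 2) - Real.artanh x) x := by
          refine (((hasDerivAt_id x).mul (hasDerivAt_artanh hx)).sub
            ((hasDerivAt_psi hx).const_mul 2)).congr_deriv ?_
          simp only [id]
          ring
        refine (((hasDerivAt_pow 4 x).div_const 4).sub d1).congr_deriv ?_
        push_cast
        ring
      refine monotoneOn_of_deriv_nonneg (convex_Icc _ _) ?_ ?_ ?_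
      · intro x hx
        exact (hd x hx.1 (by linarith [hx.2])).continuousAt.continuousWithinAt
      · rw [interior_Icc]
        intro x hx
        exact (hd x hx.1.le (by linarith [hx.2])).differentiableAt.differentiableWithinAt
      · rw [interior_Icc]
        intro x hx
        have hx1 : x < 1 := by linarith [hx.2]
        rw [(hd x hx.1.le hx1).deriv]
        have h3 := one_sub_sq_pos hx.1.le hx1
        have ha := artanh_ge_poly hx.1.le hx1
        have h5 : 0 ≤ x ^ 5 := by have := hx.1; positivity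
        have h7 : 0 ≤ x ^ 7 := by have := hx.1; positivity
        have hq : x / (1 - x ^ 2) ≤ x + 4 / 3 * x ^ 3 := by
          rw [div_le_iff₀ h3]
          have hx2 : x ^ 2 ≤ 1 / 4 := by nlinarith [hx.1, hx.2]
          have hx3 : 0 ≤ x ^ 3 := by have := hx.1; positivity
          nlinarith [mul_le_mul_of_nonneg_left hx2 hx3]
        linarith
    have := hmono ⟨le_rfl, by norm_num⟩ ⟨hr0, hr2⟩ hr0
    simp [sF_zero] at this
    linarith
  rw [hS]
  have h5 : (r ^ 2 / 2) ^ 2 ≤ y ^ 2 := by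
    rw [← hr]
    exact pow_le_pow_left₀ (by positivity) hpsi 2
  nlinarith

/-! ### `m` close to `1` -/

lemma h_le {m : ℝ} (h0 : -1 < m) (h1 : m < 1) :
    signEntropy m ≤ (1 - m) / 2 * (1 - Real.log ((1 - m) / 2)) := by
  unfold signEntropy
  rw [← Real.binEntropy_one_sub, show 1 - (1 + m) / 2 = (1 - m) / 2 by ring]
  set p := (1 - m) / 2 with hp
  have hp0 : 0 < p := by rw [hp]; linarith
  have hp1 : 0 < 1 - p := by rw [hp]; linarith
  rw [Real.binEntropy_eq_negMulLog_add_negMulLog_one_sub]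
  unfold Real.negMulLog
  have h := Real.one_sub_inv_le_log_of_pos hp1
  have h2 := mul_le_mul_of_nonneg_left h hp1.le
  rw [mul_sub, mul_inv_cancel₀ hp1.ne'] at h2
  linarith

lemma key_small {p : ℝ} (hp0 : 0 < p) (hp : p ≤ 1 / 64) :
    p * (1 - Real.log p) ≤ (1 + 6 * Real.log 2) / 64 ∧
    (p * (1 - Real.log p)) ^ 2 ≤ p * ((1 + 6 * Real.log 2) ^ 2 / 64) ∧
    0 ≤ p * (1 - Real.log p) := by
  have h2 := log2_lo
  set q := Real.sqrt (64 * p) with hq
  have hq0 : 0 < q := Real.sqrt_pos.2 (by linarith)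
  have hq2 : q ^ 2 = 64 * p := Real.sq_sqrt (by linarith)
  have hq1 : q ≤ 1 := by
    by_contra hcon
    have := not_le.1 hcon
    nlinarith
  have hlog : Real.log p = 2 * Real.log q - 6 * Real.log 2 := by
    have e1 : Real.log (q ^ 2) = Real.log 64 + Real.log p := by
      rw [hq2, Real.log_mul (by norm_num) hp0.ne']
    rw [Real.log_pow, show (64 : ℝ) = 2 ^ 6 by norm_num, Real.log_pow] at e1
    push_cast at e1
    linarith
  have hql := Real.one_sub_inv_le_log_of_pos hq0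
  have hql2 := mul_le_mul_of_nonneg_left hql hq0.le
  rw [mul_sub, mul_inv_cancel₀ hq0.ne'] at hql2
  have hlq : Real.log q ≤ 0 := Real.log_nonpos hq0.le hq1
  have hA : q * (1 - Real.log p) ≤ 1 + 6 * Real.log 2 := by
    rw [hlog]; nlinarith
  have hA0 : 0 ≤ q * (1 - Real.log p) := by
    rw [hlog]
    apply mul_nonneg hq0.le
    linarith
  have hpe : p * (1 - Real.log p) = q / 64 * (q * (1 - Real.log p)) := by
    have : p = q ^ 2 / 64 := by linarith
    rw [show q / 64 * (q * (1 - Real.log p)) = q ^ 2 / 64 * (1 - Real.log p) by ring, ← this]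
  refine ⟨?_, ?_, ?_⟩
  · rw [hpe]
    calc q / 64 * (q * (1 - Real.log p)) ≤ 1 / 64 * (1 + 6 * Real.log 2) :=
          mul_le_mul (by linarith) hA hA0 (by norm_num)
      _ = _ := by ring
  · rw [hpe, mul_pow]
    have h3 : (q * (1 - Real.log p)) ^ 2 ≤ (1 + 6 * Real.log 2) ^ 2 :=
      pow_le_pow_left₀ hA0 hA 2
    have h4 : (q / 64) ^ 2 = p / 64 := by rw [div_pow, hq2]; ring
    rw [h4]
    calc p / 64 * (q * (1 - Real.log p)) ^ 2 ≤ p / 64 * (1 + 6 * Real.log 2) ^ 2 :=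
          mul_le_mul_of_nonneg_left h3 (by positivity)
      _ = _ := by ring
  · rw [hpe]; positivity

lemma case6 {m : ℝ} (h0 : 31 / 32 ≤ m) (h1 : m < 1) :
    SS (signEntropy m - 7 / 20 * (1 - m ^ 2)) ≤ (1 - m ^ 2) * SS (Real.log 2 - 7 / 20) := by
  have h2 := log2_lo
  have h2' := log2_hi
  obtain ⟨h3, h3'⟩ := log3_bounds
  have hSlo := Sstar_lo
  set y := signEntropy m - 7 / 20 * (1 - m ^ 2) with hy
  have hw : 0 < 1 - m ^ 2 := by nlinarith
  rcases lt_or_ge y 0 with hy0 | hy0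
  · rw [SS_of_neg hy0]
    exact mul_nonneg hw.le (by linarith)
  · have hle := h_le (by linarith : -1 < m) h1
    set p := (1 - m) / 2 with hp
    have hp0 : 0 < p := by rw [hp]; linarith
    have hp1 : p ≤ 1 / 64 := by rw [hp]; linarith
    obtain ⟨k1, k2, k3⟩ := key_small hp0 hp1
    have hyY : y ≤ p * (1 - Real.log p) := by rw [hy]; linarith
    have hy12 : y ≤ psi (1 / 2) := by
      rw [psi12]
      have : (1 + 6 * Real.log 2) / 64 ≤ (0.09 : ℝ) := by linarith
      linarith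
    have hsq := SS_le_sq hy0 hy12
    have hy2 : y ^ 2 ≤ (p * (1 - Real.log p)) ^ 2 := pow_le_pow_left₀ hy0 hyY 2
    have hc : (1 + 6 * Real.log 2) ^ 2 / 64 ≤ (0.42 : ℝ) := by
      have : (1 + 6 * Real.log 2) ^ 2 ≤ (5.16 : ℝ) ^ 2 :=
        pow_le_pow_left₀ (by linarith) (by linarith) 2
      linarith
    have hw2 : 1 - m ^ 2 = 4 * p * (1 - p) := by rw [hp]; ring
    have hf : p * ((1 + 6 * Real.log 2) ^ 2 / 64) ≤ p * 0.42 :=
      mul_le_mul_of_nonneg_left hc hp0.le
    have hg : p * 0.42 ≤ (1 - m ^ 2) * 0.1189 := by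
      rw [hw2]
      nlinarith
    have hh := mul_le_mul_of_nonneg_left hSlo hw.le
    linarith

/-- the one-variable inequality -/
theorem one_var {m : ℝ} (hm : |m| < 1) :
    SS (signEntropy m - 7 / 20 * (1 - m ^ 2)) ≤ (1 - m ^ 2) * SS (Real.log 2 - 7 / 20) := by
  -- reduce to `0 ≤ m`
  suffices H : ∀ m : ℝ, 0 ≤ m → m < 1 →
      SS (signEntropy m - 7 / 20 * (1 - m ^ 2)) ≤ (1 - m ^ 2) * SS (Real.log 2 - 7 / 20) by
    have := H |m| (abs_nonneg m) hm
    rwa [signEntropy_abs, sq_abs] at this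
  intro m h0 h1
  rcases le_or_gt (31 / 32) m with hc | hc
  · exact case6 hc h1
  · have hx0 : 0 ≤ m ^ 2 := sq_nonneg m
    have hx1 : m ^ 2 ≤ 0.94 := by nlinarith
    have harg := arg_le h0 h1
    set y := signEntropy m - 7 / 20 * (1 - m ^ 2) with hy
    have hx2 : 0 ≤ (m ^ 2) ^ 2 / 12 + (m ^ 2) ^ 3 / 30 + (m ^ 2) ^ 4 / 56 := by positivity
    rcases le_total (psi (3 / 4)) y with c1 | c1
    · exact case1 hx0 c1 (by linarith)
    rcases le_total (psi (2 / 3)) y with c2 | c2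
    · exact case2 hx0 (by linarith) c2 c1 harg
    rcases le_total (psi (1 / 2)) y with c3 | c3
    · exact case3 hx0 (by linarith) c3 c2 harg
    rcases le_total (psi (1 / 3)) y with c4 | c4
    · exact case4 hx0 hx1 c4 c3 harg
    · exact case5 hx1 c4

end Crest.Agent.R307.Q1

namespace Crest.Agent.R307

open Q1 in
/-- T10: region split (Q1) -/
theorem SS_le_PP {m A : ℝ} (hm : |m| < 1) (hA0 : 0 < A) (hA : A ≤ 7 / 20 * (1 - m ^ 2)) :
    SS (signEntropy m - A) ≤ PP (1 - m ^ 2) A := by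
  have hm2 : m ^ 2 < 1 := (sq_lt_one_iff_abs_lt_one m).mpr hm
  have hw : 0 < 1 - m ^ 2 := by linarith
  have h1v := one_var hm
  unfold PP
  set w := 1 - m ^ 2 with hwd
  set a := A / w with ha
  have hAw : A = a * w := by rw [ha]; field_simp
  have ha0 : 0 < a := by rw [ha]; positivity
  have ha1 : a ≤ 7 / 20 := by rw [ha, div_le_iff₀ hw]; exact hA
  have hpsi : m ^ 2 / 2 ≤ psi m := by
    have h := psi_ge_poly (abs_nonneg m) hm
    have e : psi |m| = psi m := by unfold psi; rw [signEntropy_abs]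
    rw [e, sq_abs] at h
    have h4 : 0 ≤ |m| ^ 4 := by positivity
    have h6 : 0 ≤ |m| ^ 6 := by positivity
    have h8 : 0 ≤ |m| ^ 8 := by positivity
    linarith
  unfold psi at hpsi
  rcases eq_or_lt_of_le ha1 with h | h
  · rw [hAw, h]; exact h1v
  · rw [hAw]
    have hmw : m ^ 2 = 1 - w := by rw [hwd]; ring
    have hsq : 0 ≤ m ^ 2 := sq_nonneg m
    refine reduce (X1 := signEntropy m - 7 / 20 * w) (Y1 := Real.log 2 - 7 / 20) ?_ ?_ ?_ ?_ ?_
      ?_ h1v
    · nlinarith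
    · linarith
    · nlinarith
    · nlinarith
    · linarith
    · ring

end Crest.Agent.R307
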