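import Crest.Agent.R307.Explicit_Mg
import Crest.Agent.R307.Final72
import Crest.Agent.R307.NOne_Mg
import Crest.Agent.R307.Qone_Mg
import Crest.Agent.R307.FFexpr
import Crest.Agent.R307.Persp
import Crest.Agent.R307.FFa
import Crest.Agent.R307.FFa2
import Crest.Agent.R307.FFb

-- ▼ part R307/GGmain
section

/-!
Row 307, task T7 (helper868): the mean-profile bound, unconditionally.
-/

set_option autoImplicit false

open Set Crest.CubeNoise

namespace Crest.Agent.R307

theorem explicitStmt : ExplicitStmt := fun _ _ _ hm hδ hδm hV hVw =>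
  explicit_ineq hm hδ hδm hV (by linarith)

/-- **T7** -/
theorem GG_le_production (n : ℕ) (g : (Fin n → Bool) → ℝ) (hg : ∀ x, |g x| < 1) (t : ℝ)
    (ht0 : 0 ≤ t) (ht1 : t < 1) :
    GG t (cubeAverage g) (cubeAverage fun x => signEntropy (g x)) ≤ production g :=
  GG_le_production_of explicitStmt n g hg t ht0 ht1

end Crest.Agent.R307
end

-- ▼ part R307/Glue72
section

/-!
Row 307 (S0472), T12: the landed modules in the form of `Final72.lean`.
-/

set_option autoImplicit false

open Crest.CubeNoise Set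

namespace Crest.Agent.R307

theorem localStmt : LocalStmt := by
  intro n g0 g1 h0 h1 m δ w V hm hδ hw hV
  have hV' : V = VV g0 g1 := by
    unfold VV; rw [hV, hm]
  subst hV'
  subst hw hδ hm
  exact ⟨VV_nonneg g0 g1, abs_delta_lt h0 h1, local_bound h0 h1⟩

theorem lSuppStmt : LSuppStmt := by
  intro n g0 g1 h0 h1 m δ hm hδ hm0 hδ0
  exact LL_cube_support g0 g1 h0 h1 rfl rfl hm hδ hm0 hδ0

theorem ioneStmt : IoneStmt := by
  intro n g0 g1 h0 h1 m w V y hm hw hm0 hV hy
  have h := Ione_cube g0 g1 h0 h1 hm hm0 hV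
  rw [← hy, ← hw] at h
  exact h

theorem cornerStmt : CornerStmt := by
  intro n g0 g1 h0 h1 m δ V hm hδ hm0 hδ0 hV
  subst hm hδ hV
  exact Corner.corner_cube h0 h1 hm0 hδ0

theorem qoneStmt : QoneStmt := fun _ _ hm hA0 hA => SS_le_PP hm hA0 hA

theorem ggStmt : GGStmt := fun n g hg t h0 h1 => GG_le_production n g hg t h0 h1

/-- S0472 from T11 alone. -/
theorem s0472_of_FF (H11 : FFStmt) (n : ℕ) (g : (Fin n → Bool) → ℝ)
    (hg : ∀ x, |g x| < 1) :
    (∀ r : ℝ, 0 ≤ r → r < 1 → Real.log 2 - signEntropy r = information g →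
        r * Real.artanh r ≤ production g) ∧
    (surplusArg g < 0 → 2 * information g ≤ production g) ∧
    (∀ s : ℝ, 0 ≤ s → s < 1 → Real.log 2 - signEntropy s = surplusArg g →
        2 * information g + (1 - cubeAverage g ^ 2) * (s * Real.artanh s - 2 * surplusArg g)
          ≤ production g) :=
  s0472_of_interface ggStmt qoneStmt localStmt cornerStmt lSuppStmt ioneStmt H11 n g hg

/-- S0470 from T11 alone. -/
theorem s0470_of_FF (H11 : FFStmt) (n : ℕ) (u : (Fin n → Bool) → ℝ)
    (hu : ∀ x, |u x| ≤ 1) (ρ : ℝ) (hρ : |ρ| ≤ 1) (r : ℝ) (hr : 0 ≤ r) (hr1 : r ≤ 1)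
    (hI : information u = Real.log 2 - signEntropy r) :
    information (noise ρ u) ≤ Real.log 2 - signEntropy (|ρ| * r) :=
  s0470_of_interface ggStmt qoneStmt localStmt cornerStmt lSuppStmt ioneStmt H11
    n u hu ρ hρ r hr hr1 hI

end Crest.Agent.R307
end

-- ▼ part R307/FFreal
section

/-!
Row 307 (S0472), task T11 (helper437): the certified polynomial inequalities in real form.
-/

set_option autoImplicit false

namespace Crest.Agent.R307.FFe

open Crest.Agent.R307.IChk

/-! real counterparts of the expressions -/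

noncomputable def rt (m z : ℝ) : ℝ := z * ((1 - m) * (1 - m))
noncomputable def rlam (m z : ℝ) : ℝ := 1 + rt m z * (1 / 2 + rt m z * (1 / 3 + 1 / 4 * rt m z))
noncomputable def rkp (m z : ℝ) : ℝ := z * rlam m z
noncomputable def rkk (m z : ℝ) : ℝ := 2 + rt m z * (2 / 3 + 26 / 45 * rt m z)
noncomputable def rul (m z : ℝ) : ℝ :=
  1 / 2 + z * (1 / 12 * (1 + 3 * (m * m)) + z * (1 / 30 * (1 + m * m * (10 + 5 * (m * m)))))
noncomputable def rgap (m z : ℝ) : ℝ :=
  z * z * (z * (1 / 13 * (1 + m * m * (21 + m * m * (35 + 7 * (m * m))))))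
noncomputable def ruu (m z θ : ℝ) : ℝ := rul m z + θ * rgap m z
noncomputable def rio (m z θ : ℝ) : ℝ := (1 - m * m) * (z * ruu m z θ)
noncomputable def rTb (m L : ℝ) : ℝ := L - 7 / 20 - m * m * (3 / 20 + 1 / 12 * (m * m))
noncomputable def rDD (m z L : ℝ) : ℝ := 2 * L + rkp m z
noncomputable def rbr (m z : ℝ) : ℝ :=
  2 + z * (2 / 3 * (1 + m * m) + z * (2 / 5 + m * m * (4 / 3 + 2 / 5 * (m * m))))
noncomputable def rexq (m z : ℝ) : ℝ := 1 / 6 * ((1 - m * m) * z) * (rbr m z * rbr m z)
noncomputable def rbp (m L : ℝ) : ℝ := L - 1 / 2 - 1 / 12 * (m * m)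
noncomputable def rkl (m z : ℝ) : ℝ := rkk m z * rlam m z
/-- `Q T`, with `ι` given -/
noncomputable def rQ (ι T : ℝ) : ℝ := 67 / 50 + T * (11 / 5 + 29 / 2 * ((T - ι) * (T - ι) + T * ι))
noncomputable def rX (m z L θ T : ℝ) : ℝ :=
  rkl m z - rDD m z L * ((1 - m * m) * ruu m z θ * rQ (rio m z θ) T)
noncomputable def rRp (m z L : ℝ) : ℝ := rkl m z * rbp m L - rDD m z L * rexq m z
noncomputable def rF (m z L θ T : ℝ) : ℝ :=
  (T - rio m z θ) * rX m z L θ T - m * m * rRp m z L
noncomputable def rden (m z : ℝ) : ℝ := 1 / 2 * (3 + m) + (1 - m * m) * rkp m z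
noncomputable def rE1 (m z : ℝ) : ℝ :=
  rkl m z - rden m z * (237 / 125 * (rul m z + rgap m z) - 5 / 6 * (m * m * z * (rbr m z * rbr m z)))

section vals

variable (a b : Ex) (x y p r : ℝ)

theorem val_add : (a + b).val x y p r = a.val x y p r + b.val x y p r := rfl
theorem val_sub : (a - b).val x y p r = a.val x y p r - b.val x y p r := rfl
theorem val_mul : (a * b).val x y p r = a.val x y p r * b.val x y p r := rfl
theorem val_k (n : ℤ) (d : ℕ) : (k n d).val x y p r = (n : ℝ) / (d : ℝ) := rfl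
theorem val_m : m.val x y p r = x := rfl
theorem val_z : z.val x y p r = y := rfl
theorem val_L : L.val x y p r = p := rfl
theorem val_th : th.val x y p r = r := rfl

theorem val_mu : mu.val x y p r = x * x := rfl
theorem val_w : w.val x y p r = 1 - x * x := by
  simp [w, val_sub, val_k, val_mu]
theorem val_t : t.val x y p r = rt x y := by
  simp [t, om, rt, val_sub, val_mul, val_k, val_z, val_m]
theorem val_lam : lam.val x y p r = rlam x y := by
  simp [lam, rlam, val_add, val_mul, val_k, val_t]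
theorem val_kp : kp.val x y p r = rkp x y := by
  simp [kp, rkp, val_mul, val_z, val_lam]
theorem val_kk : kk.val x y p r = rkk x y := by
  simp [kk, rkk, val_add, val_mul, val_k, val_t]
theorem val_ul : ul.val x y p r = rul x y := by
  simp [ul, c2, c3, rul, val_add, val_mul, val_k, val_z, val_mu]
theorem val_gap : gap.val x y p r = rgap x y := by
  simp [gap, c4, rgap, val_add, val_mul, val_k, val_z, val_mu]
theorem val_uu : uu.val x y p r = ruu x y r := by
  simp [uu, ruu, val_add, val_mul, val_th, val_ul, val_gap]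
theorem val_io : io.val x y p r = rio x y r := by
  simp [io, rio, val_mul, val_w, val_z, val_uu]
theorem val_Tb : Tb.val x y p r = rTb x p := by
  simp [Tb, rTb, val_add, val_sub, val_mul, val_k, val_L, val_mu]
theorem val_DD : DD.val x y p r = rDD x y p := by
  simp [DD, rDD, val_add, val_mul, val_k, val_L, val_kp]
theorem val_br : br.val x y p r = rbr x y := by
  simp [br, rbr, val_add, val_mul, val_k, val_z, val_mu]
theorem val_exq : exq.val x y p r = rexq x y := by
  simp [exq, rexq, val_mul, val_k, val_z, val_w, val_br]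
theorem val_bp : bp.val x y p r = rbp x p := by
  simp [bp, rbp, val_sub, val_mul, val_k, val_L, val_mu]
theorem val_kl : kl.val x y p r = rkl x y := by
  simp [kl, rkl, val_mul, val_kk, val_lam]
theorem val_Q (T : Ex) : (Q T).val x y p r = rQ (rio x y r) (T.val x y p r) := by
  simp [Q, rQ, val_add, val_sub, val_mul, val_k, val_io]
theorem val_X (T : Ex) : (X T).val x y p r = rX x y p r (T.val x y p r) := by
  simp [X, rX, val_sub, val_mul, val_kl, val_DD, val_w, val_uu, val_Q]
theorem val_Rp : Rp.val x y p r = rRp x y p := by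
  simp [Rp, rRp, val_sub, val_mul, val_kl, val_bp, val_DD, val_exq]
theorem val_F (T : Ex) : (F T).val x y p r = rF x y p r (T.val x y p r) := by
  simp [F, rF, val_sub, val_mul, val_io, val_X, val_mu, val_Rp]
theorem val_den : den.val x y p r = rden x y := by
  simp [den, rden, val_add, val_mul, val_k, val_m, val_w, val_kp]
theorem val_E1 : E1.val x y p r = rE1 x y := by
  simp [E1, rE1, val_add, val_sub, val_mul, val_k, val_kl, val_den, val_ul, val_gap, val_mu, val_z,
    val_br]
theorem val_dom : dom.val x y p r = y * ((1 + x) * (1 + x)) - 1 := by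
  simp [dom, val_add, val_sub, val_mul, val_k, val_z, val_m]
theorem val_T0 : T0.val x y p r = 1 / 5 := by
  simp [T0, val_k]

end vals

/-- the domain of the certified inequalities -/
structure Dom (m z L θ : ℝ) : Prop where
  m0 : 0 ≤ m
  m1 : m ≤ 1
  z0 : 0 ≤ z
  zm : z * ((1 + m) * (1 + m)) ≤ 1
  L0 : 0.6931471803 < L
  L1 : L < 0.6931471808
  h0 : 0 ≤ θ
  h1 : θ ≤ 1

theorem Dom.z1 {m z L θ : ℝ} (h : Dom m z L θ) : z ≤ 1 := by
  nlinarith [h.m0, h.z0, h.zm, mul_nonneg h.z0 h.m0, mul_nonneg h.z0 (mul_nonneg h.m0 h.m0)]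

theorem mem01 {v : ℝ} (h0 : 0 ≤ v) (h1 : v ≤ 1) : I01.mem v := by
  constructor <;> simp only [I01] <;> push_cast <;> nlinarith

theorem memL {v : ℝ} (h0 : 0.6931471803 < v) (h1 : v < 0.6931471808) : IL.mem v := by
  constructor <;> simp only [IL] <;> push_cast <;> nlinarith

theorem run {m z L θ : ℝ} (h : Dom m z L θ) {cls : List (List Ex)} {n : ℕ}
    (hc : chk IL I01 cls n true I01 I01 = true)
    (hok : ∀ cl ∈ cls, ∀ e ∈ cl, e.ok = true) :
    ∃ cl ∈ cls, ∀ e ∈ cl, 0 < e.val m z L θ :=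
  chk_sound (memL h.L0 h.L1) (mem01 h.h0 h.h1) cls hok n true I01 I01 hc
    (mem01 h.m0 h.m1) (mem01 h.z0 h.z1)

theorem not_dom {m z L θ : ℝ} (h : Dom m z L θ) : ¬ 0 < dom.val m z L θ := by
  rw [val_dom]; linarith [h.zm]

theorem real_A {m z L θ : ℝ} (h : Dom m z L θ) (hi : rio m z θ ≤ 1 / 5) :
    0 < rX m z L θ (1 / 5) := by
  obtain ⟨cl, hcl, hpos⟩ := run h chkA (by decide)
  simp only [clsA, List.mem_cons, List.not_mem_nil, or_false] at hcl
  rcases hcl with rfl | rfl | rfl
  · exact absurd (hpos dom (by simp)) (not_dom h)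
  · have := hpos (io - T0) (by simp)
    rw [val_sub, val_io, val_T0] at this
    linarith
  · have := hpos (X T0) (by simp)
    rwa [val_X, val_T0] at this

theorem real_B {m z L θ : ℝ} (h : Dom m z L θ) (hi : rio m z θ ≤ 1 / 5) (hT : 1 / 5 ≤ rTb m L) :
    rRp m z L < 0 ∨ 0 < rF m z L θ (1 / 5) := by
  obtain ⟨cl, hcl, hpos⟩ := run h chkB (by decide)
  simp only [clsB, List.mem_cons, List.not_mem_nil, or_false] at hcl
  rcases hcl with rfl | rfl | rfl | rfl | rfl
  · exact absurd (hpos dom (by simp)) (not_dom h)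
  · have := hpos (io - T0) (by simp)
    rw [val_sub, val_io, val_T0] at this
    linarith
  · have := hpos (T0 - Tb) (by simp)
    rw [val_sub, val_Tb, val_T0] at this
    linarith
  · have := hpos (k 0 1 - Rp) (by simp)
    rw [val_sub, val_k, val_Rp] at this
    left
    norm_num at this
    exact this
  · have := hpos (F T0) (by simp)
    rw [val_F, val_T0] at this
    exact Or.inr this

theorem real_C {m z L θ : ℝ} (h : Dom m z L θ) (hi : 1 / 5 ≤ rio m z θ) (hT : rio m z θ ≤ rTb m L) :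
    rRp m z L < 0 := by
  obtain ⟨cl, hcl, hpos⟩ := run h chkC (by decide)
  simp only [clsC, List.mem_cons, List.not_mem_nil, or_false] at hcl
  rcases hcl with rfl | rfl | rfl | rfl
  · exact absurd (hpos dom (by simp)) (not_dom h)
  · have := hpos (T0 - io) (by simp)
    rw [val_sub, val_io, val_T0] at this
    linarith
  · have := hpos (io - Tb) (by simp)
    rw [val_sub, val_Tb, val_io] at this
    linarith
  · have := hpos (k 0 1 - Rp) (by simp)
    rw [val_sub, val_k, val_Rp] at this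
    norm_num at this
    exact this

theorem real_D {m z L θ : ℝ} (h : Dom m z L θ) (hi : rio m z θ ≤ rTb m L) (hT : 1 / 5 ≤ rTb m L) :
    (rRp m z L < 0 ∧ 0 < rX m z L θ (rTb m L)) ∨ 0 < rF m z L θ (rTb m L) := by
  obtain ⟨cl, hcl, hpos⟩ := run h chkD (by decide)
  simp only [clsD, List.mem_cons, List.not_mem_nil, or_false] at hcl
  rcases hcl with rfl | rfl | rfl | rfl | rfl
  · exact absurd (hpos dom (by simp)) (not_dom h)
  · have := hpos (io - Tb) (by simp)
    rw [val_sub, val_io, val_Tb] at this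
    linarith
  · have := hpos (T0 - Tb) (by simp)
    rw [val_sub, val_Tb, val_T0] at this
    linarith
  · have h1 := hpos (k 0 1 - Rp) (by simp)
    have h2 := hpos (X Tb) (by simp)
    rw [val_sub, val_k, val_Rp] at h1
    rw [val_X, val_Tb] at h2
    left
    norm_num at h1
    exact ⟨h1, h2⟩
  · have := hpos (F Tb) (by simp)
    rw [val_F, val_Tb] at this
    exact Or.inr this

theorem real_E {m z L θ : ℝ} (h : Dom m z L θ) (hi : rio m z θ ≤ 1 / 5) : 0 < rE1 m z := by
  obtain ⟨cl, hcl, hpos⟩ := run h chkE (by decide)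
  simp only [clsE, List.mem_cons, List.not_mem_nil, or_false] at hcl
  rcases hcl with rfl | rfl | rfl
  · exact absurd (hpos dom (by simp)) (not_dom h)
  · have := hpos (io - T0) (by simp)
    rw [val_sub, val_io, val_T0] at this
    linarith
  · have := hpos E1 (by simp)
    rwa [val_E1] at this

end Crest.Agent.R307.FFe
end

-- ▼ part R307/FFc
section

/-!
Row 307 (S0472-T11c, task 982, helper731): lower bound for `LL` with the variance term.
-/

set_option autoImplicit false

open Set Crest.CubeNoise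

namespace Crest.Agent.R307

/-- `3 t / (3 - t^2) ≤ artanh t` on `[0,1)`. -/
theorem FFc.artanh_ge {t : ℝ} (h0 : 0 ≤ t) (h1 : t < 1) : 3 * t / (3 - t ^ 2) ≤ Real.artanh t := by
  have hd : ∀ x : ℝ, 0 ≤ x → x < 1 → HasDerivAt (fun x => Real.artanh x - 3 * x / (3 - x ^ 2))
      (4 * x ^ 4 / ((1 - x ^ 2) * (3 - x ^ 2) ^ 2)) x := by
    intro x hx0 hx1
    have h3 := one_sub_sq_pos hx0 hx1
    have h4 : 0 < 3 - x ^ 2 := by linarith
    have e1 : HasDerivAt (fun x : ℝ => 3 - x ^ 2) (-(2 * x)) x := by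
      have := (hasDerivAt_pow 2 x).const_sub 3
      simpa using this
    have e2 : HasDerivAt (fun x : ℝ => 3 * x) 3 x := by
      have := (hasDerivAt_id x).const_mul 3
      simpa using this
    refine ((hasDerivAt_artanh (abs_lt_one_of_mem hx0 hx1)).sub
      (e2.div e1 h4.ne')).congr_deriv ?_
    field_simp
    ring
  have hmono : MonotoneOn (fun x => Real.artanh x - 3 * x / (3 - x ^ 2)) (Ico 0 1) := by
    refine monotoneOn_of_deriv_nonneg (convex_Ico 0 1) ?_ ?_ ?_
    · intro x hx
      exact (hd x hx.1 hx.2).continuousAt.continuousWithinAt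
    · rw [interior_Ico]
      intro x hx
      exact (hd x hx.1.le hx.2).differentiableAt.differentiableWithinAt
    · rw [interior_Ico]
      intro x hx
      rw [(hd x hx.1.le hx.2).deriv]
      have h3 := one_sub_sq_pos hx.1.le hx.2
      positivity
  have := hmono (left_mem_Ico.mpr one_pos) ⟨h0, h1⟩ h0
  simp at this
  linarith

/-- `(4/3) artanh t ≤ kappa' t` on `(0,1)`. -/
theorem FFc.kappa'_ge {t : ℝ} (h0 : 0 < t) (h1 : t < 1) : 4 / 3 * Real.artanh t ≤ kappa' t := by
  have hA := artanh_pos' h0 h1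
  have h3 := one_sub_sq_pos h0.le h1
  have hl := FFc.artanh_ge h0.le h1
  have hh := artanh_le h0.le h1
  unfold kappa'
  set A := Real.artanh t with hAdef
  rw [le_div_iff₀ (by positivity)]
  have h4 : 0 < 3 - t ^ 2 := by linarith
  -- `l = 3t/(3-t²)`, `h = t/(1-t²)`
  set l := 3 * t / (3 - t ^ 2) with hldef
  set h := t / (1 - t ^ 2) with hhdef
  have hl' : l * (3 - t ^ 2) = 3 * t := by rw [hldef]; field_simp
  have hh' : h * (1 - t ^ 2) = t := by rw [hhdef]; field_simp
  have hlpos : 0 < l := by rw [hldef]; positivity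
  have hhpos : 0 < h := by rw [hhdef]; positivity
  set c := 4 / 3 * (1 - t ^ 2) ^ 2 with hc
  have hcpos : 0 < c := by rw [hc]; positivity
  -- values of `φ x = (1+t²) x - t - c x³` at the end points
  have hφl : 0 ≤ (1 + t ^ 2) * l - t - c * l ^ 3 := by
    have e : (1 + t ^ 2) * l - t - c * l ^ 3 =
        8 * t ^ 5 * (6 - 4 * t ^ 2) / (3 - t ^ 2) ^ 3 := by
      rw [hldef, hc]
      field_simp
      ring
    rw [e]
    have : 0 < 6 - 4 * t ^ 2 := by nlinarith
    positivity
  have hφh : 0 ≤ (1 + t ^ 2) * h - t - c * h ^ 3 := by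
    have e : (1 + t ^ 2) * h - t - c * h ^ 3 = 2 / 3 * t ^ 3 / (1 - t ^ 2) := by
      rw [hhdef, hc]
      field_simp
      ring
    rw [e]
    positivity
  -- concavity
  have key : 0 ≤ (1 + t ^ 2) * A - t - c * A ^ 3 := by
    rcases eq_or_lt_of_le (hl.trans hh) with hlh | hlh
    · have : A = l := le_antisymm (hlh ▸ hh) hl
      rw [this]; exact hφl
    · have e : ((1 + t ^ 2) * A - t - c * A ^ 3) * (h - l) =
          ((1 + t ^ 2) * l - t - c * l ^ 3) * (h - A) + ((1 + t ^ 2) * h - t - c * h ^ 3) * (A - l)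
          + c * (h - l) * (h - A) * (A - l) * (A + h + l) := by ring
      have h5 : 0 ≤ ((1 + t ^ 2) * A - t - c * A ^ 3) * (h - l) := by
        rw [e]
        have a1 : 0 ≤ h - A := by linarith
        have a2 : 0 ≤ A - l := by linarith
        have a3 : 0 ≤ h - l := by linarith
        have a4 : 0 ≤ A + h + l := by positivity
        have b1 := mul_nonneg hφl a1
        have b2 := mul_nonneg hφh a2
        have b3 : 0 ≤ c * (h - l) * (h - A) * (A - l) * (A + h + l) := by positivity
        linarith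
      exact nonneg_of_mul_nonneg_left h5 (by linarith)
  have e : 4 / 3 * A * ((1 - t ^ 2) ^ 2 * A ^ 2) = c * A ^ 3 := by rw [hc]; ring
  rw [e]
  linarith

/-- `kappa r - (4/3) psi r` is monotone on `[0,1)`. -/
theorem FFc.monotoneOn_kappa_sub : MonotoneOn (fun x => kappa x - 4 / 3 * psi x) (Ico 0 1) := by
  refine monotoneOn_of_deriv_nonneg (convex_Ico 0 1) ?_ ?_ ?_
  · exact continuousOn_kappa.sub (continuous_psi.continuousOn.const_mul _ |>.mono (subset_univ _))
  · rw [interior_Ico]
    intro x hx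
    exact ((hasDerivAt_kappa hx.1 hx.2).sub ((hasDerivAt_psi
      (abs_lt_one_of_mem hx.1.le hx.2)).const_mul (4 / 3))).differentiableAt.differentiableWithinAt
  · rw [interior_Ico]
    intro x hx
    have he : HasDerivAt (fun x => kappa x - 4 / 3 * psi x) (kappa' x - 4 / 3 * Real.artanh x) x :=
      (hasDerivAt_kappa hx.1 hx.2).sub ((hasDerivAt_psi
        (abs_lt_one_of_mem hx.1.le hx.2)).const_mul (4 / 3))
    rw [he.deriv]
    linarith [FFc.kappa'_ge hx.1 hx.2]

/-- the tangent inequality of `SS - (2/3) I^2` in the parameters. -/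
theorem FFc.tangent {t r : ℝ} (h0 : 0 ≤ t) (h1 : t < 1) (hr0 : 0 ≤ r) (hr1 : r < 1) :
    sF t - 2 / 3 * psi t ^ 2 + (kappa t - 2 - 4 / 3 * psi t) * (psi r - psi t) ≤
      sF r - 2 / 3 * psi r ^ 2 := by
  set f : ℝ → ℝ := fun x => sF x - 2 / 3 * psi x ^ 2 - (kappa t - 2 - 4 / 3 * psi t) * psi x with hf
  have hd : ∀ x : ℝ, 0 ≤ x → x < 1 → HasDerivAt f
      (((kappa x - 4 / 3 * psi x) - (kappa t - 4 / 3 * psi t)) * Real.artanh x) x := by
    intro x hx0 hx1
    have hx := abs_lt_one_of_mem hx0 hx1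
    refine (((hasDerivAt_sF hx).sub (((hasDerivAt_psi hx).pow 2).const_mul (2 / 3))).sub
      ((hasDerivAt_psi hx).const_mul (kappa t - 2 - 4 / 3 * psi t))).congr_deriv ?_
    have hk := kappa_mul_artanh hx0 hx1
    push_cast
    have e : x / (1 - x ^ 2) = kappa x * Real.artanh x - Real.artanh x := by linarith
    rw [e]
    ring
  have hcont : ContinuousOn f (Ico 0 1) := fun x hx =>
    (hd x hx.1 hx.2).continuousAt.continuousWithinAt
  have hmain : f t ≤ f r := by
    rcases le_total t r with htt | htt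
    · have hmono : MonotoneOn f (Ico t 1) := by
        refine monotoneOn_of_deriv_nonneg (convex_Ico t 1)
          (hcont.mono (Ico_subset_Ico_left h0)) ?_ ?_
        · rw [interior_Ico]
          intro x hx
          exact (hd x (h0.trans hx.1.le) hx.2).differentiableAt.differentiableWithinAt
        · rw [interior_Ico]
          intro x hx
          have hx0 : 0 ≤ x := h0.trans hx.1.le
          rw [(hd x hx0 hx.2).deriv]
          have hk := FFc.monotoneOn_kappa_sub ⟨h0, h1⟩ ⟨hx0, hx.2⟩ hx.1.le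
          simp only at hk
          exact mul_nonneg (by linarith) (Real.artanh_nonneg hx0)
      exact hmono ⟨le_rfl, h1⟩ ⟨htt, hr1⟩ htt
    · have hanti : AntitoneOn f (Icc 0 t) := by
        refine antitoneOn_of_deriv_nonpos (convex_Icc 0 t)
          (hcont.mono (fun x hx => ⟨hx.1, lt_of_le_of_lt hx.2 h1⟩)) ?_ ?_
        · rw [interior_Icc]
          intro x hx
          exact (hd x hx.1.le (hx.2.trans h1)).differentiableAt.differentiableWithinAt
        · rw [interior_Icc]
          intro x hx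
          rw [(hd x hx.1.le (hx.2.trans h1)).deriv]
          have hk := FFc.monotoneOn_kappa_sub ⟨hx.1.le, hx.2.trans h1⟩ ⟨h0, h1⟩ hx.2.le
          simp only at hk
          exact mul_nonpos_of_nonpos_of_nonneg (by linarith) (Real.artanh_nonneg hx.1.le)
      exact hanti ⟨hr0, htt⟩ ⟨h0, le_rfl⟩ htt
  rw [hf] at hmain
  simp only at hmain
  nlinarith

/-- **`LL` lower bound with variance term.** -/
theorem LL_ge_SS_add {m d : ℝ} (h0 : 0 ≤ m) (hd : 0 < d) (hd1 : d < 1 - m) :
    SS (io (m+d) (m-d)) + (1-m^2)/6 * (psi (d/(1-m)) - psi (d/(1+m)))^2 ≤ LL (m+d) (m-d) := by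
  have ha : |m + d| < 1 := by rw [abs_lt]; constructor <;> linarith
  have hb : |m - d| < 1 := by rw [abs_lt]; constructor <;> linarith
  have hio := io_persp ha hb
  have hLL := LL_persp ha hb
  have e1 : (m + d + (m - d)) / 2 = m := by ring
  have e2 : (m + d - (m - d)) / 2 = d := by ring
  rw [e1, e2] at hio hLL
  have hm1 : 0 < 1 - m := by linarith
  have hp1 : 0 < 1 + m := by linarith
  have hx0 : 0 ≤ d / (1 + m) := by positivity
  have hx1 : d / (1 + m) < 1 := by rw [div_lt_one hp1]; linarith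
  have hy0 : 0 ≤ d / (1 - m) := by positivity
  have hy1 : d / (1 - m) < 1 := by rw [div_lt_one hm1]; linarith
  have hpx := psi_lt_log_two (abs_lt_one_of_mem hx0 hx1)
  have hpy := psi_lt_log_two (abs_lt_one_of_mem hy0 hy1)
  have hpx0 := psi_nonneg (d / (1 + m))
  have hpy0 := psi_nonneg (d / (1 - m))
  set p := psi (d / (1 + m)) with hp
  set q := psi (d / (1 - m)) with hq
  set I := io (m + d) (m - d) with hI
  have hI0 : 0 ≤ I := by
    rw [hio]
    have := mul_nonneg hp1.le hpx0
    have := mul_nonneg hm1.le hpy0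
    linarith
  have hI1 : I < Real.log 2 := by
    rw [hio]
    nlinarith [mul_lt_mul_of_pos_left hpx hp1, mul_lt_mul_of_pos_left hpy hm1]
  have hm := hinv_mem (y := Real.log 2 - I) (by linarith)
  have hpsi := Persp.psi_hinv hI0 hI1
  have h1 := FFc.tangent hm.1 hm.2 hx0 hx1
  have h2 := FFc.tangent hm.1 hm.2 hy0 hy1
  rw [hpsi] at h1 h2
  rw [← hp] at h1
  rw [← hq] at h2
  have hSS : SS I = sF (hinv (Real.log 2 - I)) := rfl
  rw [hSS, hLL]
  set t := hinv (Real.log 2 - I) with ht
  set K := kappa t - 2 - 4 / 3 * I with hK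
  have h3 := mul_le_mul_of_nonneg_left h1 (by linarith : 0 ≤ (1 + m) / 2)
  have h4 := mul_le_mul_of_nonneg_left h2 (by linarith : 0 ≤ (1 - m) / 2)
  have e3 : (1 + m) / 2 * (p - I) + (1 - m) / 2 * (q - I) = 0 := by rw [hio]; ring
  have e4 : (1 + m) / 2 * p ^ 2 + (1 - m) / 2 * q ^ 2 - I ^ 2 = (1 - m ^ 2) / 4 * (q - p) ^ 2 := by
    rw [hio]; ring
  have e5 : (1 + m) / 2 * (K * (p - I)) + (1 - m) / 2 * (K * (q - I)) = 0 := by
    have : (1 + m) / 2 * (K * (p - I)) + (1 - m) / 2 * (K * (q - I)) =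
      K * ((1 + m) / 2 * (p - I) + (1 - m) / 2 * (q - I)) := by ring
    rw [this, e3, mul_zero]
  linarith

end Crest.Agent.R307
end

-- ▼ part R307/FF
section

/-!
Row 307 (S0472), task T11 (helper437): the scalar inequality (FF), assembly.
-/

set_option autoImplicit false

open Crest.CubeNoise Set

namespace Crest.Agent.R307

namespace FFe

/-- chord bound for powers -/
theorem pow_chord {q0 q1 q s : ℝ} (h0 : 0 ≤ q0) (h1 : 0 ≤ q1) (hs0 : 0 ≤ s) (hs1 : s ≤ 1)
    (hq : q = (1 - s) * q0 + s * q1) (n : ℕ) : q ^ n ≤ (1 - s) * q0 ^ n + s * q1 ^ n := by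
  have h := (convexOn_pow n).2 (mem_Ici.mpr h0) (mem_Ici.mpr h1) (by linarith : 0 ≤ 1 - s) hs0
    (by ring)
  simp only [smul_eq_mul] at h
  rw [hq]
  exact h

/-- `(T - ι) * Q` lies below its chords -/
theorem NQ_chord {ι A B T : ℝ} (h0 : 0 ≤ ι) (hA : ι ≤ A) (hAT : A ≤ T) (hTB : T ≤ B) :
    (B - A) * ((T - ι) * rQ ι T) ≤
      (B - T) * ((A - ι) * rQ ι A) + (T - A) * ((B - ι) * rQ ι B) := by
  rcases eq_or_lt_of_le (hAT.trans hTB) with hAB | hAB
  · have h1 : T = A := by linarith
    have h2 : B = A := by linarith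
    subst h1; subst h2
    linarith
  have hpos : 0 < B - A := by linarith
  set s := (T - A) / (B - A) with hs
  have hs0 : 0 ≤ s := div_nonneg (by linarith) hpos.le
  have hs1 : s ≤ 1 := by rw [hs, div_le_one hpos]; linarith
  have hsm : s * (B - A) = T - A := by rw [hs]; field_simp
  have hq : T - ι = (1 - s) * (A - ι) + s * (B - ι) := by nlinarith
  have e : ∀ U : ℝ, (U - ι) * rQ ι U = (67 / 50 + 11 / 5 * ι + 29 / 2 * ι ^ 3) * (U - ι) +
      (11 / 5 + 29 * ι ^ 2) * (U - ι) ^ 2 + 29 * ι * (U - ι) ^ 3 + 29 / 2 * (U - ι) ^ 4 := by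
    intro U
    unfold rQ
    ring
  have c2 := pow_chord (by linarith : 0 ≤ A - ι) (by linarith : 0 ≤ B - ι) hs0 hs1 hq 2
  have c3 := pow_chord (by linarith : 0 ≤ A - ι) (by linarith : 0 ≤ B - ι) hs0 hs1 hq 3
  have c4 := pow_chord (by linarith : 0 ≤ A - ι) (by linarith : 0 ≤ B - ι) hs0 hs1 hq 4
  have d2 := mul_le_mul_of_nonneg_left c2 (by positivity : 0 ≤ 11 / 5 + 29 * ι ^ 2)
  have d3 := mul_le_mul_of_nonneg_left c3 (by positivity : 0 ≤ 29 * ι)
  have d4 := mul_le_mul_of_nonneg_left c4 (by norm_num : (0 : ℝ) ≤ 29 / 2)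
  have key : (T - ι) * rQ ι T ≤ (1 - s) * ((A - ι) * rQ ι A) + s * ((B - ι) * rQ ι B) := by
    rw [e T, e A, e B]
    have d1 : (67 / 50 + 11 / 5 * ι + 29 / 2 * ι ^ 3) * (T - ι) =
        (67 / 50 + 11 / 5 * ι + 29 / 2 * ι ^ 3) * ((1 - s) * (A - ι) + s * (B - ι)) := by rw [← hq]
    linarith
  have h1s : (1 - s) * (B - A) = B - T := by linarith
  calc (B - A) * ((T - ι) * rQ ι T)
      ≤ (B - A) * ((1 - s) * ((A - ι) * rQ ι A) + s * ((B - ι) * rQ ι B)) :=
        mul_le_mul_of_nonneg_left key hpos.le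
    _ = ((1 - s) * (B - A)) * ((A - ι) * rQ ι A) + (s * (B - A)) * ((B - ι) * rQ ι B) := by ring
    _ = _ := by rw [h1s, hsm]

/-- abbreviation of the (FF) functional divided by `z`: concave in `T` -/
theorem F_chord {m z L θ A B T : ℝ} (hι : 0 ≤ rio m z θ) (hD : 0 ≤ rDD m z L)
    (hu : rio m z θ = (1 - m * m) * (z * ruu m z θ))
    (hA : rio m z θ ≤ A) (hAT : A ≤ T) (hTB : T ≤ B)
    (h1 : 0 ≤ z * rF m z L θ A) (h2 : 0 ≤ z * rF m z L θ B) : 0 ≤ z * rF m z L θ T := by
  rcases eq_or_lt_of_le (hAT.trans hTB) with hAB | hAB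
  · have h1 : T = A := by linarith
    rw [h1]; assumption
  have hpos : 0 < B - A := by linarith
  have e : ∀ U : ℝ, z * rF m z L θ U = z * rkl m z * (U - rio m z θ) -
      rDD m z L * rio m z θ * ((U - rio m z θ) * rQ (rio m z θ) U) - z * (m * m) * rRp m z L := by
    intro U
    unfold rF rX
    rw [show rDD m z L * rio m z θ = rDD m z L * ((1 - m * m) * (z * ruu m z θ)) by rw [← hu]]
    ring
  have hN := NQ_chord hι hA hAT hTB
  have hN' := mul_le_mul_of_nonneg_left hN (mul_nonneg hD hι)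
  rw [e] at h1 h2 ⊢
  have h3 : 0 ≤ (B - T) * (z * rkl m z * (A - rio m z θ) -
      rDD m z L * rio m z θ * ((A - rio m z θ) * rQ (rio m z θ) A) - z * (m * m) * rRp m z L) :=
    mul_nonneg (by linarith) h1
  have h4 : 0 ≤ (T - A) * (z * rkl m z * (B - rio m z θ) -
      rDD m z L * rio m z θ * ((B - rio m z θ) * rQ (rio m z θ) B) - z * (m * m) * rRp m z L) :=
    mul_nonneg (by linarith) h2
  by_contra hneg
  rw [not_le] at hneg
  have h5 := mul_neg_of_pos_of_neg hpos hneg
  nlinarith

/-- case `T ≤ 1/5` -/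
theorem case_small {m z L θ ι q T w j : ℝ} (hdom : Dom m z L θ) (hz : 0 < z) (hw : w = 1 - m * m)
    (hw0 : 0 < w) (hι : ι = rio m z θ) (hι0 : 0 ≤ ι) (hq : T = ι + q) (hq0 : 0 ≤ q)
    (hT : T ≤ 1 / 5) (hα : rkp m z * w * q ≤ j * rden m z) :
    ι * q * rQ ι T ≤ rkk m z * j + m * m * z * rexq m z := by
  have hE := real_E hdom (by linarith)
  have hm0 := hdom.m0
  have ht0 : 0 ≤ rt m z := by unfold rt; exact mul_nonneg hz.le (mul_self_nonneg _)
  have hlam : 0 < rlam m z := by unfold rlam; positivity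
  have hkp : 0 < rkp m z := mul_pos hz hlam
  have hkk : 0 < rkk m z := by unfold rkk; positivity
  have hden : 0 < rden m z := by
    unfold rden
    rw [← hw]
    positivity
  have hul : 0 ≤ rul m z := by unfold rul; positivity
  have hgap : 0 ≤ rgap m z := by unfold rgap; positivity
  have hex : 0 ≤ rexq m z := by
    unfold rexq
    rw [← hw]
    exact mul_nonneg (by positivity) (mul_self_nonneg _)
  have hιu : ι ≤ w * (z * (rul m z + rgap m z)) := by
    rw [hι]
    unfold rio ruu
    rw [← hw]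
    have := mul_le_mul_of_nonneg_right hdom.h1 hgap
    gcongr
    linarith
  have hT0 : 0 ≤ T := by linarith
  have hQ : rQ ι T ≤ 237 / 125 := by
    unfold rQ
    have h1 : (T - ι) * (T - ι) + T * ι ≤ 1 / 25 := by nlinarith
    have h2 : T * (11 / 5 + 29 / 2 * ((T - ι) * (T - ι) + T * ι)) ≤ 1 / 5 * (11 / 5 + 29 / 2 * (1 / 25)) := by
      apply mul_le_mul hT (by linarith) (by nlinarith [mul_self_nonneg (T - ι), mul_nonneg hT0 hι0]) (by norm_num)
    linarith
  have hQ0 : 0 ≤ rQ ι T := by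
    unfold rQ
    have : 0 ≤ (T - ι) * (T - ι) + T * ι := add_nonneg (mul_self_nonneg _) (mul_nonneg hT0 hι0)
    positivity
  have h5q : 5 * q ≤ 1 := by linarith
  -- multiply by `den`
  have g1 : rden m z * (ι * q * rQ ι T) ≤
      rden m z * (w * (z * (rul m z + rgap m z)) * q * (237 / 125)) := by
    gcongr
  have g2 : rkk m z * (rkp m z * w * q) ≤ rkk m z * (j * rden m z) :=
    mul_le_mul_of_nonneg_left hα hkk.le
  have g3 : 5 * q * (m * m * z * rexq m z * rden m z) ≤ 1 * (m * m * z * rexq m z * rden m z) := by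
    gcongr
  have g4 : 0 ≤ w * z * q * rE1 m z := by positivity
  have e4 : w * z * q * rE1 m z = rkk m z * (rkp m z * w * q) -
      rden m z * (w * (z * (rul m z + rgap m z)) * q * (237 / 125)) +
      5 * q * (m * m * z * rexq m z * rden m z) := by
    unfold rE1 rkl rkp rexq
    rw [hw]
    ring
  have g5 : rden m z * (ι * q * rQ ι T) ≤
      rden m z * (rkk m z * j + m * m * z * rexq m z) := by
    rw [e4] at g4
    nlinarith
  exact le_of_mul_le_mul_left g5 hden

/-- case `1/5 ≤ T` -/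
theorem case_large {m z L θ ι q T j : ℝ} (hdom : Dom m z L θ) (hz : 0 < z)
    (hι : ι = rio m z θ) (hι0 : 0 ≤ ι) (hq : T = ι + q) (hq0 : 0 ≤ q)
    (hT : 1 / 5 ≤ T) (hTb : T ≤ rTb m L)
    (hα : rkp m z * (q - m * m * rbp m L) ≤ j * rDD m z L) :
    ι * q * rQ ι T ≤ rkk m z * j + m * m * z * rexq m z := by
  have hm0 := hdom.m0
  have ht0 : 0 ≤ rt m z := by unfold rt; exact mul_nonneg hz.le (mul_self_nonneg _)
  have hlam : 0 < rlam m z := by unfold rlam; positivity
  have hkp : 0 < rkp m z := mul_pos hz hlam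
  have hkk : 0 < rkk m z := by unfold rkk; positivity
  have hDD : 0 < rDD m z L := by
    unfold rDD
    have := hdom.L0
    positivity
  have hiT : rio m z θ ≤ rTb m L := by rw [← hι]; linarith
  -- value at `Tb`
  have fB : 0 ≤ z * rF m z L θ (rTb m L) := by
    rcases real_D hdom hiT (hT.trans hTb) with ⟨h1, h2⟩ | h
    · unfold rF
      have : 0 ≤ (rTb m L - rio m z θ) * rX m z L θ (rTb m L) :=
        mul_nonneg (by linarith) h2.le
      have h3 : 0 ≤ m * m * -rRp m z L := mul_nonneg (mul_self_nonneg _) (by linarith)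
      apply mul_nonneg hz.le
      linarith
    · exact mul_nonneg hz.le h.le
  have hrio : rio m z θ = (1 - m * m) * (z * ruu m z θ) := rfl
  have hι0' : 0 ≤ rio m z θ := by rw [← hι]; exact hι0
  have fT : 0 ≤ z * rF m z L θ T := by
    rcases le_total (rio m z θ) (1 / 5) with hc | hc
    · have fA : 0 ≤ z * rF m z L θ (1 / 5) := by
        rcases real_B hdom hc (hT.trans hTb) with h1 | h
        · have h2 := real_A hdom hc
          unfold rF
          have : 0 ≤ (1 / 5 - rio m z θ) * rX m z L θ (1 / 5) :=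
            mul_nonneg (by linarith) h2.le
          have h3 : 0 ≤ m * m * -rRp m z L := mul_nonneg (mul_self_nonneg _) (by linarith)
          apply mul_nonneg hz.le
          linarith
        · exact mul_nonneg hz.le h.le
      exact F_chord hι0' hDD.le hrio hc hT hTb fA fB
    · have hR := real_C hdom hc hiT
      have fA : 0 ≤ z * rF m z L θ (rio m z θ) := by
        unfold rF
        have h3 : 0 ≤ m * m * -rRp m z L := mul_nonneg (mul_self_nonneg _) (by linarith)
        apply mul_nonneg hz.le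
        rw [sub_self, zero_mul]
        linarith
      exact F_chord hι0' hDD.le hrio le_rfl (by rw [← hι]; linarith) hTb fA fB
  have g2 : rkk m z * (rkp m z * (q - m * m * rbp m L)) ≤ rkk m z * (j * rDD m z L) :=
    mul_le_mul_of_nonneg_left hα hkk.le
  have e : z * rF m z L θ T = rkk m z * (rkp m z * (q - m * m * rbp m L)) +
      rDD m z L * (m * m * z * rexq m z) - rDD m z L * (ι * q * rQ ι T) := by
    have hq' : q = T - ι := by linarith
    have e1 : rDD m z L * (ι * q * rQ ι T) = rDD m z L *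
        ((1 - m * m) * (z * ruu m z θ)) * (T - rio m z θ) * rQ (rio m z θ) T := by
      rw [hq', hι]
      unfold rio
      ring
    rw [e1, hq', hι]
    unfold rF rX rRp rkl
    rw [show rkp m z = z * rlam m z from rfl]
    ring
  have g5 : rDD m z L * (ι * q * rQ ι T) ≤
      rDD m z L * (rkk m z * j + m * m * z * rexq m z) := by
    rw [e] at fT
    nlinarith
  exact le_of_mul_le_mul_left g5 hDD

end FFe

open FFe in
/-- **(FF)** from the product bound on `SS`. -/
theorem ffStmt_of_add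
    (Hadd : ∀ x y : ℝ, 0 ≤ x → 0 ≤ y → x + y ≤ Real.log 2 - 7 / 20 →
      SS (x + y) - SS x - SS y ≤
        x * y * (67 / 50 + 11 / 5 * (x + y) + 29 / 2 * (x + y) * ((x + y) ^ 2 - x * y))) :
    FFStmt := by
  intro m δ w V y j ι hm0 hm1 hδ0 hδ1 hw hι hV0 hVw hy0 hyK hyL hkap _ hT
  set L := Real.log 2 with hL
  have hLlo : 0.6931471803 < L := Real.log_two_gt_d9
  have hLhi : L < 0.6931471808 := Real.log_two_lt_d9
  have h1m : 0 < 1 - m := by linarith
  have h1p : 0 < 1 + m := by linarith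
  have hw' : w = 1 - m * m := by rw [hw]; ring
  have hwf : w = (1 - m) * (1 + m) := by rw [hw]; ring
  have hw0 : 0 < w := by rw [hwf]; positivity
  set ε := δ / (1 + m) with hε
  set x0 := δ / (1 - m) with hx0
  have hε0 : 0 < ε := by positivity
  have hε1 : ε < 1 := by rw [hε, div_lt_one h1p]; linarith
  have hx00 : 0 < x0 := by positivity
  have hx01 : x0 < 1 := by rw [hx0, div_lt_one h1m]; linarith
  have hεx : ε ≤ x0 := by
    rw [hε, hx0]
    exact div_le_div_of_nonneg_left hδ0.le h1m (by linarith)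
  set z := (δ / w) ^ 2 with hz
  have hz0 : 0 < z := by positivity
  have hεz : ε ^ 2 = z * ((1 - m) * (1 - m)) := by
    rw [hε, hz, hwf]; field_simp
  have hxz : x0 ^ 2 = z * ((1 + m) * (1 + m)) := by
    rw [hx0, hz, hwf]; field_simp
  have hrt : rt m z = ε ^ 2 := by unfold rt; rw [hεz]
  have ht0 : 0 ≤ rt m z := by rw [hrt]; positivity
  have ht1 : rt m z < 1 := by rw [hrt]; exact pow_lt_one₀ hε0.le hε1 two_ne_zero
  have hlam : 0 < rlam m z := by unfold rlam; positivity
  have hkp : 0 < rkp m z := mul_pos hz0 hlam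
  have hkk : 0 < rkk m z := by unfold rkk; positivity
  -- kap
  have hkap1 : rkp m z ≤ -Real.log (1 - δ ^ 2 / (1 + m) ^ 2) / (1 - m) ^ 2 := by
    rw [le_div_iff₀ (by positivity)]
    have e1 : δ ^ 2 / (1 + m) ^ 2 = rt m z := by rw [hrt, hε, div_pow]
    rw [e1]
    have h := neg_log_ge4 ht0 ht1
    refine le_trans (le_of_eq ?_) h
    have e2 : rkp m z * (1 - m) ^ 2 = rt m z * rlam m z := by
      unfold rkp rt; ring
    rw [e2]
    unfold rlam
    ring
  have hkV : rkp m z * V ≤ 2 * j := (mul_le_mul_of_nonneg_right hkap1 hV0).trans hkap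
  have hj0 : 0 ≤ j := by
    have := mul_nonneg hkp.le hV0
    linarith
  -- kappa
  have hkappa : rkk m z ≤ kappa ε := by
    refine le_trans (le_of_eq ?_) (kappa_ge_poly hε0.le hε1)
    unfold rkk
    rw [hrt]; ring
  -- iota
  have ha : |m + δ| < 1 := by rw [abs_lt]; constructor <;> linarith
  have hb : |m - δ| < 1 := by rw [abs_lt]; constructor <;> linarith
  have hio := io_persp ha hb
  have e1 : (m + δ + (m - δ)) / 2 = m := by ring
  have e2 : (m + δ - (m - δ)) / 2 = δ := by ring
  rw [e1, e2, ← hι, ← hε, ← hx0] at hio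
  have hε4 : ε ^ 4 = (z * ((1 - m) * (1 - m))) ^ 2 := by rw [← hεz]; ring
  have hε6 : ε ^ 6 = (z * ((1 - m) * (1 - m))) ^ 3 := by rw [← hεz]; ring
  have hε8 : ε ^ 8 = (z * ((1 - m) * (1 - m))) ^ 4 := by rw [← hεz]; ring
  have hx4 : x0 ^ 4 = (z * ((1 + m) * (1 + m))) ^ 2 := by rw [← hxz]; ring
  have hx6 : x0 ^ 6 = (z * ((1 + m) * (1 + m))) ^ 3 := by rw [← hxz]; ring
  have hx8 : x0 ^ 8 = (z * ((1 + m) * (1 + m))) ^ 4 := by rw [← hxz]; ring
  have hιlo : w * (z * rul m z) ≤ ι := by
    have p1 := mul_le_mul_of_nonneg_left (psi_ge3 hε0.le hε1) h1p.le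
    have p2 := mul_le_mul_of_nonneg_left (psi_ge3 hx00.le hx01) h1m.le
    rw [hio]
    have : w * (z * rul m z) = ((1 + m) * (ε ^ 2 / 2 + ε ^ 4 / 12 + ε ^ 6 / 30) +
        (1 - m) * (x0 ^ 2 / 2 + x0 ^ 4 / 12 + x0 ^ 6 / 30)) / 2 := by
      rw [hε4, hε6, hx4, hx6, hεz, hxz, hw']
      unfold rul
      ring
    rw [this]
    linarith
  have hιhi : ι ≤ w * (z * (rul m z + rgap m z)) := by
    have p1 := mul_le_mul_of_nonneg_left (psi_le4 hε0.le hε1.le) h1p.le
    have p2 := mul_le_mul_of_nonneg_left (psi_le4 hx00.le hx01.le) h1m.le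
    rw [hio]
    have : w * (z * (rul m z + rgap m z)) =
        ((1 + m) * (ε ^ 2 / 2 + ε ^ 4 / 12 + ε ^ 6 / 30 + ε ^ 8 / 13) +
        (1 - m) * (x0 ^ 2 / 2 + x0 ^ 4 / 12 + x0 ^ 6 / 30 + x0 ^ 8 / 13)) / 2 := by
      rw [hε4, hε6, hε8, hx4, hx6, hx8, hεz, hxz, hw']
      unfold rul rgap
      ring
    rw [this]
    linarith
  have hgap : 0 < rgap m z := by unfold rgap; positivity
  set θ := (ι - w * (z * rul m z)) / (w * (z * rgap m z)) with hθ
  have hgz : 0 < w * (z * rgap m z) := by positivity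
  have hθ0 : 0 ≤ θ := div_nonneg (by linarith) hgz.le
  have hθ1 : θ ≤ 1 := by
    rw [hθ, div_le_one hgz]
    have : w * (z * (rul m z + rgap m z)) = w * (z * rul m z) + w * (z * rgap m z) := by ring
    linarith
  have hιθ : ι = rio m z θ := by
    have h1 : θ * (w * (z * rgap m z)) = ι - w * (z * rul m z) := by
      rw [hθ]; field_simp
    unfold rio ruu
    rw [← hw']
    linarith
  have hι0 : 0 ≤ ι := by
    have : 0 ≤ rul m z := by unfold rul; positivity
    have : 0 ≤ w * (z * rul m z) := by positivity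
    linarith
  have hdom : Dom m z L θ := by
    refine ⟨hm0, hm1.le, hz0.le, ?_, hLlo, hLhi, hθ0, hθ1⟩
    rw [← hxz]
    exact pow_le_one₀ hx00.le hx01.le
  -- b
  have hbp : signEntropy m - w * L ≤ m * m * rbp m L := by
    have h := psi_ge3 hm0 hm1
    have h' : psi m = L - signEntropy m := rfl
    have h6 : 0 ≤ m ^ 6 := by positivity
    have : m * m * rbp m L = m ^ 2 * L - m ^ 2 / 2 - m ^ 4 / 12 := by unfold rbp; ring
    rw [this, hw]
    linarith
  -- q
  set q := y + j with hq
  have hq0 : 0 ≤ q := by linarith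
  set T := ι + y + j with hTdef
  have hTq : T = ι + q := by rw [hTdef, hq]; ring
  have hTb : T ≤ rTb m L := by
    have : rTb m L = w * L + m * m * rbp m L - 7 / 20 * w := by
      unfold rTb rbp; rw [hw']; ring
    rw [this]
    linarith
  have hTL : T ≤ L - 7 / 20 := by
    refine hTb.trans ?_
    unfold rTb
    have : 0 ≤ m * m * (3 / 20 + 1 / 12 * (m * m)) := by positivity
    linarith
  -- LL
  have hLL := LL_ge_SS_add hm0 hδ0 hδ1
  rw [← hι, ← hε, ← hx0] at hLL
  have hexr : m * m * z * rexq m z ≤ (1 - m ^ 2) / 6 * (psi x0 - psi ε) ^ 2 := by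
    have h := psi_sub_psi_ge3 hε0.le hεx hx01
    have e : (x0 ^ 2 - ε ^ 2) / 2 + (x0 ^ 4 - ε ^ 4) / 12 + (x0 ^ 6 - ε ^ 6) / 30 =
        m * z * rbr m z := by
      rw [hε4, hε6, hx4, hx6, hεz, hxz]
      unfold rbr
      ring
    rw [e] at h
    have hbr : 0 ≤ m * z * rbr m z := by unfold rbr; positivity
    have h2 : (m * z * rbr m z) ^ 2 ≤ (psi x0 - psi ε) ^ 2 := by
      gcongr
    have e3 : m * m * z * rexq m z = (1 - m ^ 2) / 6 * (m * z * rbr m z) ^ 2 := by
      unfold rexq; ring
    rw [e3]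
    have : 0 ≤ (1 - m ^ 2) / 6 := by rw [← hw]; positivity
    exact mul_le_mul_of_nonneg_left h2 this
  -- the product bound
  have hadd := Hadd ι q hι0 hq0 (by rw [← hTq]; exact hTL)
  rw [← hTq] at hadd
  have eQ : ι * q * (67 / 50 + 11 / 5 * T + 29 / 2 * T * (T ^ 2 - ι * q)) = ι * q * rQ ι T := by
    have hq' : q = T - ι := by linarith
    unfold rQ
    rw [hq']
    ring
  rw [eQ] at hadd
  have main : ι * q * rQ ι T ≤ rkk m z * j + m * m * z * rexq m z := by
    rcases le_total T (1 / 5) with hc | hc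
    · refine case_small hdom hz0 hw' hw0 hιθ hι0 hTq hq0 hc ?_
      -- alpha1
      have hK : 4 * w * y ≤ (3 + m) * V := by
        have h1 := log_two_div_le hm0 hm1
        have h2 : Real.log (2 / (1 + m)) / (1 - m) ^ 2 ≤ (3 + m) / (4 * w) := by
          rw [div_le_iff₀ (by positivity)]
          refine h1.trans (le_of_eq ?_)
          rw [hwf]; field_simp
        have h3 : y ≤ (3 + m) / (4 * w) * V := hyK.trans (mul_le_mul_of_nonneg_right h2 hV0)
        calc 4 * w * y ≤ 4 * w * ((3 + m) / (4 * w) * V) := by gcongr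
          _ = (3 + m) * V := by field_simp
      have h4 := mul_le_mul_of_nonneg_left hK hkp.le
      have h5 := mul_le_mul_of_nonneg_left hkV (by linarith : 0 ≤ 3 + m)
      unfold rden
      rw [← hw', hq]
      linarith
    · refine case_large hdom hz0 hιθ hι0 hTq hq0 hc hTb ?_
      -- alpha2
      have h1 : q - m * m * rbp m L ≤ j + V * L := by linarith
      have h2 := mul_le_mul_of_nonneg_left h1 hkp.le
      have h3 := mul_le_mul_of_nonneg_right hkV (by linarith : 0 ≤ L)
      unfold rDD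
      linarith
  have hfin : rkk m z * j ≤ kappa ε * j := mul_le_mul_of_nonneg_right hkappa hj0
  linarith

end Crest.Agent.R307
end

-- ▼ part R307/FFfinal

/-!
Row 307 (S0472), task T11: the scalar inequality (FF).
-/

set_option autoImplicit false

namespace Crest.Agent.R307

/-- **(FF)** -/
theorem ffStmt : FFStmt := ffStmt_of_add fun _ _ hx hy h => SS_add_le hx hy h

end Crest.Agent.R307
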