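import Crest.Agent.Tools.KB

/-!
Row 307 (S0471), flow route for large `c = √(1 - ρ²)` (helper14): the polynomial inequalities behind the
scalar two-point inequality, certified by the tool KB (helper437).
Variables: `x_0 = p`, `x_1 = q` (half-angle parameters of `s`, `t`), `x_2 = r` (half-angle parameter of `ρ`).
-/

set_option autoImplicit false

namespace Crest.Agent.R307.FlowB

open Crest.Agent.KB

def eL : Ex := (((Ex.W 2 1) + (Ex.X 2 1)) * ((Ex.W 2 1) + (Ex.X 2 1)))



end Crest.Agent.R307.FlowB
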