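import Crest.Agent.Tools.KB
import Crest.Agent.R307.GenM

/-!
Row 307, S0471, regime M, one-sided: generic kernel checker for the scalar step (helper371; the
expression layer follows helper391's `MI.lean`).

* `RE`: homogenised `KB` expressions in two variables with degree bookkeeping and a denominator
  `QQ ^ q`; `PL`: polymorphic formulas, evaluated both in `RE` and in `ℝ`.
* `BF p`: the potential `B(n) = n(1-n)(2 + (2n-1) p(2n-1))`.
* `step_all`: from two `KB` runs (charts `mid = m` and `mid = 1 - m`, `n = m (1 ± r)`) to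
  `GenM.HasStep` for every pair.
-/

set_option autoImplicit false

namespace Crest.Agent.R307.MStep

open Crest.Agent.KB

/-- common denominator of the constants -/
def QQ : ℕ := 100000

/-- `+,-,*`, the constants `n / QQ` and the integers -/
class PL (α : Type) extends Add α, Sub α, Mul α where
  cst : ℤ → α
  num : ℤ → α

export PL (cst num)

noncomputable instance : PL ℝ where
  cst n := (n : ℝ) / (QQ : ℝ)
  num n := (n : ℝ)

/-- homogeneous expression in two variables with a denominator `QQ ^ q` -/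
structure RE where
  e : Ex
  d0 : ℕ
  d1 : ℕ
  q : ℕ

namespace RE

def padW (i k : ℕ) (e : Ex) : Ex :=
  match k with
  | 0 => e
  | k + 1 => .mul (.W i (k + 1)) e

def padQ (k : ℕ) (e : Ex) : Ex :=
  match k with
  | 0 => e
  | k + 1 => .mul (.c (Int.ofNat (QQ ^ (k + 1)))) e

def pad (p : RE) (a b q : ℕ) : Ex :=
  padQ (q - p.q) (padW 0 (a - p.d0) (padW 1 (b - p.d1) p.e))

def add (p r : RE) : RE :=
  ⟨.add (p.pad (max p.d0 r.d0) (max p.d1 r.d1) (max p.q r.q))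
    (r.pad (max p.d0 r.d0) (max p.d1 r.d1) (max p.q r.q)),
    max p.d0 r.d0, max p.d1 r.d1, max p.q r.q⟩

def sub (p r : RE) : RE :=
  ⟨.sub (p.pad (max p.d0 r.d0) (max p.d1 r.d1) (max p.q r.q))
    (r.pad (max p.d0 r.d0) (max p.d1 r.d1) (max p.q r.q)),
    max p.d0 r.d0, max p.d1 r.d1, max p.q r.q⟩

def mul (p r : RE) : RE := ⟨.mul p.e r.e, p.d0 + r.d0, p.d1 + r.d1, p.q + r.q⟩

def x0 : RE := ⟨.X 0 1, 1, 0, 0⟩
def x1 : RE := ⟨.X 1 1, 0, 1, 0⟩

instance : PL RE where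
  add := add
  sub := sub
  mul := mul
  cst n := ⟨.c n, 0, 0, 1⟩
  num n := ⟨.c n, 0, 0, 0⟩

/-- the real value -/
noncomputable def v (x : ℕ → ℝ) (p : RE) : ℝ := p.e.val x (fun _ => 1) / (QQ : ℝ) ^ p.q

lemma QQ_pos : (0 : ℝ) < (QQ : ℝ) := by norm_num [QQ]

lemma val_padW (x : ℕ → ℝ) (i k : ℕ) (e : Ex) :
    (padW i k e).val x (fun _ => 1) = e.val x (fun _ => 1) := by
  cases k <;> simp [padW, Ex.val]

lemma val_padQ (x : ℕ → ℝ) (k : ℕ) (e : Ex) :
    (padQ k e).val x (fun _ => 1) = (QQ : ℝ) ^ k * e.val x (fun _ => 1) := by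
  cases k <;> simp [padQ, Ex.val]

lemma val_pad (x : ℕ → ℝ) (p : RE) (a b q : ℕ) :
    (p.pad a b q).val x (fun _ => 1) = (QQ : ℝ) ^ (q - p.q) * p.e.val x (fun _ => 1) := by
  simp [pad, val_padQ, val_padW]

lemma pad_div (x : ℕ → ℝ) (p : RE) (a b q : ℕ) (h : p.q ≤ q) :
    (p.pad a b q).val x (fun _ => 1) / (QQ : ℝ) ^ q = p.v x := by
  have hQ := QQ_pos
  rw [val_pad, v, div_eq_div_iff (by positivity) (by positivity)]
  have : (QQ : ℝ) ^ q = (QQ : ℝ) ^ (q - p.q) * (QQ : ℝ) ^ p.q := by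
    rw [← pow_add, Nat.sub_add_cancel h]
  rw [this]; ring

theorem v_add (x : ℕ → ℝ) (p r : RE) : v x (p + r) = v x p + v x r := by
  have h1 := pad_div x p (max p.d0 r.d0) (max p.d1 r.d1) (max p.q r.q) (le_max_left _ _)
  have h2 := pad_div x r (max p.d0 r.d0) (max p.d1 r.d1) (max p.q r.q) (le_max_right _ _)
  rw [← h1, ← h2, ← add_div]
  rfl

theorem v_sub (x : ℕ → ℝ) (p r : RE) : v x (p - r) = v x p - v x r := by
  have h1 := pad_div x p (max p.d0 r.d0) (max p.d1 r.d1) (max p.q r.q) (le_max_left _ _)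
  have h2 := pad_div x r (max p.d0 r.d0) (max p.d1 r.d1) (max p.q r.q) (le_max_right _ _)
  rw [← h1, ← h2, ← sub_div]
  rfl

theorem v_mul (x : ℕ → ℝ) (p r : RE) : v x (p * r) = v x p * v x r := by
  have hQ := QQ_pos
  have : v x (p * r) = (p.e.val x (fun _ => 1) * r.e.val x (fun _ => 1)) /
      (QQ : ℝ) ^ (p.q + r.q) := rfl
  rw [this, v, v, pow_add]
  field_simp

theorem v_cst (x : ℕ → ℝ) (n : ℤ) : v x (cst n : RE) = (cst n : ℝ) := by
  have : v x (cst n : RE) = (n : ℝ) / (QQ : ℝ) ^ 1 := rfl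
  rw [this, pow_one]; rfl

theorem v_num (x : ℕ → ℝ) (n : ℤ) : v x (num n : RE) = (num n : ℝ) := by
  have : v x (num n : RE) = (n : ℝ) / (QQ : ℝ) ^ 0 := rfl
  rw [this, pow_zero, div_one]; rfl

theorem v_x0 (x : ℕ → ℝ) : v x x0 = x 0 := by simp [v, x0, Ex.val]
theorem v_x1 (x : ℕ → ℝ) : v x x1 = x 1 := by simp [v, x1, Ex.val]

theorem nonneg_iff (x : ℕ → ℝ) (p : RE) : 0 ≤ p.e.val x (fun _ => 1) ↔ 0 ≤ p.v x := by
  have hQ := QQ_pos
  rw [v]
  constructor
  · intro h; positivity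
  · intro h
    have : p.e.val x (fun _ => 1) = p.e.val x (fun _ => 1) / (QQ : ℝ) ^ p.q * (QQ : ℝ) ^ p.q := by
      field_simp
    rw [this]; positivity

end RE

lemma num_real (n : ℤ) : (num n : ℝ) = (n : ℝ) := rfl

lemma cst_real (n : ℤ) : (cst n : ℝ) = (n : ℝ) / 100000 := by
  show (n : ℝ) / ((QQ : ℕ) : ℝ) = _
  norm_num [QQ]

/-! ### polymorphic formulas -/

section formulas

variable {α : Type} [PL α]

/-- Horner evaluation of a list of coefficients (over `QQ`) -/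
def hornF : List ℤ → α → α
  | [], _ => num 0
  | [a], _ => cst a
  | a :: b :: l, z => cst a + z * hornF (b :: l) z

/-- the potential `B(n) = n(1-n)(2 + (2n-1) p(2n-1))` -/
def BF (p : List ℤ) (n : α) : α :=
  n * (num 1 - n) * (num 2 + (num 2 * n - num 1) * hornF p (num 2 * n - num 1))

/-- refined Parseval `n(1-n)(1 + 7/10 s (1-2n)²)` -/
def dpF (s n : α) : α :=
  n * (num 1 - n) * (num 1 + cst 70000 * s * ((num 1 - num 2 * n) * (num 1 - num 2 * n)))

def AF (k1 e1 B0 B1 dn : α) : α := k1 * (B0 - B1) + e1 * dn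

def BhF (k2 e2 m2 l2 B0 B1 dn d0 d1 : α) : α := B1 - k2 * (B0 - B1) - e2 * dn - m2 * d0 - l2 * d1

def SQF (G A B : α) : α := A * A - G * (G + num 2 * B)

end formulas

section hom

variable (x : ℕ → ℝ)

lemma v_hornF (p : List ℤ) (z : RE) : RE.v x (hornF p z) = hornF p (RE.v x z) := by
  induction p with
  | nil => simp only [hornF, RE.v_num]
  | cons a l ih =>
    cases l with
    | nil => simp only [hornF, RE.v_cst]
    | cons b l => simp only [hornF, RE.v_add, RE.v_mul, RE.v_cst, ih]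

lemma v_BF (p : List ℤ) (n : RE) : RE.v x (BF p n) = BF p (RE.v x n) := by
  simp only [BF, RE.v_add, RE.v_sub, RE.v_mul, RE.v_num, v_hornF]

lemma v_dpF (s n : RE) : RE.v x (dpF s n) = dpF (RE.v x s) (RE.v x n) := by
  simp only [dpF, RE.v_add, RE.v_sub, RE.v_mul, RE.v_num, RE.v_cst]

lemma v_AF (k1 e1 B0 B1 dn : RE) : RE.v x (AF k1 e1 B0 B1 dn) =
    AF (RE.v x k1) (RE.v x e1) (RE.v x B0) (RE.v x B1) (RE.v x dn) := by
  simp only [AF, RE.v_add, RE.v_sub, RE.v_mul]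

lemma v_BhF (k2 e2 m2 l2 B0 B1 dn d0 d1 : RE) : RE.v x (BhF k2 e2 m2 l2 B0 B1 dn d0 d1) =
    BhF (RE.v x k2) (RE.v x e2) (RE.v x m2) (RE.v x l2) (RE.v x B0) (RE.v x B1) (RE.v x dn)
      (RE.v x d0) (RE.v x d1) := by
  simp only [BhF, RE.v_sub, RE.v_mul]

lemma v_SQF (G A B : RE) : RE.v x (SQF G A B) = SQF (RE.v x G) (RE.v x A) (RE.v x B) := by
  simp only [SQF, RE.v_add, RE.v_sub, RE.v_mul, RE.v_num]

end hom

/-! ### clauses -/

/-- a conic family, integers over `QQ` -/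
structure FD where
  k1 : ℤ
  k2 : ℤ
  e1 : ℤ
  e2 : ℤ
  m2 : ℤ
  l2 : ℤ

open Crest.Agent.R307.Conic Crest.Agent.R307.GenInt Crest.Agent.R307.GenM Crest.Agent.R307.GenInd

/-- the real family -/
noncomputable def FD.fam (f : FD) : Fam :=
  ⟨cst f.k1, cst f.k2, cst f.e1, cst f.e2, 0, cst f.m2, 0, cst f.l2⟩

/-- sign conditions of one family, on the integers -/
def FD.ok (f : FD) : Bool :=
  decide (0 ≤ 100000 + f.k1) && decide (0 ≤ 100000 + f.k1 + f.k2) && decide (f.k1 ≤ 100000) &&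
    decide (f.k1 + f.k2 ≤ 0) && decide (0 ≤ f.m2) && decide (0 ≤ f.l2)

lemma FD.ok_real {f : FD} (h : f.ok = true) : f.fam.OK := by
  simp only [FD.ok, Bool.and_eq_true, decide_eq_true_eq] at h
  obtain ⟨⟨⟨⟨⟨h1, h2⟩, h3⟩, h4⟩, h5⟩, h6⟩ := h
  have r1 : (0 : ℝ) ≤ 100000 + (f.k1 : ℝ) := by exact_mod_cast h1
  have r2 : (0 : ℝ) ≤ 100000 + (f.k1 : ℝ) + (f.k2 : ℝ) := by exact_mod_cast h2
  have r3 : (f.k1 : ℝ) ≤ 100000 := by exact_mod_cast h3
  have r4 : (f.k1 : ℝ) + (f.k2 : ℝ) ≤ 0 := by exact_mod_cast h4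
  have r5 : (0 : ℝ) ≤ (f.m2 : ℝ) := by exact_mod_cast h5
  have r6 : (0 : ℝ) ≤ (f.l2 : ℝ) := by exact_mod_cast h6
  refine ⟨?_, ?_, ?_, ?_, le_rfl, ?_, le_rfl, ?_⟩ <;> simp only [FD.fam, cst_real] <;> linarith

/-- clauses of the step -/
def stepCls (p : List ℤ) (s md ld : ℤ) (fs : List FD) (n0 n1 mid dn : RE) : List (List Ex) :=
  [(num 0 - (num 2 * BF p mid - BF p n0 - BF p n1)).e] ::
  [(BF p n0 + dn + cst md * dpF (cst s) n0 + cst ld * dpF (cst s) n1 - num 2 * BF p mid).e] ::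
  fs.flatMap fun f =>
    [[(AF (cst f.k1) (cst f.e1) (BF p n0) (BF p n1) dn -
        BhF (cst f.k2) (cst f.e2) (cst f.m2) (cst f.l2) (BF p n0) (BF p n1) dn (dpF (cst s) n0)
          (dpF (cst s) n1) -
        (num 2 * BF p mid - BF p n0 - BF p n1)).e],
     [(AF (cst f.k1) (cst f.e1) (BF p n0) (BF p n1) dn).e,
      (BhF (cst f.k2) (cst f.e2) (cst f.m2) (cst f.l2) (BF p n0) (BF p n1) dn (dpF (cst s) n0)
          (dpF (cst s) n1)).e,
      (SQF (num 2 * BF p mid - BF p n0 - BF p n1)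
        (AF (cst f.k1) (cst f.e1) (BF p n0) (BF p n1) dn)
        (BhF (cst f.k2) (cst f.e2) (cst f.m2) (cst f.l2) (BF p n0) (BF p n1) dn (dpF (cst s) n0)
          (dpF (cst s) n1))).e]]

/-- chart 1: `mid = m ≤ 1/2` -/
def stepCls1 (p : List ℤ) (s md ld : ℤ) (fs : List FD) : List (List Ex) :=
  stepCls p s md ld fs (RE.x0 * (num 1 + RE.x1)) (RE.x0 * (num 1 - RE.x1)) RE.x0
    (num 2 * RE.x0 * RE.x1)

/-- chart 2: `mid = 1 - m ≥ 1/2` -/
def stepCls2 (p : List ℤ) (s md ld : ℤ) (fs : List FD) : List (List Ex) :=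
  stepCls p s md ld fs (num 1 - RE.x0 * (num 1 - RE.x1)) (num 1 - RE.x0 * (num 1 + RE.x1))
    (num 1 - RE.x0) (num 2 * RE.x0 * RE.x1)

/-- real meaning -/
def StepOK (p : List ℤ) (s md ld : ℤ) (fs : List FD) (n0 n1 mid dn : ℝ) : Prop :=
  2 * BF p mid - BF p n0 - BF p n1 ≤ 0 ∨
  2 * BF p mid ≤ BF p n0 + dn + cst md * dpF (cst s) n0 + cst ld * dpF (cst s) n1 ∨
  ∃ f ∈ fs, SC (2 * BF p mid - BF p n0 - BF p n1)
    (AF (cst f.k1) (cst f.e1) (BF p n0) (BF p n1) dn)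
    (BhF (cst f.k2) (cst f.e2) (cst f.m2) (cst f.l2) (BF p n0) (BF p n1) dn (dpF (cst s) n0)
      (dpF (cst s) n1))

theorem step_of_clause {p : List ℤ} {s md ld : ℤ} {fs : List FD} {n0 n1 mid dn : RE} {x : ℕ → ℝ}
    (h : ∃ cl ∈ stepCls p s md ld fs n0 n1 mid dn, ∀ e ∈ cl, 0 ≤ e.val x (fun _ => 1)) :
    StepOK p s md ld fs (n0.v x) (n1.v x) (mid.v x) (dn.v x) := by
  obtain ⟨cl, hcl, hall⟩ := h
  simp only [stepCls, List.mem_cons, List.mem_flatMap] at hcl
  rcases hcl with rfl | rfl | ⟨f, hf, hcl⟩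
  · left
    have := hall _ (List.mem_singleton_self _)
    rw [RE.nonneg_iff] at this
    simp only [RE.v_add, RE.v_sub, RE.v_mul, RE.v_num, v_BF, num_real] at this
    push_cast at this
    linarith
  · right; left
    have := hall _ (List.mem_singleton_self _)
    rw [RE.nonneg_iff] at this
    simp only [RE.v_add, RE.v_sub, RE.v_mul, RE.v_num, v_BF, v_dpF, RE.v_cst, num_real] at this
    push_cast at this
    linarith
  · right; right
    refine ⟨f, hf, ?_⟩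
    simp only [List.not_mem_nil, or_false] at hcl
    rcases hcl with rfl | rfl
    · have := hall _ (List.mem_singleton_self _)
      rw [RE.nonneg_iff] at this
      simp only [RE.v_add, RE.v_sub, RE.v_mul, RE.v_num, v_BF, v_dpF, v_AF, v_BhF, RE.v_cst,
        num_real] at this
      push_cast at this
      right; left
      linarith
    · simp only [List.forall_mem_cons, RE.nonneg_iff] at hall
      obtain ⟨p1, p2, p3, -⟩ := hall
      simp only [RE.v_add, RE.v_sub, RE.v_mul, RE.v_num, v_BF, v_dpF, v_AF, v_BhF, v_SQF,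
        RE.v_cst, num_real, SQF] at p1 p2 p3
      push_cast at p1 p2 p3
      right; right
      refine ⟨p1, p2, ?_⟩
      nlinarith [p3]

/-- two variables -/
noncomputable def vec2 (a b : ℝ) : ℕ → ℝ := fun i => if i = 0 then a else b

lemma inBox_vec2 {s : ℕ} {a0 b0 a1 b1 : ℤ} {x y : ℝ} (h1 : (a0 : ℝ) ≤ x * 2 ^ s)
    (h2 : x * 2 ^ s ≤ b0) (h3 : (a1 : ℝ) ≤ y * 2 ^ s) (h4 : y * 2 ^ s ≤ b1) :
    InBox 2 s [(a0, b0), (a1, b1)] (vec2 x y) := by
  intro i hi
  interval_cases i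
  · exact ⟨h1, h2⟩
  · exact ⟨h3, h4⟩

theorem step1_sound {p : List ℤ} {s md ld : ℤ} {fs : List FD} {w : ℕ} {Xl M : List ℕ} {tr : Tr}
    (h : run 2 w 6 Xl M (stepCls1 p s md ld fs) tr [(0, 32), (0, 64)] = true)
    {m r : ℝ} (hm0 : 0 ≤ m) (hm1 : m ≤ 1 / 2) (hr0 : 0 ≤ r) (hr1 : r ≤ 1) :
    StepOK p s md ld fs (m * (1 + r)) (m * (1 - r)) m (2 * m * r) := by
  have hb : InBox 2 6 [(0, 32), (0, 64)] (vec2 m r) := by
    apply inBox_vec2 <;> push_cast <;> norm_num <;> linarith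
  have e0 : RE.v (vec2 m r) RE.x0 = m := by rw [RE.v_x0]; rfl
  have e1 : RE.v (vec2 m r) RE.x1 = r := by rw [RE.v_x1]; rfl
  have := step_of_clause (run_sound _ _ _ _ _ _ _ _ h _ hb)
  simp only [RE.v_add, RE.v_sub, RE.v_mul, RE.v_num, e0, e1, num_real] at this
  push_cast at this
  exact this

theorem step2_sound {p : List ℤ} {s md ld : ℤ} {fs : List FD} {w : ℕ} {Xl M : List ℕ} {tr : Tr}
    (h : run 2 w 6 Xl M (stepCls2 p s md ld fs) tr [(0, 32), (0, 64)] = true)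
    {m r : ℝ} (hm0 : 0 ≤ m) (hm1 : m ≤ 1 / 2) (hr0 : 0 ≤ r) (hr1 : r ≤ 1) :
    StepOK p s md ld fs (1 - m * (1 - r)) (1 - m * (1 + r)) (1 - m) (2 * m * r) := by
  have hb : InBox 2 6 [(0, 32), (0, 64)] (vec2 m r) := by
    apply inBox_vec2 <;> push_cast <;> norm_num <;> linarith
  have e0 : RE.v (vec2 m r) RE.x0 = m := by rw [RE.v_x0]; rfl
  have e1 : RE.v (vec2 m r) RE.x1 = r := by rw [RE.v_x1]; rfl
  have := step_of_clause (run_sound _ _ _ _ _ _ _ _ h _ hb)
  simp only [RE.v_add, RE.v_sub, RE.v_mul, RE.v_num, e0, e1, num_real] at this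
  push_cast at this
  exact this

/-- the two charts cover all pairs -/
theorem step_all {p : List ℤ} {s md ld : ℤ} {fs : List FD} {w w' : ℕ} {Xl M Xl' M' : List ℕ}
    {tr tr' : Tr}
    (h1 : run 2 w 6 Xl M (stepCls1 p s md ld fs) tr [(0, 32), (0, 64)] = true)
    (h2 : run 2 w' 6 Xl' M' (stepCls2 p s md ld fs) tr' [(0, 32), (0, 64)] = true)
    {n0 n1 : ℝ} (a1 : 0 ≤ n1) (a2 : n1 ≤ n0) (a3 : n0 ≤ 1) :
    StepOK p s md ld fs n0 n1 ((n0 + n1) / 2) (n0 - n1) := by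
  rcases le_total ((n0 + n1) / 2) (1 / 2) with h | h
  · set m := (n0 + n1) / 2 with hm
    rcases (show 0 ≤ m by rw [hm]; linarith).eq_or_lt with h0 | h0
    · have e0 : n0 = 0 := by linarith
      have e1 : n1 = 0 := by linarith
      have := step1_sound h1 (m := 0) (r := 0) le_rfl (by norm_num) le_rfl zero_le_one
      rw [← h0, e0, e1]
      simpa using this
    · have hr0 : 0 ≤ (n0 - n1) / (2 * m) := div_nonneg (by linarith) (by linarith)
      have hr1 : (n0 - n1) / (2 * m) ≤ 1 := by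
        rw [div_le_one (by linarith)]; rw [hm]; linarith
      have := step1_sound h1 h0.le h hr0 hr1
      have e : m * ((n0 - n1) / (2 * m)) = (n0 - n1) / 2 := by field_simp
      have e1 : m * (1 + (n0 - n1) / (2 * m)) = n0 := by rw [mul_add, e, hm]; ring
      have e2 : m * (1 - (n0 - n1) / (2 * m)) = n1 := by rw [mul_sub, e, hm]; ring
      have e3 : 2 * m * ((n0 - n1) / (2 * m)) = n0 - n1 := by rw [mul_assoc, e]; ring
      rw [e1, e2, e3] at this
      exact this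
  · set m := 1 - (n0 + n1) / 2 with hm
    have hmid : (n0 + n1) / 2 = 1 - m := by rw [hm]; ring
    rw [hmid]
    rcases (show 0 ≤ m by rw [hm]; linarith).eq_or_lt with h0 | h0
    · have e0 : n0 = 1 := by linarith
      have e1 : n1 = 1 := by linarith
      have := step2_sound h2 (m := 0) (r := 0) le_rfl (by norm_num) le_rfl zero_le_one
      rw [← h0, e0, e1]
      simpa using this
    · have hr0 : 0 ≤ (n0 - n1) / (2 * m) := div_nonneg (by linarith) (by linarith)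
      have hr1 : (n0 - n1) / (2 * m) ≤ 1 := by
        rw [div_le_one (by linarith)]; rw [hm]; linarith
      have := step2_sound h2 h0.le (by linarith) hr0 hr1
      have e : m * ((n0 - n1) / (2 * m)) = (n0 - n1) / 2 := by field_simp
      have e1 : 1 - m * (1 - (n0 - n1) / (2 * m)) = n0 := by rw [mul_sub, e, hm]; ring
      have e2 : 1 - m * (1 + (n0 - n1) / (2 * m)) = n1 := by rw [mul_add, e, hm]; ring
      have e3 : 2 * m * ((n0 - n1) / (2 * m)) = n0 - n1 := by rw [mul_assoc, e]; ring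
      rw [e1, e2, e3] at this
      exact this

/-- **The step for all pairs.** -/
theorem hasStep {A0 A1 A2 ca cb : ℝ} {p : List ℤ} {s md ld : ℤ} {fs : List FD} {w w' : ℕ}
    {Xl M Xl' M' : List ℕ} {tr tr' : Tr}
    (h1 : run 2 w 6 Xl M (stepCls1 p s md ld fs) tr [(0, 32), (0, 64)] = true)
    (h2 : run 2 w' 6 Xl' M' (stepCls2 p s md ld fs) tr' [(0, 32), (0, 64)] = true)
    (hu : ConcaveOn ℝ (Set.Icc 0 1) (FA A0 A1 A2))
    (hok : ∀ f ∈ fs, f.ok = true) (hF : ∀ f ∈ fs, FamI A0 A1 A2 ca cb f.fam)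
    (hd : CertI A0 A1 A2 ca cb 1 0 1 (cst md) (cst ld)) {sr : ℝ} (hs : sr = cst s)
    {B : ℝ → ℝ} (hB : ∀ n, B n = BF p n)
    (n0 n1 : ℝ) (a1 : 0 ≤ n1) (a2 : n1 < n0) (a3 : n0 ≤ 1) :
    HasStep A0 A1 A2 ca cb B (dP sr) n0 n1 := by
  have hB' : B = fun n => BF p n := funext hB
  subst hB'
  have hdp : ∀ n : ℝ, dP sr n = dpF (cst s) n := by
    intro n
    rw [hs]
    simp only [dP, dpF, num_real, cst_real]
    push_cast
    ring
  rcases step_all h1 h2 a1 a2.le a3 with h | h | ⟨f, hf, h⟩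
  · refine HasStep.of_cert (certI_one hu) zero_le_one zero_le_one ?_
    linarith
  · refine HasStep.of_cert hd zero_le_one le_rfl ?_
    rw [hdp, hdp]
    linarith
  · refine HasStep.of_fam (FD.ok_real (hok f hf)) (hF f hf) ?_
    have eA : f.fam.Ah (BF p n0) (BF p n1) n0 n1 (dP sr n0) (dP sr n1) =
        AF (cst f.k1) (cst f.e1) (BF p n0) (BF p n1) (n0 - n1) := by
      simp only [Fam.Ah, FD.fam, AF]; ring
    have eB : f.fam.Bh (BF p n0) (BF p n1) n0 n1 (dP sr n0) (dP sr n1) =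
        BhF (cst f.k2) (cst f.e2) (cst f.m2) (cst f.l2) (BF p n0) (BF p n1) (n0 - n1)
          (dpF (cst s) n0) (dpF (cst s) n1) := by
      simp only [Fam.Bh, FD.fam, BhF, hdp]
    rw [eA, eB]
    exact h

end Crest.Agent.R307.MStep
private theorem rz_380525c174 : type_of% @_root_.Crest.Agent.R307.MStep.RE.padQ.eq_1 := @_root_.Crest.Agent.R307.MStep.RE.padQ.eq_1 -- L49
private theorem rz_e971ed866a : type_of% @_root_.Crest.Agent.R307.MStep.RE.padW.eq_1 := @_root_.Crest.Agent.R307.MStep.RE.padW.eq_1 -- L44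
private theorem rz_350ac03b80 : type_of% @_root_.Crest.Agent.R307.MStep.hornF.eq_def := @_root_.Crest.Agent.R307.MStep.hornF.eq_def -- L159
private theorem rz_85dceaadde : type_of% @_root_.Crest.Agent.R307.MStep.hornF.eq_1 := @_root_.Crest.Agent.R307.MStep.hornF.eq_1 -- L159
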