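import Crest.Agent.R307.GenPI
import Crest.Agent.R307.Conic
import Crest.Agent.Tools.KB
import Crest.Agent.R307.GenInt

-- ▼ part R307/PIEng
section

/-!
Row 307 (S0471), helper14: blow-up charts for the polynomial certificate condition `PolyOK`.

`y0 = y`, `y1 = y r`.  For a family `K = t a/d`, `1 - C = t² b/d`, `β = U t e/d`,
`L0 = V t² l0/d`, `L1 = V t² l1/d` (`t ∈ [0,τ]`) the quantity `tau` equals `y s² N/(2 d)` in
chart I (`1 - r = s`, `t = s x`) and in chart II (`t = s`, `1 - r = s z`).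
-/

set_option autoImplicit false

namespace Crest.Agent.R307.PIEng

open Crest.Agent.R307.GenPI

/-- divided difference of `FP` at `y`, `y r` -/
def DDf (A0 A1 A2 y r : ℝ) : ℝ :=
  2 + (A0 - 2) * y * (1 + r) + (A1 - A0) * y ^ 3 * (1 + r + r ^ 2 + r ^ 3) +
    (A2 - A1) * y ^ 5 * (1 + r + r ^ 2 + r ^ 3 + r ^ 4 + r ^ 5) -
    A2 * y ^ 7 * (1 + r + r ^ 2 + r ^ 3 + r ^ 4 + r ^ 5 + r ^ 6 + r ^ 7)

/-- `FP (y r) / y` -/
def f1f (A0 A1 A2 y r : ℝ) : ℝ :=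
  r * (1 - y * r) * (2 + y * r * (1 + y * r) * (A0 + A1 * (y * r) ^ 2 + A2 * (y * r) ^ 4))

/-- `Corr = c2 y⁴ (1-r²)² corrf` -/
noncomputable def corrf (A0 A1 A2 c2 y r : ℝ) : ℝ :=
  (A0 - A1) / 2 + 3 * (A1 - A2) / 4 * y ^ 2 * (1 + r ^ 2) + A2 * y ^ 4 * (1 + r ^ 2 + r ^ 4) -
    A2 * c2 / 8 * y ^ 4 * (1 - r ^ 2) ^ 2

lemma FP_sub (A0 A1 A2 y r : ℝ) :
    FP A0 A1 A2 y - FP A0 A1 A2 (y * r) = y * (1 - r) * DDf A0 A1 A2 y r := by
  unfold FP DDf; ring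

lemma FP_f1 (A0 A1 A2 y r : ℝ) : FP A0 A1 A2 (y * r) = y * f1f A0 A1 A2 y r := by
  unfold FP f1f; ring

lemma Corr_eq (A0 A1 A2 c2 y r : ℝ) :
    Corr A0 A1 A2 c2 y (y * r) = c2 * y ^ 4 * (1 - r ^ 2) ^ 2 * corrf A0 A1 A2 c2 y r := by
  unfold Corr corrf; ring

/-- the condition in terms of `T = tau / y` -/
lemma polyOK_of_T {A0 A1 A2 c2 K C beta L0 L1 y r T : ℝ} (hy : 0 ≤ y)
    (hT : tau A0 A1 A2 c2 K C beta L0 L1 y (y * r) = y * T)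
    (h : T ≤ 0 ∨ T * (T + 2) * (T + 2 * r) * (T + 2 + 2 * r) ≤ c2 * (1 - r ^ 2) ^ 2) :
    PolyOK A0 A1 A2 c2 K C beta L0 L1 y (y * r) := by
  unfold PolyOK
  rw [hT]
  rcases le_total T 0 with h0 | h0
  · exact Or.inl (mul_nonpos_of_nonneg_of_nonpos hy h0)
  · rcases h with h | h
    · exact Or.inl (mul_nonpos_of_nonneg_of_nonpos hy h)
    · refine Or.inr ⟨mul_nonneg hy h0, ?_⟩
      have := mul_le_mul_of_nonneg_left h (pow_nonneg hy 4)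
      unfold gg
      calc _ = y ^ 4 * (T * (T + 2) * (T + 2 * r) * (T + 2 + 2 * r)) := by ring
        _ ≤ _ := this
        _ = _ := by ring



/-- the polynomial condition of a chart (`w = 1` in chart I, `w = z` in chart II) -/
def Good (c2 N d r s w : ℝ) : Prop :=
  N ≤ 0 ∨ N * (s ^ 2 * N + 4 * d) * (s ^ 2 * N + 4 * r * d) * (s ^ 2 * N + 4 * (1 + r) * d) ≤
    16 * c2 * w ^ 2 * (1 + r) ^ 2 * d ^ 4





/-! ### one single certificate -/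




end Crest.Agent.R307.PIEng
end

-- ▼ part R307/PIConic
section

/-!
Row 307 (S0471), helper14: generic kernel check of the pointwise certificates of a conic family
at one value of `c²` (two variables `y = √q0`, `ε = 1 - √q1/√q0`), with an explicit polynomial
lower bound `D = ε² R(r)` of `(√G + √G' - y0 - y1)/y0`.
-/

set_option autoImplicit false

namespace Crest.Agent.R307.PIConic

open Crest.Agent.R307.GenPI Crest.Agent.R307.PIEng Crest.Agent.R307.Conic Crest.Agent.KB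

/-! ### padded polynomial expressions -/

/-- an expression with its degrees in the variables `0,1,2` -/
structure PE where
  e : Ex
  a : ℕ
  b : ℕ
  c : ℕ

/-- multiply by `w_i ^ k` -/
def pw (i : ℕ) : ℕ → Ex → Ex
  | 0, e => e
  | k + 1, e => .mul e (.W i (k + 1))

lemma pw_val (i k : ℕ) (e : Ex) (x : ℕ → ℝ) : (pw i k e).val x (fun _ => 1) = e.val x (fun _ => 1) := by
  cases k with
  | zero => rfl
  | succ k => simp [pw, Ex.val]

def PE.pad (p : PE) (a b c : ℕ) : Ex := pw 2 (c - p.c) (pw 1 (b - p.b) (pw 0 (a - p.a) p.e))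

noncomputable def PE.val (p : PE) (x : ℕ → ℝ) : ℝ := p.e.val x (fun _ => 1)

lemma PE.pad_val (p : PE) (a b c : ℕ) (x : ℕ → ℝ) : (p.pad a b c).val x (fun _ => 1) = p.val x := by
  unfold PE.pad PE.val
  rw [pw_val, pw_val, pw_val]

def PE.add (p q : PE) : PE :=
  ⟨.add (p.pad (max p.a q.a) (max p.b q.b) (max p.c q.c))
    (q.pad (max p.a q.a) (max p.b q.b) (max p.c q.c)), max p.a q.a, max p.b q.b, max p.c q.c⟩

def PE.sub (p q : PE) : PE :=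
  ⟨.sub (p.pad (max p.a q.a) (max p.b q.b) (max p.c q.c))
    (q.pad (max p.a q.a) (max p.b q.b) (max p.c q.c)), max p.a q.a, max p.b q.b, max p.c q.c⟩

def PE.mul (p q : PE) : PE := ⟨.mul p.e q.e, p.a + q.a, p.b + q.b, p.c + q.c⟩

def PE.cst (n : ℤ) : PE := ⟨.c n, 0, 0, 0⟩

def PE.smul (n : ℤ) (p : PE) : PE := ⟨.mul (.c n) p.e, p.a, p.b, p.c⟩

@[simp] lemma PE.add_val (p q : PE) (x : ℕ → ℝ) : (p.add q).val x = p.val x + q.val x := by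
  simp only [PE.add, PE.val, Ex.val, PE.pad_val]

@[simp] lemma PE.sub_val (p q : PE) (x : ℕ → ℝ) : (p.sub q).val x = p.val x - q.val x := by
  simp only [PE.sub, PE.val, Ex.val, PE.pad_val]

@[simp] lemma PE.mul_val (p q : PE) (x : ℕ → ℝ) : (p.mul q).val x = p.val x * q.val x := rfl

@[simp] lemma PE.cst_val (n : ℤ) (x : ℕ → ℝ) : (PE.cst n).val x = n := rfl

@[simp] lemma PE.smul_val (n : ℤ) (p : PE) (x : ℕ → ℝ) : (PE.smul n p).val x = n * p.val x := rfl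

/-- the variable `y`, to the power `k` -/
def PE.y (k : ℕ) : PE := ⟨.X 0 k, k, 0, 0⟩
/-- the variable `ε`, to the power `k` -/
def PE.ep (k : ℕ) : PE := ⟨.X 1 k, 0, k, 0⟩
/-- `r = 1 - ε` -/
def PE.r : PE := ⟨.sub (.W 1 1) (.X 1 1), 0, 1, 0⟩
/-- `1 + r` -/
def PE.r1 : PE := ⟨.sub (.mul (.c 2) (.W 1 1)) (.X 1 1), 0, 1, 0⟩

@[simp] lemma PE.y_val (k : ℕ) (x : ℕ → ℝ) : (PE.y k).val x = x 0 ^ k := rfl
@[simp] lemma PE.ep_val (k : ℕ) (x : ℕ → ℝ) : (PE.ep k).val x = x 1 ^ k := rfl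
@[simp] lemma PE.r_val (x : ℕ → ℝ) : PE.r.val x = 1 - x 1 := by simp [PE.r, PE.val, Ex.val]
@[simp] lemma PE.r1_val (x : ℕ → ℝ) : PE.r1.val x = 1 + (1 - x 1) := by
  simp only [PE.r1, PE.val, Ex.val]; push_cast; ring

/-- `1 + r + ... + r^k` -/
def PE.gs : ℕ → PE
  | 0 => .cst 1
  | k + 1 => PE.add (.cst 1) (PE.mul .r (PE.gs k))

/-- Horner evaluation in `r` -/
def PE.horner : List ℤ → PE
  | [] => .cst 0
  | a :: l => PE.add (.cst a) (PE.mul .r (PE.horner l))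

/-- real value of the list -/
noncomputable def evl (r : ℝ) : List ℤ → ℝ
  | [] => 0
  | a :: l => a + r * evl r l

lemma PE.horner_val (l : List ℤ) (x : ℕ → ℝ) : (PE.horner l).val x = evl (1 - x 1) l := by
  induction l with
  | nil => simp [PE.horner, evl]
  | cons a l ih => simp [PE.horner, evl, ih]

/-! ### the data -/

/-- all parameters; `N` is the common denominator of the coefficients -/
structure Dat where
  N : ℕ
  a0 : ℤ
  a1 : ℤ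
  a2 : ℤ
  k1 : ℤ
  k2 : ℤ
  e1 : ℤ
  e2 : ℤ
  m2 : ℤ
  l2 : ℤ
  cn : ℕ
  cd : ℕ
  NR : ℕ
  R : List ℤ
  tn : ℕ
  td : ℕ

namespace Dat

/-- `N * DDf` -/
def DDs (d : Dat) : PE :=
  ((((PE.cst (2 * d.N)).add (PE.smul (d.a0 - 2 * d.N) ((PE.y 1).mul (PE.gs 1)))).add
    (PE.smul (d.a1 - d.a0) ((PE.y 3).mul (PE.gs 3)))).add
    (PE.smul (d.a2 - d.a1) ((PE.y 5).mul (PE.gs 5)))).sub
    (PE.smul d.a2 ((PE.y 7).mul (PE.gs 7)))

/-- `y r` -/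
def yr : PE := (PE.y 1).mul PE.r

/-- `N * f1f` -/
def f1s (d : Dat) : PE :=
  (PE.r.mul ((PE.cst 1).sub yr)).mul ((PE.cst (2 * d.N)).add ((yr.mul ((PE.cst 1).add yr)).mul
    ((PE.cst d.a0).add ((yr.mul yr).mul ((PE.cst d.a1).add (PE.smul d.a2 (yr.mul yr)))))))

/-- `8 N cd * corrf` -/
def co8 (d : Dat) : PE :=
  (((PE.cst (4 * d.cd * (d.a0 - d.a1))).add (PE.smul (6 * d.cd * (d.a1 - d.a2))
    ((PE.y 2).mul ((PE.cst 1).add (PE.r.mul PE.r))))).add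
    (PE.smul (8 * d.cd * d.a2) ((PE.y 4).mul
      ((PE.cst 1).add ((PE.r.mul PE.r).mul ((PE.cst 1).add (PE.r.mul PE.r))))))).sub
    (PE.smul (d.a2 * d.cn) (((PE.y 4).mul (PE.ep 2)).mul (PE.r1.mul PE.r1)))

/-- `NR * R(r)` -/
def Rs (d : Dat) : PE := PE.horner d.R

/-- `S * Dp`, `S = 8 N² cd² NR` -/
def Dp (d : Dat) : PE :=
  (PE.smul (16 * d.N ^ 2 * d.cd ^ 2) d.Rs).add
    (PE.smul (d.N * d.NR * d.cn) (((PE.y 3).mul (PE.r1.mul PE.r1)).mul d.co8))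

/-- `S * Ap` -/
def Ap (d : Dat) : PE :=
  PE.smul (8 * d.cd ^ 2 * d.NR) ((PE.smul d.k1 d.DDs).add (PE.smul (d.N * d.e1) ((PE.y 1).mul PE.r1)))

/-- `S * Bp` -/
def Bp (d : Dat) : PE :=
  PE.smul (8 * d.cd ^ 2 * d.NR)
    (((((PE.smul d.N d.f1s).sub (PE.smul d.k2 ((PE.ep 1).mul d.DDs))).sub
      (PE.smul (d.N * d.e2) (((PE.y 1).mul (PE.ep 1)).mul PE.r1))).sub
      (PE.smul (d.N * d.m2) ((PE.y 1).mul ((PE.cst 1).sub (PE.y 2))))).sub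
      (PE.smul (d.N * d.l2) (((PE.y 1).mul (PE.r.mul PE.r)).mul ((PE.cst 1).sub (yr.mul yr)))))

/-- `S (D + 2 B)/y`-/
def Ep (d : Dat) : PE := ((PE.ep 2).mul d.Dp).add (PE.smul 2 d.Bp)

/-- the polynomials of the `D` check -/
def Q1 (d : Dat) : PE := d.Rs
def Q2 (d : Dat) : PE :=
  (PE.smul (d.cn * d.NR ^ 4) (PE.r1.mul PE.r1)).sub
    (PE.smul d.cd (d.Rs.mul ((((PE.ep 2).mul d.Rs).add (.cst (2 * d.NR))).mul
      ((((PE.ep 2).mul d.Rs).add (PE.smul (2 * d.NR) PE.r)).mul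
        (((PE.ep 2).mul d.Rs).add (PE.smul (2 * d.NR) PE.r1))))))

/-- `S p(t1)/y * td²` -/
def Pt (d : Dat) : PE :=
  ((PE.smul (d.td ^ 2) ((PE.ep 2).mul d.Dp)).sub
      (PE.smul (2 * d.tn * d.td) ((PE.ep 1).mul d.Ap))).add (PE.smul (d.tn ^ 2) d.Ep)
/-- clause 1: Bernstein coefficients on `[0,t1]` -/
def c1 (d : Dat) : List Ex :=
  [d.Dp.e, ((PE.smul d.td ((PE.ep 1).mul d.Dp)).sub (PE.smul d.tn d.Ap)).e, d.Pt.e]
/-- clause 2: discriminant -/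
def c2 (d : Dat) : List Ex := [d.Dp.e, d.Ep.e, ((d.Dp.mul d.Ep).sub (d.Ap.mul d.Ap)).e]
/-- clause 3: vertex beyond `t1` -/
def c3 (d : Dat) : List Ex :=
  [d.Dp.e, d.Pt.e, ((PE.smul d.td ((PE.ep 1).mul d.Ap)).sub (PE.smul d.tn d.Ep)).e]

noncomputable def A0 (d : Dat) : ℝ := d.a0 / d.N
noncomputable def A1 (d : Dat) : ℝ := d.a1 / d.N
noncomputable def A2 (d : Dat) : ℝ := d.a2 / d.N
noncomputable def K1 (d : Dat) : ℝ := d.k1 / d.N
noncomputable def K2 (d : Dat) : ℝ := d.k2 / d.N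
noncomputable def E1 (d : Dat) : ℝ := d.e1 / d.N
noncomputable def E2 (d : Dat) : ℝ := d.e2 / d.N
noncomputable def M2 (d : Dat) : ℝ := d.m2 / d.N
noncomputable def L2 (d : Dat) : ℝ := d.l2 / d.N
noncomputable def C2 (d : Dat) : ℝ := d.cn / d.cd
noncomputable def T1 (d : Dat) : ℝ := d.tn / d.td
noncomputable def Rr (d : Dat) (r : ℝ) : ℝ := evl r d.R / d.NR

/-- real versions -/
noncomputable def Dpr (d : Dat) (y r : ℝ) : ℝ :=
  2 * d.Rr r + d.C2 * y ^ 3 * (1 + r) ^ 2 * corrf d.A0 d.A1 d.A2 d.C2 y r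
noncomputable def Apr (d : Dat) (y r : ℝ) : ℝ :=
  d.K1 * DDf d.A0 d.A1 d.A2 y r + d.E1 * (y * (1 + r))
noncomputable def Bpr (d : Dat) (y r : ℝ) : ℝ :=
  f1f d.A0 d.A1 d.A2 y r - d.K2 * ((1 - r) * DDf d.A0 d.A1 d.A2 y r) -
    d.E2 * (y * (1 - r) * (1 + r)) - d.M2 * (y * (1 - y ^ 2)) -
    d.L2 * (y * r ^ 2 * (1 - y ^ 2 * r ^ 2))

/-- the common scale -/
noncomputable def S (d : Dat) : ℝ := 8 * d.N ^ 2 * d.cd ^ 2 * d.NR

section
variable (d : Dat) (hN : 0 < d.N) (hcd : 0 < d.cd) (hNR : 0 < d.NR) (x : ℕ → ℝ)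
include hN

lemma DDs_val : d.DDs.val x = d.N * DDf d.A0 d.A1 d.A2 (x 0) (1 - x 1) := by
  have h1 : (d.N : ℝ) ≠ 0 := by exact_mod_cast hN.ne'
  simp only [DDs, DDf, A0, A1, A2, PE.gs, PE.sub_val, PE.add_val, PE.smul_val, PE.mul_val,
    PE.cst_val, PE.y_val, PE.r_val]
  push_cast
  field_simp
  ring

lemma f1s_val : d.f1s.val x = d.N * f1f d.A0 d.A1 d.A2 (x 0) (1 - x 1) := by
  have h1 : (d.N : ℝ) ≠ 0 := by exact_mod_cast hN.ne'
  simp only [f1s, f1f, yr, A0, A1, A2, PE.sub_val, PE.add_val, PE.smul_val, PE.mul_val,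
    PE.cst_val, PE.y_val, PE.r_val]
  push_cast
  field_simp
  ring

include hcd in
lemma co8_val : d.co8.val x = 8 * d.N * d.cd * corrf d.A0 d.A1 d.A2 d.C2 (x 0) (1 - x 1) := by
  have h1 : (d.N : ℝ) ≠ 0 := by exact_mod_cast hN.ne'
  have h2 : (d.cd : ℝ) ≠ 0 := by exact_mod_cast hcd.ne'
  simp only [co8, corrf, A0, A1, A2, C2, PE.sub_val, PE.add_val, PE.smul_val, PE.mul_val,
    PE.cst_val, PE.y_val, PE.r_val, PE.r1_val, PE.ep_val]
  push_cast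
  field_simp
  ring

include hcd hNR in
lemma Dp_val : d.Dp.val x = d.S * d.Dpr (x 0) (1 - x 1) := by
  have h1 : (d.N : ℝ) ≠ 0 := by exact_mod_cast hN.ne'
  have h2 : (d.cd : ℝ) ≠ 0 := by exact_mod_cast hcd.ne'
  have h3 : (d.NR : ℝ) ≠ 0 := by exact_mod_cast hNR.ne'
  simp only [Dp, Dpr, S, Rs, Rr, C2, PE.add_val, PE.smul_val, PE.mul_val,
    PE.y_val, PE.r1_val, PE.horner_val, d.co8_val hN hcd]
  push_cast
  field_simp
  ring

include hcd hNR in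
lemma Ap_val : d.Ap.val x = d.S * d.Apr (x 0) (1 - x 1) := by
  have h1 : (d.N : ℝ) ≠ 0 := by exact_mod_cast hN.ne'
  have h2 : (d.cd : ℝ) ≠ 0 := by exact_mod_cast hcd.ne'
  have h3 : (d.NR : ℝ) ≠ 0 := by exact_mod_cast hNR.ne'
  simp only [Ap, Apr, S, K1, E1, PE.add_val, PE.smul_val, PE.mul_val,
    PE.y_val, PE.r1_val, d.DDs_val hN]
  push_cast
  field_simp

include hcd hNR in
lemma Bp_val : d.Bp.val x = d.S * d.Bpr (x 0) (1 - x 1) := by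
  have h1 : (d.N : ℝ) ≠ 0 := by exact_mod_cast hN.ne'
  have h2 : (d.cd : ℝ) ≠ 0 := by exact_mod_cast hcd.ne'
  have h3 : (d.NR : ℝ) ≠ 0 := by exact_mod_cast hNR.ne'
  simp only [Bp, Bpr, S, K2, E2, M2, L2, yr, PE.add_val, PE.sub_val, PE.smul_val, PE.mul_val,
    PE.y_val, PE.ep_val, PE.r_val, PE.r1_val, PE.cst_val, d.DDs_val hN, d.f1s_val hN]
  push_cast
  field_simp
  ring

include hcd hNR in
lemma S_pos : 0 < d.S := by
  have h1 : (0 : ℝ) < d.N := by exact_mod_cast hN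
  have h2 : (0 : ℝ) < d.cd := by exact_mod_cast hcd
  have h3 : (0 : ℝ) < d.NR := by exact_mod_cast hNR
  unfold S
  positivity

end

/-- `p(t) ≥ 0` on `[0,t1]` from one of the three clauses -/
lemma p_nonneg {D A B t t1 : ℝ} (h0 : 0 ≤ t) (h1 : t ≤ t1)
    (h : (0 ≤ D ∧ 0 ≤ D - A * t1 ∧ 0 ≤ D - 2 * A * t1 + (D + 2 * B) * t1 ^ 2) ∨
      (0 ≤ D ∧ 0 ≤ D + 2 * B ∧ A ^ 2 ≤ D * (D + 2 * B)) ∨
      (0 ≤ D ∧ 0 ≤ D - 2 * A * t1 + (D + 2 * B) * t1 ^ 2 ∧ (D + 2 * B) * t1 ≤ A)) :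
    0 ≤ D - 2 * A * t + (D + 2 * B) * t ^ 2 := by
  rcases h with ⟨a1, a2, a3⟩ | ⟨a1, a2, a3⟩ | ⟨a1, a2, a3⟩
  · rcases (h0.trans h1).eq_or_lt with hz | hz
    · have : t = 0 := le_antisymm (by rw [hz]; exact h1) h0
      rw [this]; linarith
    · have key : 0 ≤ t1 ^ 2 * (D - 2 * A * t + (D + 2 * B) * t ^ 2) := by
        have e : t1 ^ 2 * (D - 2 * A * t + (D + 2 * B) * t ^ 2) =
          (t1 - t) ^ 2 * D + 2 * t * (t1 - t) * (D - A * t1) +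
            t ^ 2 * (D - 2 * A * t1 + (D + 2 * B) * t1 ^ 2) := by ring
        rw [e]
        have b1 : 0 ≤ (t1 - t) ^ 2 * D := mul_nonneg (sq_nonneg _) a1
        have b2 : 0 ≤ 2 * t * (t1 - t) * (D - A * t1) :=
          mul_nonneg (mul_nonneg (by linarith) (by linarith)) a2
        have b3 := mul_nonneg (sq_nonneg t) a3
        linarith
      exact nonneg_of_mul_nonneg_right key (by positivity)
  · rcases a1.eq_or_lt with hD | hD
    · rw [← hD] at a3 ⊢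
      have hA : A = 0 := by
        have : A ^ 2 ≤ 0 := by simpa using a3
        exact pow_eq_zero_iff (two_ne_zero) |>.1 (le_antisymm this (sq_nonneg _))
      rw [hA]
      rw [← hD] at a2
      have := mul_nonneg a2 (sq_nonneg t)
      linarith
    · have key : 0 ≤ D * (D - 2 * A * t + (D + 2 * B) * t ^ 2) := by
        have e : D * (D - 2 * A * t + (D + 2 * B) * t ^ 2) =
            (D - A * t) ^ 2 + (D * (D + 2 * B) - A ^ 2) * t ^ 2 := by ring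
        rw [e]
        have := mul_nonneg (sub_nonneg.2 a3) (sq_nonneg t)
        have := sq_nonneg (D - A * t)
        linarith
      exact nonneg_of_mul_nonneg_right key hD
  · rcases le_total 0 (D + 2 * B) with hB | hB
    · have e : D - 2 * A * t + (D + 2 * B) * t ^ 2 =
          (D - 2 * A * t1 + (D + 2 * B) * t1 ^ 2) +
            (t1 - t) * (2 * (A - (D + 2 * B) * t1) + (D + 2 * B) * (t1 - t)) := by ring
      rw [e]
      have b1 : 0 ≤ (D + 2 * B) * (t1 - t) := mul_nonneg hB (by linarith)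
      have b2 : 0 ≤ (t1 - t) * (2 * (A - (D + 2 * B) * t1) + (D + 2 * B) * (t1 - t)) :=
        mul_nonneg (by linarith) (by linarith)
      linarith
    · rcases h0.eq_or_lt with h | h
      · rw [← h]; linarith
      · have ht1' : 0 < t1 := h.trans_le h1
        -- concave
        have key : 0 ≤ t1 * (D - 2 * A * t + (D + 2 * B) * t ^ 2) := by
          have e : t1 * (D - 2 * A * t + (D + 2 * B) * t ^ 2) =
              (t1 - t) * D + t * (D - 2 * A * t1 + (D + 2 * B) * t1 ^ 2) +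
                (-(D + 2 * B)) * (t1 * t * (t1 - t)) := by ring
          rw [e]
          have b1 : 0 ≤ (t1 - t) * D := mul_nonneg (by linarith) a1
          have b2 := mul_nonneg h.le a2
          have b3 : 0 ≤ (-(D + 2 * B)) * (t1 * t * (t1 - t)) :=
            mul_nonneg (by linarith) (mul_nonneg (mul_nonneg ht1'.le h.le) (by linarith))
          linarith
        exact nonneg_of_mul_nonneg_right key ht1'

/-- `PolyOK` from a lower bound `D` -/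
lemma polyOK_of_le {A0 A1 A2 c2 K C beta L0 L1 y r D : ℝ} (hy : 0 ≤ y) (hr : 0 ≤ r) (hD : 0 ≤ D)
    (hT : tau A0 A1 A2 c2 K C beta L0 L1 y (y * r) ≤ y * D)
    (h : D * (D + 2) * (D + 2 * r) * (D + 2 + 2 * r) ≤ c2 * (1 - r ^ 2) ^ 2) :
    PolyOK A0 A1 A2 c2 K C beta L0 L1 y (y * r) := by
  rcases le_total (tau A0 A1 A2 c2 K C beta L0 L1 y (y * r)) 0 with h0 | h0
  · exact Or.inl h0
  · rcases hy.eq_or_lt with hy0 | hy0
    · left
      rw [← hy0] at hT ⊢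
      simpa using hT
    · obtain ⟨T, hTd⟩ : ∃ T, T = tau A0 A1 A2 c2 K C beta L0 L1 y (y * r) / y := ⟨_, rfl⟩
      have e : tau A0 A1 A2 c2 K C beta L0 L1 y (y * r) = y * T := by rw [hTd]; field_simp
      have hT0 : 0 ≤ T := by rw [hTd]; exact div_nonneg h0 hy
      have hTD : T ≤ D := by
        rw [e] at hT
        exact le_of_mul_le_mul_left hT hy0
      refine polyOK_of_T hy e (Or.inr (le_trans ?_ h))
      gcongr

/-- **soundness**, semantic form -/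
theorem sound_aux (d : Dat) (hN : 0 < d.N) (hcd : 0 < d.cd) (hNR : 0 < d.NR) (htd : 0 < d.td)
    (h1 : ∀ x : ℕ → ℝ, 0 ≤ x 0 → x 0 ≤ 1 → 0 ≤ x 1 → x 1 ≤ 1 → 0 ≤ d.Q1.val x ∧ 0 ≤ d.Q2.val x)
    (h2 : ∀ x : ℕ → ℝ, 0 ≤ x 0 → x 0 ≤ 1 → 0 ≤ x 1 → x 1 ≤ 1 →
      (∀ e ∈ d.c1, 0 ≤ e.val x (fun _ => 1)) ∨ (∀ e ∈ d.c2, 0 ≤ e.val x (fun _ => 1)) ∨
        (∀ e ∈ d.c3, 0 ≤ e.val x (fun _ => 1)))
    {t y0 y1 : ℝ} (ht0 : 0 ≤ t) (ht1 : t ≤ d.T1) (hy1 : 0 ≤ y1) (h01 : y1 ≤ y0) (hy0 : y0 ≤ 1) :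
    PolyOK d.A0 d.A1 d.A2 d.C2 (wt2 d.K1 d.K2 t) (wC t) (wt2 d.E1 d.E2 t) (wt2 0 d.M2 t)
      (wt2 0 d.L2 t) y0 y1 := by
  have hy : 0 ≤ y0 := hy1.trans h01
  obtain ⟨r, hr0, hr1, hr⟩ : ∃ r, 0 ≤ r ∧ r ≤ 1 ∧ y1 = y0 * r := by
    rcases hy.eq_or_lt with h | h
    · refine ⟨0, le_rfl, zero_le_one, ?_⟩
      rw [← h] at h01 ⊢
      rw [le_antisymm h01 hy1]; ring
    · exact ⟨y1 / y0, div_nonneg hy1 hy, div_le_one_of_le₀ h01 hy, by field_simp⟩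
  subst hr
  set x : ℕ → ℝ := fun i => if i = 0 then y0 else 1 - r with hx
  have x0 : x 0 = y0 := by simp [hx]
  have x1 : x 1 = 1 - r := by simp [hx]
  have k1 := h1 x (by rw [x0]; exact hy) (by rw [x0]; exact hy0) (by rw [x1]; linarith)
    (by rw [x1]; linarith)
  have k2 := h2 x (by rw [x0]; exact hy) (by rw [x0]; exact hy0) (by rw [x1]; linarith)
    (by rw [x1]; linarith)
  clear_value x
  have hrr : 1 - (1 - r) = r := by ring
  have vD := d.Dp_val hN hcd hNR x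
  have vA := d.Ap_val hN hcd hNR x
  have vB := d.Bp_val hN hcd hNR x
  rw [x0, x1, hrr] at vD vA vB
  have hS := d.S_pos hN hcd hNR
  have n1 : (0 : ℝ) < d.N := by exact_mod_cast hN
  have n2 : (0 : ℝ) < d.cd := by exact_mod_cast hcd
  have n3 : (0 : ℝ) < d.NR := by exact_mod_cast hNR
  have n4 : (0 : ℝ) < d.td := by exact_mod_cast htd
  have vR : d.Rs.val x = d.NR * d.Rr r := by
    unfold Rs Rr
    rw [PE.horner_val, x1, hrr]
    field_simp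
  obtain ⟨q1, q2⟩ := k1
  have hR : 0 ≤ d.Rr r := by
    have : 0 ≤ (d.NR : ℝ) * d.Rr r := by rw [← vR]; exact q1
    exact nonneg_of_mul_nonneg_right this n3
  obtain ⟨D, hDd⟩ : ∃ D, D = (1 - r) ^ 2 * d.Rr r := ⟨_, rfl⟩
  have hD0 : 0 ≤ D := by rw [hDd]; exact mul_nonneg (sq_nonneg _) hR
  have hD : D * (D + 2) * (D + 2 * r) * (D + 2 + 2 * r) ≤ d.C2 * (1 - r ^ 2) ^ 2 := by
    simp only [Q2, PE.add_val, PE.sub_val, PE.smul_val, PE.mul_val, PE.cst_val, PE.ep_val,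
      PE.r_val, PE.r1_val, vR, x1, hrr] at q2
    push_cast at q2
    have e : (d.cn : ℝ) * (d.NR : ℝ) ^ 4 * ((1 + r) * (1 + r)) - (d.cd : ℝ) * ((d.NR : ℝ) * d.Rr r *
        (((1 - r) ^ 2 * ((d.NR : ℝ) * d.Rr r) + 2 * (d.NR : ℝ)) *
          (((1 - r) ^ 2 * ((d.NR : ℝ) * d.Rr r) + 2 * (d.NR : ℝ) * r) *
            ((1 - r) ^ 2 * ((d.NR : ℝ) * d.Rr r) + 2 * (d.NR : ℝ) * (1 + r))))) =
        ((d.NR : ℝ) ^ 4 * d.cd) * (d.C2 * (1 + r) ^ 2 - d.Rr r * (D + 2) * (D + 2 * r) *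
          (D + 2 + 2 * r)) := by
      rw [hDd]
      unfold C2
      field_simp
      ring
    rw [e] at q2
    have q3 := nonneg_of_mul_nonneg_right q2 (by positivity)
    have q4 := mul_nonneg (sq_nonneg (1 - r)) q3
    have e2 : (1 - r) ^ 2 * (d.C2 * (1 + r) ^ 2 - d.Rr r * (D + 2) * (D + 2 * r) *
          (D + 2 + 2 * r)) = d.C2 * (1 - r ^ 2) ^ 2 -
            ((1 - r) ^ 2 * d.Rr r) * (D + 2) * (D + 2 * r) * (D + 2 + 2 * r) := by ring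
    rw [e2, ← hDd] at q4
    linarith
  -- the quadratic
  obtain ⟨DD, hDD⟩ : ∃ v, v = (1 - r) ^ 2 * d.Dpr y0 r := ⟨_, rfl⟩
  obtain ⟨AA, hAA⟩ : ∃ v, v = (1 - r) * d.Apr y0 r := ⟨_, rfl⟩
  obtain ⟨BB, hBB⟩ : ∃ v, v = d.Bpr y0 r := ⟨_, rfl⟩
  have hp : 0 ≤ DD - 2 * AA * t + (DD + 2 * BB) * t ^ 2 := by
    refine p_nonneg ht0 ht1 ?_
    have hε : 0 ≤ 1 - r := by linarith
    rcases k2 with k | k | k
    · left
      simp only [c1, List.mem_cons, List.not_mem_nil, or_false, forall_eq_or_imp, forall_eq] at k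
      obtain ⟨a1, a2, a3⟩ := k
      change 0 ≤ d.Dp.val x at a1
      change 0 ≤ ((PE.smul d.td ((PE.ep 1).mul d.Dp)).sub (PE.smul d.tn d.Ap)).val x at a2
      change 0 ≤ d.Pt.val x at a3
      simp only [Pt, Ep, PE.add_val, PE.sub_val, PE.mul_val, PE.smul_val, PE.ep_val, vD, vA, vB, x1]
        at a1 a2 a3
      push_cast at a2 a3
      have b1 := nonneg_of_mul_nonneg_right a1 hS
      refine ⟨by rw [hDD]; exact mul_nonneg (sq_nonneg _) b1, ?_, ?_⟩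
      · have : 0 ≤ (d.S * d.td) * ((1 - r) * d.Dpr y0 r - d.Apr y0 r * d.T1) := by
          unfold T1
          refine a2.trans (le_of_eq ?_)
          field_simp
        have h5 := nonneg_of_mul_nonneg_right this (by positivity)
        have h6 := mul_nonneg hε h5
        have e : (1 - r) * ((1 - r) * d.Dpr y0 r - d.Apr y0 r * d.T1) = DD - AA * d.T1 := by
          rw [hDD, hAA]; ring
        rw [e] at h6
        exact h6
      · have : 0 ≤ (d.S * d.td ^ 2) * (DD - 2 * AA * d.T1 + (DD + 2 * BB) * d.T1 ^ 2) := by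
          rw [hDD, hBB, hAA]
          unfold T1
          refine a3.trans (le_of_eq ?_)
          field_simp
        exact nonneg_of_mul_nonneg_right this (by positivity)
    · right; left
      simp only [c2, List.mem_cons, List.not_mem_nil, or_false, forall_eq_or_imp, forall_eq] at k
      obtain ⟨a1, a2, a3⟩ := k
      change 0 ≤ d.Dp.val x at a1
      change 0 ≤ d.Ep.val x at a2
      change 0 ≤ ((d.Dp.mul d.Ep).sub (d.Ap.mul d.Ap)).val x at a3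
      simp only [Ep, PE.add_val, PE.sub_val, PE.mul_val, PE.smul_val, PE.ep_val, vD, vA, vB, x1]
        at a1 a2 a3
      push_cast at a2 a3
      have b1 := nonneg_of_mul_nonneg_right a1 hS
      refine ⟨by rw [hDD]; exact mul_nonneg (sq_nonneg _) b1, ?_, ?_⟩
      · have : 0 ≤ d.S * (DD + 2 * BB) := by
          rw [hDD, hBB]
          refine a2.trans (le_of_eq ?_)
          ring
        exact nonneg_of_mul_nonneg_right this hS
      · have : 0 ≤ d.S ^ 2 * (d.Dpr y0 r * (DD + 2 * BB) - d.Apr y0 r ^ 2) := by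
          rw [hDD, hBB]
          refine a3.trans (le_of_eq ?_)
          ring
        have h5 := nonneg_of_mul_nonneg_right this (by positivity)
        have h6 := mul_nonneg (sq_nonneg (1 - r)) h5
        have e : (1 - r) ^ 2 * (d.Dpr y0 r * (DD + 2 * BB) - d.Apr y0 r ^ 2) =
            DD * (DD + 2 * BB) - AA ^ 2 := by
          rw [hAA, hDD]; ring
        rw [e] at h6
        linarith
    · right; right
      simp only [c3, List.mem_cons, List.not_mem_nil, or_false, forall_eq_or_imp, forall_eq] at k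
      obtain ⟨a1, a2, a3⟩ := k
      change 0 ≤ d.Dp.val x at a1
      change 0 ≤ d.Pt.val x at a2
      change 0 ≤ ((PE.smul d.td ((PE.ep 1).mul d.Ap)).sub (PE.smul d.tn d.Ep)).val x at a3
      simp only [Pt, Ep, PE.add_val, PE.sub_val, PE.mul_val, PE.smul_val, PE.ep_val, vD, vA, vB, x1]
        at a1 a2 a3
      push_cast at a2 a3
      have b1 := nonneg_of_mul_nonneg_right a1 hS
      refine ⟨by rw [hDD]; exact mul_nonneg (sq_nonneg _) b1, ?_, ?_⟩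
      · have : 0 ≤ (d.S * d.td ^ 2) * (DD - 2 * AA * d.T1 + (DD + 2 * BB) * d.T1 ^ 2) := by
          rw [hDD, hBB, hAA]
          unfold T1
          refine a2.trans (le_of_eq ?_)
          field_simp
        exact nonneg_of_mul_nonneg_right this (by positivity)
      · have : 0 ≤ (d.S * d.td) * (AA - (DD + 2 * BB) * d.T1) := by
          rw [hDD, hBB, hAA]
          unfold T1
          refine a3.trans (le_of_eq ?_)
          field_simp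
        have := nonneg_of_mul_nonneg_right this (by positivity)
        linarith
  refine polyOK_of_le hy hr0 hD0 ?_ hD
  have hp2 : (0:ℝ) < 1 + t ^ 2 := by positivity
  have key : (2 * (1 + t ^ 2)) * (y0 * D - tau d.A0 d.A1 d.A2 d.C2 (wt2 d.K1 d.K2 t) (wC t)
      (wt2 d.E1 d.E2 t) (wt2 0 d.M2 t) (wt2 0 d.L2 t) y0 (y0 * r)) =
      y0 * (DD - 2 * AA * t + (DD + 2 * BB) * t ^ 2) := by
    rw [hDD, hAA, hBB, hDd]
    unfold tau
    rw [FP_sub, Corr_eq, FP_f1]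
    unfold Dpr Apr Bpr wt2 wC
    field_simp
    ring
  have h3 : 0 ≤ (2 * (1 + t ^ 2)) * (y0 * D - tau d.A0 d.A1 d.A2 d.C2 (wt2 d.K1 d.K2 t) (wC t)
      (wt2 d.E1 d.E2 t) (wt2 0 d.M2 t) (wt2 0 d.L2 t) y0 (y0 * r)) := by
    rw [key]; exact mul_nonneg hy hp
  have h4 := nonneg_of_mul_nonneg_right h3 (by positivity)
  linarith

/-- **soundness** of the two kernel checks -/
theorem sound (d : Dat) {w1 s1 w2 s2 : ℕ} {Xl1 M1 Xl2 M2 : List ℕ} {tr1 tr2 : Tr}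
    (h0 : (decide (0 < d.N) && decide (0 < d.cd) && decide (0 < d.NR) && decide (0 < d.td)) = true)
    (h1 : run 2 w1 s1 Xl1 M1 [[d.Q1.e, d.Q2.e]] tr1 [(0, 2 ^ s1), (0, 2 ^ s1)] = true)
    (h2 : run 2 w2 s2 Xl2 M2 [d.c1, d.c2, d.c3] tr2 [(0, 2 ^ s2), (0, 2 ^ s2)] = true)
    {t y0 y1 : ℝ} (ht0 : 0 ≤ t) (ht1 : t ≤ d.T1) (hy1 : 0 ≤ y1) (h01 : y1 ≤ y0) (hy0 : y0 ≤ 1) :
    PolyOK d.A0 d.A1 d.A2 d.C2 (wt2 d.K1 d.K2 t) (wC t) (wt2 d.E1 d.E2 t) (wt2 0 d.M2 t)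
      (wt2 0 d.L2 t) y0 y1 := by
  simp only [Bool.and_eq_true, decide_eq_true_eq] at h0
  obtain ⟨⟨⟨hN, hcd⟩, hNR⟩, htd⟩ := h0
  have hbox : ∀ (s : ℕ) (x : ℕ → ℝ), 0 ≤ x 0 → x 0 ≤ 1 → 0 ≤ x 1 → x 1 ≤ 1 →
      InBox 2 s [(0, 2 ^ s), (0, 2 ^ s)] x := by
    intro s x a1 a2 a3 a4 i hi
    have hs : (0 : ℝ) < 2 ^ s := by positivity
    interval_cases i
    · simp only [ba, bb, List.getD_cons_zero]
      push_cast
      constructor
      · positivity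
      · nlinarith
    · simp only [ba, bb, List.getD_cons_succ, List.getD_cons_zero]
      push_cast
      constructor
      · positivity
      · nlinarith
  refine sound_aux d hN hcd hNR htd ?_ ?_ ht0 ht1 hy1 h01 hy0
  · intro x a1 a2 a3 a4
    obtain ⟨cl, hcl, h⟩ := run_sound _ _ _ _ _ _ _ _ h1 x (hbox s1 x a1 a2 a3 a4)
    simp only [List.mem_cons, List.not_mem_nil, or_false] at hcl
    subst hcl
    exact ⟨h _ (by simp), h _ (by simp)⟩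
  · intro x a1 a2 a3 a4
    obtain ⟨cl, hcl, h⟩ := run_sound _ _ _ _ _ _ _ _ h2 x (hbox s2 x a1 a2 a3 a4)
    simp only [List.mem_cons, List.not_mem_nil, or_false] at hcl
    rcases hcl with rfl | rfl | rfl
    · exact Or.inl h
    · exact Or.inr (Or.inl h)
    · exact Or.inr (Or.inr h)

end Dat

end Crest.Agent.R307.PIConic
private theorem rz_ce3faf37af : type_of% @_root_.Crest.Agent.R307.PIConic.PE.gs.eq_def := @_root_.Crest.Agent.R307.PIConic.PE.gs.eq_def -- L86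
private theorem rz_7d7491bc3b : type_of% @_root_.Crest.Agent.R307.PIConic.PE.gs.eq_1 := @_root_.Crest.Agent.R307.PIConic.PE.gs.eq_1 -- L86
private theorem rz_f210f65d18 : type_of% @_root_.Crest.Agent.R307.PIConic.PE.horner.eq_def := @_root_.Crest.Agent.R307.PIConic.PE.horner.eq_def -- L91
private theorem rz_f3d014a49b : type_of% @_root_.Crest.Agent.R307.PIConic.PE.horner.eq_1 := @_root_.Crest.Agent.R307.PIConic.PE.horner.eq_1 -- L91
private theorem rz_f0494508c9 : type_of% @_root_.Crest.Agent.R307.PIConic.evl.eq_def := @_root_.Crest.Agent.R307.PIConic.evl.eq_def -- L96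
private theorem rz_2e26407854 : type_of% @_root_.Crest.Agent.R307.PIConic.evl.eq_1 := @_root_.Crest.Agent.R307.PIConic.evl.eq_1 -- L96
private theorem rz_54349e8e53 : type_of% @_root_.Crest.Agent.R307.PIConic.pw.eq_1 := @_root_.Crest.Agent.R307.PIConic.pw.eq_1 -- L27
end

-- ▼ part R307/PIDict

/-!
Row 307 (S0471), helper14: generic kernel check of the exact dictator certificate
(`K = C = 0`, flux exactly `W(c)`) for all `z = √(1+c)` in an interval (three variables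
`y = √q0`, `ε = 1 - √q1/√q0`, `z`), and the assembly `FamI`, `CertI` for one `c`-interval.
-/

set_option autoImplicit false

namespace Crest.Agent.R307.PIConic

open Crest.Agent.R307.GenPI Crest.Agent.R307.PIEng Crest.Agent.R307.Conic Crest.Agent.KB
open Crest.Agent.R307.GenInt Crest.Agent.R307.GenInd

/-- the variable `z`, to the power `k` -/
def PE.z (k : ℕ) : PE := ⟨.X 2 k, 0, 0, k⟩
@[simp] lemma PE.z_val (k : ℕ) (x : ℕ → ℝ) : (PE.z k).val x = x 2 ^ k := rfl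

/-- Horner evaluation in `r`, coefficients `α + β z` -/
def PE.horner2 : List (ℤ × ℤ) → PE
  | [] => .cst 0
  | p :: l => PE.add ((PE.cst p.1).add (PE.smul p.2 (PE.z 1))) (PE.mul .r (PE.horner2 l))

/-- real value of the list -/
noncomputable def evl2 (r z : ℝ) : List (ℤ × ℤ) → ℝ
  | [] => 0
  | p :: l => (p.1 + p.2 * z) + r * evl2 r z l

lemma PE.horner2_val (l : List (ℤ × ℤ)) (x : ℕ → ℝ) :
    (PE.horner2 l).val x = evl2 (1 - x 1) (x 2) l := by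
  induction l with
  | nil => simp [PE.horner2, evl2]
  | cons a l ih => simp [PE.horner2, evl2, ih]

/-- data of the dictator check; `N` common denominator of the `a_i`, `l_i`, `v_i`;
`V(z) = (v0 + v1 z)/N`, `D = (1-r)² R(r,z)`, `R = horner2 R / NR` -/
structure DatZ where
  N : ℕ
  a0 : ℤ
  a1 : ℤ
  a2 : ℤ
  l0 : ℤ
  l1 : ℤ
  v0 : ℤ
  v1 : ℤ
  NR : ℕ
  R : List (ℤ × ℤ)

namespace DatZ

def yr : PE := (PE.y 1).mul PE.r
/-- `c² = (z²-1)²` -/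
def cc : PE := ((PE.z 2).sub (PE.cst 1)).mul ((PE.z 2).sub (PE.cst 1))
/-- `N * f1f` -/
def f1s (d : DatZ) : PE :=
  (PE.r.mul ((PE.cst 1).sub yr)).mul ((PE.cst (2 * d.N)).add ((yr.mul ((PE.cst 1).add yr)).mul
    ((PE.cst d.a0).add ((yr.mul yr).mul ((PE.cst d.a1).add (PE.smul d.a2 (yr.mul yr)))))))
/-- `8 N corrf` -/
def co8 (d : DatZ) : PE :=
  (((PE.cst (4 * (d.a0 - d.a1))).add (PE.smul (6 * (d.a1 - d.a2))
    ((PE.y 2).mul ((PE.cst 1).add (PE.r.mul PE.r))))).add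
    (PE.smul (8 * d.a2) ((PE.y 4).mul
      ((PE.cst 1).add ((PE.r.mul PE.r).mul ((PE.cst 1).add (PE.r.mul PE.r))))))).sub
    (PE.smul d.a2 (cc.mul (((PE.y 4).mul (PE.ep 2)).mul (PE.r1.mul PE.r1))))
/-- `8 N W` -/
def W8 (d : DatZ) : PE :=
  ((PE.smul (16 * d.N) ((PE.z 1).sub (PE.cst 1))).add
    (PE.smul (2 * (2 * d.a0 + d.a1) + 2 * d.a2) cc)).sub (PE.smul d.a2 (cc.mul cc))
/-- `N V` -/
def Vs (d : DatZ) : PE := (PE.cst d.v0).add (PE.smul d.v1 (PE.z 1))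
def Rs (d : DatZ) : PE := PE.horner2 d.R

def Q2 (d : DatZ) : PE :=
  (PE.smul (d.NR ^ 4) (cc.mul (PE.r1.mul PE.r1))).sub
    (d.Rs.mul ((((PE.ep 2).mul d.Rs).add (.cst (2 * d.NR))).mul
      ((((PE.ep 2).mul d.Rs).add (PE.smul (2 * d.NR) PE.r)).mul
        (((PE.ep 2).mul d.Rs).add (PE.smul (2 * d.NR) PE.r1)))))
/-- `8 N ((z²-1)² V - W)` -/
def QV (d : DatZ) : PE := (PE.smul 8 (cc.mul d.Vs)).sub d.W8

/-- `8 N² NR G` -/
def G (d : DatZ) : PE :=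
  ((((PE.smul (16 * d.N ^ 2) ((PE.ep 2).mul d.Rs)).add
    (PE.smul (d.N * d.NR) ((cc.mul (((PE.y 3).mul (PE.ep 2)).mul (PE.r1.mul PE.r1))).mul d.co8))).add
    (PE.smul (8 * d.N * d.NR) d.f1s)).sub
    (PE.smul (d.N * d.NR) (d.W8.mul (((PE.y 1).mul (PE.ep 1)).mul PE.r1)))).sub
    (PE.smul (8 * d.NR) (d.Vs.mul
      ((PE.smul d.l0 ((PE.y 1).mul ((PE.cst 1).sub (PE.y 2)))).add
        (PE.smul d.l1 (((PE.y 1).mul (PE.r.mul PE.r)).mul ((PE.cst 1).sub (yr.mul yr)))))))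

noncomputable def A0 (d : DatZ) : ℝ := d.a0 / d.N
noncomputable def A1 (d : DatZ) : ℝ := d.a1 / d.N
noncomputable def A2 (d : DatZ) : ℝ := d.a2 / d.N
noncomputable def L0 (d : DatZ) : ℝ := d.l0 / d.N
noncomputable def L1 (d : DatZ) : ℝ := d.l1 / d.N
noncomputable def V (d : DatZ) (z : ℝ) : ℝ := (d.v0 + d.v1 * z) / d.N
noncomputable def Rr (d : DatZ) (r z : ℝ) : ℝ := evl2 r z d.R / d.NR

/-- real version of `G` -/
noncomputable def Gr (d : DatZ) (y r z : ℝ) : ℝ :=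
  2 * ((1 - r) ^ 2 * d.Rr r z) +
    (z ^ 2 - 1) ^ 2 * y ^ 3 * (1 - r ^ 2) ^ 2 * corrf d.A0 d.A1 d.A2 ((z ^ 2 - 1) ^ 2) y r +
    f1f d.A0 d.A1 d.A2 y r - Wz d.A0 d.A1 d.A2 z * (y * (1 - r ^ 2)) -
    d.V z * (d.L0 * (y * (1 - y ^ 2)) + d.L1 * (y * r ^ 2 * (1 - y ^ 2 * r ^ 2)))

section
variable (d : DatZ) (hN : 0 < d.N) (hNR : 0 < d.NR) (x : ℕ → ℝ)
include hN

lemma W8_val : d.W8.val x = 8 * d.N * Wz d.A0 d.A1 d.A2 (x 2) := by
  have h1 : (d.N : ℝ) ≠ 0 := by exact_mod_cast hN.ne'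
  simp only [W8, cc, Wz, A0, A1, A2, PE.sub_val, PE.add_val, PE.smul_val, PE.mul_val,
    PE.cst_val, PE.z_val]
  push_cast
  field_simp
  ring

lemma QV_val : d.QV.val x =
    8 * d.N * ((x 2 ^ 2 - 1) ^ 2 * d.V (x 2) - Wz d.A0 d.A1 d.A2 (x 2)) := by
  have h1 : (d.N : ℝ) ≠ 0 := by exact_mod_cast hN.ne'
  simp only [QV, Vs, cc, V, PE.sub_val, PE.add_val, PE.smul_val, PE.mul_val,
    PE.cst_val, PE.z_val, d.W8_val hN]
  push_cast
  field_simp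

include hNR in
lemma G_val : d.G.val x = 8 * d.N ^ 2 * d.NR * d.Gr (x 0) (1 - x 1) (x 2) := by
  have h1 : (d.N : ℝ) ≠ 0 := by exact_mod_cast hN.ne'
  have h3 : (d.NR : ℝ) ≠ 0 := by exact_mod_cast hNR.ne'
  simp only [G, Vs, Rs, f1s, co8, yr, cc, Gr, Rr, V, L0, L1, f1f, corrf, PE.sub_val, PE.add_val,
    PE.smul_val, PE.mul_val, PE.cst_val, PE.z_val, PE.y_val, PE.ep_val, PE.r_val, PE.r1_val,
    PE.horner2_val, d.W8_val hN]
  obtain ⟨W, hW⟩ : ∃ W, W = Wz d.A0 d.A1 d.A2 (x 2) := ⟨_, rfl⟩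
  rw [← hW]
  unfold A0 A1 A2
  push_cast
  field_simp
  ring

end

/-- **soundness** of the dictator check -/
theorem sound (d : DatZ) {w1 s1 w2 s2 : ℕ} {Xl1 M1 Xl2 M2 : List ℕ} {tr1 tr2 : Tr} {a b : ℤ}
    {a' b' : ℤ} (h0 : (decide (0 < d.N) && decide (0 < d.NR)) = true)
    (h1 : run 3 w1 s1 Xl1 M1 [[d.Rs.e, d.Q2.e, d.QV.e]] tr1 [(0, 2 ^ s1), (0, 2 ^ s1), (a, b)] = true)
    (h2 : run 3 w2 s2 Xl2 M2 [[d.G.e]] tr2 [(0, 2 ^ s2), (0, 2 ^ s2), (a', b')] = true)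
    {z y0 y1 : ℝ} (hza : (a : ℝ) ≤ z * 2 ^ s1) (hzb : z * 2 ^ s1 ≤ b)
    (hza' : (a' : ℝ) ≤ z * 2 ^ s2) (hzb' : z * 2 ^ s2 ≤ b')
    (hy1 : 0 ≤ y1) (h01 : y1 ≤ y0) (hy0 : y0 ≤ 1) :
    Wz d.A0 d.A1 d.A2 z ≤ (z ^ 2 - 1) ^ 2 * d.V z ∧
    PolyOK d.A0 d.A1 d.A2 ((z ^ 2 - 1) ^ 2) 0 0 (Wz d.A0 d.A1 d.A2 z) (d.V z * d.L0)
      (d.V z * d.L1) y0 y1 := by
  simp only [Bool.and_eq_true, decide_eq_true_eq] at h0
  obtain ⟨hN, hNR⟩ := h0
  have hy : 0 ≤ y0 := hy1.trans h01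
  obtain ⟨r, hr0, hr1, hr⟩ : ∃ r, 0 ≤ r ∧ r ≤ 1 ∧ y1 = y0 * r := by
    rcases hy.eq_or_lt with h | h
    · refine ⟨0, le_rfl, zero_le_one, ?_⟩
      rw [← h] at h01 ⊢
      rw [le_antisymm h01 hy1]; ring
    · exact ⟨y1 / y0, div_nonneg hy1 hy, div_le_one_of_le₀ h01 hy, by field_simp⟩
  subst hr
  obtain ⟨x, x0, x1, x2⟩ : ∃ x : ℕ → ℝ, x 0 = y0 ∧ x 1 = 1 - r ∧ x 2 = z :=
    ⟨fun i => if i = 0 then y0 else if i = 1 then 1 - r else z, by simp, by simp, by simp⟩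
  have hbox : ∀ (s : ℕ) (a b : ℤ), (a : ℝ) ≤ z * 2 ^ s → z * 2 ^ s ≤ b →
      InBox 3 s [(0, 2 ^ s), (0, 2 ^ s), (a, b)] x := by
    intro s a b h1 h2 i hi
    have hs : (0 : ℝ) < 2 ^ s := by positivity
    interval_cases i
    · simp only [ba, bb, List.getD_cons_zero, x0]
      push_cast
      constructor
      · positivity
      · nlinarith
    · simp only [ba, bb, List.getD_cons_succ, List.getD_cons_zero, x1]
      push_cast
      constructor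
      · have : 0 ≤ 1 - r := by linarith
        positivity
      · nlinarith
    · simp only [ba, bb, List.getD_cons_succ, List.getD_cons_zero, x2]
      exact ⟨h1, h2⟩
  obtain ⟨cl, hcl, h⟩ := run_sound _ _ _ _ _ _ _ _ h1 x (hbox s1 a b hza hzb)
  simp only [List.mem_cons, List.not_mem_nil, or_false] at hcl
  subst hcl
  obtain ⟨cl, hcl, h'⟩ := run_sound _ _ _ _ _ _ _ _ h2 x (hbox s2 a' b' hza' hzb')
  simp only [List.mem_cons, List.not_mem_nil, or_false] at hcl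
  subst hcl
  have q1 : 0 ≤ d.Rs.val x := h _ (by simp)
  have q2 : 0 ≤ d.Q2.val x := h _ (by simp)
  have q3 : 0 ≤ d.QV.val x := h _ (by simp)
  have q4 : 0 ≤ d.G.val x := h' _ (by simp)
  have n1 : (0 : ℝ) < d.N := by exact_mod_cast hN
  have n3 : (0 : ℝ) < d.NR := by exact_mod_cast hNR
  have hrr : 1 - (1 - r) = r := by ring
  rw [d.QV_val hN, x2] at q3
  rw [d.G_val hN hNR, x0, x1, x2, hrr] at q4
  have q3' := nonneg_of_mul_nonneg_right q3 (by positivity)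
  have q4' := nonneg_of_mul_nonneg_right q4 (by positivity)
  refine ⟨by linarith, ?_⟩
  have vR : d.Rs.val x = d.NR * d.Rr r z := by
    unfold Rs Rr
    rw [PE.horner2_val, x1, x2, hrr]
    field_simp
  have hR : 0 ≤ d.Rr r z := by
    have : 0 ≤ (d.NR : ℝ) * d.Rr r z := by rw [← vR]; exact q1
    exact nonneg_of_mul_nonneg_right this n3
  obtain ⟨D, hDd⟩ : ∃ D, D = (1 - r) ^ 2 * d.Rr r z := ⟨_, rfl⟩
  have hD0 : 0 ≤ D := by rw [hDd]; exact mul_nonneg (sq_nonneg _) hR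
  have hD : D * (D + 2) * (D + 2 * r) * (D + 2 + 2 * r) ≤ (z ^ 2 - 1) ^ 2 * (1 - r ^ 2) ^ 2 := by
    simp only [Q2, cc, PE.add_val, PE.sub_val, PE.smul_val, PE.mul_val, PE.cst_val, PE.ep_val,
      PE.r_val, PE.r1_val, PE.z_val, vR, x1, x2, hrr] at q2
    push_cast at q2
    have q5 : 0 ≤ (d.NR : ℝ) ^ 4 * ((z ^ 2 - 1) ^ 2 * (1 + r) ^ 2 - d.Rr r z * (D + 2) *
        (D + 2 * r) * (D + 2 + 2 * r)) := by
      refine q2.trans (le_of_eq ?_)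
      rw [hDd]
      ring
    have q6 := nonneg_of_mul_nonneg_right q5 (by positivity)
    have q7 := mul_nonneg (sq_nonneg (1 - r)) q6
    have e2 : (1 - r) ^ 2 * ((z ^ 2 - 1) ^ 2 * (1 + r) ^ 2 - d.Rr r z * (D + 2) *
        (D + 2 * r) * (D + 2 + 2 * r)) = (z ^ 2 - 1) ^ 2 * (1 - r ^ 2) ^ 2 -
            ((1 - r) ^ 2 * d.Rr r z) * (D + 2) * (D + 2 * r) * (D + 2 + 2 * r) := by ring
    rw [e2, ← hDd] at q7
    linarith
  refine Dat.polyOK_of_le hy hr0 hD0 ?_ hD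
  have key : 2 * (y0 * D - tau d.A0 d.A1 d.A2 ((z ^ 2 - 1) ^ 2) 0 0 (Wz d.A0 d.A1 d.A2 z)
      (d.V z * d.L0) (d.V z * d.L1) y0 (y0 * r)) = y0 * d.Gr y0 r z := by
    rw [hDd]
    unfold tau
    rw [Corr_eq, FP_f1]
    unfold Gr
    ring
  have h3 : 0 ≤ 2 * (y0 * D - tau d.A0 d.A1 d.A2 ((z ^ 2 - 1) ^ 2) 0 0 (Wz d.A0 d.A1 d.A2 z)
      (d.V z * d.L0) (d.V z * d.L1) y0 (y0 * r)) := by
    rw [key]; exact mul_nonneg hy q4'
  linarith

/-- the dictator certificate on an interval -/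
theorem certI (d : DatZ) {A0 A1 A2 l m za zb : ℝ} {w1 s1 w2 s2 : ℕ} {Xl1 M1 Xl2 M2 : List ℕ}
    {tr1 tr2 : Tr} {a b a' b' : ℤ} (h0 : (decide (0 < d.N) && decide (0 < d.NR)) = true)
    (h1 : run 3 w1 s1 Xl1 M1 [[d.Rs.e, d.Q2.e, d.QV.e]] tr1 [(0, 2 ^ s1), (0, 2 ^ s1), (a, b)] = true)
    (h2 : run 3 w2 s2 Xl2 M2 [[d.G.e]] tr2 [(0, 2 ^ s2), (0, 2 ^ s2), (a', b')] = true)
    (hA0 : d.A0 = A0) (hA1 : d.A1 = A1) (hA2 : d.A2 = A2) (hl : d.L0 = l) (hm : d.L1 = m)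
    (hl0 : 0 ≤ l) (hm0 : 0 ≤ m) (hza : 1 < za) (hab : za ≤ zb) (hzb : zb ^ 2 ≤ 2)
    (e1 : (a : ℝ) ≤ za * 2 ^ s1) (e2 : zb * 2 ^ s1 ≤ b) (e3 : (a' : ℝ) ≤ za * 2 ^ s2)
    (e4 : zb * 2 ^ s2 ≤ b') (hW : ∀ c, za ^ 2 - 1 ≤ c → c ≤ zb ^ 2 - 1 → 0 ≤ Wf A0 A1 A2 c) :
    CertI A0 A1 A2 (za ^ 2 - 1) (zb ^ 2 - 1) 1 0 1 l m := by
  have hp : ∀ s : ℕ, (0 : ℝ) < 2 ^ s := fun s => by positivity
  have key : ∀ z, za ≤ z → z ≤ zb → ∀ y0 y1 : ℝ, 0 ≤ y1 → y1 ≤ y0 → y0 ≤ 1 →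
      Wz A0 A1 A2 z ≤ (z ^ 2 - 1) ^ 2 * d.V z ∧
        PolyOK A0 A1 A2 ((z ^ 2 - 1) ^ 2) 0 0 (Wz A0 A1 A2 z) (d.V z * l) (d.V z * m) y0 y1 := by
    intro z h3 h4 y0 y1 h5 h6 h7
    have := d.sound h0 h1 h2 (z := z) (y0 := y0) (y1 := y1)
      (e1.trans (mul_le_mul_of_nonneg_right h3 (hp s1).le))
      ((mul_le_mul_of_nonneg_right h4 (hp s1).le).trans e2)
      (e3.trans (mul_le_mul_of_nonneg_right h3 (hp s2).le))
      ((mul_le_mul_of_nonneg_right h4 (hp s2).le).trans e4) h5 h6 h7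
    rw [hA0, hA1, hA2, hl, hm] at this
    exact this
  have := certI_of_poly_z (A0 := A0) (A1 := A1) (A2 := A2) (za := za) (zb := zb) (K := 0) (C := 0)
    (bt := 1) (l := l) (m := m) d.V hza hab hzb hl0 hm0 hW
    (fun z h3 h4 => (key z h3 h4 0 0 le_rfl le_rfl zero_le_one).1)
    (fun z h3 h4 y0 y1 h5 h6 h7 => by
      have := (key z h3 h4 y0 y1 h5 h6 h7).2
      rw [mul_one]
      exact this)
  simpa using this

end DatZ

/-! ### families on an interval -/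

namespace Dat

/-- the two kernel checks of `Dat.sound`, packed -/
def OK (d : Dat) : Prop :=
  ∃ (w1 s1 w2 s2 : ℕ) (Xl1 M1 Xl2 M2 : List ℕ) (tr1 tr2 : Tr),
    (decide (0 < d.N) && decide (0 < d.cd) && decide (0 < d.NR) && decide (0 < d.td)) = true ∧
    run 2 w1 s1 Xl1 M1 [[d.Q1.e, d.Q2.e]] tr1 [(0, 2 ^ s1), (0, 2 ^ s1)] = true ∧
    run 2 w2 s2 Xl2 M2 [d.c1, d.c2, d.c3] tr2 [(0, 2 ^ s2), (0, 2 ^ s2)] = true

theorem OK.polyOK {d : Dat} (h : d.OK) {t y0 y1 : ℝ} (ht0 : 0 ≤ t) (ht1 : t ≤ d.T1)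
    (hy1 : 0 ≤ y1) (h01 : y1 ≤ y0) (hy0 : y0 ≤ 1) :
    PolyOK d.A0 d.A1 d.A2 d.C2 (wt2 d.K1 d.K2 t) (wC t) (wt2 d.E1 d.E2 t) (wt2 0 d.M2 t)
      (wt2 0 d.L2 t) y0 y1 := by
  obtain ⟨_, _, _, _, _, _, _, _, _, _, h0, h1, h2⟩ := h
  exact d.sound h0 h1 h2 ht0 ht1 hy1 h01 hy0


/-- the family on the `c`-interval, for one `t`: certificates from the two end points; the
parameters `k1`, `k2` may differ at the two end points only if they are equal here -/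
theorem certI_of_ends {da db : Dat} (ha : da.OK) (hb : db.OK)
    {A0 A1 A2 za zb z0 Ua Ub Va Vb k1 k2 e1 e2 m2 l2 : ℝ}
    (hA2 : 0 ≤ A2) (hza : 1 < za) (hab : za < zb) (hzb : zb ^ 2 ≤ 2) (hz0 : 1 < z0)
    (he1 : 0 ≤ e1) (he2 : 0 ≤ e1 + e2) (hm2 : 0 ≤ m2) (hl2 : 0 ≤ l2) (hVa : 0 ≤ Va) (hVb : 0 ≤ Vb)
    (hW : ∀ c, za ^ 2 - 1 ≤ c → c ≤ zb ^ 2 - 1 → 0 ≤ Wf A0 A1 A2 c)
    (hUa : Wtan A0 A1 A2 z0 ((za ^ 2 - 1) ^ 2) ≤ Ua)
    (hUb : Wtan A0 A1 A2 z0 ((zb ^ 2 - 1) ^ 2) ≤ Ub)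
    (hVa' : Wz A0 A1 A2 za ≤ (za ^ 2 - 1) ^ 2 * Va)
    (hVb' : Wz A0 A1 A2 zb ≤ (zb ^ 2 - 1) ^ 2 * Vb)
    (a1 : da.A0 = A0) (a2 : da.A1 = A1) (a3 : da.A2 = A2) (a4 : da.C2 = (za ^ 2 - 1) ^ 2)
    (a5 : da.K1 = k1) (a6 : da.K2 = k2) (a7 : da.E1 = Ua * e1) (a8 : da.E2 = Ua * e2)
    (a9 : da.M2 = Va * m2) (a10 : da.L2 = Va * l2)
    (b1 : db.A0 = A0) (b2 : db.A1 = A1) (b3 : db.A2 = A2) (b4 : db.C2 = (zb ^ 2 - 1) ^ 2)
    (b5 : db.K1 = k1) (b6 : db.K2 = k2) (b7 : db.E1 = Ub * e1) (b8 : db.E2 = Ub * e2)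
    (b9 : db.M2 = Vb * m2) (b10 : db.L2 = Vb * l2)
    {t : ℝ} (ht0 : 0 ≤ t) (ht1 : t ≤ da.T1) (ht2 : t ≤ db.T1) (ht3 : t ≤ 1) :
    CertI A0 A1 A2 (za ^ 2 - 1) (zb ^ 2 - 1) (1 + wt2 k1 k2 t) (wC t - wt2 k1 k2 t)
      (wt2 e1 e2 t) (wt2 0 m2 t) (wt2 0 l2 t) := by
  refine certI_of_poly (z0 := z0) (Ua := Ua) (Ub := Ub) (Va := Va) (Vb := Vb) hA2 hza hab hzb hz0
    (wt2_nonneg he1 he2 ht0 ht3) (wt2_nonneg le_rfl (by linarith) ht0 ht3)
    (wt2_nonneg le_rfl (by linarith) ht0 ht3) hW hUa hUb hVa' hVb' ?_ ?_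
  · intro y0 y1 h1 h2 h3
    have := ha.polyOK ht0 ht1 h1 h2 h3
    rw [a1, a2, a3, a4, a5, a6, a7, a8, a9, a10] at this
    have e1 : wt2 (Ua * e1) (Ua * e2) t = Ua * wt2 e1 e2 t := wt2_smul _ _ _ _
    have e3 : wt2 0 (Va * m2) t = Va * wt2 0 m2 t := by rw [← wt2_smul]; simp
    have e4 : wt2 0 (Va * l2) t = Va * wt2 0 l2 t := by rw [← wt2_smul]; simp
    rw [e1, e3, e4] at this
    exact this
  · intro y0 y1 h1 h2 h3
    have := hb.polyOK ht0 ht2 h1 h2 h3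
    rw [b1, b2, b3, b4, b5, b6, b7, b8, b9, b10] at this
    have e1 : wt2 (Ub * e1) (Ub * e2) t = Ub * wt2 e1 e2 t := wt2_smul _ _ _ _
    have e3 : wt2 0 (Vb * m2) t = Vb * wt2 0 m2 t := by rw [← wt2_smul]; simp
    have e4 : wt2 0 (Vb * l2) t = Vb * wt2 0 l2 t := by rw [← wt2_smul]; simp
    rw [e1, e3, e4] at this
    exact this

/-- the whole conic family on the `c`-interval (`t1 = 1` at both end points) -/
theorem famI_of_ends {da db : Dat} (ha : da.OK) (hb : db.OK)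
    {A0 A1 A2 za zb z0 Ua Ub Va Vb k1 k2 e1 e2 m2 l2 : ℝ}
    (hA2 : 0 ≤ A2) (hza : 1 < za) (hab : za < zb) (hzb : zb ^ 2 ≤ 2) (hz0 : 1 < z0)
    (he1 : 0 ≤ e1) (he2 : 0 ≤ e1 + e2) (hm2 : 0 ≤ m2) (hl2 : 0 ≤ l2) (hVa : 0 ≤ Va) (hVb : 0 ≤ Vb)
    (hW : ∀ c, za ^ 2 - 1 ≤ c → c ≤ zb ^ 2 - 1 → 0 ≤ Wf A0 A1 A2 c)
    (hUa : Wtan A0 A1 A2 z0 ((za ^ 2 - 1) ^ 2) ≤ Ua)
    (hUb : Wtan A0 A1 A2 z0 ((zb ^ 2 - 1) ^ 2) ≤ Ub)
    (hVa' : Wz A0 A1 A2 za ≤ (za ^ 2 - 1) ^ 2 * Va)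
    (hVb' : Wz A0 A1 A2 zb ≤ (zb ^ 2 - 1) ^ 2 * Vb)
    (a1 : da.A0 = A0) (a2 : da.A1 = A1) (a3 : da.A2 = A2) (a4 : da.C2 = (za ^ 2 - 1) ^ 2)
    (a5 : da.K1 = k1) (a6 : da.K2 = k2) (a7 : da.E1 = Ua * e1) (a8 : da.E2 = Ua * e2)
    (a9 : da.M2 = Va * m2) (a10 : da.L2 = Va * l2)
    (b1 : db.A0 = A0) (b2 : db.A1 = A1) (b3 : db.A2 = A2) (b4 : db.C2 = (zb ^ 2 - 1) ^ 2)
    (b5 : db.K1 = k1) (b6 : db.K2 = k2) (b7 : db.E1 = Ub * e1) (b8 : db.E2 = Ub * e2)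
    (b9 : db.M2 = Vb * m2) (b10 : db.L2 = Vb * l2)
    (ht1 : da.T1 = 1) (ht2 : db.T1 = 1) :
    FamI A0 A1 A2 (za ^ 2 - 1) (zb ^ 2 - 1) ⟨k1, k2, e1, e2, 0, m2, 0, l2⟩ := by
  intro t h0 h1
  exact certI_of_ends ha hb hA2 hza hab hzb hz0 he1 he2 hm2 hl2 hVa hVb hW hUa hUb hVa' hVb'
    a1 a2 a3 a4 a5 a6 a7 a8 a9 a10 b1 b2 b3 b4 b5 b6 b7 b8 b9 b10 h0 (by rw [ht1]; exact h1)
    (by rw [ht2]; exact h1) h1

end Dat

end Crest.Agent.R307.PIConic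
private theorem rz_071d2ab7e7 : type_of% @_root_.Crest.Agent.R307.PIConic.PE.horner2.eq_def := @_root_.Crest.Agent.R307.PIConic.PE.horner2.eq_def -- L22
private theorem rz_02e79f04e9 : type_of% @_root_.Crest.Agent.R307.PIConic.PE.horner2.eq_1 := @_root_.Crest.Agent.R307.PIConic.PE.horner2.eq_1 -- L22
private theorem rz_fa8847845f : type_of% @_root_.Crest.Agent.R307.PIConic.evl2.eq_def := @_root_.Crest.Agent.R307.PIConic.evl2.eq_def -- L27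
private theorem rz_acb38b9492 : type_of% @_root_.Crest.Agent.R307.PIConic.evl2.eq_1 := @_root_.Crest.Agent.R307.PIConic.evl2.eq_1 -- L27
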